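import Vale.Agent.P236KE.Eng

/-!
# P236KE / matrices 37 to 60 (generated)
-/

set_option maxRecDepth 100000

namespace Vale.Agent.P236KE.S90

noncomputable def d37_0 : DL := (DL.cons (nat_lit 0x300000000000000000000000000000000000000000000000000000000000000000000000000000000000600000000000000000000000000000000000000000000000000000000000000000000000000060000000000060000000000000003000000030003000000000000000000000000000000000000000000000000000000000000000000000006000000000003000600000003000000000000000000000000000000000000000000000000000000000000000000000000000000000006000300000002000300000000000000000000000000000000000000000000000000000000000000000000000000000000000000060003000600000000000000000000000000000000000000000000000000000000000000000000000000000000000300060000000100060000000100000003000700020000000000000005000800070001) (nat_lit 0x7100005800003f00002700000f00000b0000080000050000030000010000000)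
  (DL.cons (nat_lit 0x200010000000000000000000000000000000000000000000000000000000000000000000000000001000000030005000000050000000500000000000000000000000000000000000000000000000000000000000000000000000000040004000000000005000200000000000000000000000000000000000000000000000000000000000000000000000000000003000000060001000000000000000000000000000000000000000000000000000000000000000000000000000000000000000200010000000700010000000000000000000000000000000000000000000000000000000000000000000000000000000600000003000000050005000000060000000200010000000500000008) (nat_lit 0xfffff00006d00005400003b00002300000b0000080000050000030000010000000)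
  (DL.cons (nat_lit 0x3000700000000000000000000000000000000000000000000000000000000000000000000000000010000000800020000000400070000000400000000000000000000000000000000000000000000000000000000000000000000000000070002000000040008000800000000000000000000000000000000000000000000000000000000000000000000000000040007000000000004000000080000000000000000000000000000000000000000000000000000000000000000000000000000000000020004000000080000000000000000000000000000000000000000000000000000000000000000000000000000000700060000000300000003000000000000000000000000000000000000000000000000000000000000000000000000000000000000000700000004000800000005) (nat_lit 0xfffff00008000006600004d00003400001c0000040000000fffff0fffff0fffff0)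
  (DL.cons (nat_lit 0) (nat_lit 0)
  (DL.cons (nat_lit 0) (nat_lit 0)
  (DL.cons (nat_lit 0x200000000000000000000000000000000000000000000000000000000000000000000000000020000000000020000000100000000000000000000000000000000000000000000000000000000000000000000000000010001000000010001000000020000000000000000000000000000000000000000000000000000000000000000000000000000000000000000000000000000000000000000000000000000000000000000000000000000000000000000000000000000000200000000000200000001000000000000000000000000000000000000000000000000000000000000000000000000000000000001000100000000000200000000000000020000000200000000) (nat_lit 0xfffff00006c00005300003a00002200000a0000060000030000000fffff0fffff0)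
  (DL.cons (nat_lit 0x1000000000001000000000000000000010001000000000000000000000000000000000000000000000000000000000000000000000002000200000000000000000002000100000000000000000000000000000000000000000000000000000000000000000000000000010000000000010000000000000000000000000000000000000000000000000000000000000000000000000000000000000000000200000000000200000000000100000000000000000000000000000000000000000000000000000000000000000000000000010000000200000000000000000000000000000000000000000000000000000000000000000000000000000000000000000001000200000001000100000000000000000000000000000000000000000000000000000000000000000000000000000000000000000000) (nat_lit 0xfffff00009600007c0000620000490000300000180000000fffff0fffff0fffff0)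
  (DL.cons (nat_lit 0x10002000000010000000000000000000000000000000000000000000000000000000000000002000000000000000100000001000000010000000000000000000000000000000000000000000000000000000000000000000000000000000100000000000200000000000000000000000000000000000000000000000000000000000000000000000000010000000200010000000000010000000000000000000000000000000000000000000000000000000000000000000000020001000000020000000000000000000000020000000000000000000000000000000000000000000000000000000000000000000000000002000000000002000000010000000000000000000000000000000000000000000000000000000000000000000000000001000100000001000200000002000000000000000000000000000000000000000000000000000000000000000000000000000000000002000100000001000100000000000000000000000000000000000000000000000000000000000000000000000000020000000000020000) (nat_lit 0xfffff0000ad00007e00006400004a0000310000180000000fffff0fffff0fffff0)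
  DL.nil))))))))

noncomputable def d37_1 : DL := (DL.cons (nat_lit 0x3000600000003000000000000000000000000000000000000000000000000000000000000000000030000000400000000000600030000000000040008000000000000000000000000000000000000000000000000000000000000000000000000000000070001000000080004000000000000000000000000000000000000000000000000000000000000000000000000000000080000000500080006000000000000000000000000000000000000000000000000000000000000000000000000000000000000000600000003000300000006000100030000000600010000000800070001000800010006) (nat_lit 0x5900004000002800001000000c0000090000060000040000020000010000000)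
  (DL.cons (nat_lit 0x8000000000000000000000000000000000000000000000000000000000000000000000000000500030000000700080003000000000000000000000000000000000000000000000000000000000000000000000000000000010000000200040000000000000000000000000000000000000000000000000000000000000000000000000000000000000003000400000006000600000000000000000000000000000000000000000000000000000000000000000000000000000002000000040008000200050000000500000000000400030001) (nat_lit 0xfffff0000520000390000210000090000060000030000010fffff0fffff0000000)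
  (DL.cons (nat_lit 0x80000000800000000000000000000000000000000000000000000000000000000000000000000000000060005000000080005000300040000000000000000000000000000000000000000000000000000000000000000000000000005000000050008000000000000000000000000000000000000000000000000000000000000000000000000000000000000000000070003000000060000000000000000000000000000000000000000000000000000000000000000000000000000000800020000000800080005000000000000000000000000000000000000000000000000000000000000000000000000000000000008000700000007000600000008000000080008) (nat_lit 0xfffff00006900005000003700001f0000070000030000000fffff0fffff0fffff0)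
  (DL.cons (nat_lit 0) (nat_lit 0)
  (DL.cons (nat_lit 0) (nat_lit 0)
  (DL.cons (nat_lit 0x200020000000000000000000000000000000000000000000000000000000000000000000000000002000000010002000000000000000000000000000000000000000000000000000000000000000000000000000000000000000000020001000000020001000000000000000000000000000000000000000000000000000000000000000000000000000000000000000000000002000000000000000000000000000000000000000000000000000000000000000000000000000000000002000200000001000000000001000000020000) (nat_lit 0xfffff00005000003700001f0000070000030fffff0000000fffff0fffff0fffff0)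
  (DL.cons (nat_lit 0x2000000000000000000000000000000000000000000000000000000000000000000000002000100000000000000000001000100000000000000000000000000000000000000000000000000000000000000000000000000020000000200000000000100000000000000000000000000000000000000000000000000000000000000000000000000000000000000000000000100000000000000000000000000000000000000000000000000000000000000000000000000000000000000000000000100010000000000000000000000000000000000000000000000000000000000000000000000000000000000000001000000000000000200000000000000000000000000000000000000000000000000000000000000000000000000000002000000010001000200000000) (nat_lit 0xfffff00007f00006500004c00003300001b0000030000000fffff0fffff0fffff0)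
  (DL.cons (nat_lit 0x100000002000000000000000000000000000000000000000000000000000000000000000000000000000000010000000100000000000000000000000000000000000000000000000000000000000000000000000000000000000000010001000000010000000000020000000000020000000000000000000000000000000000000000000000000000000000000000000000000002000000000002000000010002000000000000000000000000000000000000000000000000000000000000000000000002000000000002000200000002000000000000000000000000000000000000000000000000000000000000000000000000000000000001000100000001000000000000000000000000000000000000000000000000000000000000000000000000000000000000000000010000) (nat_lit 0xfffff00007e00006400004a0000310000180000000fffff0fffff0fffff0fffff0)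
  DL.nil))))))))

noncomputable def d37_2 : DL := (DL.cons (nat_lit 0x4000800000000000000000000000000000000000000000000000000000000000000000000000000000007000000000008000000000000000000000000000000000000000000000000000000000000000600000000000600010000000000030003000000000000000000000000000000000000000000000000000000000000000000000000000000050000000100050004000000000000000000000000000000000000000000000000000000000000000000000000000000010000000300080006000100000006000100030000000200020000000800050004000500010006) (nat_lit 0x4000002800001000000c0000090000060000040000020000010000000fffff0)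
  (DL.cons (nat_lit 0x4000400000000000000000000000000000000000000000000000000000000000000000000000000030000000200020000000000000000000000000000000000000000000000000000000000000000000000000000000000000005000200000005000700000000000000000000000000000000000000000000000000000000000000000000000000000003000000010006000300010000000300050001000000070004) (nat_lit 0xfffff0000390000210000090000060fffff0000040000020000010000000fffff0)
  (DL.cons (nat_lit 0x400030000000000000000000000000000000000000000000000000000000000000000000000020000000000050003000000050000000000000000000000000000000000000000000000000000000000000000000000000000000000040008000000030008000000000000000000000000000000000000000000000000000000000000000000000000000800010000000800000000000000000000000000000000000000000000000000000000000000000000000000000000000000000008000600000008000200000007000000020004000500030000) (nat_lit 0xfffff00005300003a00002200000a0000060000030000000fffff0fffff0fffff0)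
  (DL.cons (nat_lit 0) (nat_lit 0)
  (DL.cons (nat_lit 0) (nat_lit 0)
  (DL.cons (nat_lit 0x2000000000000000000000000000000000000000000000000000000000000000000000000000000000000000200000000000000000000000000000000000000000000000000000000000000000000000000000000000000000002000000020002000200000000000000000000000000000000000000000000000000000000000000000000000000000000000200000000000100010000000100000001000100000002) (nat_lit 0xfffff0000390000210000090000050fffff0fffff0000030000010fffff0000000)
  (DL.cons (nat_lit 0x1000200000000000000000000000000000000000000000000000000000000000000000000000000000000000200010000000000000001000000000000000000000000000000000000000000000000000000000000000000000000000200010000000200010000000000000000000000000000000000000000000000000000000000000000000000000000000000020000000000010000000000000000000000000000000000000000000000000000000000000000000000000000000000000000000000000002000200000000000000000000000000000000000000000000000000000000000000000000000000000000000000010000000000020000000100000001)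 (nat_lit 0xfffff00006800004f00003600001e0000060000030000000fffff0fffff0fffff0)
  (DL.cons (nat_lit 0x2000000000000000000000000000000000000000000000000000000000000000000000000000000020000000200000000000000000000000000000000000000000000000000000000000000000000000000000000000000000000000000020001000000020002000200000000000000000000000000000000000000000000000000000000000000000000000000020001000000010001000000000000000000000000000000000000000000000000000000000000000000000000000000000000000000010001000000020001000000000000000000000000000000000000000000000000000000000000000000000000000100000000000200000000000000000000000000000000000000000000000000000000000000000000000000000000000000000002000000000001000000000002) (nat_lit 0xfffff00008000006600004d00003400001c0000040000000fffff0fffff0fffff0)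
  DL.nil))))))))

noncomputable def d37_3 : DL := (DL.cons (nat_lit 0x80000000000000000000000000000000000000000000000000000000000000000000000000006000500000005000100000000000000000000000000000000000000000000000000000000000000010008000800070008000500070000000400000000000000000000000000000000000000000000000000000000000000000000000000000008000300030008000300020000000300000004000300070004000100010004000500040001) (nat_lit 0x2700000f00000b0000080000050000030000010000000fffff0fffff0fffff0)
  (DL.cons (nat_lit 0x800030000000200010000000000000000000000000000000000000000000000000000000000000000000000000000000500000008000000040006000000050000000700010000000100000008) (nat_lit 0xfffff00002300000b0000080000050000030000010000000fffff0fffff0fffff0)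
  (DL.cons (nat_lit 0x1000000000000000000000000000000000000000000000000000000000000000000000000000000000002000100000002000500000000000000000000000000000000000000000000000000000000000000000000000000030005000000000000000500000000000000000000000000000000000000000000000000000000000000000000000000000000000200020000000200070000000300000004000600000002000000000002) (nat_lit 0xfffff00003c00002400000c0000080000050000020000000fffff0fffff0fffff0)
  (DL.cons (nat_lit 0) (nat_lit 0)
  (DL.cons (nat_lit 0) (nat_lit 0)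
  (DL.cons (nat_lit 0x2000000020000000100000000000000000000000000000000000000000000000000000000000000000000000000000000000100000000000000010000000100000001000100000002000000010000) (nat_lit 0xfffff00002400000c0000080000050000020fffff0000000fffff0fffff0fffff0)
  (DL.cons (nat_lit 0x20002000000020001000100000000000000000000000000000000000000000000000000000000000000000000000000000001000000010001000000000000000000000000000000000000000000000000000000000000000000000000000000000000000100000000000100010000000000000000000000000000000000000000000000000000000000000000000000000000000000000000000000010000000000000000000100020000) (nat_lit 0xfffff0000510000380000200000080000050000020000000fffff0fffff0fffff0)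
  (DL.cons (nat_lit 0x100000000000000000000000000000000000000000000000000000000000000000000000000000002000000020002000200020000000000000000000000000000000000000000000000000000000000000000000000020002000000020002000000020000000000000000000000000000000000000000000000000000000000000000000000000000000000020000000000010001000000000000000000000000000000000000000000000000000000000000000000000000000200010000000100010001000000000000000000000000000000000000000000000000000000000000000000000000000000000000000200000002000000000001000000020001) (nat_lit 0xfffff00006900005000003700001f0000070000030000000fffff0fffff0fffff0)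
  DL.nil))))))))

noncomputable def d37_4 : DL := (DL.cons (nat_lit 0x400000000000000000000000000000000000000000000000000000000000000000000000000000000000700070000000000000000000000000000000000000000000000000000000000000000000000050002000000030004000000000007000000080008000800010008000000060000000000030003000800010006) (nat_lit 0x1000000c0000090000060000040000020000010000000fffff0fffff0fffff0)
  (DL.cons (nat_lit 0x70000000000000000000000000000000000000000000000000000000000000000000000000000000200000000000700070008000000080000000500080008000700000004) (nat_lit 0xfffff00000b0000080000050000030000010fffff0000000fffff0fffff0fffff0)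
  (DL.cons (nat_lit 0x20000000000000000000000000000000000000000000000000000000000000000000000000000000700000008000600030000000000000000000000000000000000000000000000000000000000000000000000000000000000050008000000050001000000020000000200000004000400000000000800040002) (nat_lit 0xfffff00002600000e00000a0000070000040000020000000fffff0fffff0fffff0)
  (DL.cons (nat_lit 0) (nat_lit 0)
  (DL.cons (nat_lit 0) (nat_lit 0)
  (DL.cons (nat_lit 0x200000000000000000000000000000000000000000000000000000000000000000000000000000000000000010000000100010000000200000002000000020001000000000002) (nat_lit 0xfffff00000c0000080000050000020000000fffff0fffff0fffff0fffff0fffff0)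
  (DL.cons (nat_lit 0x2000000000002000000000000000000000000000000000000000000000000000000000000000000000000000000000000000100020000000200010000000000000000000000000000000000000000000000000000000000000000000000000000000000000001000000010000000100010000) (nat_lit 0xfffff00003500001d0000050fffff0000020fffff0000000fffff0fffff0fffff0)
  (DL.cons (nat_lit 0x20000000000000000000000000000000000000000000000000000000000000000000000000001000000020001000000020000000000000000000000000000000000000000000000000000000000000000000000000000000000020000000000020001000000000000000000000000000000000000000000000000000000000000000000000000000000000000000200000000000000000000000000000000000000000000000000000000000000000000000000000000000000000002000000000002000200000001000000020001000200000000) (nat_lit 0xfffff00005300003a00002200000a0000060000030000000fffff0fffff0fffff0)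
  DL.nil))))))))

noncomputable def d37_5 : DL := (DL.cons (nat_lit 0x30000000100000000000000000000000000000000000000000000000000000000000000000001000000000007000000000000000000000001000300000001000000070001) (nat_lit 0x90000060000040000020000010000000fffff0fffff0fffff0fffff0fffff0)
  (DL.cons (nat_lit 0x3000000060000000000080000) (nat_lit 0xfffff0000050000020fffff0000000fffff0fffff0fffff0fffff0fffff0fffff0)
  (DL.cons (nat_lit 0x7000000080000000000000000000100060000) (nat_lit 0xfffff0000080000050000020000000fffff0fffff0fffff0fffff0fffff0fffff0)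
  (DL.cons (nat_lit 0) (nat_lit 0)
  (DL.cons (nat_lit 0) (nat_lit 0)
  (DL.cons (nat_lit 8590000128) (nat_lit 0xfffff0fffff0000020000000fffff0fffff0fffff0fffff0fffff0fffff0fffff0)
  (DL.cons (nat_lit 0x1000000000002000000000002000200000000) (nat_lit 0xfffff0000070000030fffff0000000fffff0fffff0fffff0fffff0fffff0fffff0)
  (DL.cons (nat_lit 0x100000000000200000000000000000000000000000000000000000000000000000000000000000000000000000000000000020000) (nat_lit 0xfffff0000180fffff0000000fffff0fffff0fffff0fffff0fffff0fffff0fffff0)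
  DL.nil))))))))

noncomputable def d37_6 : DL := (DL.cons (nat_lit 0x8000000000000000000000000000000000000000000000000000000000000000000000000000000000000000400000000000800080001) (nat_lit 0x40fffff0000020000010000000fffff0fffff0fffff0fffff0fffff0fffff0)
  (DL.cons (nat_lit 0x100000000000800000004) (nat_lit 0xfffff0000030fffff0000010fffff0000000fffff0fffff0fffff0fffff0fffff0)
  (DL.cons (nat_lit 0x10000000000000000000700040000) (nat_lit 0xfffff0000050000020000000fffff0fffff0fffff0fffff0fffff0fffff0fffff0)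
  (DL.cons (nat_lit 0) (nat_lit 0)
  (DL.cons (nat_lit 0) (nat_lit 0)
  (DL.cons (nat_lit 4295032832) (nat_lit 0xfffff0000020000000fffff0fffff0fffff0fffff0fffff0fffff0fffff0fffff0)
  (DL.cons (nat_lit 0x2000000000000000000020000000100000000) (nat_lit 0xfffff0000060000030000000fffff0fffff0fffff0fffff0fffff0fffff0fffff0)
  (DL.cons (nat_lit 0x2000000000002000200000000000000000000000000000000000000000000000000000000000000000000000000000000000000000000000100000000) (nat_lit 0xfffff00001b0000030000000fffff0fffff0fffff0fffff0fffff0fffff0fffff0)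
  DL.nil))))))))

noncomputable def d37_7 : DL := (DL.cons (nat_lit 0x20001000000000000000000000000000000000000000000000000000000000000000000000004000000010002000000080008000800010001) (nat_lit 0x40000020000010000000fffff0fffff0fffff0fffff0fffff0fffff0fffff0)
  (DL.cons (nat_lit 0x2000300000001) (nat_lit 0xfffff0000030000010fffff0000000fffff0fffff0fffff0fffff0fffff0fffff0)
  (DL.cons (nat_lit 65539) (nat_lit 0xfffff0000010fffff0fffff0000000fffff0fffff0fffff0fffff0fffff0fffff0)
  (DL.cons (nat_lit 0) (nat_lit 0)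
  (DL.cons (nat_lit 0) (nat_lit 0)
  (DL.cons (nat_lit 8589934594) (nat_lit 0xfffff0000010fffff0000000fffff0fffff0fffff0fffff0fffff0fffff0fffff0)
  (DL.cons (nat_lit 0x2000000000000000200010000) (nat_lit 0xfffff0fffff0000040000020000000fffff0fffff0fffff0fffff0fffff0fffff0)
  (DL.cons (nat_lit 1) (nat_lit 0xfffff0fffff0fffff0000000fffff0fffff0fffff0fffff0fffff0fffff0fffff0)
  DL.nil))))))))

noncomputable def d37_8 : DL := (DL.cons (nat_lit 0x100010000000000000000000000000000000000000000000000000000000000000000000000000001000100010008000000050001) (nat_lit 0x20000010000000fffff0fffff0fffff0fffff0fffff0fffff0fffff0fffff0)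
  (DL.cons (nat_lit 131072) (nat_lit 0xfffff0000000fffff0fffff0fffff0fffff0fffff0fffff0fffff0fffff0fffff0)
  (DL.cons (nat_lit 12884901890) (nat_lit 0xfffff0000010fffff0000000fffff0fffff0fffff0fffff0fffff0fffff0fffff0)
  (DL.cons (nat_lit 0) (nat_lit 0)
  (DL.cons (nat_lit 0) (nat_lit 0)
  (DL.cons (nat_lit 2) (nat_lit 0xfffff0fffff0000000fffff0fffff0fffff0fffff0fffff0fffff0fffff0fffff0)
  (DL.cons (nat_lit 0x2000000000000000200010000) (nat_lit 0xfffff0000040000020000000fffff0fffff0fffff0fffff0fffff0fffff0fffff0)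
  (DL.cons (nat_lit 0x20000000000000000000100010000) (nat_lit 0xfffff0000050000020000000fffff0fffff0fffff0fffff0fffff0fffff0fffff0)
  DL.nil))))))))

noncomputable def d37_9 : DL := (DL.cons (nat_lit 0x2000000000000000000000000000000000000000000000000000000000000000000000000000100080001000000010001) (nat_lit 0x10000000fffff0fffff0fffff0fffff0fffff0fffff0fffff0fffff0fffff0)
  (DL.cons (nat_lit 7) (nat_lit 0xfffff0fffff0000000fffff0fffff0fffff0fffff0fffff0fffff0fffff0fffff0)
  (DL.cons (nat_lit 6) (nat_lit 0xfffff0fffff0000000fffff0fffff0fffff0fffff0fffff0fffff0fffff0fffff0)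
  (DL.cons (nat_lit 0) (nat_lit 0)
  (DL.cons (nat_lit 0) (nat_lit 0)
  (DL.cons (nat_lit 1) (nat_lit 0xfffff0000000fffff0fffff0fffff0fffff0fffff0fffff0fffff0fffff0fffff0)
  (DL.cons (nat_lit 0x1000200000002) (nat_lit 0xfffff0000030000010fffff0000000fffff0fffff0fffff0fffff0fffff0fffff0)
  (DL.cons (nat_lit 131072) (nat_lit 0xfffff0fffff0000000fffff0fffff0fffff0fffff0fffff0fffff0fffff0fffff0)
  DL.nil))))))))

noncomputable def d37_10 : DL := (DL.cons (nat_lit 1) (nat_lit 0xfffff0fffff0fffff0fffff0fffff0fffff0fffff0fffff0fffff0fffff0)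
  DL.nil)

noncomputable def d37_11 : DL := (DL.cons (nat_lit 3) (nat_lit 0xfffff0fffff0fffff0fffff0fffff0fffff0fffff0fffff0fffff0fffff0)
  DL.nil)

noncomputable def d37 : DLL := (DLL.cons d37_0
  (DLL.cons d37_1
  (DLL.cons d37_2
  (DLL.cons d37_3
  (DLL.cons d37_4
  (DLL.cons d37_5
  (DLL.cons d37_6
  (DLL.cons d37_7
  (DLL.cons d37_8
  (DLL.cons d37_9
  (DLL.cons d37_10
  (DLL.cons d37_11
  DLL.nil))))))))))))

noncomputable def m37 : TL := (TL.cons ⟨fun _ => nat_lit 0⟩
  (TL.cons ⟨fun _ => nat_lit 0⟩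
  (TL.cons ⟨fun _ => nat_lit 0⟩
  (TL.cons ⟨fun _ => nat_lit 0⟩
  (TL.cons ⟨fun _ => nat_lit 0⟩
  (TL.cons ⟨fun _ => nat_lit 0⟩
  (TL.cons ⟨fun _ => nat_lit 0⟩
  (TL.cons ⟨fun _ => nat_lit 0⟩
  (TL.cons ⟨fun _ => nat_lit 0⟩
  (TL.cons ⟨fun _ => nat_lit 0⟩
  (TL.cons ⟨fun _ => nat_lit 0⟩
  (TL.cons ⟨fun _ => nat_lit 0⟩
  (TL.cons ⟨fun _ => nat_lit 0⟩
  (TL.cons ⟨fun _ => nat_lit 0⟩
  (TL.cons ⟨fun _ => nat_lit 0⟩
  (TL.cons ⟨fun _ => nat_lit 0⟩
  (TL.cons ⟨fun _ => nat_lit 0⟩
  (TL.cons ⟨fun _ => nat_lit 0⟩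
  (TL.cons ⟨fun _ => nat_lit 0⟩
  (TL.cons ⟨fun _ => nat_lit 0⟩
  (TL.cons ⟨fun _ => nat_lit 0⟩
  (TL.cons ⟨fun _ => nat_lit 0⟩
  (TL.cons ⟨fun _ => nat_lit 0⟩
  (TL.cons ⟨fun _ => nat_lit 0⟩
  (TL.cons ⟨fun _ => nat_lit 0⟩
  (TL.cons ⟨fun _ => nat_lit 0⟩
  (TL.cons ⟨fun _ => nat_lit 0⟩
  (TL.cons ⟨fun _ => nat_lit 0⟩
  (TL.cons ⟨fun _ => nat_lit 0⟩
  (TL.cons ⟨fun _ => nat_lit 0⟩
  (TL.cons ⟨fun _ => nat_lit 0⟩
  (TL.cons ⟨fun _ => nat_lit 0⟩
  (TL.cons ⟨fun _ => nat_lit 0⟩
  (TL.cons ⟨fun _ => nat_lit 0⟩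
  (TL.cons ⟨fun _ => nat_lit 0⟩
  (TL.cons ⟨fun _ => nat_lit 0⟩
  (TL.cons ⟨fun _ => nat_lit 0⟩
  (TL.cons ⟨fun _ => nat_lit 0⟩
  (TL.cons ⟨fun _ => nat_lit 0⟩
  (TL.cons ⟨fun _ => nat_lit 0⟩
  (TL.cons ⟨fun _ => nat_lit 0⟩
  (TL.cons ⟨fun _ => nat_lit 0⟩
  (TL.cons ⟨fun _ => nat_lit 0⟩
  (TL.cons ⟨fun _ => nat_lit 0⟩
  (TL.cons ⟨fun _ => nat_lit 0⟩
  (TL.cons ⟨fun _ => nat_lit 0⟩
  (TL.cons ⟨fun _ => nat_lit 0⟩
  (TL.cons ⟨fun _ => nat_lit 0⟩
  (TL.cons ⟨fun _ => nat_lit 0⟩
  (TL.cons ⟨fun _ => nat_lit 0⟩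
  (TL.cons ⟨fun _ => nat_lit 0⟩
  (TL.cons ⟨fun _ => nat_lit 0⟩
  (TL.cons ⟨fun _ => nat_lit 0⟩
  (TL.cons ⟨fun _ => nat_lit 0⟩
  (TL.cons ⟨fun _ => nat_lit 0⟩
  (TL.cons ⟨fun _ => nat_lit 0⟩
  (TL.cons ⟨fun _ => nat_lit 0⟩
  (TL.cons ⟨fun x => (x (nat_lit 0) (nat_lit 0) (nat_lit 0))⟩
  (TL.cons ⟨fun x => (x (nat_lit 0) (nat_lit 1) (nat_lit 0))⟩
  (TL.cons ⟨fun x => (Nat.add (x (nat_lit 0) (nat_lit 5) (nat_lit 0)) (x (nat_lit 1) (nat_lit 0) (nat_lit 0)))⟩
  (TL.cons ⟨fun x => (x (nat_lit 1) (nat_lit 1) (nat_lit 0))⟩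
  (TL.cons ⟨fun x => (Nat.add (x (nat_lit 0) (nat_lit 2) (nat_lit 0)) (Nat.add (x (nat_lit 1) (nat_lit 5) (nat_lit 0)) (x (nat_lit 2) (nat_lit 0) (nat_lit 0))))⟩
  (TL.cons ⟨fun x => (Nat.add (x (nat_lit 0) (nat_lit 6) (nat_lit 0)) (x (nat_lit 2) (nat_lit 1) (nat_lit 0)))⟩
  (TL.cons ⟨fun x => (Nat.add (x (nat_lit 1) (nat_lit 2) (nat_lit 0)) (Nat.add (x (nat_lit 2) (nat_lit 5) (nat_lit 0)) (x (nat_lit 3) (nat_lit 0) (nat_lit 0))))⟩
  (TL.cons ⟨fun x => (Nat.add (x (nat_lit 1) (nat_lit 6) (nat_lit 0)) (x (nat_lit 3) (nat_lit 1) (nat_lit 0)))⟩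
  (TL.cons ⟨fun x => (Nat.add (Nat.add (x (nat_lit 0) (nat_lit 7) (nat_lit 0)) (x (nat_lit 2) (nat_lit 2) (nat_lit 0))) (Nat.add (x (nat_lit 3) (nat_lit 5) (nat_lit 0)) (x (nat_lit 4) (nat_lit 0) (nat_lit 0))))⟩
  (TL.cons ⟨fun x => (Nat.add (x (nat_lit 2) (nat_lit 6) (nat_lit 0)) (x (nat_lit 4) (nat_lit 1) (nat_lit 0)))⟩
  (TL.cons ⟨fun x => (Nat.add (Nat.add (x (nat_lit 1) (nat_lit 7) (nat_lit 0)) (x (nat_lit 3) (nat_lit 2) (nat_lit 0))) (Nat.add (x (nat_lit 4) (nat_lit 5) (nat_lit 0)) (x (nat_lit 5) (nat_lit 0) (nat_lit 0))))⟩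
  (TL.cons ⟨fun x => (Nat.add (x (nat_lit 3) (nat_lit 6) (nat_lit 0)) (x (nat_lit 5) (nat_lit 1) (nat_lit 0)))⟩
  (TL.cons ⟨fun x => (Nat.add (Nat.add (x (nat_lit 2) (nat_lit 7) (nat_lit 0)) (x (nat_lit 4) (nat_lit 2) (nat_lit 0))) (Nat.add (x (nat_lit 5) (nat_lit 5) (nat_lit 0)) (x (nat_lit 6) (nat_lit 0) (nat_lit 0))))⟩
  (TL.cons ⟨fun x => (Nat.add (x (nat_lit 0) (nat_lit 3) (nat_lit 0)) (Nat.add (x (nat_lit 4) (nat_lit 6) (nat_lit 0)) (x (nat_lit 6) (nat_lit 1) (nat_lit 0))))⟩
  (TL.cons ⟨fun x => (Nat.add (Nat.add (x (nat_lit 0) (nat_lit 8) (nat_lit 0)) (x (nat_lit 3) (nat_lit 7) (nat_lit 0))) (Nat.add (x (nat_lit 5) (nat_lit 2) (nat_lit 0)) (Nat.add (x (nat_lit 6) (nat_lit 5) (nat_lit 0)) (x (nat_lit 7) (nat_lit 0) (nat_lit 0)))))⟩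
  (TL.cons ⟨fun x => (Nat.add (x (nat_lit 1) (nat_lit 3) (nat_lit 0)) (Nat.add (x (nat_lit 5) (nat_lit 6) (nat_lit 0)) (x (nat_lit 7) (nat_lit 1) (nat_lit 0))))⟩
  (TL.cons ⟨fun x => (Nat.add (Nat.add (x (nat_lit 1) (nat_lit 8) (nat_lit 0)) (x (nat_lit 4) (nat_lit 7) (nat_lit 0))) (Nat.add (x (nat_lit 6) (nat_lit 2) (nat_lit 0)) (Nat.add (x (nat_lit 7) (nat_lit 5) (nat_lit 0)) (x (nat_lit 8) (nat_lit 0) (nat_lit 0)))))⟩
  (TL.cons ⟨fun x => (Nat.add (Nat.add (x (nat_lit 0) (nat_lit 9) (nat_lit 0)) (x (nat_lit 2) (nat_lit 3) (nat_lit 0))) (Nat.add (x (nat_lit 6) (nat_lit 6) (nat_lit 0)) (x (nat_lit 8) (nat_lit 1) (nat_lit 0))))⟩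
  (TL.cons ⟨fun x => (Nat.add (Nat.add (x (nat_lit 2) (nat_lit 8) (nat_lit 0)) (x (nat_lit 5) (nat_lit 7) (nat_lit 0))) (Nat.add (x (nat_lit 7) (nat_lit 2) (nat_lit 0)) (Nat.add (x (nat_lit 8) (nat_lit 5) (nat_lit 0)) (x (nat_lit 9) (nat_lit 0) (nat_lit 0)))))⟩
  (TL.cons ⟨fun x => (Nat.add (Nat.add (x (nat_lit 1) (nat_lit 9) (nat_lit 0)) (x (nat_lit 3) (nat_lit 3) (nat_lit 0))) (Nat.add (x (nat_lit 7) (nat_lit 6) (nat_lit 0)) (x (nat_lit 9) (nat_lit 1) (nat_lit 0))))⟩
  (TL.cons ⟨fun x => (Nat.add (Nat.add (x (nat_lit 3) (nat_lit 8) (nat_lit 0)) (x (nat_lit 6) (nat_lit 7) (nat_lit 0))) (Nat.add (x (nat_lit 8) (nat_lit 2) (nat_lit 0)) (x (nat_lit 9) (nat_lit 5) (nat_lit 0))))⟩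
  (TL.cons ⟨fun x => (Nat.add (x (nat_lit 2) (nat_lit 9) (nat_lit 0)) (Nat.add (x (nat_lit 4) (nat_lit 3) (nat_lit 0)) (x (nat_lit 8) (nat_lit 6) (nat_lit 0))))⟩
  (TL.cons ⟨fun x => (Nat.add (x (nat_lit 4) (nat_lit 8) (nat_lit 0)) (Nat.add (x (nat_lit 7) (nat_lit 7) (nat_lit 0)) (x (nat_lit 9) (nat_lit 2) (nat_lit 0))))⟩
  (TL.cons ⟨fun x => (Nat.add (x (nat_lit 3) (nat_lit 9) (nat_lit 0)) (Nat.add (x (nat_lit 5) (nat_lit 3) (nat_lit 0)) (x (nat_lit 9) (nat_lit 6) (nat_lit 0))))⟩
  (TL.cons ⟨fun x => (Nat.add (x (nat_lit 5) (nat_lit 8) (nat_lit 0)) (x (nat_lit 8) (nat_lit 7) (nat_lit 0)))⟩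
  (TL.cons ⟨fun x => (Nat.add (x (nat_lit 4) (nat_lit 9) (nat_lit 0)) (x (nat_lit 6) (nat_lit 3) (nat_lit 0)))⟩
  (TL.cons ⟨fun x => (Nat.add (x (nat_lit 0) (nat_lit 10) (nat_lit 0)) (Nat.add (x (nat_lit 6) (nat_lit 8) (nat_lit 0)) (x (nat_lit 9) (nat_lit 7) (nat_lit 0))))⟩
  (TL.cons ⟨fun x => (Nat.add (x (nat_lit 5) (nat_lit 9) (nat_lit 0)) (x (nat_lit 7) (nat_lit 3) (nat_lit 0)))⟩
  (TL.cons ⟨fun x => (Nat.add (x (nat_lit 1) (nat_lit 10) (nat_lit 0)) (x (nat_lit 7) (nat_lit 8) (nat_lit 0)))⟩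
  (TL.cons ⟨fun x => (Nat.add (x (nat_lit 6) (nat_lit 9) (nat_lit 0)) (x (nat_lit 8) (nat_lit 3) (nat_lit 0)))⟩
  (TL.cons ⟨fun x => (Nat.add (x (nat_lit 2) (nat_lit 10) (nat_lit 0)) (x (nat_lit 8) (nat_lit 8) (nat_lit 0)))⟩
  (TL.cons ⟨fun x => (Nat.add (x (nat_lit 7) (nat_lit 9) (nat_lit 0)) (x (nat_lit 9) (nat_lit 3) (nat_lit 0)))⟩
  (TL.cons ⟨fun x => (Nat.add (x (nat_lit 3) (nat_lit 10) (nat_lit 0)) (x (nat_lit 9) (nat_lit 8) (nat_lit 0)))⟩
  (TL.cons ⟨fun x => (Nat.add (x (nat_lit 8) (nat_lit 9) (nat_lit 0)) (x (nat_lit 10) (nat_lit 0) (nat_lit 0)))⟩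
  TL.nil)))))))))))))))))))))))))))))))))))))))))))))))))))))))))))))))))))))))))))))))))))))))))))

noncomputable def m37_t : List TT := [.zero,
  .zero,
  .zero,
  .zero,
  .zero,
  .zero,
  .zero,
  .zero,
  .zero,
  .zero,
  .zero,
  .zero,
  .zero,
  .zero,
  .zero,
  .zero,
  .zero,
  .zero,
  .zero,
  .zero,
  .zero,
  .zero,
  .zero,
  .zero,
  .zero,
  .zero,
  .zero,
  .zero,
  .zero,
  .zero,
  .zero,
  .zero,
  .zero,
  .zero,
  .zero,
  .zero,
  .zero,
  .zero,
  .zero,
  .zero,
  .zero,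
  .zero,
  .zero,
  .zero,
  .zero,
  .zero,
  .zero,
  .zero,
  .zero,
  .zero,
  .zero,
  .zero,
  .zero,
  .zero,
  .zero,
  .zero,
  .zero,
  (.leaf (nat_lit 0) (nat_lit 0) (nat_lit 0)),
  (.leaf (nat_lit 0) (nat_lit 1) (nat_lit 0)),
  (.add (.leaf (nat_lit 0) (nat_lit 5) (nat_lit 0)) (.leaf (nat_lit 1) (nat_lit 0) (nat_lit 0))),
  (.leaf (nat_lit 1) (nat_lit 1) (nat_lit 0)),
  (.add (.leaf (nat_lit 0) (nat_lit 2) (nat_lit 0)) (.add (.leaf (nat_lit 1) (nat_lit 5) (nat_lit 0)) (.leaf (nat_lit 2) (nat_lit 0) (nat_lit 0)))),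
  (.add (.leaf (nat_lit 0) (nat_lit 6) (nat_lit 0)) (.leaf (nat_lit 2) (nat_lit 1) (nat_lit 0))),
  (.add (.leaf (nat_lit 1) (nat_lit 2) (nat_lit 0)) (.add (.leaf (nat_lit 2) (nat_lit 5) (nat_lit 0)) (.leaf (nat_lit 3) (nat_lit 0) (nat_lit 0)))),
  (.add (.leaf (nat_lit 1) (nat_lit 6) (nat_lit 0)) (.leaf (nat_lit 3) (nat_lit 1) (nat_lit 0))),
  (.add (.add (.leaf (nat_lit 0) (nat_lit 7) (nat_lit 0)) (.leaf (nat_lit 2) (nat_lit 2) (nat_lit 0))) (.add (.leaf (nat_lit 3) (nat_lit 5) (nat_lit 0)) (.leaf (nat_lit 4) (nat_lit 0) (nat_lit 0)))),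
  (.add (.leaf (nat_lit 2) (nat_lit 6) (nat_lit 0)) (.leaf (nat_lit 4) (nat_lit 1) (nat_lit 0))),
  (.add (.add (.leaf (nat_lit 1) (nat_lit 7) (nat_lit 0)) (.leaf (nat_lit 3) (nat_lit 2) (nat_lit 0))) (.add (.leaf (nat_lit 4) (nat_lit 5) (nat_lit 0)) (.leaf (nat_lit 5) (nat_lit 0) (nat_lit 0)))),
  (.add (.leaf (nat_lit 3) (nat_lit 6) (nat_lit 0)) (.leaf (nat_lit 5) (nat_lit 1) (nat_lit 0))),
  (.add (.add (.leaf (nat_lit 2) (nat_lit 7) (nat_lit 0)) (.leaf (nat_lit 4) (nat_lit 2) (nat_lit 0))) (.add (.leaf (nat_lit 5) (nat_lit 5) (nat_lit 0)) (.leaf (nat_lit 6) (nat_lit 0) (nat_lit 0)))),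
  (.add (.leaf (nat_lit 0) (nat_lit 3) (nat_lit 0)) (.add (.leaf (nat_lit 4) (nat_lit 6) (nat_lit 0)) (.leaf (nat_lit 6) (nat_lit 1) (nat_lit 0)))),
  (.add (.add (.leaf (nat_lit 0) (nat_lit 8) (nat_lit 0)) (.leaf (nat_lit 3) (nat_lit 7) (nat_lit 0))) (.add (.leaf (nat_lit 5) (nat_lit 2) (nat_lit 0)) (.add (.leaf (nat_lit 6) (nat_lit 5) (nat_lit 0)) (.leaf (nat_lit 7) (nat_lit 0) (nat_lit 0))))),
  (.add (.leaf (nat_lit 1) (nat_lit 3) (nat_lit 0)) (.add (.leaf (nat_lit 5) (nat_lit 6) (nat_lit 0)) (.leaf (nat_lit 7) (nat_lit 1) (nat_lit 0)))),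
  (.add (.add (.leaf (nat_lit 1) (nat_lit 8) (nat_lit 0)) (.leaf (nat_lit 4) (nat_lit 7) (nat_lit 0))) (.add (.leaf (nat_lit 6) (nat_lit 2) (nat_lit 0)) (.add (.leaf (nat_lit 7) (nat_lit 5) (nat_lit 0)) (.leaf (nat_lit 8) (nat_lit 0) (nat_lit 0))))),
  (.add (.add (.leaf (nat_lit 0) (nat_lit 9) (nat_lit 0)) (.leaf (nat_lit 2) (nat_lit 3) (nat_lit 0))) (.add (.leaf (nat_lit 6) (nat_lit 6) (nat_lit 0)) (.leaf (nat_lit 8) (nat_lit 1) (nat_lit 0)))),
  (.add (.add (.leaf (nat_lit 2) (nat_lit 8) (nat_lit 0)) (.leaf (nat_lit 5) (nat_lit 7) (nat_lit 0))) (.add (.leaf (nat_lit 7) (nat_lit 2) (nat_lit 0)) (.add (.leaf (nat_lit 8) (nat_lit 5) (nat_lit 0)) (.leaf (nat_lit 9) (nat_lit 0) (nat_lit 0))))),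
  (.add (.add (.leaf (nat_lit 1) (nat_lit 9) (nat_lit 0)) (.leaf (nat_lit 3) (nat_lit 3) (nat_lit 0))) (.add (.leaf (nat_lit 7) (nat_lit 6) (nat_lit 0)) (.leaf (nat_lit 9) (nat_lit 1) (nat_lit 0)))),
  (.add (.add (.leaf (nat_lit 3) (nat_lit 8) (nat_lit 0)) (.leaf (nat_lit 6) (nat_lit 7) (nat_lit 0))) (.add (.leaf (nat_lit 8) (nat_lit 2) (nat_lit 0)) (.leaf (nat_lit 9) (nat_lit 5) (nat_lit 0)))),
  (.add (.leaf (nat_lit 2) (nat_lit 9) (nat_lit 0)) (.add (.leaf (nat_lit 4) (nat_lit 3) (nat_lit 0)) (.leaf (nat_lit 8) (nat_lit 6) (nat_lit 0)))),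
  (.add (.leaf (nat_lit 4) (nat_lit 8) (nat_lit 0)) (.add (.leaf (nat_lit 7) (nat_lit 7) (nat_lit 0)) (.leaf (nat_lit 9) (nat_lit 2) (nat_lit 0)))),
  (.add (.leaf (nat_lit 3) (nat_lit 9) (nat_lit 0)) (.add (.leaf (nat_lit 5) (nat_lit 3) (nat_lit 0)) (.leaf (nat_lit 9) (nat_lit 6) (nat_lit 0)))),
  (.add (.leaf (nat_lit 5) (nat_lit 8) (nat_lit 0)) (.leaf (nat_lit 8) (nat_lit 7) (nat_lit 0))),
  (.add (.leaf (nat_lit 4) (nat_lit 9) (nat_lit 0)) (.leaf (nat_lit 6) (nat_lit 3) (nat_lit 0))),
  (.add (.leaf (nat_lit 0) (nat_lit 10) (nat_lit 0)) (.add (.leaf (nat_lit 6) (nat_lit 8) (nat_lit 0)) (.leaf (nat_lit 9) (nat_lit 7) (nat_lit 0)))),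
  (.add (.leaf (nat_lit 5) (nat_lit 9) (nat_lit 0)) (.leaf (nat_lit 7) (nat_lit 3) (nat_lit 0))),
  (.add (.leaf (nat_lit 1) (nat_lit 10) (nat_lit 0)) (.leaf (nat_lit 7) (nat_lit 8) (nat_lit 0))),
  (.add (.leaf (nat_lit 6) (nat_lit 9) (nat_lit 0)) (.leaf (nat_lit 8) (nat_lit 3) (nat_lit 0))),
  (.add (.leaf (nat_lit 2) (nat_lit 10) (nat_lit 0)) (.leaf (nat_lit 8) (nat_lit 8) (nat_lit 0))),
  (.add (.leaf (nat_lit 7) (nat_lit 9) (nat_lit 0)) (.leaf (nat_lit 9) (nat_lit 3) (nat_lit 0))),
  (.add (.leaf (nat_lit 3) (nat_lit 10) (nat_lit 0)) (.leaf (nat_lit 9) (nat_lit 8) (nat_lit 0))),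
  (.add (.leaf (nat_lit 8) (nat_lit 9) (nat_lit 0)) (.leaf (nat_lit 10) (nat_lit 0) (nat_lit 0)))]

theorem m37_eq : m37 = ofL m37_t := rfl

noncomputable def d38_0 : DL := (DL.cons (nat_lit 0x600000000000000000000000000000000000000000000000000000000000000000000000000000000000000000000000000000000000300000000000300030000000000000000000000000000000000000000000000000000000000000000000000000006000000000003000000060000000000000000000000070006000000040001) (nat_lit 0x3c00002300000b0fffff0000070000040000020fffff0000010000000)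
  (DL.cons (nat_lit 0x600000000000000000000000000000000000000000000000000000000000000000000000000000000000000070000000000020000000300000000000000000000000000000000000000000000000000000000000000000000000000080000000000030000000600000000000000000000000000000000000000000000000000000000000000000000000000000000000000050000000000000000000000000000000000000000000000000000000000000000000000000000000000000000000400000000000800080000000000000000000000000000000000000000000000000000000000000000000000000000000000000002000000020000000000040000) (nat_lit 0x6700004e00003500001d0000050fffff0000020fffff0000000fffff0)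
  (DL.cons (nat_lit 0x600000000000000000000000000000000000000000000000000000000000000000000000000010000000000050000000000030000000000000000000000000000000000000000000000000000000000000000000000000000000000000004000000000004000000030000000000000000000000000000000000000000000000000000000000000000000000000007000000000007000000000000000000000000000000000000000000000000000000000000000000000000000000000000000000000007000000000004000800000000000000000000000000000000000000000000000000000000000000000000000000030000000000000000000500000000000000000000000000000000000000000000000000000000000000000000000000000000000000020000) (nat_lit 0x7c0000620000490000300000180000000fffff0fffff0fffff0fffff0)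
  (DL.cons (nat_lit 0) (nat_lit 0)
  (DL.cons (nat_lit 0) (nat_lit 0)
  (DL.cons (nat_lit 0x1000000000000000000000000000000000000000000000000000000000000000000000000000100000000000100000001000000000000000000000000000000000000000000000000000000000000000000000000000000000000000100000000000200000000000000000000000000000000000000000000000000000000000000000000000000020000000000020000000000000000000000000000000000000000000000000000000000000000000000000000000000000000000100000000000100000000) (nat_lit 0x4c0000330fffff00001b0000030000000fffff0fffff0fffff0fffff0)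
  (DL.cons (nat_lit 0x200000000000000000000000000000000000000000000000000000000000000000000000000020000000000020000000000000000000000000000000000000000000000000000000000000000000000000000000000000000000000000001000000000001000000000000000000000000000000000000000000000000000000000000000000000000000000000000000200000000000200000001000000000000000000000000000000000000000000000000000000000000000000000000000000000000000200000002000000000000000000000000000000000000000000000000000000000000000000000000000000000000000000000000000000000000000000000000000000000000000000000000000000000000000000000000000000000000000100000000) (nat_lit 0x7e00006400004a0000310000180000000fffff0fffff0fffff0fffff0)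
  (DL.cons (nat_lit 0x10000000000010000000000000000000000000000000000000000000000000000000000000001000000000001000000000002000000010000000000000000000000000000000000000000000000000000000000000000000000000000000000000000000000000000000000000000000000000000000000000000000000000000000000000000000100000000000000000000000000000000000000000000000000000000000000000000000000000000000000000000000000000000000000000000000000020000000000000000000000000000000000000000000000000000000000000000000000000000000000000002000000000000000000020000000000000000000000000000000000000000000000000000000000000000000000000001000000000001000000000001000000000000000000000000000000000000000000000000000000000000000000000000000000000000000000000000) (nat_lit 0x9500006600004c0000320000190000000fffff0fffff0fffff0fffff0)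
  DL.nil))))))))

noncomputable def d38_1 : DL := (DL.cons (nat_lit 0x30000000000040006000000000000000000000000000000000000000000000000000000000000000000000000000400000000000600000000000000000000000000000000000000000000000000000000000000000000000000000000000000000003000000000001000000050001) (nat_lit 0x3400001c0000040fffff0fffff0fffff0000020000010000000fffff0)
  (DL.cons (nat_lit 0x20000000000000000000600000000000000000000000000000000000000000000000000000000000000000000000000000000000000060000000000000000000000000000000000000000000000000000000000000000000000000000000000000000000300000000000300040000000000000000000000000000000000000000000000000000000000000000000000000000000000000007000000030000000000000003000500000007) (nat_lit 0x510000380000200000080000050fffff0000030000010fffff0000000)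
  (DL.cons (nat_lit 0x30000000000000000000000000000000000000000000000000000000000000000000000000000000000000000000000010000000000000000000000000000000000000000000000000000000000000000000000000006000000000001000000000000000000000000000000000000000000000000000000000000000000000000000000000000000000000002000000000000000000000000000000000000000000000000000000000000000000000000000000000000000000070000000000050000000700000000000000000002) (nat_lit 0x5000003700001e0000060fffff0000030000000fffff0fffff0fffff0)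
  (DL.cons (nat_lit 0) (nat_lit 0)
  (DL.cons (nat_lit 0) (nat_lit 0)
  (DL.cons (nat_lit 0x20000000000000000000000000000000000000000000000000000000000000000000000000000000000000001000000000000000000000000000000000000000000000000000000000000000000000000000000000000000000000002000000000000000000000000000000000000000000000000000000000000000000000000000000000000000000010000000000010000000000000000000000000000000000000000000000000000000000000000000000000000000000000000000100000000000000000000000200020000) (nat_lit 0x4f00003600001e0000060000020fffff0000000fffff0fffff0fffff0)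
  (DL.cons (nat_lit 0x200000000000000000000000000000000000000000000000000000000000000000000000000020000000000020000000000000000000000000000000000000000000000000000000000000000000000000000000000000000000000000001000000000001000000020000000000000000000000000000000000000000000000000000000000000000000000000001000000000000000000010000000000000000000000000000000000000000000000000000000000000000000000000000000000000002000000000000000000000000000000000000000000000000000000000000000000000000000000000000000000010000000000010002000000000001000000020000) (nat_lit 0x6b00005100003800001f0000070000030000000fffff0fffff0fffff0)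
  (DL.cons (nat_lit 0x20000000000000000000000000000000000000000000000000000000000000000000000000000000000000001000000000000000000000000000000000000000000000000000000000000000000000000000100000000000200000000000000000000000000000000000000000000000000000000000000000000000000000000000000020000000000000000000000000000000000020000000000000000000000000000000000000000000000000000000000000000000000000000000000000000000000000000000000000000000000000000000000000000000000000000000000000000000000000002000000000000000000000000000000000000000000000000000000000000000000000000000000000000000000000000000000000002000000000002000100000000000000000000000000000000000000000000000000000000000000000000000000000000000000000000) (nat_lit 0x7e00006400004a0000310000180fffff0000000fffff0fffff0fffff0)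
  DL.nil))))))))

noncomputable def d38_2 : DL := (DL.cons (nat_lit 0x2000000000000000000000000000000000000000000000000000000000000000000000000000800000000000600000001000000000000000000000000000000000000000000000000000000000000000000000000000000080000000100000006000000000001000000050001) (nat_lit 0x1f0000070fffff0fffff0000040000020000010000000fffff0fffff0)
  (DL.cons (nat_lit 0x3000000000000000000000000000000000000000000000000000000000000000000000000000000000000000200000000000000000000000000000000000000000000000000000000000000000000000000000000000000000000000000000007000300000000000000000000000000000000000000000000000000000000000000000000000000000000000000040000000000000001000000020007) (nat_lit 0x3600001e0000060fffff0000030000010fffff0fffff0000000fffff0)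
  (DL.cons (nat_lit 0x50000000000000000000000000000000000000000000000000000000000000000000000000002000000000007000000000000000000000000000000000000000000000000000000000000000000000000000000000000000000000007000000000005000100000000000000000000000000000000000000000000000000000000000000000000000000010000000000080000000000000000000000000000000000000000000000000000000000000000000000000000000000000000000500000000000800000000000600000000000700070000) (nat_lit 0x520000390000210000090000050000020000000fffff0fffff0fffff0)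
  (DL.cons (nat_lit 0) (nat_lit 0)
  (DL.cons (nat_lit 0) (nat_lit 0)
  (DL.cons (nat_lit 0x2000000000001000000000000000000000000000000000000000000000000000000000000000000000000000000000000000100000000000200000000000200000002000000020000) (nat_lit 0x210fffff0000090000050000020000000fffff0fffff0fffff0fffff0)
  (DL.cons (nat_lit 0x1000000000000000000000000000000000000000000000000000000000000000000000000000000000000000000000000000000000001000000000000000000000000000000000000000000000000000000000000000000000000000000000000000200000001000000000000000000000000000000000000000000000000000000000000000000000000000000000000000200000000000000000000000000000000000000000000000000000000000000000000000000000000000000000002000000000002000200000000000000000000000000000000000000000000000000000000000000000000000000000000000000000000000000010000) (nat_lit 0x6500004c00003300001b0000030000000fffff0fffff0fffff0fffff0)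
  (DL.cons (nat_lit 0x100000000000000000000000000000000000000000000000000000000000000000000000000010000000000020000000000000000000000000000000000000000000000000000000000000000000000000000000000000000000000000002000000000001000000020000000000000000000000000000000000000000000000000000000000000000000000000002000000000002000000000000000000000000000000000000000000000000000000000000000000000000000000000000000000000002000000000001000100000000000000000000000000000000000000000000000000000000000000000000000000010000000000000000000200000000000000000000000000000000000000000000000000000000000000000000000000000000000000020000000200000000) (nat_lit 0x7f00006500004c00003300001b0000030000000fffff0fffff0fffff0)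
  DL.nil))))))))

noncomputable def d38_3 : DL := (DL.cons (nat_lit 0x10000000000000000000000000000000000000000000000000000000000000000000000000000000800030001000800060000000000010001000600000008000100000001000700010001) (nat_lit 0xe00000a0000070000040000020000010000000fffff0fffff0fffff0)
  (DL.cons (nat_lit 0x700000000000600070000000000000000000000000000000000000000000000000000000000000000000000000000000000000002000000010000000000000000000800060000) (nat_lit 0x200000080000050000020000000fffff0fffff0fffff0fffff0fffff0)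
  (DL.cons (nat_lit 0x10000000000070007000000000000000000000000000000000000000000000000000000000000000000000000000600000000000300000000000000000000000000000000000000000000000000000000000000000000000000000000000000000007000000000004000000000003) (nat_lit 0x3400001c0000040000000fffff0fffff0fffff0fffff0fffff0fffff0)
  (DL.cons (nat_lit 0) (nat_lit 0)
  (DL.cons (nat_lit 0) (nat_lit 0)
  (DL.cons (nat_lit 0x2000000000000000000000000000000000000000000000000000000000000000000000000000100000000000200000000000000000000000000000000000000000000000000000000000000000000000000000000000000000001000000000001000000000000000100000000) (nat_lit 0x1f0000070000030fffff0000000fffff0fffff0fffff0fffff0fffff0)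
  (DL.cons (nat_lit 0x2000000000000000200000000000000000000000000000000000000000000000000000000000000000000000000000000000000010000000100000000) (nat_lit 0xfffff0fffff00001b0000030000000fffff0fffff0fffff0fffff0fffff0)
  (DL.cons (nat_lit 0x20000000000000000000000000000000000000000000000000000000000000000000000000002000000000000000000000000000000000000000000000000000000000000000000000000000000000000000000000001000000000001000000000000000000000000000000000000000000000000000000000000000000000000000000000000000000000002000000000002000200000000000000000000000000000000000000000000000000000000000000000000000000020000000000010000000000000000000000000000000000000000000000000000000000000000000000000000000000000000000100000000000000000001) (nat_lit 0x6500004c00003300001b0000030fffff0000000fffff0fffff0fffff0)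
  DL.nil))))))))

noncomputable def d38_4 : DL := (DL.cons (nat_lit 0x600000000000100000000000100010000000000010001000200010001) (nat_lit 0xb0000080000050000030000010000000fffff0fffff0fffff0fffff0)
  (DL.cons (nat_lit 0x10000000300000000000000000001000400000001) (nat_lit 0x90000060000030000010fffff0fffff0000000fffff0fffff0fffff0)
  (DL.cons (nat_lit 0x30000000000000000000000000000000000000000000000000000000000000000000000000004000000000005000000050000000000010000000700000007000000000008) (nat_lit 0xb0fffff0000070000040000010fffff0000000fffff0fffff0fffff0)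
  (DL.cons (nat_lit 0) (nat_lit 0)
  (DL.cons (nat_lit 0) (nat_lit 0)
  (DL.cons (nat_lit 0x1000000000000000000000002000000020000000100000000) (nat_lit 0xa0000060000030000000fffff0fffff0fffff0fffff0fffff0fffff0)
  (DL.cons (nat_lit 0x1000000000002000100000000000000000000000000000000000000000000000000000000000000000000000000000000000000000000000000000001) (nat_lit 0xfffff00001b0000030fffff0000000fffff0fffff0fffff0fffff0fffff0)
  (DL.cons (nat_lit 0x20000000000000000000000000000000000000000000000000000000000000000000000000000000000000000000000000000000000000000000000000000000000000000000000000000000000000000000000000000000000000001000000000001000100000000000000000000000000000000000000000000000000000000000000000000000000000000000000010000000200000000000000000000000100020000) (nat_lit 0x3a0000210000090fffff0000050000020000000fffff0fffff0fffff0)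
  DL.nil))))))))

noncomputable def d38_5 : DL := (DL.cons (nat_lit 0x80003000700000002000000010008000800040001) (nat_lit 0x80000050000030000010000000fffff0fffff0fffff0fffff0fffff0)
  (DL.cons (nat_lit 0x300050000000700000007000800000008) (nat_lit 0x60000030000010fffff0000000fffff0fffff0fffff0fffff0fffff0)
  (DL.cons (nat_lit 0x7000000000000000000000000000000000000000000000000000000000000000000000000000000000007000600000005000100000004000000020004000600060000) (nat_lit 0xa0000060000030000000fffff0fffff0fffff0fffff0fffff0fffff0)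
  (DL.cons (nat_lit 0) (nat_lit 0)
  (DL.cons (nat_lit 0) (nat_lit 0)
  (DL.cons (nat_lit 0x200000000000200020001000000020000) (nat_lit 0x80000050000020fffff0000000fffff0fffff0fffff0fffff0fffff0)
  (DL.cons (nat_lit 0x200000000000000000000000000000000000000000000000000000000000000000000000000000002000000010002000200000000) (nat_lit 0xfffff0000030000000fffff0fffff0fffff0fffff0fffff0fffff0fffff0)
  (DL.cons (nat_lit 0x200000001000100000000000000000000000000000000000000000000000000000000000000000000000000010000000000010000000200000000000000000000000000000000000000000000000000000000000000000000000000000000000000000000) (nat_lit 0x300000180000000fffff0fffff0fffff0fffff0fffff0fffff0fffff0)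
  DL.nil))))))))

noncomputable def d38_6 : DL := (DL.cons (nat_lit 0x200000000000100020001000800010006) (nat_lit 0x60000040000020000010000000fffff0fffff0fffff0fffff0fffff0)
  (DL.cons (nat_lit 0x60000000300050005000300000004) (nat_lit 0x50000030000010fffff0000000fffff0fffff0fffff0fffff0fffff0)
  (DL.cons (nat_lit 0x4000300000002000000040007000700050000) (nat_lit 0x60000030000000fffff0fffff0fffff0fffff0fffff0fffff0fffff0)
  (DL.cons (nat_lit 0) (nat_lit 0)
  (DL.cons (nat_lit 0) (nat_lit 0)
  (DL.cons (nat_lit 0x10001000000010000) (nat_lit 0x30000000fffff0fffff0fffff0fffff0fffff0fffff0fffff0fffff0)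
  (DL.cons (nat_lit 0x100000000000000000000000000000000000000000000000000000000000000000000000000000002000000020001000200020000000100000000) (nat_lit 0x60000030000000fffff0fffff0fffff0fffff0fffff0fffff0fffff0)
  (DL.cons (nat_lit 0x2000000000000000000000000000000000000000000000000000000000000000000000000000100010000000000010001000000000000000000000000000000000000000000000000000000000000000000000000000000000001000100000001000000000002) (nat_lit 0x1c0000040000000fffff0fffff0fffff0fffff0fffff0fffff0fffff0)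
  DL.nil))))))))

noncomputable def d38_7 : DL := (DL.cons (nat_lit 0x100080002000700010006) (nat_lit 0x40000020000010000000fffff0fffff0fffff0fffff0fffff0fffff0)
  (DL.cons (nat_lit 0x700060002000000070004) (nat_lit 0x40000020000010000000fffff0fffff0fffff0fffff0fffff0fffff0)
  (DL.cons (nat_lit 0x200070003000200000000000200060000) (nat_lit 0x70000040000020000000fffff0fffff0fffff0fffff0fffff0fffff0)
  (DL.cons (nat_lit 0) (nat_lit 0)
  (DL.cons (nat_lit 0) (nat_lit 0)
  (DL.cons (nat_lit 0x20002000000000001000200000002) (nat_lit 0x50000030000010fffff0000000fffff0fffff0fffff0fffff0fffff0)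
  (DL.cons (nat_lit 0x2000000000001000000020002000200010000) (nat_lit 0x70000040000020000000fffff0fffff0fffff0fffff0fffff0fffff0)
  (DL.cons (nat_lit 0x1000000000000000000000000000000000000000000000000000000000000000000000000000000000000000000000002000000000001000000010001) (nat_lit 0x70000030000000fffff0fffff0fffff0fffff0fffff0fffff0fffff0)
  DL.nil))))))))

noncomputable def d38_8 : DL := (DL.cons (nat_lit 4295294977) (nat_lit 0x10000000fffff0fffff0fffff0fffff0fffff0fffff0fffff0fffff0)
  (DL.cons (nat_lit 25769803784) (nat_lit 0x10000000fffff0fffff0fffff0fffff0fffff0fffff0fffff0fffff0)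
  (DL.cons (nat_lit 0x8000300000000000200040005) (nat_lit 0x40000020000000fffff0fffff0fffff0fffff0fffff0fffff0fffff0)
  (DL.cons (nat_lit 0) (nat_lit 0)
  (DL.cons (nat_lit 0) (nat_lit 0)
  (DL.cons (nat_lit 8590000130) (nat_lit 0x20000000fffff0fffff0fffff0fffff0fffff0fffff0fffff0fffff0)
  (DL.cons (nat_lit 0x20001000200020000) (nat_lit 0x40000020000000fffff0fffff0fffff0fffff0fffff0fffff0fffff0)
  (DL.cons (nat_lit 0x1000100000002000000020001000100020000) (nat_lit 0x60000030000000fffff0fffff0fffff0fffff0fffff0fffff0fffff0)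
  DL.nil))))))))

noncomputable def d38_9 : DL := (DL.cons (nat_lit 65542) (nat_lit 0x10000000fffff0fffff0fffff0fffff0fffff0fffff0fffff0fffff0)
  (DL.cons (nat_lit 458759) (nat_lit 0x10000000fffff0fffff0fffff0fffff0fffff0fffff0fffff0fffff0)
  (DL.cons (nat_lit 393219) (nat_lit 0xfffff0000010fffff0000000fffff0fffff0fffff0fffff0fffff0fffff0)
  (DL.cons (nat_lit 0) (nat_lit 0)
  (DL.cons (nat_lit 0) (nat_lit 0)
  (DL.cons (nat_lit 8590000130) (nat_lit 0x10fffff0000000fffff0fffff0fffff0fffff0fffff0fffff0fffff0)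
  (DL.cons (nat_lit 0x20001000100000002) (nat_lit 0x30000010fffff0000000fffff0fffff0fffff0fffff0fffff0fffff0)
  (DL.cons (nat_lit 0x10000000200020000) (nat_lit 0x30000000fffff0fffff0fffff0fffff0fffff0fffff0fffff0fffff0)
  DL.nil))))))))

noncomputable def d38_10 : DL := DL.nil

noncomputable def d38 : DLL := (DLL.cons d38_0
  (DLL.cons d38_1
  (DLL.cons d38_2
  (DLL.cons d38_3
  (DLL.cons d38_4
  (DLL.cons d38_5
  (DLL.cons d38_6
  (DLL.cons d38_7
  (DLL.cons d38_8
  (DLL.cons d38_9
  (DLL.cons d38_10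
  DLL.nil)))))))))))

noncomputable def m38 : TL := (TL.cons ⟨fun _ => nat_lit 0⟩
  (TL.cons ⟨fun _ => nat_lit 0⟩
  (TL.cons ⟨fun _ => nat_lit 0⟩
  (TL.cons ⟨fun _ => nat_lit 0⟩
  (TL.cons ⟨fun _ => nat_lit 0⟩
  (TL.cons ⟨fun _ => nat_lit 0⟩
  (TL.cons ⟨fun _ => nat_lit 0⟩
  (TL.cons ⟨fun _ => nat_lit 0⟩
  (TL.cons ⟨fun _ => nat_lit 0⟩
  (TL.cons ⟨fun _ => nat_lit 0⟩
  (TL.cons ⟨fun _ => nat_lit 0⟩
  (TL.cons ⟨fun _ => nat_lit 0⟩
  (TL.cons ⟨fun _ => nat_lit 0⟩
  (TL.cons ⟨fun _ => nat_lit 0⟩
  (TL.cons ⟨fun _ => nat_lit 0⟩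
  (TL.cons ⟨fun _ => nat_lit 0⟩
  (TL.cons ⟨fun _ => nat_lit 0⟩
  (TL.cons ⟨fun _ => nat_lit 0⟩
  (TL.cons ⟨fun _ => nat_lit 0⟩
  (TL.cons ⟨fun _ => nat_lit 0⟩
  (TL.cons ⟨fun _ => nat_lit 0⟩
  (TL.cons ⟨fun _ => nat_lit 0⟩
  (TL.cons ⟨fun _ => nat_lit 0⟩
  (TL.cons ⟨fun _ => nat_lit 0⟩
  (TL.cons ⟨fun _ => nat_lit 0⟩
  (TL.cons ⟨fun _ => nat_lit 0⟩
  (TL.cons ⟨fun _ => nat_lit 0⟩
  (TL.cons ⟨fun _ => nat_lit 0⟩
  (TL.cons ⟨fun _ => nat_lit 0⟩
  (TL.cons ⟨fun _ => nat_lit 0⟩
  (TL.cons ⟨fun _ => nat_lit 0⟩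
  (TL.cons ⟨fun _ => nat_lit 0⟩
  (TL.cons ⟨fun _ => nat_lit 0⟩
  (TL.cons ⟨fun _ => nat_lit 0⟩
  (TL.cons ⟨fun _ => nat_lit 0⟩
  (TL.cons ⟨fun _ => nat_lit 0⟩
  (TL.cons ⟨fun _ => nat_lit 0⟩
  (TL.cons ⟨fun _ => nat_lit 0⟩
  (TL.cons ⟨fun _ => nat_lit 0⟩
  (TL.cons ⟨fun _ => nat_lit 0⟩
  (TL.cons ⟨fun _ => nat_lit 0⟩
  (TL.cons ⟨fun _ => nat_lit 0⟩
  (TL.cons ⟨fun _ => nat_lit 0⟩
  (TL.cons ⟨fun _ => nat_lit 0⟩
  (TL.cons ⟨fun _ => nat_lit 0⟩
  (TL.cons ⟨fun _ => nat_lit 0⟩
  (TL.cons ⟨fun _ => nat_lit 0⟩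
  (TL.cons ⟨fun _ => nat_lit 0⟩
  (TL.cons ⟨fun _ => nat_lit 0⟩
  (TL.cons ⟨fun _ => nat_lit 0⟩
  (TL.cons ⟨fun _ => nat_lit 0⟩
  (TL.cons ⟨fun _ => nat_lit 0⟩
  (TL.cons ⟨fun _ => nat_lit 0⟩
  (TL.cons ⟨fun _ => nat_lit 0⟩
  (TL.cons ⟨fun _ => nat_lit 0⟩
  (TL.cons ⟨fun _ => nat_lit 0⟩
  (TL.cons ⟨fun _ => nat_lit 0⟩
  (TL.cons ⟨fun _ => nat_lit 0⟩
  (TL.cons ⟨fun x => (x (nat_lit 0) (nat_lit 0) (nat_lit 0))⟩
  (TL.cons ⟨fun x => (x (nat_lit 0) (nat_lit 1) (nat_lit 0))⟩
  (TL.cons ⟨fun x => (Nat.add (x (nat_lit 0) (nat_lit 5) (nat_lit 0)) (x (nat_lit 1) (nat_lit 0) (nat_lit 0)))⟩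
  (TL.cons ⟨fun x => (x (nat_lit 1) (nat_lit 1) (nat_lit 0))⟩
  (TL.cons ⟨fun x => (Nat.add (x (nat_lit 0) (nat_lit 2) (nat_lit 0)) (Nat.add (x (nat_lit 1) (nat_lit 5) (nat_lit 0)) (x (nat_lit 2) (nat_lit 0) (nat_lit 0))))⟩
  (TL.cons ⟨fun x => (Nat.add (x (nat_lit 0) (nat_lit 6) (nat_lit 0)) (x (nat_lit 2) (nat_lit 1) (nat_lit 0)))⟩
  (TL.cons ⟨fun x => (Nat.add (x (nat_lit 1) (nat_lit 2) (nat_lit 0)) (Nat.add (x (nat_lit 2) (nat_lit 5) (nat_lit 0)) (x (nat_lit 3) (nat_lit 0) (nat_lit 0))))⟩
  (TL.cons ⟨fun x => (Nat.add (x (nat_lit 1) (nat_lit 6) (nat_lit 0)) (x (nat_lit 3) (nat_lit 1) (nat_lit 0)))⟩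
  (TL.cons ⟨fun x => (Nat.add (Nat.add (x (nat_lit 0) (nat_lit 7) (nat_lit 0)) (x (nat_lit 2) (nat_lit 2) (nat_lit 0))) (Nat.add (x (nat_lit 3) (nat_lit 5) (nat_lit 0)) (x (nat_lit 4) (nat_lit 0) (nat_lit 0))))⟩
  (TL.cons ⟨fun x => (Nat.add (x (nat_lit 2) (nat_lit 6) (nat_lit 0)) (x (nat_lit 4) (nat_lit 1) (nat_lit 0)))⟩
  (TL.cons ⟨fun x => (Nat.add (x (nat_lit 1) (nat_lit 7) (nat_lit 0)) (Nat.add (x (nat_lit 3) (nat_lit 2) (nat_lit 0)) (x (nat_lit 4) (nat_lit 5) (nat_lit 0))))⟩
  (TL.cons ⟨fun x => (Nat.add (x (nat_lit 3) (nat_lit 6) (nat_lit 0)) (x (nat_lit 5) (nat_lit 0) (nat_lit 0)))⟩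
  (TL.cons ⟨fun x => (Nat.add (x (nat_lit 2) (nat_lit 7) (nat_lit 0)) (Nat.add (x (nat_lit 4) (nat_lit 2) (nat_lit 0)) (x (nat_lit 5) (nat_lit 1) (nat_lit 0))))⟩
  (TL.cons ⟨fun x => (Nat.add (Nat.add (x (nat_lit 0) (nat_lit 3) (nat_lit 0)) (x (nat_lit 4) (nat_lit 6) (nat_lit 0))) (Nat.add (x (nat_lit 5) (nat_lit 5) (nat_lit 0)) (x (nat_lit 6) (nat_lit 0) (nat_lit 0))))⟩
  (TL.cons ⟨fun x => (Nat.add (x (nat_lit 0) (nat_lit 8) (nat_lit 0)) (Nat.add (x (nat_lit 3) (nat_lit 7) (nat_lit 0)) (x (nat_lit 6) (nat_lit 1) (nat_lit 0))))⟩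
  (TL.cons ⟨fun x => (Nat.add (Nat.add (x (nat_lit 1) (nat_lit 3) (nat_lit 0)) (x (nat_lit 5) (nat_lit 2) (nat_lit 0))) (Nat.add (x (nat_lit 6) (nat_lit 5) (nat_lit 0)) (x (nat_lit 7) (nat_lit 0) (nat_lit 0))))⟩
  (TL.cons ⟨fun x => (Nat.add (Nat.add (x (nat_lit 1) (nat_lit 8) (nat_lit 0)) (x (nat_lit 4) (nat_lit 7) (nat_lit 0))) (Nat.add (x (nat_lit 5) (nat_lit 6) (nat_lit 0)) (x (nat_lit 7) (nat_lit 1) (nat_lit 0))))⟩
  (TL.cons ⟨fun x => (Nat.add (Nat.add (x (nat_lit 0) (nat_lit 9) (nat_lit 0)) (x (nat_lit 2) (nat_lit 3) (nat_lit 0))) (Nat.add (x (nat_lit 6) (nat_lit 2) (nat_lit 0)) (Nat.add (x (nat_lit 7) (nat_lit 5) (nat_lit 0)) (x (nat_lit 8) (nat_lit 0) (nat_lit 0)))))⟩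
  (TL.cons ⟨fun x => (Nat.add (x (nat_lit 2) (nat_lit 8) (nat_lit 0)) (Nat.add (x (nat_lit 6) (nat_lit 6) (nat_lit 0)) (x (nat_lit 8) (nat_lit 1) (nat_lit 0))))⟩
  (TL.cons ⟨fun x => (Nat.add (Nat.add (x (nat_lit 1) (nat_lit 9) (nat_lit 0)) (Nat.add (x (nat_lit 3) (nat_lit 3) (nat_lit 0)) (x (nat_lit 5) (nat_lit 7) (nat_lit 0)))) (Nat.add (x (nat_lit 7) (nat_lit 2) (nat_lit 0)) (Nat.add (x (nat_lit 8) (nat_lit 5) (nat_lit 0)) (x (nat_lit 9) (nat_lit 0) (nat_lit 0)))))⟩
  (TL.cons ⟨fun x => (Nat.add (x (nat_lit 3) (nat_lit 8) (nat_lit 0)) (Nat.add (x (nat_lit 7) (nat_lit 6) (nat_lit 0)) (x (nat_lit 9) (nat_lit 1) (nat_lit 0))))⟩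
  (TL.cons ⟨fun x => (Nat.add (Nat.add (x (nat_lit 2) (nat_lit 9) (nat_lit 0)) (x (nat_lit 4) (nat_lit 3) (nat_lit 0))) (Nat.add (x (nat_lit 6) (nat_lit 7) (nat_lit 0)) (Nat.add (x (nat_lit 8) (nat_lit 2) (nat_lit 0)) (x (nat_lit 9) (nat_lit 5) (nat_lit 0)))))⟩
  (TL.cons ⟨fun x => (Nat.add (x (nat_lit 4) (nat_lit 8) (nat_lit 0)) (x (nat_lit 8) (nat_lit 6) (nat_lit 0)))⟩
  (TL.cons ⟨fun x => (Nat.add (x (nat_lit 3) (nat_lit 9) (nat_lit 0)) (Nat.add (x (nat_lit 7) (nat_lit 7) (nat_lit 0)) (x (nat_lit 9) (nat_lit 2) (nat_lit 0))))⟩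
  (TL.cons ⟨fun x => (Nat.add (x (nat_lit 5) (nat_lit 3) (nat_lit 0)) (x (nat_lit 9) (nat_lit 6) (nat_lit 0)))⟩
  (TL.cons ⟨fun x => (Nat.add (x (nat_lit 4) (nat_lit 9) (nat_lit 0)) (Nat.add (x (nat_lit 5) (nat_lit 8) (nat_lit 0)) (x (nat_lit 8) (nat_lit 7) (nat_lit 0))))⟩
  (TL.cons ⟨fun x => (Nat.add (x (nat_lit 0) (nat_lit 10) (nat_lit 0)) (x (nat_lit 6) (nat_lit 3) (nat_lit 0)))⟩
  (TL.cons ⟨fun x => (Nat.add (x (nat_lit 6) (nat_lit 8) (nat_lit 0)) (x (nat_lit 9) (nat_lit 7) (nat_lit 0)))⟩
  (TL.cons ⟨fun x => (Nat.add (x (nat_lit 1) (nat_lit 10) (nat_lit 0)) (Nat.add (x (nat_lit 5) (nat_lit 9) (nat_lit 0)) (x (nat_lit 7) (nat_lit 3) (nat_lit 0))))⟩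
  (TL.cons ⟨fun x => (x (nat_lit 7) (nat_lit 8) (nat_lit 0))⟩
  (TL.cons ⟨fun x => (Nat.add (x (nat_lit 2) (nat_lit 10) (nat_lit 0)) (Nat.add (x (nat_lit 6) (nat_lit 9) (nat_lit 0)) (x (nat_lit 8) (nat_lit 3) (nat_lit 0))))⟩
  (TL.cons ⟨fun x => (x (nat_lit 8) (nat_lit 8) (nat_lit 0))⟩
  (TL.cons ⟨fun x => (Nat.add (x (nat_lit 3) (nat_lit 10) (nat_lit 0)) (Nat.add (x (nat_lit 7) (nat_lit 9) (nat_lit 0)) (x (nat_lit 9) (nat_lit 3) (nat_lit 0))))⟩
  TL.nil)))))))))))))))))))))))))))))))))))))))))))))))))))))))))))))))))))))))))))))))))))))))))))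

noncomputable def m38_t : List TT := [.zero,
  .zero,
  .zero,
  .zero,
  .zero,
  .zero,
  .zero,
  .zero,
  .zero,
  .zero,
  .zero,
  .zero,
  .zero,
  .zero,
  .zero,
  .zero,
  .zero,
  .zero,
  .zero,
  .zero,
  .zero,
  .zero,
  .zero,
  .zero,
  .zero,
  .zero,
  .zero,
  .zero,
  .zero,
  .zero,
  .zero,
  .zero,
  .zero,
  .zero,
  .zero,
  .zero,
  .zero,
  .zero,
  .zero,
  .zero,
  .zero,
  .zero,
  .zero,
  .zero,
  .zero,
  .zero,
  .zero,
  .zero,
  .zero,
  .zero,
  .zero,
  .zero,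
  .zero,
  .zero,
  .zero,
  .zero,
  .zero,
  .zero,
  (.leaf (nat_lit 0) (nat_lit 0) (nat_lit 0)),
  (.leaf (nat_lit 0) (nat_lit 1) (nat_lit 0)),
  (.add (.leaf (nat_lit 0) (nat_lit 5) (nat_lit 0)) (.leaf (nat_lit 1) (nat_lit 0) (nat_lit 0))),
  (.leaf (nat_lit 1) (nat_lit 1) (nat_lit 0)),
  (.add (.leaf (nat_lit 0) (nat_lit 2) (nat_lit 0)) (.add (.leaf (nat_lit 1) (nat_lit 5) (nat_lit 0)) (.leaf (nat_lit 2) (nat_lit 0) (nat_lit 0)))),
  (.add (.leaf (nat_lit 0) (nat_lit 6) (nat_lit 0)) (.leaf (nat_lit 2) (nat_lit 1) (nat_lit 0))),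
  (.add (.leaf (nat_lit 1) (nat_lit 2) (nat_lit 0)) (.add (.leaf (nat_lit 2) (nat_lit 5) (nat_lit 0)) (.leaf (nat_lit 3) (nat_lit 0) (nat_lit 0)))),
  (.add (.leaf (nat_lit 1) (nat_lit 6) (nat_lit 0)) (.leaf (nat_lit 3) (nat_lit 1) (nat_lit 0))),
  (.add (.add (.leaf (nat_lit 0) (nat_lit 7) (nat_lit 0)) (.leaf (nat_lit 2) (nat_lit 2) (nat_lit 0))) (.add (.leaf (nat_lit 3) (nat_lit 5) (nat_lit 0)) (.leaf (nat_lit 4) (nat_lit 0) (nat_lit 0)))),
  (.add (.leaf (nat_lit 2) (nat_lit 6) (nat_lit 0)) (.leaf (nat_lit 4) (nat_lit 1) (nat_lit 0))),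
  (.add (.leaf (nat_lit 1) (nat_lit 7) (nat_lit 0)) (.add (.leaf (nat_lit 3) (nat_lit 2) (nat_lit 0)) (.leaf (nat_lit 4) (nat_lit 5) (nat_lit 0)))),
  (.add (.leaf (nat_lit 3) (nat_lit 6) (nat_lit 0)) (.leaf (nat_lit 5) (nat_lit 0) (nat_lit 0))),
  (.add (.leaf (nat_lit 2) (nat_lit 7) (nat_lit 0)) (.add (.leaf (nat_lit 4) (nat_lit 2) (nat_lit 0)) (.leaf (nat_lit 5) (nat_lit 1) (nat_lit 0)))),
  (.add (.add (.leaf (nat_lit 0) (nat_lit 3) (nat_lit 0)) (.leaf (nat_lit 4) (nat_lit 6) (nat_lit 0))) (.add (.leaf (nat_lit 5) (nat_lit 5) (nat_lit 0)) (.leaf (nat_lit 6) (nat_lit 0) (nat_lit 0)))),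
  (.add (.leaf (nat_lit 0) (nat_lit 8) (nat_lit 0)) (.add (.leaf (nat_lit 3) (nat_lit 7) (nat_lit 0)) (.leaf (nat_lit 6) (nat_lit 1) (nat_lit 0)))),
  (.add (.add (.leaf (nat_lit 1) (nat_lit 3) (nat_lit 0)) (.leaf (nat_lit 5) (nat_lit 2) (nat_lit 0))) (.add (.leaf (nat_lit 6) (nat_lit 5) (nat_lit 0)) (.leaf (nat_lit 7) (nat_lit 0) (nat_lit 0)))),
  (.add (.add (.leaf (nat_lit 1) (nat_lit 8) (nat_lit 0)) (.leaf (nat_lit 4) (nat_lit 7) (nat_lit 0))) (.add (.leaf (nat_lit 5) (nat_lit 6) (nat_lit 0)) (.leaf (nat_lit 7) (nat_lit 1) (nat_lit 0)))),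
  (.add (.add (.leaf (nat_lit 0) (nat_lit 9) (nat_lit 0)) (.leaf (nat_lit 2) (nat_lit 3) (nat_lit 0))) (.add (.leaf (nat_lit 6) (nat_lit 2) (nat_lit 0)) (.add (.leaf (nat_lit 7) (nat_lit 5) (nat_lit 0)) (.leaf (nat_lit 8) (nat_lit 0) (nat_lit 0))))),
  (.add (.leaf (nat_lit 2) (nat_lit 8) (nat_lit 0)) (.add (.leaf (nat_lit 6) (nat_lit 6) (nat_lit 0)) (.leaf (nat_lit 8) (nat_lit 1) (nat_lit 0)))),
  (.add (.add (.leaf (nat_lit 1) (nat_lit 9) (nat_lit 0)) (.add (.leaf (nat_lit 3) (nat_lit 3) (nat_lit 0)) (.leaf (nat_lit 5) (nat_lit 7) (nat_lit 0)))) (.add (.leaf (nat_lit 7) (nat_lit 2) (nat_lit 0)) (.add (.leaf (nat_lit 8) (nat_lit 5) (nat_lit 0)) (.leaf (nat_lit 9) (nat_lit 0) (nat_lit 0))))),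
  (.add (.leaf (nat_lit 3) (nat_lit 8) (nat_lit 0)) (.add (.leaf (nat_lit 7) (nat_lit 6) (nat_lit 0)) (.leaf (nat_lit 9) (nat_lit 1) (nat_lit 0)))),
  (.add (.add (.leaf (nat_lit 2) (nat_lit 9) (nat_lit 0)) (.leaf (nat_lit 4) (nat_lit 3) (nat_lit 0))) (.add (.leaf (nat_lit 6) (nat_lit 7) (nat_lit 0)) (.add (.leaf (nat_lit 8) (nat_lit 2) (nat_lit 0)) (.leaf (nat_lit 9) (nat_lit 5) (nat_lit 0))))),
  (.add (.leaf (nat_lit 4) (nat_lit 8) (nat_lit 0)) (.leaf (nat_lit 8) (nat_lit 6) (nat_lit 0))),
  (.add (.leaf (nat_lit 3) (nat_lit 9) (nat_lit 0)) (.add (.leaf (nat_lit 7) (nat_lit 7) (nat_lit 0)) (.leaf (nat_lit 9) (nat_lit 2) (nat_lit 0)))),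
  (.add (.leaf (nat_lit 5) (nat_lit 3) (nat_lit 0)) (.leaf (nat_lit 9) (nat_lit 6) (nat_lit 0))),
  (.add (.leaf (nat_lit 4) (nat_lit 9) (nat_lit 0)) (.add (.leaf (nat_lit 5) (nat_lit 8) (nat_lit 0)) (.leaf (nat_lit 8) (nat_lit 7) (nat_lit 0)))),
  (.add (.leaf (nat_lit 0) (nat_lit 10) (nat_lit 0)) (.leaf (nat_lit 6) (nat_lit 3) (nat_lit 0))),
  (.add (.leaf (nat_lit 6) (nat_lit 8) (nat_lit 0)) (.leaf (nat_lit 9) (nat_lit 7) (nat_lit 0))),
  (.add (.leaf (nat_lit 1) (nat_lit 10) (nat_lit 0)) (.add (.leaf (nat_lit 5) (nat_lit 9) (nat_lit 0)) (.leaf (nat_lit 7) (nat_lit 3) (nat_lit 0)))),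
  (.leaf (nat_lit 7) (nat_lit 8) (nat_lit 0)),
  (.add (.leaf (nat_lit 2) (nat_lit 10) (nat_lit 0)) (.add (.leaf (nat_lit 6) (nat_lit 9) (nat_lit 0)) (.leaf (nat_lit 8) (nat_lit 3) (nat_lit 0)))),
  (.leaf (nat_lit 8) (nat_lit 8) (nat_lit 0)),
  (.add (.leaf (nat_lit 3) (nat_lit 10) (nat_lit 0)) (.add (.leaf (nat_lit 7) (nat_lit 9) (nat_lit 0)) (.leaf (nat_lit 9) (nat_lit 3) (nat_lit 0))))]

theorem m38_eq : m38 = ofL m38_t := rfl

noncomputable def d39_0 : DL := (DL.cons (nat_lit 0x3000000000003000300000003000000000000000000000000000000000000000000000000000000000000000000000000000000000003000600000008000300000000000000000000000000000000000000000000000000000000000000000000000000060006000000000003000300000000000000000000000000000000000000000000000000000000000000000000000000000000000300000000000700060000000700000003000100050003000000000008000200010001) (nat_lit 0x5800003f00002700000f00000b0000080000050000030000010000000)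
  (DL.cons (nat_lit 0x60002000000000000000000000000000000000000000000000000000000000000000000000000000200000008000600000006000000030000000000000000000000000000000000000000000000000000000000000000000000000008000400000003000800000005000000000000000000000000000000000000000000000000000000000000000000000000000800000002000400000000000000000000000000000000000000000000000000000000000000000000000000000000000000070007000000040003000000000000000000000000000000000000000000000000000000000000000000000000000000060000000600000004000800000001000000020008) (nat_lit 0x6900005000003700001f0000070000040000010fffff0fffff0000000)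
  (DL.cons (nat_lit 0x400000000000000000000000000000000000000000000000000000000000000000000000600000000000100040000000500080000000500000000000000000000000000000000000000000000000000000000000000000000000000040008000000050008000000050000000000000000000000000000000000000000000000000000000000000000000000040002000000050007000000060000000000000000000000000000000000000000000000000000000000000000000000000000000000010007000000020002000000000000000000000000000000000000000000000000000000000000000000000000000700030000000000000008000000000000000000000000000000000000000000000000000000000000000000000000000000000008000700000007000000000008) (nat_lit 0x8000006600004d00003400001c0000040000000fffff0fffff0fffff0)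
  (DL.cons (nat_lit 0) (nat_lit 0)
  (DL.cons (nat_lit 0) (nat_lit 0)
  (DL.cons (nat_lit 0x1000000020000000000000000000000000000000000000000000000000000000000000000000000000002000100000002000100020000000000000000000000000000000000000000000000000000000000000000000000000000000000000001000100000002000000000000000000000000000000000000000000000000000000000000000000000000000000000000000000000000000100000000000000000000000000000000000000000000000000000000000000000000000000000000000100020000000000010000000000000001000000020000) (nat_lit 0x5300003a0000210fffff0000090000050000020fffff0fffff0000000)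
  (DL.cons (nat_lit 0x200010000000100000000000000000000000000000000000000000000000000000000000000000002000000000002000000010001000000010000000000000000000000000000000000000000000000000000000000000000000000000000000100000000000000000002000000000000000000000000000000000000000000000000000000000000000000000000000000010000000100000000000100000001000000000000000000000000000000000000000000000000000000000000000000000000000000000000000000000001000200000000000000000000000000000000000000000000000000000000000000000000000000020000000100010000000000000000000000000000000000000000000000000000000000000000000000000000000000000001000200000001000000000000000000000000000000000000000000000000000000000000000000000000000000000000000000020000) (nat_lit 0x9600007c0000620000490000300000180000000fffff0fffff0fffff0)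
  (DL.cons (nat_lit 0x20001000000000000000000000000000000000000000000000000000000000000000000000002000000000000000100000000000000010000000000000000000000000000000000000000000000000000000000000000000000000000000100000002000100000000000000000000000000000000000000000000000000000000000000000000000200000000000100000000000200020000000000000000000000000000000000000000000000000000000000000000000000000000000000000000000000010002000000020000000000000000000000000000000000000000000000000000000000000000000000000002000000000000000000010000000000000000000000000000000000000000000000000000000000000000000000000002000100000000000200000000000000000000000000000000000000000000000000000000000000000000000000000000000000000002000200000001000200000000000000000000000000000000000000000000000000000000000000000000000000020000000000020000) (nat_lit 0xad00007e00006400004a0000310000180000000fffff0fffff0fffff0)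
  DL.nil))))))))

noncomputable def d39_1 : DL := (DL.cons (nat_lit 0x40008000000000000000000000000000000000000000000000000000000000000000000000000000000070004000000080001000000000000000000000000000000000000000000000000000000000000000000000000000300020000000500080006000000000000000000000000000000000000000000000000000000000000000000000000000000000003000000000003000600000003000100030000000600070000000800040007000500010006) (nat_lit 0x4000002800001000000c0000090000060000040000020000010000000)
  (DL.cons (nat_lit 0x700000000000000000000000000000000000000000000000000000000000000000000000000060008000000040002000200070000000000000000000000000000000000000000000000000000000000000000000000000007000000040005000000000000000000000000000000000000000000000000000000000000000000000000000000000000000300010000000600060000000000000000000000000000000000000000000000000000000000000000000000000000000500000005000800080008000000050000000000080000000500000007) (nat_lit 0x5400003b00002300000b0000080000050000030000010fffff0000000)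
  (DL.cons (nat_lit 0x60000000800000000000000000000000000000000000000000000000000000000000000000000000000020008000000040002000600070000000000000000000000000000000000000000000000000000000000000000000000010008000000080008000000060000000000000000000000000000000000000000000000000000000000000000000000000000000000000003000000060004000000000000000000000000000000000000000000000000000000000000000000000000000400080000000200020005000000000000000000000000000000000000000000000000000000000000000000000000000000000005000100000001000100000002000000050005) (nat_lit 0x6900005000003700001f0000070000030000000fffff0fffff0fffff0)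
  (DL.cons (nat_lit 0) (nat_lit 0)
  (DL.cons (nat_lit 0) (nat_lit 0)
  (DL.cons (nat_lit 0x200020000000000000000000000000000000000000000000000000000000000000000000000020001000000010001000000010000000000000000000000000000000000000000000000000000000000000000000000000000000000000001000000010001000000000000000000000000000000000000000000000000000000000000000000000000000100000000000000000000000000000000000000000000000000000000000000000000000000000000000000000000000000000002000100000002000000000002000000010000) (nat_lit 0x5000003700001f0000070000030fffff0000000fffff0fffff0fffff0)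
  (DL.cons (nat_lit 0x20000000000000000000000000000000000000000000000000000000000000000000000000000000100000002000000000000000200000000000000000000000000000000000000000000000000000000000000000000000000020000000000000000000000000001000000000000000000000000000000000000000000000000000000000000000000000000000100000000000200000000000200000000000000000000000000000000000000000000000000000000000000000000000000020000000100020000000000000000000000000000000000000000000000000000000000000000000000000000000000000002000100000001000000000000000000000000000000000000000000000000000000000000000000000000000000000002000000000001000100010000) (nat_lit 0x7f00006500004c00003300001b0000030000000fffff0fffff0fffff0)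
  (DL.cons (nat_lit 0x10000000000000000000000000000000000000000000000000000000000000000000000000000000000000002000200000000000000000000000000000000000000000000000000000000000000000000000200020000000100000000000100000000000000000000000000000000000000000000000000000000000000000000000000020001000000000002000000010001000000000000000000000000000000000000000000000000000000000000000000000000000000000001000000000001000000020000000000000000000000000000000000000000000000000000000000000000000000000000000100000001000200000001000000000000000000000000000000000000000000000000000000000000000000000000000000000001000100000001000100000000000000000000000000000000000000000000000000000000000000000000000000000000000000010000000100000000000000000000000000000000000000000000000000000000000000000000000000000000000100000000) (nat_lit 0x9600007c0000620000490000300000180000000fffff0fffff0fffff0)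
  DL.nil))))))))

noncomputable def d39_2 : DL := (DL.cons (nat_lit 0x3000000000000000000000000000000000000000000000000000000000000000000000000000000020000000100080004000000000000000000000000000000000000000000000000000000000000000000000000000000010006000600080003000400000003000100060000000500080000000800080001000200010006) (nat_lit 0x2800001000000c0000090000060000040000020000010000000fffff0)
  (DL.cons (nat_lit 0x1000100000000000000000000000000000000000000000000000000000000000000000000000000050000000800000000000000000000000000000000000000000000000000000000000000000000000000000000000000000001000500000000000800000000000000000000000000000000000000000000000000000000000000000000000000000000000000020006000100030000000500000000000500020006000000070001) (nat_lit 0x3c00002400000c0000090000060000040000020000010000000fffff0)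
  (DL.cons (nat_lit 0x200060000000000000000000000000000000000000000000000000000000000000000000000050000000000020006000000080000000000000000000000000000000000000000000000000000000000000000000000000000000000040008000000060002000000000000000000000000000000000000000000000000000000000000000000000000000800040000000200060003000000000000000000000000000000000000000000000000000000000000000000000000000000000005000600000005000500000004000000050007000800000000) (nat_lit 0x5300003a00002200000a0000060000030000000fffff0fffff0fffff0)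
  (DL.cons (nat_lit 0) (nat_lit 0)
  (DL.cons (nat_lit 0) (nat_lit 0)
  (DL.cons (nat_lit 0x1000200000001000200000000000000000000000000000000000000000000000000000000000000000000000000010001000000020000000000000000000000000000000000000000000000000000000000000000000000000000000000000000000000010000000000000000000100000001000000000001000200000002) (nat_lit 0x3c00002400000c0000080000050fffff0000030000010fffff0000000)
  (DL.cons (nat_lit 0x2000200000000000000000000000000000000000000000000000000000000000000000000000000010000000000000000000000000001000000000000000000000000000000000000000000000000000000000000000000000000000200000000000000010000000000000000000000000000000000000000000000000000000000000000000000000000000000020000000000010000000200000000000000000000000000000000000000000000000000000000000000000000000000000000000000010000000100000000000000000001) (nat_lit 0x5000003700001e0fffff0000060000030000000fffff0fffff0fffff0)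
  (DL.cons (nat_lit 0x2000100000000000000000000000000000000000000000000000000000000000000000000000000010000000200010000000100020000000200000000000000000000000000000000000000000000000000000000000000000000000000020001000000010002000100020000000000000000000000000000000000000000000000000000000000000000000000010001000000010001000000010000000000000000000000000000000000000000000000000000000000000000000000000000000000000001000000020000000000000000000000000000000000000000000000000000000000000000000000000000000100000000000200000002000000000000000000000000000000000000000000000000000000000000000000000000000000000001000000000001000100000002) (nat_lit 0x8000006600004d00003400001c0000040000000fffff0fffff0fffff0)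
  DL.nil))))))))

noncomputable def d39_3 : DL := (DL.cons (nat_lit 0x400000000000000000000000000000000000000000000000000000000000000000000000000000008000000060008000300050000000000000007000300010007000100010007000800070001) (nat_lit 0xf00000b0000080000050000030000010000000fffff0fffff0fffff0)
  (DL.cons (nat_lit 0x80000000700070000000000000000000000000000000000000000000000000000000000000000000000000000000200000000000600070000000700080000000500000008) (nat_lit 0x200000080fffff0000050000030000010000000fffff0fffff0fffff0)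
  (DL.cons (nat_lit 0x3000000000000000000000000000000000000000000000000000000000000000000000000000000000006000800000005000200000000000000000000000000000000000000000000000000000000000000000000000000030005000000060003000200000000000000000000000000000000000000000000000000000000000000000000000000000000000500020000000800010000000000000007000600000005000000000005) (nat_lit 0x3c00002400000c0000080000050000020000000fffff0fffff0fffff0)
  (DL.cons (nat_lit 0) (nat_lit 0)
  (DL.cons (nat_lit 0) (nat_lit 0)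
  (DL.cons (nat_lit 0x200020000000200020002000000000000000000000000000000000000000000000000000000000000000000000000000000000002000100000002000200000000000000000001000200000000) (nat_lit 0x2200000a0000060000030000000fffff0fffff0fffff0fffff0fffff0)
  (DL.cons (nat_lit 0x100000000000000000000000000000000000000000000000000000000000000000000000000020002000000010001000200020000000000000000000000000000000000000000000000000000000000000000000000000000000000000002000000000000000000000000000000000000000000000000000000000000000000000000000000000000000100020000000000020000000000000000000000000000000000000000000000000000000000000000000000000000000000000001000000010000000000000000000100010000) (nat_lit 0x510000380000200000080000050000020000000fffff0fffff0fffff0)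
  (DL.cons (nat_lit 0x200000000000000000000000000000000000000000000000000000000000000000000000000000002000000020002000200010000000000000000000000000000000000000000000000000000000000000000000000020002000000020002000000000000000000000000000000000000000000000000000000000000000000000000000000000000000000010001000000010000000000000000000000000000000000000000000000000000000000000000000000000000000000010000000100010001000000000000000000000000000000000000000000000000000000000000000000000000000000000000000200000002000200000001000000020001) (nat_lit 0x6900005000003700001f0000070000030000000fffff0fffff0fffff0)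
  DL.nil))))))))

noncomputable def d39_4 : DL := (DL.cons (nat_lit 0x7000600080008000800040008000000030000000000060006000800010006) (nat_lit 0xc0000090000060000040000020000010000000fffff0fffff0fffff0)
  (DL.cons (nat_lit 0x70000000000000000000000000000000000000000000000000000000000000000000000000000000200000005000400050004000000030000000200010002000700000001) (nat_lit 0xb0000080000050000030000010fffff0000000fffff0fffff0fffff0)
  (DL.cons (nat_lit 0x50000000000000000000000000000000000000000000000000000000000000000000000000002000100000004000000000000000000000000000000000000000000000000000000000000000000000000000000000000000000010008000000050008000000080000000800000007000100000000000200010008) (nat_lit 0x2600000e00000a0000070000040000020000000fffff0fffff0fffff0)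
  (DL.cons (nat_lit 0) (nat_lit 0)
  (DL.cons (nat_lit 0) (nat_lit 0)
  (DL.cons (nat_lit 0x1000000000000000000000000000000000000000000000000000000000000000000000000000000000002000000000000000100000001000000020000000200020000) (nat_lit 0xa0000060000030000000fffff0fffff0fffff0fffff0fffff0fffff0)
  (DL.cons (nat_lit 0x10000000000000000000000000000000000000000000000000000000000000000000000000000000000020000000000000000000000000000000000000000000000000000000000000000000000000000000000000000000200000000000000010000000000000000000000000000000000000000000000000000000000000000000000000000000000000002000000020002000000000000000100020000) (nat_lit 0x380000200000080000050000020000000fffff0fffff0fffff0fffff0)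
  (DL.cons (nat_lit 0x100000000000000000000000000000000000000000000000000000000000000000000000000020001000000000002000000000000000000000000000000000000000000000000000000000000000000000000000000000000000000000001000000020002000000000000000000000000000000000000000000000000000000000000000000000000000000000000000000000000000000000000000000000000000000000000000000000000000000000000000000000000000000000002000000000002000200000001000000020001000200000000) (nat_lit 0x5300003a00002200000a0000060000030000000fffff0fffff0fffff0)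
  DL.nil))))))))

noncomputable def d39_5 : DL := (DL.cons (nat_lit 0x1000300000001000000010001) (nat_lit 0x60000040000020000010000000fffff0fffff0fffff0fffff0fffff0)
  (DL.cons (nat_lit 0x8000000040000000000070000) (nat_lit 0x50000020fffff0000000fffff0fffff0fffff0fffff0fffff0fffff0)
  (DL.cons (nat_lit 0x5000000040000000000000000000400060000) (nat_lit 0x80000050000020000000fffff0fffff0fffff0fffff0fffff0fffff0)
  (DL.cons (nat_lit 0) (nat_lit 0)
  (DL.cons (nat_lit 0) (nat_lit 0)
  (DL.cons (nat_lit 8590000128) (nat_lit 0xfffff0000020000000fffff0fffff0fffff0fffff0fffff0fffff0fffff0)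
  (DL.cons (nat_lit 0x2000000000002000000000002000000020000000100000000) (nat_lit 0xa0000060000030000000fffff0fffff0fffff0fffff0fffff0fffff0)
  (DL.cons (nat_lit 0x1000000000000000000000000000000000000000000000000000000000000000000000000000000000000000000000000000100000000000000000000000000000000000000000000000000000000000000000000000000000000000000000000) (nat_lit 0x180fffff0000000fffff0fffff0fffff0fffff0fffff0fffff0fffff0)
  DL.nil))))))))

noncomputable def d39_6 : DL := (DL.cons (nat_lit 0x600000000000800050001) (nat_lit 0x40000020000010000000fffff0fffff0fffff0fffff0fffff0fffff0)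
  (DL.cons (nat_lit 0x300000000000000050001) (nat_lit 0x30000010fffff0fffff0000000fffff0fffff0fffff0fffff0fffff0)
  (DL.cons (nat_lit 0x60000000000000000000400050000) (nat_lit 0x50000020000000fffff0fffff0fffff0fffff0fffff0fffff0fffff0)
  (DL.cons (nat_lit 0) (nat_lit 0)
  (DL.cons (nat_lit 0) (nat_lit 0)
  (DL.cons (nat_lit 1) (nat_lit 0xfffff0fffff0fffff0fffff0fffff0fffff0fffff0fffff0fffff0)
  (DL.cons (nat_lit 0x1000000000002000000020000000100000000) (nat_lit 0x60000030000000fffff0fffff0fffff0fffff0fffff0fffff0fffff0)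
  (DL.cons (nat_lit 0x1000000000002000000000000000000000000000000000000000000000000000000000000000000000000000000000000000000010000000100000000) (nat_lit 0x1b0000030000000fffff0fffff0fffff0fffff0fffff0fffff0fffff0)
  DL.nil))))))))

noncomputable def d39_7 : DL := (DL.cons (nat_lit 0x8000800010001) (nat_lit 0x20000010000000fffff0fffff0fffff0fffff0fffff0fffff0fffff0)
  (DL.cons (nat_lit 0x7000700000007) (nat_lit 0x30000010fffff0000000fffff0fffff0fffff0fffff0fffff0fffff0)
  (DL.cons (nat_lit 1) (nat_lit 0xfffff0fffff0fffff0fffff0fffff0fffff0fffff0fffff0fffff0)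
  (DL.cons (nat_lit 0) (nat_lit 0)
  (DL.cons (nat_lit 0) (nat_lit 0)
  (DL.cons (nat_lit 131072) (nat_lit 0xfffff0fffff0fffff0fffff0fffff0fffff0fffff0fffff0fffff0)
  (DL.cons (nat_lit 0x200000001000000000000000200020000) (nat_lit 0x70000040000020000000fffff0fffff0fffff0fffff0fffff0fffff0)
  (DL.cons (nat_lit 0x200000000000000000001) (nat_lit 0xfffff0000030000000fffff0fffff0fffff0fffff0fffff0fffff0fffff0)
  DL.nil))))))))

noncomputable def d39_8 : DL := (DL.cons (nat_lit 131073) (nat_lit 0x10000000fffff0fffff0fffff0fffff0fffff0fffff0fffff0fffff0)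
  (DL.cons (nat_lit 0) (nat_lit 0)
  (DL.cons (nat_lit 34359738376) (nat_lit 0x10fffff0000000fffff0fffff0fffff0fffff0fffff0fffff0fffff0)
  (DL.cons (nat_lit 0) (nat_lit 0)
  (DL.cons (nat_lit 0) (nat_lit 0)
  (DL.cons (nat_lit 2) (nat_lit 0xfffff0000000fffff0fffff0fffff0fffff0fffff0fffff0fffff0fffff0)
  (DL.cons (nat_lit 0x10000000000000002) (nat_lit 0x20000000fffff0fffff0fffff0fffff0fffff0fffff0fffff0fffff0)
  (DL.cons (nat_lit 0x10000000000000000000100010000) (nat_lit 0x50000020000000fffff0fffff0fffff0fffff0fffff0fffff0fffff0)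
  DL.nil))))))))

noncomputable def d39_9 : DL := (DL.cons (nat_lit 1) (nat_lit 0xfffff0fffff0fffff0fffff0fffff0fffff0fffff0fffff0fffff0)
  (DL.cons (nat_lit 7) (nat_lit 0xfffff0000000fffff0fffff0fffff0fffff0fffff0fffff0fffff0fffff0)
  (DL.cons (nat_lit 3) (nat_lit 0xfffff0000000fffff0fffff0fffff0fffff0fffff0fffff0fffff0fffff0)
  (DL.cons (nat_lit 0) (nat_lit 0)
  (DL.cons (nat_lit 0) (nat_lit 0)
  (DL.cons (nat_lit 0) (nat_lit 0)
  (DL.cons (nat_lit 0x1000100000002) (nat_lit 0x30000010fffff0000000fffff0fffff0fffff0fffff0fffff0fffff0)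
  (DL.cons (nat_lit 131072) (nat_lit 0xfffff0000000fffff0fffff0fffff0fffff0fffff0fffff0fffff0fffff0)
  DL.nil))))))))

noncomputable def d39 : DLL := (DLL.cons d39_0
  (DLL.cons d39_1
  (DLL.cons d39_2
  (DLL.cons d39_3
  (DLL.cons d39_4
  (DLL.cons d39_5
  (DLL.cons d39_6
  (DLL.cons d39_7
  (DLL.cons d39_8
  (DLL.cons d39_9
  DLL.nil))))))))))

noncomputable def m39 : TL := (TL.cons ⟨fun _ => nat_lit 0⟩
  (TL.cons ⟨fun _ => nat_lit 0⟩
  (TL.cons ⟨fun _ => nat_lit 0⟩
  (TL.cons ⟨fun _ => nat_lit 0⟩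
  (TL.cons ⟨fun _ => nat_lit 0⟩
  (TL.cons ⟨fun _ => nat_lit 0⟩
  (TL.cons ⟨fun _ => nat_lit 0⟩
  (TL.cons ⟨fun _ => nat_lit 0⟩
  (TL.cons ⟨fun _ => nat_lit 0⟩
  (TL.cons ⟨fun _ => nat_lit 0⟩
  (TL.cons ⟨fun _ => nat_lit 0⟩
  (TL.cons ⟨fun _ => nat_lit 0⟩
  (TL.cons ⟨fun _ => nat_lit 0⟩
  (TL.cons ⟨fun _ => nat_lit 0⟩
  (TL.cons ⟨fun _ => nat_lit 0⟩
  (TL.cons ⟨fun _ => nat_lit 0⟩
  (TL.cons ⟨fun _ => nat_lit 0⟩
  (TL.cons ⟨fun _ => nat_lit 0⟩
  (TL.cons ⟨fun _ => nat_lit 0⟩
  (TL.cons ⟨fun _ => nat_lit 0⟩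
  (TL.cons ⟨fun _ => nat_lit 0⟩
  (TL.cons ⟨fun _ => nat_lit 0⟩
  (TL.cons ⟨fun _ => nat_lit 0⟩
  (TL.cons ⟨fun _ => nat_lit 0⟩
  (TL.cons ⟨fun _ => nat_lit 0⟩
  (TL.cons ⟨fun _ => nat_lit 0⟩
  (TL.cons ⟨fun _ => nat_lit 0⟩
  (TL.cons ⟨fun _ => nat_lit 0⟩
  (TL.cons ⟨fun _ => nat_lit 0⟩
  (TL.cons ⟨fun _ => nat_lit 0⟩
  (TL.cons ⟨fun _ => nat_lit 0⟩
  (TL.cons ⟨fun _ => nat_lit 0⟩
  (TL.cons ⟨fun _ => nat_lit 0⟩
  (TL.cons ⟨fun _ => nat_lit 0⟩
  (TL.cons ⟨fun _ => nat_lit 0⟩
  (TL.cons ⟨fun _ => nat_lit 0⟩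
  (TL.cons ⟨fun _ => nat_lit 0⟩
  (TL.cons ⟨fun _ => nat_lit 0⟩
  (TL.cons ⟨fun _ => nat_lit 0⟩
  (TL.cons ⟨fun _ => nat_lit 0⟩
  (TL.cons ⟨fun _ => nat_lit 0⟩
  (TL.cons ⟨fun _ => nat_lit 0⟩
  (TL.cons ⟨fun _ => nat_lit 0⟩
  (TL.cons ⟨fun _ => nat_lit 0⟩
  (TL.cons ⟨fun _ => nat_lit 0⟩
  (TL.cons ⟨fun _ => nat_lit 0⟩
  (TL.cons ⟨fun _ => nat_lit 0⟩
  (TL.cons ⟨fun _ => nat_lit 0⟩
  (TL.cons ⟨fun _ => nat_lit 0⟩
  (TL.cons ⟨fun _ => nat_lit 0⟩
  (TL.cons ⟨fun _ => nat_lit 0⟩
  (TL.cons ⟨fun _ => nat_lit 0⟩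
  (TL.cons ⟨fun _ => nat_lit 0⟩
  (TL.cons ⟨fun _ => nat_lit 0⟩
  (TL.cons ⟨fun _ => nat_lit 0⟩
  (TL.cons ⟨fun _ => nat_lit 0⟩
  (TL.cons ⟨fun _ => nat_lit 0⟩
  (TL.cons ⟨fun _ => nat_lit 0⟩
  (TL.cons ⟨fun _ => nat_lit 0⟩
  (TL.cons ⟨fun _ => nat_lit 0⟩
  (TL.cons ⟨fun x => (x (nat_lit 0) (nat_lit 0) (nat_lit 0))⟩
  (TL.cons ⟨fun x => (x (nat_lit 0) (nat_lit 1) (nat_lit 0))⟩
  (TL.cons ⟨fun x => (Nat.add (x (nat_lit 0) (nat_lit 5) (nat_lit 0)) (x (nat_lit 1) (nat_lit 0) (nat_lit 0)))⟩
  (TL.cons ⟨fun x => (x (nat_lit 1) (nat_lit 1) (nat_lit 0))⟩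
  (TL.cons ⟨fun x => (Nat.add (x (nat_lit 0) (nat_lit 2) (nat_lit 0)) (Nat.add (x (nat_lit 1) (nat_lit 5) (nat_lit 0)) (x (nat_lit 2) (nat_lit 0) (nat_lit 0))))⟩
  (TL.cons ⟨fun x => (Nat.add (x (nat_lit 0) (nat_lit 6) (nat_lit 0)) (x (nat_lit 2) (nat_lit 1) (nat_lit 0)))⟩
  (TL.cons ⟨fun x => (Nat.add (x (nat_lit 1) (nat_lit 2) (nat_lit 0)) (Nat.add (x (nat_lit 2) (nat_lit 5) (nat_lit 0)) (x (nat_lit 3) (nat_lit 0) (nat_lit 0))))⟩
  (TL.cons ⟨fun x => (Nat.add (x (nat_lit 1) (nat_lit 6) (nat_lit 0)) (x (nat_lit 3) (nat_lit 1) (nat_lit 0)))⟩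
  (TL.cons ⟨fun x => (Nat.add (Nat.add (x (nat_lit 0) (nat_lit 7) (nat_lit 0)) (x (nat_lit 2) (nat_lit 2) (nat_lit 0))) (Nat.add (x (nat_lit 3) (nat_lit 5) (nat_lit 0)) (x (nat_lit 4) (nat_lit 0) (nat_lit 0))))⟩
  (TL.cons ⟨fun x => (Nat.add (x (nat_lit 2) (nat_lit 6) (nat_lit 0)) (x (nat_lit 4) (nat_lit 1) (nat_lit 0)))⟩
  (TL.cons ⟨fun x => (Nat.add (Nat.add (x (nat_lit 1) (nat_lit 7) (nat_lit 0)) (x (nat_lit 3) (nat_lit 2) (nat_lit 0))) (Nat.add (x (nat_lit 4) (nat_lit 5) (nat_lit 0)) (x (nat_lit 5) (nat_lit 0) (nat_lit 0))))⟩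
  (TL.cons ⟨fun x => (Nat.add (x (nat_lit 3) (nat_lit 6) (nat_lit 0)) (x (nat_lit 5) (nat_lit 1) (nat_lit 0)))⟩
  (TL.cons ⟨fun x => (Nat.add (Nat.add (x (nat_lit 2) (nat_lit 7) (nat_lit 0)) (x (nat_lit 4) (nat_lit 2) (nat_lit 0))) (Nat.add (x (nat_lit 5) (nat_lit 5) (nat_lit 0)) (x (nat_lit 6) (nat_lit 0) (nat_lit 0))))⟩
  (TL.cons ⟨fun x => (Nat.add (x (nat_lit 0) (nat_lit 3) (nat_lit 0)) (Nat.add (x (nat_lit 4) (nat_lit 6) (nat_lit 0)) (x (nat_lit 6) (nat_lit 1) (nat_lit 0))))⟩
  (TL.cons ⟨fun x => (Nat.add (Nat.add (x (nat_lit 0) (nat_lit 8) (nat_lit 0)) (x (nat_lit 3) (nat_lit 7) (nat_lit 0))) (Nat.add (x (nat_lit 5) (nat_lit 2) (nat_lit 0)) (Nat.add (x (nat_lit 6) (nat_lit 5) (nat_lit 0)) (x (nat_lit 7) (nat_lit 0) (nat_lit 0)))))⟩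
  (TL.cons ⟨fun x => (Nat.add (x (nat_lit 1) (nat_lit 3) (nat_lit 0)) (Nat.add (x (nat_lit 5) (nat_lit 6) (nat_lit 0)) (x (nat_lit 7) (nat_lit 1) (nat_lit 0))))⟩
  (TL.cons ⟨fun x => (Nat.add (Nat.add (x (nat_lit 1) (nat_lit 8) (nat_lit 0)) (x (nat_lit 4) (nat_lit 7) (nat_lit 0))) (Nat.add (x (nat_lit 6) (nat_lit 2) (nat_lit 0)) (Nat.add (x (nat_lit 7) (nat_lit 5) (nat_lit 0)) (x (nat_lit 8) (nat_lit 0) (nat_lit 0)))))⟩
  (TL.cons ⟨fun x => (Nat.add (Nat.add (x (nat_lit 0) (nat_lit 9) (nat_lit 0)) (x (nat_lit 2) (nat_lit 3) (nat_lit 0))) (Nat.add (x (nat_lit 6) (nat_lit 6) (nat_lit 0)) (x (nat_lit 8) (nat_lit 1) (nat_lit 0))))⟩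
  (TL.cons ⟨fun x => (Nat.add (Nat.add (x (nat_lit 2) (nat_lit 8) (nat_lit 0)) (x (nat_lit 5) (nat_lit 7) (nat_lit 0))) (Nat.add (x (nat_lit 7) (nat_lit 2) (nat_lit 0)) (Nat.add (x (nat_lit 8) (nat_lit 5) (nat_lit 0)) (x (nat_lit 9) (nat_lit 0) (nat_lit 0)))))⟩
  (TL.cons ⟨fun x => (Nat.add (Nat.add (x (nat_lit 1) (nat_lit 9) (nat_lit 0)) (x (nat_lit 3) (nat_lit 3) (nat_lit 0))) (Nat.add (x (nat_lit 7) (nat_lit 6) (nat_lit 0)) (x (nat_lit 9) (nat_lit 1) (nat_lit 0))))⟩
  (TL.cons ⟨fun x => (Nat.add (Nat.add (x (nat_lit 3) (nat_lit 8) (nat_lit 0)) (x (nat_lit 6) (nat_lit 7) (nat_lit 0))) (Nat.add (x (nat_lit 8) (nat_lit 2) (nat_lit 0)) (x (nat_lit 9) (nat_lit 5) (nat_lit 0))))⟩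
  (TL.cons ⟨fun x => (Nat.add (x (nat_lit 2) (nat_lit 9) (nat_lit 0)) (Nat.add (x (nat_lit 4) (nat_lit 3) (nat_lit 0)) (x (nat_lit 8) (nat_lit 6) (nat_lit 0))))⟩
  (TL.cons ⟨fun x => (Nat.add (x (nat_lit 4) (nat_lit 8) (nat_lit 0)) (Nat.add (x (nat_lit 7) (nat_lit 7) (nat_lit 0)) (x (nat_lit 9) (nat_lit 2) (nat_lit 0))))⟩
  (TL.cons ⟨fun x => (Nat.add (x (nat_lit 3) (nat_lit 9) (nat_lit 0)) (Nat.add (x (nat_lit 5) (nat_lit 3) (nat_lit 0)) (x (nat_lit 9) (nat_lit 6) (nat_lit 0))))⟩
  (TL.cons ⟨fun x => (Nat.add (x (nat_lit 5) (nat_lit 8) (nat_lit 0)) (x (nat_lit 8) (nat_lit 7) (nat_lit 0)))⟩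
  (TL.cons ⟨fun x => (Nat.add (x (nat_lit 4) (nat_lit 9) (nat_lit 0)) (x (nat_lit 6) (nat_lit 3) (nat_lit 0)))⟩
  (TL.cons ⟨fun x => (Nat.add (x (nat_lit 0) (nat_lit 10) (nat_lit 0)) (Nat.add (x (nat_lit 6) (nat_lit 8) (nat_lit 0)) (x (nat_lit 9) (nat_lit 7) (nat_lit 0))))⟩
  (TL.cons ⟨fun x => (Nat.add (x (nat_lit 5) (nat_lit 9) (nat_lit 0)) (x (nat_lit 7) (nat_lit 3) (nat_lit 0)))⟩
  (TL.cons ⟨fun x => (Nat.add (x (nat_lit 1) (nat_lit 10) (nat_lit 0)) (x (nat_lit 7) (nat_lit 8) (nat_lit 0)))⟩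
  (TL.cons ⟨fun x => (Nat.add (x (nat_lit 6) (nat_lit 9) (nat_lit 0)) (x (nat_lit 8) (nat_lit 3) (nat_lit 0)))⟩
  (TL.cons ⟨fun x => (Nat.add (x (nat_lit 2) (nat_lit 10) (nat_lit 0)) (x (nat_lit 8) (nat_lit 8) (nat_lit 0)))⟩
  TL.nil)))))))))))))))))))))))))))))))))))))))))))))))))))))))))))))))))))))))))))))))))))))))))))

noncomputable def m39_t : List TT := [.zero,
  .zero,
  .zero,
  .zero,
  .zero,
  .zero,
  .zero,
  .zero,
  .zero,
  .zero,
  .zero,
  .zero,
  .zero,
  .zero,
  .zero,
  .zero,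
  .zero,
  .zero,
  .zero,
  .zero,
  .zero,
  .zero,
  .zero,
  .zero,
  .zero,
  .zero,
  .zero,
  .zero,
  .zero,
  .zero,
  .zero,
  .zero,
  .zero,
  .zero,
  .zero,
  .zero,
  .zero,
  .zero,
  .zero,
  .zero,
  .zero,
  .zero,
  .zero,
  .zero,
  .zero,
  .zero,
  .zero,
  .zero,
  .zero,
  .zero,
  .zero,
  .zero,
  .zero,
  .zero,
  .zero,
  .zero,
  .zero,
  .zero,
  .zero,
  .zero,
  (.leaf (nat_lit 0) (nat_lit 0) (nat_lit 0)),
  (.leaf (nat_lit 0) (nat_lit 1) (nat_lit 0)),
  (.add (.leaf (nat_lit 0) (nat_lit 5) (nat_lit 0)) (.leaf (nat_lit 1) (nat_lit 0) (nat_lit 0))),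
  (.leaf (nat_lit 1) (nat_lit 1) (nat_lit 0)),
  (.add (.leaf (nat_lit 0) (nat_lit 2) (nat_lit 0)) (.add (.leaf (nat_lit 1) (nat_lit 5) (nat_lit 0)) (.leaf (nat_lit 2) (nat_lit 0) (nat_lit 0)))),
  (.add (.leaf (nat_lit 0) (nat_lit 6) (nat_lit 0)) (.leaf (nat_lit 2) (nat_lit 1) (nat_lit 0))),
  (.add (.leaf (nat_lit 1) (nat_lit 2) (nat_lit 0)) (.add (.leaf (nat_lit 2) (nat_lit 5) (nat_lit 0)) (.leaf (nat_lit 3) (nat_lit 0) (nat_lit 0)))),
  (.add (.leaf (nat_lit 1) (nat_lit 6) (nat_lit 0)) (.leaf (nat_lit 3) (nat_lit 1) (nat_lit 0))),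
  (.add (.add (.leaf (nat_lit 0) (nat_lit 7) (nat_lit 0)) (.leaf (nat_lit 2) (nat_lit 2) (nat_lit 0))) (.add (.leaf (nat_lit 3) (nat_lit 5) (nat_lit 0)) (.leaf (nat_lit 4) (nat_lit 0) (nat_lit 0)))),
  (.add (.leaf (nat_lit 2) (nat_lit 6) (nat_lit 0)) (.leaf (nat_lit 4) (nat_lit 1) (nat_lit 0))),
  (.add (.add (.leaf (nat_lit 1) (nat_lit 7) (nat_lit 0)) (.leaf (nat_lit 3) (nat_lit 2) (nat_lit 0))) (.add (.leaf (nat_lit 4) (nat_lit 5) (nat_lit 0)) (.leaf (nat_lit 5) (nat_lit 0) (nat_lit 0)))),
  (.add (.leaf (nat_lit 3) (nat_lit 6) (nat_lit 0)) (.leaf (nat_lit 5) (nat_lit 1) (nat_lit 0))),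
  (.add (.add (.leaf (nat_lit 2) (nat_lit 7) (nat_lit 0)) (.leaf (nat_lit 4) (nat_lit 2) (nat_lit 0))) (.add (.leaf (nat_lit 5) (nat_lit 5) (nat_lit 0)) (.leaf (nat_lit 6) (nat_lit 0) (nat_lit 0)))),
  (.add (.leaf (nat_lit 0) (nat_lit 3) (nat_lit 0)) (.add (.leaf (nat_lit 4) (nat_lit 6) (nat_lit 0)) (.leaf (nat_lit 6) (nat_lit 1) (nat_lit 0)))),
  (.add (.add (.leaf (nat_lit 0) (nat_lit 8) (nat_lit 0)) (.leaf (nat_lit 3) (nat_lit 7) (nat_lit 0))) (.add (.leaf (nat_lit 5) (nat_lit 2) (nat_lit 0)) (.add (.leaf (nat_lit 6) (nat_lit 5) (nat_lit 0)) (.leaf (nat_lit 7) (nat_lit 0) (nat_lit 0))))),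
  (.add (.leaf (nat_lit 1) (nat_lit 3) (nat_lit 0)) (.add (.leaf (nat_lit 5) (nat_lit 6) (nat_lit 0)) (.leaf (nat_lit 7) (nat_lit 1) (nat_lit 0)))),
  (.add (.add (.leaf (nat_lit 1) (nat_lit 8) (nat_lit 0)) (.leaf (nat_lit 4) (nat_lit 7) (nat_lit 0))) (.add (.leaf (nat_lit 6) (nat_lit 2) (nat_lit 0)) (.add (.leaf (nat_lit 7) (nat_lit 5) (nat_lit 0)) (.leaf (nat_lit 8) (nat_lit 0) (nat_lit 0))))),
  (.add (.add (.leaf (nat_lit 0) (nat_lit 9) (nat_lit 0)) (.leaf (nat_lit 2) (nat_lit 3) (nat_lit 0))) (.add (.leaf (nat_lit 6) (nat_lit 6) (nat_lit 0)) (.leaf (nat_lit 8) (nat_lit 1) (nat_lit 0)))),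
  (.add (.add (.leaf (nat_lit 2) (nat_lit 8) (nat_lit 0)) (.leaf (nat_lit 5) (nat_lit 7) (nat_lit 0))) (.add (.leaf (nat_lit 7) (nat_lit 2) (nat_lit 0)) (.add (.leaf (nat_lit 8) (nat_lit 5) (nat_lit 0)) (.leaf (nat_lit 9) (nat_lit 0) (nat_lit 0))))),
  (.add (.add (.leaf (nat_lit 1) (nat_lit 9) (nat_lit 0)) (.leaf (nat_lit 3) (nat_lit 3) (nat_lit 0))) (.add (.leaf (nat_lit 7) (nat_lit 6) (nat_lit 0)) (.leaf (nat_lit 9) (nat_lit 1) (nat_lit 0)))),
  (.add (.add (.leaf (nat_lit 3) (nat_lit 8) (nat_lit 0)) (.leaf (nat_lit 6) (nat_lit 7) (nat_lit 0))) (.add (.leaf (nat_lit 8) (nat_lit 2) (nat_lit 0)) (.leaf (nat_lit 9) (nat_lit 5) (nat_lit 0)))),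
  (.add (.leaf (nat_lit 2) (nat_lit 9) (nat_lit 0)) (.add (.leaf (nat_lit 4) (nat_lit 3) (nat_lit 0)) (.leaf (nat_lit 8) (nat_lit 6) (nat_lit 0)))),
  (.add (.leaf (nat_lit 4) (nat_lit 8) (nat_lit 0)) (.add (.leaf (nat_lit 7) (nat_lit 7) (nat_lit 0)) (.leaf (nat_lit 9) (nat_lit 2) (nat_lit 0)))),
  (.add (.leaf (nat_lit 3) (nat_lit 9) (nat_lit 0)) (.add (.leaf (nat_lit 5) (nat_lit 3) (nat_lit 0)) (.leaf (nat_lit 9) (nat_lit 6) (nat_lit 0)))),
  (.add (.leaf (nat_lit 5) (nat_lit 8) (nat_lit 0)) (.leaf (nat_lit 8) (nat_lit 7) (nat_lit 0))),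
  (.add (.leaf (nat_lit 4) (nat_lit 9) (nat_lit 0)) (.leaf (nat_lit 6) (nat_lit 3) (nat_lit 0))),
  (.add (.leaf (nat_lit 0) (nat_lit 10) (nat_lit 0)) (.add (.leaf (nat_lit 6) (nat_lit 8) (nat_lit 0)) (.leaf (nat_lit 9) (nat_lit 7) (nat_lit 0)))),
  (.add (.leaf (nat_lit 5) (nat_lit 9) (nat_lit 0)) (.leaf (nat_lit 7) (nat_lit 3) (nat_lit 0))),
  (.add (.leaf (nat_lit 1) (nat_lit 10) (nat_lit 0)) (.leaf (nat_lit 7) (nat_lit 8) (nat_lit 0))),
  (.add (.leaf (nat_lit 6) (nat_lit 9) (nat_lit 0)) (.leaf (nat_lit 8) (nat_lit 3) (nat_lit 0))),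
  (.add (.leaf (nat_lit 2) (nat_lit 10) (nat_lit 0)) (.leaf (nat_lit 8) (nat_lit 8) (nat_lit 0)))]

theorem m39_eq : m39 = ofL m39_t := rfl

noncomputable def d40_0 : DL := (DL.cons (nat_lit 0x3000000000003000000000000000000000000000000000000000000000000000000000000000000000000000000000000000000000003000000000003000300000000000000000000000000000000000000000000000000000000000000000000000000030000000000060000000300000000000600000000000100070001) (nat_lit 0x3a0000210000090fffff0000050000020fffff0fffff0000010000000)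
  (DL.cons (nat_lit 0x100000000000000000000000000000000000000000000000000000000000000000000000000000000000000020000000000040000000100000000000000000000000000000000000000000000000000000000000000000000000000060000000000070000000800000000000000000000000000000000000000000000000000000000000000000000000000000000000000040000000000000000000000000000000000000000000000000000000000000000000000000000000000000000000500000000000200020000000000000000000000000000000000000000000000000000000000000000000000000000000000000002000000030000000000080000) (nat_lit 0x6700004e00003500001d0000050fffff0000020fffff0000000fffff0)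
  (DL.cons (nat_lit 0x300000000000000000000000000000000000000000000000000000000000000000000000000070000000000060000000000050000000000040000000000000000000000000000000000000000000000000000000000000000000000000005000000000006000000010000000000000000000000000000000000000000000000000000000000000000000000000006000000000006000000000000000000000000000000000000000000000000000000000000000000000000000000000000000000000005000000000001000200000000000000000000000000000000000000000000000000000000000000000000000000030000000000030000000100000000000000000000000000000000000000000000000000000000000000000000000000000000000000050000000700000000) (nat_lit 0x7f00006500004c00003300001b0000030000000fffff0fffff0fffff0)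
  (DL.cons (nat_lit 0) (nat_lit 0)
  (DL.cons (nat_lit 0) (nat_lit 0)
  (DL.cons (nat_lit 0x2000000000000000000000000000000000000000000000000000000000000000000000000000100000000000100000001000000000000000000000000000000000000000000000000000000000000000000000000000100000000000100000000000200000000000000000000000000000000000000000000000000000000000000000000000000000000000000000000000000000000000000000000000000000000000000000000000000000000000000000000000000000000000200000000) (nat_lit 0x490000300fffff0000180000000fffff0fffff0fffff0fffff0fffff0)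
  (DL.cons (nat_lit 0x200000000000100000000000000000000000000000000000000000000000000000000000000000000000000010000000000010000000000000000000000000000000000000000000000000000000000000000000000000000000000000001000000000001000000000001000000000000000000000000000000000000000000000000000000000000000000000000000000000000000100000000000100000002000000000000000000000000000000000000000000000000000000000000000000000000000000000000000100000001000000000000000000000000000000000000000000000000000000000000000000000000000000000000000100000000) (nat_lit 0x6600004c0000320000190000000fffff0fffff0fffff0fffff0fffff0)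
  (DL.cons (nat_lit 0x10000000000010000000000000000000000000000000000000000000000000000000000000000000000000000000000000000000000010000000000000000000000000000000000000000000000000000000000000000000000000000000000000000000000000000000000000000000000000000000000000000000000000000000000000000000200000000000000000000000100000000000000000000000000000000000000000000000000000000000000000000000000020000000000020000000000010000000000000000000000000000000000000000000000000000000000000000000000000000000000000001000000000002000000010000000000000000000000000000000000000000000000000000000000000000000000000001000000000000000000000001000000000000000000000000000000000000000000000000000000000000000000000000000000000000000100000000) (nat_lit 0x9500006600004c0000320000190000000fffff0fffff0fffff0fffff0)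
  DL.nil))))))))

noncomputable def d40_1 : DL := (DL.cons (nat_lit 0x30000000000040003000000000000000000000000000000000000000000000000000000000000000000000000000400000000000000000000000000000000000000000000000000000000000000000000000000000000000000000000000000000003000000000000000000000003000000030000000300000001000000020001) (nat_lit 0x3d00002500000d0000090000060000040000020000010000000fffff0)
  (DL.cons (nat_lit 0x8000000000000000000000000000000000000000000000000000000000000000000000000000400000000000400000003000000000000000000000000000000000000000000000000000000000000000000000000000000000000000600000000000400000000000000000000000000000000000000000000000000000000000000000000000000000000000000060000000600000000000400000000000100000004) (nat_lit 0x3a0000210fffff0000090000060000030fffff0000010fffff0000000)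
  (DL.cons (nat_lit 0x1000000000004000000070000000000000000000000000000000000000000000000000000000000000000000000000005000000000002000000000000000000000000000000000000000000000000000000000000000000000000000000000000000000000006000000000000000800000000000000000000000000000000000000000000000000000000000000000000000000080000000000050000000000000000000000000000000000000000000000000000000000000000000000000000000000000000000500000000000200000000000000000008) (nat_lit 0x6800004f00003600001e0000060000030000000fffff0fffff0fffff0)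
  (DL.cons (nat_lit 0) (nat_lit 0)
  (DL.cons (nat_lit 0) (nat_lit 0)
  (DL.cons (nat_lit 0x10000000000000000000000000000000000000000000000000000000000000000000000000001000000000000000000000000000000000000000000000000000000000000000000000000000000000000000000000000000000000000000000000001000100000000000000000000000000000000000000000000000000000000000000000000000000000000000000010000000200000000000100010000) (nat_lit 0x3700001e0000060fffff0000020fffff0000000fffff0fffff0fffff0)
  (DL.cons (nat_lit 0x10000000000000000000000000000000000000000000000000000000000000000000000000000000000000000000000000002000000000000000000000000000000000000000000000000000000000000000000000000000000000001000000000001000000000000000000000000000000000000000000000000000000000000000000000000000000000000000000000002000000000002000000000001) (nat_lit 0xfffff00003600001d0000040fffff0000000fffff0fffff0fffff0fffff0)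
  (DL.cons (nat_lit 0x10000000000000000000000000000000000000000000000000000000000000000000000000000000000000001000000000000000000000000000000000000000000000000000000000000000000000000000000000000000200000000000100000000000000000000000000000000000000000000000000000000000000000000000000010000000000010000000000010000000000010000000000000000000000000000000000000000000000000000000000000000000000000002000000000001000000020000000000000000000000000000000000000000000000000000000000000000000000000001000000000001000000000000000000000000000000000000000000000000000000000000000000000000000000000000000000000002000000000002000200000000000000000000000000000000000000000000000000000000000000000000000000000000000000000000) (nat_lit 0x7e00006400004a0000310000180fffff0000000fffff0fffff0fffff0)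
  DL.nil))))))))

noncomputable def d40_2 : DL := (DL.cons (nat_lit 0x50000000000000000000000000000000000000000000000000000000000000000000000000002000000000006000000010000000000000000000000000000000000000000000000000000000000000000000000000000000800060001000000030000000000030003000000000001000000020001) (nat_lit 0x2300000b0000070fffff0000040000020000010000000fffff0fffff0)
  (DL.cons (nat_lit 0x100000000000000000000000000000000000000000000000000000000000000000000000000000000000000010000000000000000000000000000000000000000000000000000000000000000000000000000000000000000000100000000000000050000000000000000000000000000000000000000000000000000000000000000000000000000000000000003000000020000000000000000000400000008000800000004) (nat_lit 0x3b00002300000b0000080000050000030000010fffff0000000fffff0)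
  (DL.cons (nat_lit 0x10000000000000000000000000000000000000000000000000000000000000000000000000002000000000006000000000000000000000000000000000000000000000000000000000000000000000000000000000000000000000007000000000008000400000000000000000000000000000000000000000000000000000000000000000000000000010000000000020000000000000000000000000000000000000000000000000000000000000000000000000000000000000000000500000000000500000000000300000000000100070000) (nat_lit 0x520000390000210000090000050000020000000fffff0fffff0fffff0)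
  (DL.cons (nat_lit 0) (nat_lit 0)
  (DL.cons (nat_lit 0) (nat_lit 0)
  (DL.cons (nat_lit 0x20000000000020000000000000000000000000000000000000000000000000000000000000000000000000000000000000000000100000000000000000000000200000001000000020000) (nat_lit 0xfffff0000210000090000050000020000000fffff0fffff0fffff0fffff0)
  (DL.cons (nat_lit 0x200000000000000000002000000000000000000000000000000000000000000000000000000000000000000000000000100000000000000000002000000000000000000000000000000000000000000000000000000000000000000000000000000000000000200000000000000000000000000000000000000000000000000000000000000000000000000000000000000000002000000000001000000020000000100000000) (nat_lit 0x5000003700001e0000060fffff0000030000000fffff0fffff0fffff0)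
  (DL.cons (nat_lit 0x10000000000020000000000020000000000000000000000000000000000000000000000000000000000000000000000000000000000000001000000000002000000010000000000000000000000000000000000000000000000000000000000000000000000000000000000000002000000000000000000000000000000000000000000000000000000000000000000000000000000000000000000000000000000000001000100000000000000000000000000000000000000000000000000000000000000000000000000010000000000000000000100000000000000000000000000000000000000000000000000000000000000000000000000000000000000020000) (nat_lit 0x7c0000620000490000300000180000000fffff0fffff0fffff0fffff0)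
  DL.nil))))))))

noncomputable def d40_3 : DL := (DL.cons (nat_lit 0x10000000000000000000000000000000000000000000000000000000000000000000000000000000800060001000800060000000000070001000600000002000100000001000100040001) (nat_lit 0xe00000a0000070000040000020000010000000fffff0fffff0fffff0)
  (DL.cons (nat_lit 0x600000000000400070000000000000000000000000000000000000000000000000000000000000000000000000000000000000002000000020000000000000000000800040000) (nat_lit 0x200000080000050000020fffff0000000fffff0fffff0fffff0fffff0)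
  (DL.cons (nat_lit 0x3000000000004000100000000000000000000000000000000000000000000000000000000000000000000000000000000000000000000000700000000000600000006000000060000) (nat_lit 0x210000090fffff0000050000020000000fffff0fffff0fffff0fffff0)
  (DL.cons (nat_lit 0) (nat_lit 0)
  (DL.cons (nat_lit 0) (nat_lit 0)
  (DL.cons (nat_lit 0x2000000000000000000000000000000000000000000000000000000000000000000000000000100000000000100000000000000000000000000000000000000000000000000000000000000000000000000000000000000000002000000000002000000000001) (nat_lit 0x1c0000040000000fffff0fffff0fffff0fffff0fffff0fffff0fffff0)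
  (DL.cons (nat_lit 0x2000000000000000000000000000000000000000000000000000000000000000000000000000200000000000100000000000000000000000000000000000000000000000000000000000000000000000000000000000000000000000100000000000000000000000000000000000000000000000000000000000000000000000000000000000000000002000000000001000100000000000000000000000000000000000000000000000000000000000000000000000000000000000000000000000200000000) (nat_lit 0x4c00003300001b0000030fffff0000000fffff0fffff0fffff0fffff0)
  (DL.cons (nat_lit 0x10000000000000000000000000000000000000000000000000000000000000000000000000001000000000000000000020000000000000000000000000000000000000000000000000000000000000000000000000000000000000000000000000000000000000000000000000000000000000000000000000000000000000000000000000000000000000000000000000002000000000000000000000000000000000000000000000000000000000000000000000000000000010000000000010000000000000000000000000000000000000000000000000000000000000000000000000000000000000000000200000000000200000000000000000001)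 (nat_lit 0x6800004f00003600001e0000060000030000000fffff0fffff0fffff0)
  DL.nil))))))))

noncomputable def d40_4 : DL := (DL.cons (nat_lit 0x400000006000100070000000000010001000800010001) (nat_lit 0xb0000080000050000030000010000000fffff0fffff0fffff0fffff0)
  (DL.cons (nat_lit 0x200000000000000000000000000000000000000000000000000000000000000000000000000000000000000040000000800000000000000000004000300000007) (nat_lit 0x90000060000030000010fffff0fffff0000000fffff0fffff0fffff0)
  (DL.cons (nat_lit 0x70000000000000000000000000000000000000000000000000000000000000000000000000000000000000000000000000000000000000000000000000000000000000000000000000000000000000000000000000000000000040000000000020000000000040000000400000001000000000005) (nat_lit 0x2300000b0000070000040000010fffff0000000fffff0fffff0fffff0)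
  (DL.cons (nat_lit 0) (nat_lit 0)
  (DL.cons (nat_lit 0) (nat_lit 0)
  (DL.cons (nat_lit 0x100000000000100000000000000000002000000020000000000000002) (nat_lit 0xc0000080000050000020000000fffff0fffff0fffff0fffff0fffff0)
  (DL.cons (nat_lit 0x100010000000000000000000000000000000000000000000000000000000000000000000000000000000000000000000000000000000100020000) (nat_lit 0xfffff00001d0000050fffff0000020fffff0000000fffff0fffff0fffff0)
  (DL.cons (nat_lit 0x20000000000000000000000000000000000000000000000000000000000000000000000000002000000000001000000000000000000000000000000000000000000000000000000000000000000000000000000000000000000000000000000000001000100000000000000000000000000000000000000000000000000000000000000000000000000000000000000020000000200000000000000000000000100020000) (nat_lit 0x3a0000210000090fffff0000050000020000000fffff0fffff0fffff0)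
  DL.nil))))))))

noncomputable def d40_5 : DL := (DL.cons (nat_lit 0x80000000700030005000000010002000800070001) (nat_lit 0x80000050000030000010000000fffff0fffff0fffff0fffff0fffff0)
  (DL.cons (nat_lit 0x40002000000040000000400030000000500000008) (nat_lit 0x80000050000030000010000000fffff0fffff0fffff0fffff0fffff0)
  (DL.cons (nat_lit 0x4000000000000000000000000000000000000000000000000000000000000000000000000000000000006000700000008000800000004000000030007000000030000) (nat_lit 0xa0000060000030000000fffff0fffff0fffff0fffff0fffff0fffff0)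
  (DL.cons (nat_lit 0) (nat_lit 0)
  (DL.cons (nat_lit 0) (nat_lit 0)
  (DL.cons (nat_lit 0x2000000000001000000020002000200020000) (nat_lit 0x60000030000000fffff0fffff0fffff0fffff0fffff0fffff0fffff0)
  (DL.cons (nat_lit 0x2000100000000000200000000000000000000000000000000000000000000000000000000000000000000000000000002000000020002000200020000) (nat_lit 0x1b0000030000000fffff0fffff0fffff0fffff0fffff0fffff0fffff0)
  (DL.cons (nat_lit 0x1000000000000000000000000000000000000000000000000000000000000000000000000000000000002000200000001000100000000000000000000000000000000000000000000000000000000000000000000000000000000000000020000000100000000000000000000000000000000000000000000000000000000000000000000000000000000000000010000) (nat_lit 0x300000180000000fffff0fffff0fffff0fffff0fffff0fffff0fffff0)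
  DL.nil))))))))

noncomputable def d40_6 : DL := (DL.cons (nat_lit 0x200030000000100020001000500010006) (nat_lit 0x60000040000020000010000000fffff0fffff0fffff0fffff0fffff0)
  (DL.cons (nat_lit 0x80000000600080004000100000001) (nat_lit 0x50000030000010fffff0000000fffff0fffff0fffff0fffff0fffff0)
  (DL.cons (nat_lit 0x700010000000200000002000400020006000000000003) (nat_lit 0x80000050000020000000fffff0fffff0fffff0fffff0fffff0fffff0)
  (DL.cons (nat_lit 0) (nat_lit 0)
  (DL.cons (nat_lit 0) (nat_lit 0)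
  (DL.cons (nat_lit 0x1000100020002000000000002) (nat_lit 0x50000020000000fffff0fffff0fffff0fffff0fffff0fffff0fffff0)
  (DL.cons (nat_lit 0x100000000000000000000000000000000000000000000000000000000000000000000000000000001000000000000000100000000) (nat_lit 0x30fffff0000000fffff0fffff0fffff0fffff0fffff0fffff0fffff0)
  (DL.cons (nat_lit 0x2000000000000000000000000000000000000000000000000000000000000000000000000000100000000000100010002000000000000000000000000000000000000000000000000000000000000000000000000000000000001000200000001000100000002) (nat_lit 0x1c0000040000000fffff0fffff0fffff0fffff0fffff0fffff0fffff0)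
  DL.nil))))))))

noncomputable def d40_7 : DL := (DL.cons (nat_lit 0x100080008000700010006) (nat_lit 0x40000020000010000000fffff0fffff0fffff0fffff0fffff0fffff0)
  (DL.cons (nat_lit 0x200020003000000070001) (nat_lit 0x40000020000010000000fffff0fffff0fffff0fffff0fffff0fffff0)
  (DL.cons (nat_lit 0x700070000000200000000000200060006) (nat_lit 0x70000040000020000000fffff0fffff0fffff0fffff0fffff0fffff0)
  (DL.cons (nat_lit 0) (nat_lit 0)
  (DL.cons (nat_lit 0) (nat_lit 0)
  (DL.cons (nat_lit 0x20002000000000001000100010002) (nat_lit 0x50000030000010fffff0000000fffff0fffff0fffff0fffff0fffff0)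
  (DL.cons (nat_lit 0x1000200000000000000020001000200020000) (nat_lit 0x70000040000020000000fffff0fffff0fffff0fffff0fffff0fffff0)
  (DL.cons (nat_lit 0x1000000000000000000000000000000000000000000000000000000000000000000000000000000000002000000000002000200000001000000010001) (nat_lit 0x70000030000000fffff0fffff0fffff0fffff0fffff0fffff0fffff0)
  DL.nil))))))))

noncomputable def d40_8 : DL := (DL.cons (nat_lit 4295098369) (nat_lit 0x10000000fffff0fffff0fffff0fffff0fffff0fffff0fffff0fffff0)
  (DL.cons (nat_lit 17179869192) (nat_lit 0x10000000fffff0fffff0fffff0fffff0fffff0fffff0fffff0fffff0)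
  (DL.cons (nat_lit 0x4000500000000000200010002) (nat_lit 0x40000020000000fffff0fffff0fffff0fffff0fffff0fffff0fffff0)
  (DL.cons (nat_lit 0) (nat_lit 0)
  (DL.cons (nat_lit 0) (nat_lit 0)
  (DL.cons (nat_lit 4295032834) (nat_lit 0x20000000fffff0fffff0fffff0fffff0fffff0fffff0fffff0fffff0)
  (DL.cons (nat_lit 0x20000000200010000) (nat_lit 0x40000020000000fffff0fffff0fffff0fffff0fffff0fffff0fffff0)
  (DL.cons (nat_lit 0x1000200000002000000020001000100020000) (nat_lit 0x60000030000000fffff0fffff0fffff0fffff0fffff0fffff0fffff0)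
  DL.nil))))))))

noncomputable def d40_9 : DL := (DL.cons (nat_lit 65542) (nat_lit 0x10000000fffff0fffff0fffff0fffff0fffff0fffff0fffff0fffff0)
  (DL.cons (nat_lit 262151) (nat_lit 0x10000000fffff0fffff0fffff0fffff0fffff0fffff0fffff0fffff0)
  (DL.cons (nat_lit 0x3000600030003) (nat_lit 0x30000010fffff0000000fffff0fffff0fffff0fffff0fffff0fffff0)
  (DL.cons (nat_lit 0) (nat_lit 0)
  (DL.cons (nat_lit 0) (nat_lit 0)
  (DL.cons (nat_lit 4294967298) (nat_lit 0x10fffff0000000fffff0fffff0fffff0fffff0fffff0fffff0fffff0)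
  (DL.cons (nat_lit 8590000130) (nat_lit 0x10fffff0fffff0000000fffff0fffff0fffff0fffff0fffff0fffff0)
  (DL.cons (nat_lit 0x10000000200020000) (nat_lit 0x30000000fffff0fffff0fffff0fffff0fffff0fffff0fffff0fffff0)
  DL.nil))))))))

noncomputable def d40 : DLL := (DLL.cons d40_0
  (DLL.cons d40_1
  (DLL.cons d40_2
  (DLL.cons d40_3
  (DLL.cons d40_4
  (DLL.cons d40_5
  (DLL.cons d40_6
  (DLL.cons d40_7
  (DLL.cons d40_8
  (DLL.cons d40_9
  DLL.nil))))))))))

noncomputable def m40 : TL := (TL.cons ⟨fun _ => nat_lit 0⟩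
  (TL.cons ⟨fun _ => nat_lit 0⟩
  (TL.cons ⟨fun _ => nat_lit 0⟩
  (TL.cons ⟨fun _ => nat_lit 0⟩
  (TL.cons ⟨fun _ => nat_lit 0⟩
  (TL.cons ⟨fun _ => nat_lit 0⟩
  (TL.cons ⟨fun _ => nat_lit 0⟩
  (TL.cons ⟨fun _ => nat_lit 0⟩
  (TL.cons ⟨fun _ => nat_lit 0⟩
  (TL.cons ⟨fun _ => nat_lit 0⟩
  (TL.cons ⟨fun _ => nat_lit 0⟩
  (TL.cons ⟨fun _ => nat_lit 0⟩
  (TL.cons ⟨fun _ => nat_lit 0⟩
  (TL.cons ⟨fun _ => nat_lit 0⟩
  (TL.cons ⟨fun _ => nat_lit 0⟩
  (TL.cons ⟨fun _ => nat_lit 0⟩
  (TL.cons ⟨fun _ => nat_lit 0⟩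
  (TL.cons ⟨fun _ => nat_lit 0⟩
  (TL.cons ⟨fun _ => nat_lit 0⟩
  (TL.cons ⟨fun _ => nat_lit 0⟩
  (TL.cons ⟨fun _ => nat_lit 0⟩
  (TL.cons ⟨fun _ => nat_lit 0⟩
  (TL.cons ⟨fun _ => nat_lit 0⟩
  (TL.cons ⟨fun _ => nat_lit 0⟩
  (TL.cons ⟨fun _ => nat_lit 0⟩
  (TL.cons ⟨fun _ => nat_lit 0⟩
  (TL.cons ⟨fun _ => nat_lit 0⟩
  (TL.cons ⟨fun _ => nat_lit 0⟩
  (TL.cons ⟨fun _ => nat_lit 0⟩
  (TL.cons ⟨fun _ => nat_lit 0⟩
  (TL.cons ⟨fun _ => nat_lit 0⟩
  (TL.cons ⟨fun _ => nat_lit 0⟩
  (TL.cons ⟨fun _ => nat_lit 0⟩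
  (TL.cons ⟨fun _ => nat_lit 0⟩
  (TL.cons ⟨fun _ => nat_lit 0⟩
  (TL.cons ⟨fun _ => nat_lit 0⟩
  (TL.cons ⟨fun _ => nat_lit 0⟩
  (TL.cons ⟨fun _ => nat_lit 0⟩
  (TL.cons ⟨fun _ => nat_lit 0⟩
  (TL.cons ⟨fun _ => nat_lit 0⟩
  (TL.cons ⟨fun _ => nat_lit 0⟩
  (TL.cons ⟨fun _ => nat_lit 0⟩
  (TL.cons ⟨fun _ => nat_lit 0⟩
  (TL.cons ⟨fun _ => nat_lit 0⟩
  (TL.cons ⟨fun _ => nat_lit 0⟩
  (TL.cons ⟨fun _ => nat_lit 0⟩
  (TL.cons ⟨fun _ => nat_lit 0⟩
  (TL.cons ⟨fun _ => nat_lit 0⟩
  (TL.cons ⟨fun _ => nat_lit 0⟩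
  (TL.cons ⟨fun _ => nat_lit 0⟩
  (TL.cons ⟨fun _ => nat_lit 0⟩
  (TL.cons ⟨fun _ => nat_lit 0⟩
  (TL.cons ⟨fun _ => nat_lit 0⟩
  (TL.cons ⟨fun _ => nat_lit 0⟩
  (TL.cons ⟨fun _ => nat_lit 0⟩
  (TL.cons ⟨fun _ => nat_lit 0⟩
  (TL.cons ⟨fun _ => nat_lit 0⟩
  (TL.cons ⟨fun _ => nat_lit 0⟩
  (TL.cons ⟨fun _ => nat_lit 0⟩
  (TL.cons ⟨fun _ => nat_lit 0⟩
  (TL.cons ⟨fun _ => nat_lit 0⟩
  (TL.cons ⟨fun x => (x (nat_lit 0) (nat_lit 0) (nat_lit 0))⟩
  (TL.cons ⟨fun x => (x (nat_lit 0) (nat_lit 1) (nat_lit 0))⟩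
  (TL.cons ⟨fun x => (Nat.add (x (nat_lit 0) (nat_lit 5) (nat_lit 0)) (x (nat_lit 1) (nat_lit 0) (nat_lit 0)))⟩
  (TL.cons ⟨fun x => (x (nat_lit 1) (nat_lit 1) (nat_lit 0))⟩
  (TL.cons ⟨fun x => (Nat.add (x (nat_lit 0) (nat_lit 2) (nat_lit 0)) (Nat.add (x (nat_lit 1) (nat_lit 5) (nat_lit 0)) (x (nat_lit 2) (nat_lit 0) (nat_lit 0))))⟩
  (TL.cons ⟨fun x => (Nat.add (x (nat_lit 0) (nat_lit 6) (nat_lit 0)) (x (nat_lit 2) (nat_lit 1) (nat_lit 0)))⟩
  (TL.cons ⟨fun x => (Nat.add (x (nat_lit 1) (nat_lit 2) (nat_lit 0)) (Nat.add (x (nat_lit 2) (nat_lit 5) (nat_lit 0)) (x (nat_lit 3) (nat_lit 0) (nat_lit 0))))⟩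
  (TL.cons ⟨fun x => (Nat.add (x (nat_lit 1) (nat_lit 6) (nat_lit 0)) (x (nat_lit 3) (nat_lit 1) (nat_lit 0)))⟩
  (TL.cons ⟨fun x => (Nat.add (Nat.add (x (nat_lit 0) (nat_lit 7) (nat_lit 0)) (x (nat_lit 2) (nat_lit 2) (nat_lit 0))) (Nat.add (x (nat_lit 3) (nat_lit 5) (nat_lit 0)) (x (nat_lit 4) (nat_lit 0) (nat_lit 0))))⟩
  (TL.cons ⟨fun x => (Nat.add (x (nat_lit 2) (nat_lit 6) (nat_lit 0)) (x (nat_lit 4) (nat_lit 1) (nat_lit 0)))⟩
  (TL.cons ⟨fun x => (Nat.add (x (nat_lit 1) (nat_lit 7) (nat_lit 0)) (Nat.add (x (nat_lit 3) (nat_lit 2) (nat_lit 0)) (x (nat_lit 4) (nat_lit 5) (nat_lit 0))))⟩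
  (TL.cons ⟨fun x => (Nat.add (x (nat_lit 3) (nat_lit 6) (nat_lit 0)) (x (nat_lit 5) (nat_lit 0) (nat_lit 0)))⟩
  (TL.cons ⟨fun x => (Nat.add (x (nat_lit 2) (nat_lit 7) (nat_lit 0)) (Nat.add (x (nat_lit 4) (nat_lit 2) (nat_lit 0)) (x (nat_lit 5) (nat_lit 1) (nat_lit 0))))⟩
  (TL.cons ⟨fun x => (Nat.add (Nat.add (x (nat_lit 0) (nat_lit 3) (nat_lit 0)) (x (nat_lit 4) (nat_lit 6) (nat_lit 0))) (Nat.add (x (nat_lit 5) (nat_lit 5) (nat_lit 0)) (x (nat_lit 6) (nat_lit 0) (nat_lit 0))))⟩
  (TL.cons ⟨fun x => (Nat.add (x (nat_lit 0) (nat_lit 8) (nat_lit 0)) (Nat.add (x (nat_lit 3) (nat_lit 7) (nat_lit 0)) (x (nat_lit 6) (nat_lit 1) (nat_lit 0))))⟩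
  (TL.cons ⟨fun x => (Nat.add (Nat.add (x (nat_lit 1) (nat_lit 3) (nat_lit 0)) (x (nat_lit 5) (nat_lit 2) (nat_lit 0))) (Nat.add (x (nat_lit 6) (nat_lit 5) (nat_lit 0)) (x (nat_lit 7) (nat_lit 0) (nat_lit 0))))⟩
  (TL.cons ⟨fun x => (Nat.add (Nat.add (x (nat_lit 1) (nat_lit 8) (nat_lit 0)) (x (nat_lit 4) (nat_lit 7) (nat_lit 0))) (Nat.add (x (nat_lit 5) (nat_lit 6) (nat_lit 0)) (x (nat_lit 7) (nat_lit 1) (nat_lit 0))))⟩
  (TL.cons ⟨fun x => (Nat.add (Nat.add (x (nat_lit 0) (nat_lit 9) (nat_lit 0)) (x (nat_lit 2) (nat_lit 3) (nat_lit 0))) (Nat.add (x (nat_lit 6) (nat_lit 2) (nat_lit 0)) (Nat.add (x (nat_lit 7) (nat_lit 5) (nat_lit 0)) (x (nat_lit 8) (nat_lit 0) (nat_lit 0)))))⟩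
  (TL.cons ⟨fun x => (Nat.add (x (nat_lit 2) (nat_lit 8) (nat_lit 0)) (Nat.add (x (nat_lit 6) (nat_lit 6) (nat_lit 0)) (x (nat_lit 8) (nat_lit 1) (nat_lit 0))))⟩
  (TL.cons ⟨fun x => (Nat.add (Nat.add (x (nat_lit 1) (nat_lit 9) (nat_lit 0)) (Nat.add (x (nat_lit 3) (nat_lit 3) (nat_lit 0)) (x (nat_lit 5) (nat_lit 7) (nat_lit 0)))) (Nat.add (x (nat_lit 7) (nat_lit 2) (nat_lit 0)) (Nat.add (x (nat_lit 8) (nat_lit 5) (nat_lit 0)) (x (nat_lit 9) (nat_lit 0) (nat_lit 0)))))⟩
  (TL.cons ⟨fun x => (Nat.add (x (nat_lit 3) (nat_lit 8) (nat_lit 0)) (Nat.add (x (nat_lit 7) (nat_lit 6) (nat_lit 0)) (x (nat_lit 9) (nat_lit 1) (nat_lit 0))))⟩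
  (TL.cons ⟨fun x => (Nat.add (Nat.add (x (nat_lit 2) (nat_lit 9) (nat_lit 0)) (x (nat_lit 4) (nat_lit 3) (nat_lit 0))) (Nat.add (x (nat_lit 6) (nat_lit 7) (nat_lit 0)) (Nat.add (x (nat_lit 8) (nat_lit 2) (nat_lit 0)) (x (nat_lit 9) (nat_lit 5) (nat_lit 0)))))⟩
  (TL.cons ⟨fun x => (Nat.add (x (nat_lit 4) (nat_lit 8) (nat_lit 0)) (x (nat_lit 8) (nat_lit 6) (nat_lit 0)))⟩
  (TL.cons ⟨fun x => (Nat.add (x (nat_lit 3) (nat_lit 9) (nat_lit 0)) (Nat.add (x (nat_lit 7) (nat_lit 7) (nat_lit 0)) (x (nat_lit 9) (nat_lit 2) (nat_lit 0))))⟩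
  (TL.cons ⟨fun x => (Nat.add (x (nat_lit 5) (nat_lit 3) (nat_lit 0)) (x (nat_lit 9) (nat_lit 6) (nat_lit 0)))⟩
  (TL.cons ⟨fun x => (Nat.add (x (nat_lit 4) (nat_lit 9) (nat_lit 0)) (Nat.add (x (nat_lit 5) (nat_lit 8) (nat_lit 0)) (x (nat_lit 8) (nat_lit 7) (nat_lit 0))))⟩
  (TL.cons ⟨fun x => (Nat.add (x (nat_lit 0) (nat_lit 10) (nat_lit 0)) (x (nat_lit 6) (nat_lit 3) (nat_lit 0)))⟩
  (TL.cons ⟨fun x => (Nat.add (x (nat_lit 6) (nat_lit 8) (nat_lit 0)) (x (nat_lit 9) (nat_lit 7) (nat_lit 0)))⟩
  (TL.cons ⟨fun x => (Nat.add (x (nat_lit 1) (nat_lit 10) (nat_lit 0)) (Nat.add (x (nat_lit 5) (nat_lit 9) (nat_lit 0)) (x (nat_lit 7) (nat_lit 3) (nat_lit 0))))⟩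
  (TL.cons ⟨fun x => (x (nat_lit 7) (nat_lit 8) (nat_lit 0))⟩
  TL.nil)))))))))))))))))))))))))))))))))))))))))))))))))))))))))))))))))))))))))))))))))))))))))))

noncomputable def m40_t : List TT := [.zero,
  .zero,
  .zero,
  .zero,
  .zero,
  .zero,
  .zero,
  .zero,
  .zero,
  .zero,
  .zero,
  .zero,
  .zero,
  .zero,
  .zero,
  .zero,
  .zero,
  .zero,
  .zero,
  .zero,
  .zero,
  .zero,
  .zero,
  .zero,
  .zero,
  .zero,
  .zero,
  .zero,
  .zero,
  .zero,
  .zero,
  .zero,
  .zero,
  .zero,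
  .zero,
  .zero,
  .zero,
  .zero,
  .zero,
  .zero,
  .zero,
  .zero,
  .zero,
  .zero,
  .zero,
  .zero,
  .zero,
  .zero,
  .zero,
  .zero,
  .zero,
  .zero,
  .zero,
  .zero,
  .zero,
  .zero,
  .zero,
  .zero,
  .zero,
  .zero,
  .zero,
  (.leaf (nat_lit 0) (nat_lit 0) (nat_lit 0)),
  (.leaf (nat_lit 0) (nat_lit 1) (nat_lit 0)),
  (.add (.leaf (nat_lit 0) (nat_lit 5) (nat_lit 0)) (.leaf (nat_lit 1) (nat_lit 0) (nat_lit 0))),
  (.leaf (nat_lit 1) (nat_lit 1) (nat_lit 0)),
  (.add (.leaf (nat_lit 0) (nat_lit 2) (nat_lit 0)) (.add (.leaf (nat_lit 1) (nat_lit 5) (nat_lit 0)) (.leaf (nat_lit 2) (nat_lit 0) (nat_lit 0)))),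
  (.add (.leaf (nat_lit 0) (nat_lit 6) (nat_lit 0)) (.leaf (nat_lit 2) (nat_lit 1) (nat_lit 0))),
  (.add (.leaf (nat_lit 1) (nat_lit 2) (nat_lit 0)) (.add (.leaf (nat_lit 2) (nat_lit 5) (nat_lit 0)) (.leaf (nat_lit 3) (nat_lit 0) (nat_lit 0)))),
  (.add (.leaf (nat_lit 1) (nat_lit 6) (nat_lit 0)) (.leaf (nat_lit 3) (nat_lit 1) (nat_lit 0))),
  (.add (.add (.leaf (nat_lit 0) (nat_lit 7) (nat_lit 0)) (.leaf (nat_lit 2) (nat_lit 2) (nat_lit 0))) (.add (.leaf (nat_lit 3) (nat_lit 5) (nat_lit 0)) (.leaf (nat_lit 4) (nat_lit 0) (nat_lit 0)))),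
  (.add (.leaf (nat_lit 2) (nat_lit 6) (nat_lit 0)) (.leaf (nat_lit 4) (nat_lit 1) (nat_lit 0))),
  (.add (.leaf (nat_lit 1) (nat_lit 7) (nat_lit 0)) (.add (.leaf (nat_lit 3) (nat_lit 2) (nat_lit 0)) (.leaf (nat_lit 4) (nat_lit 5) (nat_lit 0)))),
  (.add (.leaf (nat_lit 3) (nat_lit 6) (nat_lit 0)) (.leaf (nat_lit 5) (nat_lit 0) (nat_lit 0))),
  (.add (.leaf (nat_lit 2) (nat_lit 7) (nat_lit 0)) (.add (.leaf (nat_lit 4) (nat_lit 2) (nat_lit 0)) (.leaf (nat_lit 5) (nat_lit 1) (nat_lit 0)))),
  (.add (.add (.leaf (nat_lit 0) (nat_lit 3) (nat_lit 0)) (.leaf (nat_lit 4) (nat_lit 6) (nat_lit 0))) (.add (.leaf (nat_lit 5) (nat_lit 5) (nat_lit 0)) (.leaf (nat_lit 6) (nat_lit 0) (nat_lit 0)))),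
  (.add (.leaf (nat_lit 0) (nat_lit 8) (nat_lit 0)) (.add (.leaf (nat_lit 3) (nat_lit 7) (nat_lit 0)) (.leaf (nat_lit 6) (nat_lit 1) (nat_lit 0)))),
  (.add (.add (.leaf (nat_lit 1) (nat_lit 3) (nat_lit 0)) (.leaf (nat_lit 5) (nat_lit 2) (nat_lit 0))) (.add (.leaf (nat_lit 6) (nat_lit 5) (nat_lit 0)) (.leaf (nat_lit 7) (nat_lit 0) (nat_lit 0)))),
  (.add (.add (.leaf (nat_lit 1) (nat_lit 8) (nat_lit 0)) (.leaf (nat_lit 4) (nat_lit 7) (nat_lit 0))) (.add (.leaf (nat_lit 5) (nat_lit 6) (nat_lit 0)) (.leaf (nat_lit 7) (nat_lit 1) (nat_lit 0)))),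
  (.add (.add (.leaf (nat_lit 0) (nat_lit 9) (nat_lit 0)) (.leaf (nat_lit 2) (nat_lit 3) (nat_lit 0))) (.add (.leaf (nat_lit 6) (nat_lit 2) (nat_lit 0)) (.add (.leaf (nat_lit 7) (nat_lit 5) (nat_lit 0)) (.leaf (nat_lit 8) (nat_lit 0) (nat_lit 0))))),
  (.add (.leaf (nat_lit 2) (nat_lit 8) (nat_lit 0)) (.add (.leaf (nat_lit 6) (nat_lit 6) (nat_lit 0)) (.leaf (nat_lit 8) (nat_lit 1) (nat_lit 0)))),
  (.add (.add (.leaf (nat_lit 1) (nat_lit 9) (nat_lit 0)) (.add (.leaf (nat_lit 3) (nat_lit 3) (nat_lit 0)) (.leaf (nat_lit 5) (nat_lit 7) (nat_lit 0)))) (.add (.leaf (nat_lit 7) (nat_lit 2) (nat_lit 0)) (.add (.leaf (nat_lit 8) (nat_lit 5) (nat_lit 0)) (.leaf (nat_lit 9) (nat_lit 0) (nat_lit 0))))),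
  (.add (.leaf (nat_lit 3) (nat_lit 8) (nat_lit 0)) (.add (.leaf (nat_lit 7) (nat_lit 6) (nat_lit 0)) (.leaf (nat_lit 9) (nat_lit 1) (nat_lit 0)))),
  (.add (.add (.leaf (nat_lit 2) (nat_lit 9) (nat_lit 0)) (.leaf (nat_lit 4) (nat_lit 3) (nat_lit 0))) (.add (.leaf (nat_lit 6) (nat_lit 7) (nat_lit 0)) (.add (.leaf (nat_lit 8) (nat_lit 2) (nat_lit 0)) (.leaf (nat_lit 9) (nat_lit 5) (nat_lit 0))))),
  (.add (.leaf (nat_lit 4) (nat_lit 8) (nat_lit 0)) (.leaf (nat_lit 8) (nat_lit 6) (nat_lit 0))),
  (.add (.leaf (nat_lit 3) (nat_lit 9) (nat_lit 0)) (.add (.leaf (nat_lit 7) (nat_lit 7) (nat_lit 0)) (.leaf (nat_lit 9) (nat_lit 2) (nat_lit 0)))),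
  (.add (.leaf (nat_lit 5) (nat_lit 3) (nat_lit 0)) (.leaf (nat_lit 9) (nat_lit 6) (nat_lit 0))),
  (.add (.leaf (nat_lit 4) (nat_lit 9) (nat_lit 0)) (.add (.leaf (nat_lit 5) (nat_lit 8) (nat_lit 0)) (.leaf (nat_lit 8) (nat_lit 7) (nat_lit 0)))),
  (.add (.leaf (nat_lit 0) (nat_lit 10) (nat_lit 0)) (.leaf (nat_lit 6) (nat_lit 3) (nat_lit 0))),
  (.add (.leaf (nat_lit 6) (nat_lit 8) (nat_lit 0)) (.leaf (nat_lit 9) (nat_lit 7) (nat_lit 0))),
  (.add (.leaf (nat_lit 1) (nat_lit 10) (nat_lit 0)) (.add (.leaf (nat_lit 5) (nat_lit 9) (nat_lit 0)) (.leaf (nat_lit 7) (nat_lit 3) (nat_lit 0)))),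
  (.leaf (nat_lit 7) (nat_lit 8) (nat_lit 0))]

theorem m40_eq : m40 = ofL m40_t := rfl

noncomputable def d41_0 : DL := (DL.cons (nat_lit 0x30006000000000000000000000000000000000000000000000000000000000000000000000003000300000006000000000006000000000000000000000000000000000000000000000000000000000000000000000000000000000003000300000005000300000000000000000000000000000000000000000000000000000000000000000000000000000003000000000003000000000000000000000000000000000000000000000000000000000000000000000000000000000000000300030000000400000000000400000003000400080006000000000002000500040001) (nat_lit 0x5800003f00002700000f00000b0000080000050000030000010000000)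
  (DL.cons (nat_lit 0x300080000000000000000000000000000000000000000000000000000000000000000000000000008000000070006000000070000000000000000000000000000000000000000000000000000000000000000000000000000000000020004000000080002000700040000000000000000000000000000000000000000000000000000000000000000000000000001000000050004000000000000000000000000000000000000000000000000000000000000000000000000000000000000000000010000000700050000000000000000000000000000000000000000000000000000000000000000000000000000000600000000000000000005000000050000000200020000000400000008) (nat_lit 0x6d00005400003b00002300000b0000080000050000030000010000000)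
  (DL.cons (nat_lit 0x5000400000000000000000000000000000000000000000000000000000000000000000000000000010000000600050000000600010000000300000000000000000000000000000000000000000000000000000000000000000000000000080002000000000008000800070000000000000000000000000000000000000000000000000000000000000000000000020003000000050007000000070000000000000000000000000000000000000000000000000000000000000000000000000000000000060004000000050001000000000000000000000000000000000000000000000000000000000000000000000000000700000000000300000001000000000000000000000000000000000000000000000000000000000000000000000000000000000007000700000001000700000002) (nat_lit 0x8000006600004d00003400001c0000040000000fffff0fffff0fffff0)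
  (DL.cons (nat_lit 0) (nat_lit 0)
  (DL.cons (nat_lit 0) (nat_lit 0)
  (DL.cons (nat_lit 0x200000002000000000000000000000000000000000000000000000000000000000000000000000000000100020000000100020000000200000000000000000000000000000000000000000000000000000000000000000000000100020000000000020000000000000000000000000000000000000000000000000000000000000000000000000000000000000000000000010000000000020000000000000000000000000000000000000000000000000000000000000000000000000002000000000000000000010000000000000000000000000000000000000000000000000000000000000000000000000000000000020000000000020000000000010000) (nat_lit 0x6700004e00003500001d0000050fffff0fffff0000020fffff0000000)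
  (DL.cons (nat_lit 0x100010000000200000000000000000000000000000000000000000000000000000000000000000000000000020000000000000002000000010000000000000000000000000000000000000000000000000000000000000000000000000001000100000002000000000000000000000000000000000000000000000000000000000000000000000000000000000000000000010000000200000000000200000002000000000000000000000000000000000000000000000000000000000000000000000000000000000000000100000000000000000000000000000000000000000000000000000000000000000000000000000000000000000000000100020000000000000000000000000000000000000000000000000000000000000000000000000000000000000001000000000001000200000000000000000000000000000000000000000000000000000000000000000000000000000000000000010000) (nat_lit 0x9600007c0000620000490000300000180000000fffff0fffff0fffff0)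
  (DL.cons (nat_lit 0x2000100000000000000010000000000000000000000000000000000000000000000000000000000000000000000000000000100000000000000000000000000000000000000000000000000000000000000000000000000000000000100020000000200020000000000020000000000000000000000000000000000000000000000000000000000000000000000010000000000010000000000020000000000020000000000000000000000000000000000000000000000000000000000000000000000000001000000000001000000010000000000000000000000000000000000000000000000000000000000000000000000000000000100000002000200000001000000000000000000000000000000000000000000000000000000000000000000000000000000000002000000000001000000000000000000000000000000000000000000000000000000000000000000000000000000020000000000020000) (nat_lit 0xad00007e00006400004a0000310000180000000fffff0fffff0fffff0)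
  DL.nil))))))))

noncomputable def d41_1 : DL := (DL.cons (nat_lit 0x40008000000000000000000000000000000000000000000000000000000000000000000000000000000070007000000080007000000000000000000000000000000000000000000000000000000000000000000000000000000050000000500080006000000000000000000000000000000000000000000000000000000000000000000000000000000000006000300000003000000000000000100000000000600040000000800010004000200010006) (nat_lit 0x4000002800001000000c0000090000060000040000020000010000000)
  (DL.cons (nat_lit 0x600000000000000000000000000000000000000000000000000000000000000000000000000050007000000020005000300020000000000000000000000000000000000000000000000000000000000000000000000000007000000060003000000000000000000000000000000000000000000000000000000000000000000000000000000000000000300070000000300000000000000000000000000000000000000000000000000000000000000000000000000000000000800000000000800020002000000050000000000000006000100000004) (nat_lit 0x5400003b00002300000b0000080000050000030000010fffff0000000)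
  (DL.cons (nat_lit 0x80000000200000000000000000000000000000000000000000000000000000000000000000000000000030002000000000008000200010000000000000000000000000000000000000000000000000000000000000000000000040008000000050008000000030000000000000000000000000000000000000000000000000000000000000000000000000000000000020003000000060002000000000000000000000000000000000000000000000000000000000000000000000000000300050000000500050005000000000000000000000000000000000000000000000000000000000000000000000000000000000005000400000004000800000005000000020002) (nat_lit 0x6900005000003700001f0000070000030000000fffff0fffff0fffff0)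
  (DL.cons (nat_lit 0) (nat_lit 0)
  (DL.cons (nat_lit 0) (nat_lit 0)
  (DL.cons (nat_lit 0x20000000000000000000000000000000000000000000000000000000000000000000000010001000000010000000000010000000000000000000000000000000000000000000000000000000000000000000000000000000000000001000000000002000000000000000000000000000000000000000000000000000000000000000000000000000200000000000000000001000000000000000000000000000000000000000000000000000000000000000000000000000000000000000000000000000200000000000200000000) (nat_lit 0x5000003700001f0000070000030fffff0000000fffff0fffff0fffff0)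
  (DL.cons (nat_lit 0x20001000000000000000000000000000000000000000000000000000000000000000000000002000000000000000000000001000000000000000000000000000000000000000000000000000000000000000000000000000000000000000100000000000200000001000000000000000000000000000000000000000000000000000000000000000000000000000200000000000000000002000100000000000000000000000000000000000000000000000000000000000000000000000000010000000200000000000000000000000000000000000000000000000000000000000000000000000000000000000000000000000200000002000100000000000000000000000000000000000000000000000000000000000000000000000000000002000000020001000000020000) (nat_lit 0x7f00006500004c00003300001b0000030000000fffff0fffff0fffff0)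
  (DL.cons (nat_lit 0x20000000000000000000000000000000000000000000000000000000000000000000000000000000200000002000100000000000000000000000000000000000000000000000000000000000000000000000200000000000000000000000000020000000000000000000000000000000000000000000000000000000000000000000000000001000000020001000000000001000000010000000000000000000000000000000000000000000000000000000000000000000000000000000000000000000000010001000000000000000000000000000000000000000000000000000000000000000000000002000200000000000200000000000000000000000000000000000000000000000000000000000000000000000000000000000000000001000100000001000200000000000000000000000000000000000000000000000000000000000000000000000000000000000000010000000200000000000000000000000000000000000000000000000000000000000000000000000000000000000200000000) (nat_lit 0x9600007c0000620000490000300000180000000fffff0fffff0fffff0)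
  DL.nil))))))))

noncomputable def d41_2 : DL := (DL.cons (nat_lit 0x3000000000000000000000000000000000000000000000000000000000000000000000000000000080000000100020004000000000000000000000000000000000000000000000000000000000000000000000000000000010000000000080000000100000000000100030000000500050000000800020007000800010006) (nat_lit 0x2800001000000c0000090000060000040000020000010000000fffff0)
  (DL.cons (nat_lit 0x7000700000000000000000000000000000000000000000000000000000000000000000000000000070000000600040000000000000000000000000000000000000000000000000000000000000000000000000000000000000006000200000007000300000000000000000000000000000000000000000000000000000000000000000000000000000006000000030006000500020000000400000000000100080002000000070007) (nat_lit 0x3c00002400000c0000090000060000040000020000010000000fffff0)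
  (DL.cons (nat_lit 0x700060000000000000000000000000000000000000000000000000000000000000000000000000000000000020000000000050000000000000000000000000000000000000000000000000000000000000000000000000000000000010002000000000002000000000000000000000000000000000000000000000000000000000000000000000000000500040000000800030006000000000000000000000000000000000000000000000000000000000000000000000000000000000008000600000002000200000001000000080001000200060000) (nat_lit 0x5300003a00002200000a0000060000030000000fffff0fffff0fffff0)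
  (DL.cons (nat_lit 0) (nat_lit 0)
  (DL.cons (nat_lit 0) (nat_lit 0)
  (DL.cons (nat_lit 0x10000000000000000000000000000000000000000000000000000000000000000000000000000000000010002000000020001000000000000000000000000000000000000000000000000000000000000000000000000000000000000000100010001000000000000000000000000000000000000000000000000000000000000000000000000000000000002000200000002000100000001000000010000000100000000000000010002) (nat_lit 0x3d00002500000d0000090000060000030000010fffff0fffff0000000)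
  (DL.cons (nat_lit 0x1000200000000000000000000000000000000000000000000000000000000000000000000000000000000000100000000000000000001000000000000000000000000000000000000000000000000000000000000000000000000000000020000000000010002000100000000000000000000000000000000000000000000000000000000000000000000000000020000000000010000000000000000000000000000000000000000000000000000000000000000000000000000000000000000000000000001000200000000000000000000000000000000000000000000000000000000000000000000000000000000000000010000000200010000000200000001) (nat_lit 0x6800004f00003600001e0000060000030000000fffff0fffff0fffff0)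
  (DL.cons (nat_lit 0x2000200000000000000000000000000000000000000000000000000000000000000000000000000020000000200010000000200010000000100000000000000000000000000000000000000000000000000000000000000000000000000010001000000000002000200010000000000000000000000000000000000000000000000000000000000000000000000000001000000020001000000020000000000000000000000000000000000000000000000000000000000000000000000000000000000020001000000020002000000000000000000000000000000000000000000000000000000000000000000000000000100000000000200000001000000000000000000000000000000000000000000000000000000000000000000000000000000000000000000000001000200000002) (nat_lit 0x8000006600004d00003400001c0000040000000fffff0fffff0fffff0)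
  DL.nil))))))))

noncomputable def d41_3 : DL := (DL.cons (nat_lit 0x400000000000000000000000000000000000000000000000000000000000000000000000000000008000600000008000300080000000600000007000300010001000100010001000200010001) (nat_lit 0xf00000b0000080000050000030000010000000fffff0fffff0fffff0)
  (DL.cons (nat_lit 0x7000500000000000400000000000000000000000000000000000000000000000000000000000000000000000000000002000000040003000500030000000300000007000600000008) (nat_lit 0x210000090000060000030000010fffff0000000fffff0fffff0fffff0)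
  (DL.cons (nat_lit 0x5000000000000000000000000000000000000000000000000000000000000000000000000000000000007000000000008000200000000000000000000000000000000000000000000000000000000000000000000000000060008000000030006000800000000000000000000000000000000000000000000000000000000000000000000000000000000000300020000000500010000000600000004000600000008000000000008) (nat_lit 0x3c00002400000c0000080000050000020000000fffff0fffff0fffff0)
  (DL.cons (nat_lit 0) (nat_lit 0)
  (DL.cons (nat_lit 0) (nat_lit 0)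
  (DL.cons (nat_lit 0x100000000000000000000000000000000000000000000000000000000000000000000000000000002000000010001000200000000000000000000000000000000000000000000000000000000000000000000000000000000000000020000000100020000000200000002000100020001000000020000) (nat_lit 0x2400000c0000080000050000020fffff0000000fffff0fffff0fffff0)
  (DL.cons (nat_lit 0x1000000000000000000000000000000000000000000000000000000000000000000000000000200020000000000010001000000000000000000000000000000000000000000000000000000000000000000000000000000020000000100000000000000000000000000000000000000000000000000000000000000000000000000000000000000000001000100000002000000000000000000000000000000000000000000000000000000000000000000000000000000000000000000020000000100000000000000000001) (nat_lit 0x4f00003600001e0000060000030000000fffff0fffff0fffff0fffff0)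
  (DL.cons (nat_lit 0x10000000000000000000000000000000000000000000000000000000000000000000000000000000000000002000000020002000000000000000000000000000000000000000000000000000000000000000000000000000000020002000000020002000000010000000000000000000000000000000000000000000000000000000000000000000000000000000000000002000000010002000000000000000000000000000000000000000000000000000000000000000000000000000100010000000100010001000000000000000000000000000000000000000000000000000000000000000000000000000000000000000200000002000100000001000000020001) (nat_lit 0x6900005000003700001f0000070000030000000fffff0fffff0fffff0)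
  DL.nil))))))))

noncomputable def d41_4 : DL := (DL.cons (nat_lit 0x70000000800080008000700080006000000000000000800010006) (nat_lit 0xa0000070000040fffff0000020000010000000fffff0fffff0fffff0)
  (DL.cons (nat_lit 0x70000000000000000000000000000000000000000000000000000000000000000000000000000000500000004000100060000000000010000000800030005000700000007) (nat_lit 0xb0000080000050000030000010fffff0000000fffff0fffff0fffff0)
  (DL.cons (nat_lit 0x50000000000000000000000000000000000000000000000000000000000000000000000000004000100000006000300060000000000000000000000000000000000000000000000000000000000000000000000000000000000050008000000080000000000050000000800000007000700000000000500070005) (nat_lit 0x2600000e00000a0000070000040000020000000fffff0fffff0fffff0)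
  (DL.cons (nat_lit 0) (nat_lit 0)
  (DL.cons (nat_lit 0) (nat_lit 0)
  (DL.cons (nat_lit 0x200000000000000000000000000000000000000000000000000000000000000000000000000000000000100020000000200010000000000000001000000010000000000000001) (nat_lit 0xc0000080000050000020000000fffff0fffff0fffff0fffff0fffff0)
  (DL.cons (nat_lit 0x10000000000000000000000000000000000000000000000000000000000000000000000000000000100000001000100000000000000000000000000000000000000000000000000000000000000000000000000000000000000000001000000010002000100000002000000010001000000020000) (nat_lit 0x2200000a0fffff0000070000040000020000000fffff0fffff0fffff0)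
  (DL.cons (nat_lit 0x200010000000000000000000000000000000000000000000000000000000000000000000000000001000000000000000000010000000000000000000000000000000000000000000000000000000000000000000000000000000000010002000000020000000000000000000000000000000000000000000000000000000000000000000000000000000000000000000100000000000000000000000000000000000000000000000000000000000000000000000000000000000000000002000000000002000200000001000000020001000200000000) (nat_lit 0x5300003a00002200000a0000060000030000000fffff0fffff0fffff0)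
  DL.nil))))))))

noncomputable def d41_5 : DL := (DL.cons (nat_lit 0x10001000000040001) (nat_lit 0x40fffff0000020000010000000fffff0fffff0fffff0fffff0fffff0)
  (DL.cons (nat_lit 0x70000000300000000) (nat_lit 0x30000000fffff0fffff0fffff0fffff0fffff0fffff0fffff0fffff0)
  (DL.cons (nat_lit 0x60000000000000000000000000000000000000000000000000000000000000000000000000000000000000000000000000000000700030000) (nat_lit 0x50fffff0000020000000fffff0fffff0fffff0fffff0fffff0fffff0)
  (DL.cons (nat_lit 0) (nat_lit 0)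
  (DL.cons (nat_lit 0) (nat_lit 0)
  (DL.cons (nat_lit 0x20000000000000000000200020000) (nat_lit 0x50000020000000fffff0fffff0fffff0fffff0fffff0fffff0fffff0)
  (DL.cons (nat_lit 0x2000000000002000000010000000200000000) (nat_lit 0xfffff0000060000030000000fffff0fffff0fffff0fffff0fffff0fffff0)
  (DL.cons (nat_lit 0x200000000000000000000000000000000000000000000000000000000000000000000000000000000000000000000000000010000) (nat_lit 0x180fffff0000000fffff0fffff0fffff0fffff0fffff0fffff0fffff0)
  DL.nil))))))))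

noncomputable def d41_6 : DL := (DL.cons (nat_lit 0x300000000000800020001) (nat_lit 0x40000020000010000000fffff0fffff0fffff0fffff0fffff0fffff0)
  (DL.cons (nat_lit 0x70000000000000004000700000007) (nat_lit 0x50000030000010fffff0000000fffff0fffff0fffff0fffff0fffff0)
  (DL.cons (nat_lit 0x30000000000000000000100060000) (nat_lit 0x50000020000000fffff0fffff0fffff0fffff0fffff0fffff0fffff0)
  (DL.cons (nat_lit 0) (nat_lit 0)
  (DL.cons (nat_lit 0) (nat_lit 0)
  (DL.cons (nat_lit 4295032832) (nat_lit 0x20000000fffff0fffff0fffff0fffff0fffff0fffff0fffff0fffff0)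
  (DL.cons (nat_lit 1) (nat_lit 0xfffff0fffff0fffff0fffff0fffff0fffff0fffff0fffff0fffff0)
  (DL.cons (nat_lit 0x2000100000000000000000000000000000000000000000000000000000000000000000000000000000000000000020000000100000000) (nat_lit 0x1b0000030000000fffff0fffff0fffff0fffff0fffff0fffff0fffff0)
  DL.nil))))))))

noncomputable def d41_7 : DL := (DL.cons (nat_lit 0x8000800010001) (nat_lit 0x20000010000000fffff0fffff0fffff0fffff0fffff0fffff0fffff0)
  (DL.cons (nat_lit 0x6000800000004) (nat_lit 0x30000010fffff0000000fffff0fffff0fffff0fffff0fffff0fffff0)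
  (DL.cons (nat_lit 0x1000300000006) (nat_lit 0x30000010fffff0000000fffff0fffff0fffff0fffff0fffff0fffff0)
  (DL.cons (nat_lit 0) (nat_lit 0)
  (DL.cons (nat_lit 0) (nat_lit 0)
  (DL.cons (nat_lit 1) (nat_lit 0xfffff0fffff0000000fffff0fffff0fffff0fffff0fffff0fffff0fffff0)
  (DL.cons (nat_lit 0x10000000000000002) (nat_lit 0xfffff0000020000000fffff0fffff0fffff0fffff0fffff0fffff0fffff0)
  (DL.cons (nat_lit 0x100000000000000000001) (nat_lit 0xfffff0000030000000fffff0fffff0fffff0fffff0fffff0fffff0fffff0)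
  DL.nil))))))))

noncomputable def d41_8 : DL := (DL.cons (nat_lit 524289) (nat_lit 0x10000000fffff0fffff0fffff0fffff0fffff0fffff0fffff0fffff0)
  (DL.cons (nat_lit 262144) (nat_lit 0xfffff0fffff0fffff0fffff0fffff0fffff0fffff0fffff0fffff0)
  (DL.cons (nat_lit 4294967301) (nat_lit 0x10fffff0000000fffff0fffff0fffff0fffff0fffff0fffff0fffff0)
  (DL.cons (nat_lit 0) (nat_lit 0)
  (DL.cons (nat_lit 0) (nat_lit 0)
  (DL.cons (nat_lit 2) (nat_lit 0xfffff0000000fffff0fffff0fffff0fffff0fffff0fffff0fffff0fffff0)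
  (DL.cons (nat_lit 8590065664) (nat_lit 0xfffff0000020000000fffff0fffff0fffff0fffff0fffff0fffff0fffff0)
  (DL.cons (nat_lit 4295032832) (nat_lit 0xfffff0000020000000fffff0fffff0fffff0fffff0fffff0fffff0fffff0)
  DL.nil))))))))

noncomputable def d41_9 : DL := (DL.cons (nat_lit 1) (nat_lit 0xfffff0fffff0fffff0fffff0fffff0fffff0fffff0fffff0fffff0)
  (DL.cons (nat_lit 7) (nat_lit 0xfffff0000000fffff0fffff0fffff0fffff0fffff0fffff0fffff0fffff0)
  (DL.cons (nat_lit 0) (nat_lit 0)
  (DL.cons (nat_lit 0) (nat_lit 0)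
  (DL.cons (nat_lit 0) (nat_lit 0)
  (DL.cons (nat_lit 2) (nat_lit 0xfffff0fffff0fffff0fffff0fffff0fffff0fffff0fffff0fffff0)
  (DL.cons (nat_lit 65538) (nat_lit 0x10fffff0fffff0000000fffff0fffff0fffff0fffff0fffff0fffff0)
  (DL.cons (nat_lit 131072) (nat_lit 0xfffff0000000fffff0fffff0fffff0fffff0fffff0fffff0fffff0fffff0)
  DL.nil))))))))

noncomputable def d41 : DLL := (DLL.cons d41_0
  (DLL.cons d41_1
  (DLL.cons d41_2
  (DLL.cons d41_3
  (DLL.cons d41_4
  (DLL.cons d41_5
  (DLL.cons d41_6
  (DLL.cons d41_7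
  (DLL.cons d41_8
  (DLL.cons d41_9
  DLL.nil))))))))))

noncomputable def m41 : TL := (TL.cons ⟨fun _ => nat_lit 0⟩
  (TL.cons ⟨fun _ => nat_lit 0⟩
  (TL.cons ⟨fun _ => nat_lit 0⟩
  (TL.cons ⟨fun _ => nat_lit 0⟩
  (TL.cons ⟨fun _ => nat_lit 0⟩
  (TL.cons ⟨fun _ => nat_lit 0⟩
  (TL.cons ⟨fun _ => nat_lit 0⟩
  (TL.cons ⟨fun _ => nat_lit 0⟩
  (TL.cons ⟨fun _ => nat_lit 0⟩
  (TL.cons ⟨fun _ => nat_lit 0⟩
  (TL.cons ⟨fun _ => nat_lit 0⟩
  (TL.cons ⟨fun _ => nat_lit 0⟩
  (TL.cons ⟨fun _ => nat_lit 0⟩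
  (TL.cons ⟨fun _ => nat_lit 0⟩
  (TL.cons ⟨fun _ => nat_lit 0⟩
  (TL.cons ⟨fun _ => nat_lit 0⟩
  (TL.cons ⟨fun _ => nat_lit 0⟩
  (TL.cons ⟨fun _ => nat_lit 0⟩
  (TL.cons ⟨fun _ => nat_lit 0⟩
  (TL.cons ⟨fun _ => nat_lit 0⟩
  (TL.cons ⟨fun _ => nat_lit 0⟩
  (TL.cons ⟨fun _ => nat_lit 0⟩
  (TL.cons ⟨fun _ => nat_lit 0⟩
  (TL.cons ⟨fun _ => nat_lit 0⟩
  (TL.cons ⟨fun _ => nat_lit 0⟩
  (TL.cons ⟨fun _ => nat_lit 0⟩
  (TL.cons ⟨fun _ => nat_lit 0⟩
  (TL.cons ⟨fun _ => nat_lit 0⟩
  (TL.cons ⟨fun _ => nat_lit 0⟩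
  (TL.cons ⟨fun _ => nat_lit 0⟩
  (TL.cons ⟨fun _ => nat_lit 0⟩
  (TL.cons ⟨fun _ => nat_lit 0⟩
  (TL.cons ⟨fun _ => nat_lit 0⟩
  (TL.cons ⟨fun _ => nat_lit 0⟩
  (TL.cons ⟨fun _ => nat_lit 0⟩
  (TL.cons ⟨fun _ => nat_lit 0⟩
  (TL.cons ⟨fun _ => nat_lit 0⟩
  (TL.cons ⟨fun _ => nat_lit 0⟩
  (TL.cons ⟨fun _ => nat_lit 0⟩
  (TL.cons ⟨fun _ => nat_lit 0⟩
  (TL.cons ⟨fun _ => nat_lit 0⟩
  (TL.cons ⟨fun _ => nat_lit 0⟩
  (TL.cons ⟨fun _ => nat_lit 0⟩
  (TL.cons ⟨fun _ => nat_lit 0⟩
  (TL.cons ⟨fun _ => nat_lit 0⟩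
  (TL.cons ⟨fun _ => nat_lit 0⟩
  (TL.cons ⟨fun _ => nat_lit 0⟩
  (TL.cons ⟨fun _ => nat_lit 0⟩
  (TL.cons ⟨fun _ => nat_lit 0⟩
  (TL.cons ⟨fun _ => nat_lit 0⟩
  (TL.cons ⟨fun _ => nat_lit 0⟩
  (TL.cons ⟨fun _ => nat_lit 0⟩
  (TL.cons ⟨fun _ => nat_lit 0⟩
  (TL.cons ⟨fun _ => nat_lit 0⟩
  (TL.cons ⟨fun _ => nat_lit 0⟩
  (TL.cons ⟨fun _ => nat_lit 0⟩
  (TL.cons ⟨fun _ => nat_lit 0⟩
  (TL.cons ⟨fun _ => nat_lit 0⟩
  (TL.cons ⟨fun _ => nat_lit 0⟩
  (TL.cons ⟨fun _ => nat_lit 0⟩
  (TL.cons ⟨fun _ => nat_lit 0⟩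
  (TL.cons ⟨fun _ => nat_lit 0⟩
  (TL.cons ⟨fun _ => nat_lit 0⟩
  (TL.cons ⟨fun x => (x (nat_lit 0) (nat_lit 0) (nat_lit 0))⟩
  (TL.cons ⟨fun x => (x (nat_lit 0) (nat_lit 1) (nat_lit 0))⟩
  (TL.cons ⟨fun x => (Nat.add (x (nat_lit 0) (nat_lit 5) (nat_lit 0)) (x (nat_lit 1) (nat_lit 0) (nat_lit 0)))⟩
  (TL.cons ⟨fun x => (x (nat_lit 1) (nat_lit 1) (nat_lit 0))⟩
  (TL.cons ⟨fun x => (Nat.add (x (nat_lit 0) (nat_lit 2) (nat_lit 0)) (Nat.add (x (nat_lit 1) (nat_lit 5) (nat_lit 0)) (x (nat_lit 2) (nat_lit 0) (nat_lit 0))))⟩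
  (TL.cons ⟨fun x => (Nat.add (x (nat_lit 0) (nat_lit 6) (nat_lit 0)) (x (nat_lit 2) (nat_lit 1) (nat_lit 0)))⟩
  (TL.cons ⟨fun x => (Nat.add (x (nat_lit 1) (nat_lit 2) (nat_lit 0)) (Nat.add (x (nat_lit 2) (nat_lit 5) (nat_lit 0)) (x (nat_lit 3) (nat_lit 0) (nat_lit 0))))⟩
  (TL.cons ⟨fun x => (Nat.add (x (nat_lit 1) (nat_lit 6) (nat_lit 0)) (x (nat_lit 3) (nat_lit 1) (nat_lit 0)))⟩
  (TL.cons ⟨fun x => (Nat.add (Nat.add (x (nat_lit 0) (nat_lit 7) (nat_lit 0)) (x (nat_lit 2) (nat_lit 2) (nat_lit 0))) (Nat.add (x (nat_lit 3) (nat_lit 5) (nat_lit 0)) (x (nat_lit 4) (nat_lit 0) (nat_lit 0))))⟩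
  (TL.cons ⟨fun x => (Nat.add (x (nat_lit 2) (nat_lit 6) (nat_lit 0)) (x (nat_lit 4) (nat_lit 1) (nat_lit 0)))⟩
  (TL.cons ⟨fun x => (Nat.add (Nat.add (x (nat_lit 1) (nat_lit 7) (nat_lit 0)) (x (nat_lit 3) (nat_lit 2) (nat_lit 0))) (Nat.add (x (nat_lit 4) (nat_lit 5) (nat_lit 0)) (x (nat_lit 5) (nat_lit 0) (nat_lit 0))))⟩
  (TL.cons ⟨fun x => (Nat.add (x (nat_lit 3) (nat_lit 6) (nat_lit 0)) (x (nat_lit 5) (nat_lit 1) (nat_lit 0)))⟩
  (TL.cons ⟨fun x => (Nat.add (Nat.add (x (nat_lit 2) (nat_lit 7) (nat_lit 0)) (x (nat_lit 4) (nat_lit 2) (nat_lit 0))) (Nat.add (x (nat_lit 5) (nat_lit 5) (nat_lit 0)) (x (nat_lit 6) (nat_lit 0) (nat_lit 0))))⟩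
  (TL.cons ⟨fun x => (Nat.add (x (nat_lit 0) (nat_lit 3) (nat_lit 0)) (Nat.add (x (nat_lit 4) (nat_lit 6) (nat_lit 0)) (x (nat_lit 6) (nat_lit 1) (nat_lit 0))))⟩
  (TL.cons ⟨fun x => (Nat.add (Nat.add (x (nat_lit 0) (nat_lit 8) (nat_lit 0)) (x (nat_lit 3) (nat_lit 7) (nat_lit 0))) (Nat.add (x (nat_lit 5) (nat_lit 2) (nat_lit 0)) (Nat.add (x (nat_lit 6) (nat_lit 5) (nat_lit 0)) (x (nat_lit 7) (nat_lit 0) (nat_lit 0)))))⟩
  (TL.cons ⟨fun x => (Nat.add (x (nat_lit 1) (nat_lit 3) (nat_lit 0)) (Nat.add (x (nat_lit 5) (nat_lit 6) (nat_lit 0)) (x (nat_lit 7) (nat_lit 1) (nat_lit 0))))⟩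
  (TL.cons ⟨fun x => (Nat.add (Nat.add (x (nat_lit 1) (nat_lit 8) (nat_lit 0)) (x (nat_lit 4) (nat_lit 7) (nat_lit 0))) (Nat.add (x (nat_lit 6) (nat_lit 2) (nat_lit 0)) (Nat.add (x (nat_lit 7) (nat_lit 5) (nat_lit 0)) (x (nat_lit 8) (nat_lit 0) (nat_lit 0)))))⟩
  (TL.cons ⟨fun x => (Nat.add (Nat.add (x (nat_lit 0) (nat_lit 9) (nat_lit 0)) (x (nat_lit 2) (nat_lit 3) (nat_lit 0))) (Nat.add (x (nat_lit 6) (nat_lit 6) (nat_lit 0)) (x (nat_lit 8) (nat_lit 1) (nat_lit 0))))⟩
  (TL.cons ⟨fun x => (Nat.add (Nat.add (x (nat_lit 2) (nat_lit 8) (nat_lit 0)) (x (nat_lit 5) (nat_lit 7) (nat_lit 0))) (Nat.add (x (nat_lit 7) (nat_lit 2) (nat_lit 0)) (Nat.add (x (nat_lit 8) (nat_lit 5) (nat_lit 0)) (x (nat_lit 9) (nat_lit 0) (nat_lit 0)))))⟩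
  (TL.cons ⟨fun x => (Nat.add (Nat.add (x (nat_lit 1) (nat_lit 9) (nat_lit 0)) (x (nat_lit 3) (nat_lit 3) (nat_lit 0))) (Nat.add (x (nat_lit 7) (nat_lit 6) (nat_lit 0)) (x (nat_lit 9) (nat_lit 1) (nat_lit 0))))⟩
  (TL.cons ⟨fun x => (Nat.add (Nat.add (x (nat_lit 3) (nat_lit 8) (nat_lit 0)) (x (nat_lit 6) (nat_lit 7) (nat_lit 0))) (Nat.add (x (nat_lit 8) (nat_lit 2) (nat_lit 0)) (x (nat_lit 9) (nat_lit 5) (nat_lit 0))))⟩
  (TL.cons ⟨fun x => (Nat.add (x (nat_lit 2) (nat_lit 9) (nat_lit 0)) (Nat.add (x (nat_lit 4) (nat_lit 3) (nat_lit 0)) (x (nat_lit 8) (nat_lit 6) (nat_lit 0))))⟩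
  (TL.cons ⟨fun x => (Nat.add (x (nat_lit 4) (nat_lit 8) (nat_lit 0)) (Nat.add (x (nat_lit 7) (nat_lit 7) (nat_lit 0)) (x (nat_lit 9) (nat_lit 2) (nat_lit 0))))⟩
  (TL.cons ⟨fun x => (Nat.add (x (nat_lit 3) (nat_lit 9) (nat_lit 0)) (Nat.add (x (nat_lit 5) (nat_lit 3) (nat_lit 0)) (x (nat_lit 9) (nat_lit 6) (nat_lit 0))))⟩
  (TL.cons ⟨fun x => (Nat.add (x (nat_lit 5) (nat_lit 8) (nat_lit 0)) (x (nat_lit 8) (nat_lit 7) (nat_lit 0)))⟩
  (TL.cons ⟨fun x => (Nat.add (x (nat_lit 4) (nat_lit 9) (nat_lit 0)) (x (nat_lit 6) (nat_lit 3) (nat_lit 0)))⟩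
  (TL.cons ⟨fun x => (Nat.add (x (nat_lit 0) (nat_lit 10) (nat_lit 0)) (Nat.add (x (nat_lit 6) (nat_lit 8) (nat_lit 0)) (x (nat_lit 9) (nat_lit 7) (nat_lit 0))))⟩
  (TL.cons ⟨fun x => (Nat.add (x (nat_lit 5) (nat_lit 9) (nat_lit 0)) (x (nat_lit 7) (nat_lit 3) (nat_lit 0)))⟩
  TL.nil)))))))))))))))))))))))))))))))))))))))))))))))))))))))))))))))))))))))))))))))))))))))))))

noncomputable def m41_t : List TT := [.zero,
  .zero,
  .zero,
  .zero,
  .zero,
  .zero,
  .zero,
  .zero,
  .zero,
  .zero,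
  .zero,
  .zero,
  .zero,
  .zero,
  .zero,
  .zero,
  .zero,
  .zero,
  .zero,
  .zero,
  .zero,
  .zero,
  .zero,
  .zero,
  .zero,
  .zero,
  .zero,
  .zero,
  .zero,
  .zero,
  .zero,
  .zero,
  .zero,
  .zero,
  .zero,
  .zero,
  .zero,
  .zero,
  .zero,
  .zero,
  .zero,
  .zero,
  .zero,
  .zero,
  .zero,
  .zero,
  .zero,
  .zero,
  .zero,
  .zero,
  .zero,
  .zero,
  .zero,
  .zero,
  .zero,
  .zero,
  .zero,
  .zero,
  .zero,
  .zero,
  .zero,
  .zero,
  .zero,
  (.leaf (nat_lit 0) (nat_lit 0) (nat_lit 0)),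
  (.leaf (nat_lit 0) (nat_lit 1) (nat_lit 0)),
  (.add (.leaf (nat_lit 0) (nat_lit 5) (nat_lit 0)) (.leaf (nat_lit 1) (nat_lit 0) (nat_lit 0))),
  (.leaf (nat_lit 1) (nat_lit 1) (nat_lit 0)),
  (.add (.leaf (nat_lit 0) (nat_lit 2) (nat_lit 0)) (.add (.leaf (nat_lit 1) (nat_lit 5) (nat_lit 0)) (.leaf (nat_lit 2) (nat_lit 0) (nat_lit 0)))),
  (.add (.leaf (nat_lit 0) (nat_lit 6) (nat_lit 0)) (.leaf (nat_lit 2) (nat_lit 1) (nat_lit 0))),
  (.add (.leaf (nat_lit 1) (nat_lit 2) (nat_lit 0)) (.add (.leaf (nat_lit 2) (nat_lit 5) (nat_lit 0)) (.leaf (nat_lit 3) (nat_lit 0) (nat_lit 0)))),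
  (.add (.leaf (nat_lit 1) (nat_lit 6) (nat_lit 0)) (.leaf (nat_lit 3) (nat_lit 1) (nat_lit 0))),
  (.add (.add (.leaf (nat_lit 0) (nat_lit 7) (nat_lit 0)) (.leaf (nat_lit 2) (nat_lit 2) (nat_lit 0))) (.add (.leaf (nat_lit 3) (nat_lit 5) (nat_lit 0)) (.leaf (nat_lit 4) (nat_lit 0) (nat_lit 0)))),
  (.add (.leaf (nat_lit 2) (nat_lit 6) (nat_lit 0)) (.leaf (nat_lit 4) (nat_lit 1) (nat_lit 0))),
  (.add (.add (.leaf (nat_lit 1) (nat_lit 7) (nat_lit 0)) (.leaf (nat_lit 3) (nat_lit 2) (nat_lit 0))) (.add (.leaf (nat_lit 4) (nat_lit 5) (nat_lit 0)) (.leaf (nat_lit 5) (nat_lit 0) (nat_lit 0)))),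
  (.add (.leaf (nat_lit 3) (nat_lit 6) (nat_lit 0)) (.leaf (nat_lit 5) (nat_lit 1) (nat_lit 0))),
  (.add (.add (.leaf (nat_lit 2) (nat_lit 7) (nat_lit 0)) (.leaf (nat_lit 4) (nat_lit 2) (nat_lit 0))) (.add (.leaf (nat_lit 5) (nat_lit 5) (nat_lit 0)) (.leaf (nat_lit 6) (nat_lit 0) (nat_lit 0)))),
  (.add (.leaf (nat_lit 0) (nat_lit 3) (nat_lit 0)) (.add (.leaf (nat_lit 4) (nat_lit 6) (nat_lit 0)) (.leaf (nat_lit 6) (nat_lit 1) (nat_lit 0)))),
  (.add (.add (.leaf (nat_lit 0) (nat_lit 8) (nat_lit 0)) (.leaf (nat_lit 3) (nat_lit 7) (nat_lit 0))) (.add (.leaf (nat_lit 5) (nat_lit 2) (nat_lit 0)) (.add (.leaf (nat_lit 6) (nat_lit 5) (nat_lit 0)) (.leaf (nat_lit 7) (nat_lit 0) (nat_lit 0))))),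
  (.add (.leaf (nat_lit 1) (nat_lit 3) (nat_lit 0)) (.add (.leaf (nat_lit 5) (nat_lit 6) (nat_lit 0)) (.leaf (nat_lit 7) (nat_lit 1) (nat_lit 0)))),
  (.add (.add (.leaf (nat_lit 1) (nat_lit 8) (nat_lit 0)) (.leaf (nat_lit 4) (nat_lit 7) (nat_lit 0))) (.add (.leaf (nat_lit 6) (nat_lit 2) (nat_lit 0)) (.add (.leaf (nat_lit 7) (nat_lit 5) (nat_lit 0)) (.leaf (nat_lit 8) (nat_lit 0) (nat_lit 0))))),
  (.add (.add (.leaf (nat_lit 0) (nat_lit 9) (nat_lit 0)) (.leaf (nat_lit 2) (nat_lit 3) (nat_lit 0))) (.add (.leaf (nat_lit 6) (nat_lit 6) (nat_lit 0)) (.leaf (nat_lit 8) (nat_lit 1) (nat_lit 0)))),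
  (.add (.add (.leaf (nat_lit 2) (nat_lit 8) (nat_lit 0)) (.leaf (nat_lit 5) (nat_lit 7) (nat_lit 0))) (.add (.leaf (nat_lit 7) (nat_lit 2) (nat_lit 0)) (.add (.leaf (nat_lit 8) (nat_lit 5) (nat_lit 0)) (.leaf (nat_lit 9) (nat_lit 0) (nat_lit 0))))),
  (.add (.add (.leaf (nat_lit 1) (nat_lit 9) (nat_lit 0)) (.leaf (nat_lit 3) (nat_lit 3) (nat_lit 0))) (.add (.leaf (nat_lit 7) (nat_lit 6) (nat_lit 0)) (.leaf (nat_lit 9) (nat_lit 1) (nat_lit 0)))),
  (.add (.add (.leaf (nat_lit 3) (nat_lit 8) (nat_lit 0)) (.leaf (nat_lit 6) (nat_lit 7) (nat_lit 0))) (.add (.leaf (nat_lit 8) (nat_lit 2) (nat_lit 0)) (.leaf (nat_lit 9) (nat_lit 5) (nat_lit 0)))),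
  (.add (.leaf (nat_lit 2) (nat_lit 9) (nat_lit 0)) (.add (.leaf (nat_lit 4) (nat_lit 3) (nat_lit 0)) (.leaf (nat_lit 8) (nat_lit 6) (nat_lit 0)))),
  (.add (.leaf (nat_lit 4) (nat_lit 8) (nat_lit 0)) (.add (.leaf (nat_lit 7) (nat_lit 7) (nat_lit 0)) (.leaf (nat_lit 9) (nat_lit 2) (nat_lit 0)))),
  (.add (.leaf (nat_lit 3) (nat_lit 9) (nat_lit 0)) (.add (.leaf (nat_lit 5) (nat_lit 3) (nat_lit 0)) (.leaf (nat_lit 9) (nat_lit 6) (nat_lit 0)))),
  (.add (.leaf (nat_lit 5) (nat_lit 8) (nat_lit 0)) (.leaf (nat_lit 8) (nat_lit 7) (nat_lit 0))),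
  (.add (.leaf (nat_lit 4) (nat_lit 9) (nat_lit 0)) (.leaf (nat_lit 6) (nat_lit 3) (nat_lit 0))),
  (.add (.leaf (nat_lit 0) (nat_lit 10) (nat_lit 0)) (.add (.leaf (nat_lit 6) (nat_lit 8) (nat_lit 0)) (.leaf (nat_lit 9) (nat_lit 7) (nat_lit 0)))),
  (.add (.leaf (nat_lit 5) (nat_lit 9) (nat_lit 0)) (.leaf (nat_lit 7) (nat_lit 3) (nat_lit 0)))]

theorem m41_eq : m41 = ofL m41_t := rfl

noncomputable def d42_0 : DL := (DL.cons (nat_lit 0x6000000000000000000000000000000000000000000000000000000000000000000000000000600000000000600000000000000000000000000000000000000000000000000000000000000000000000000000000000000000000000000000000000300030000000000000000000000000000000000000000000000000000000000000000000000000003000000000003000000000000000000000000000000000000000000000000000000000000000000000000000000000000000000030000000000000000000000030000000000040003000000010001) (nat_lit 0x5400003b00002300000b0000070000040000020fffff0000010000000)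
  (DL.cons (nat_lit 0x700000000000000000000000000000000000000000000000000000000000000000000000000000000000000030000000000060000000300000000000000000000000000000000000000000000000000000000000000000000000000050000000000030000000700000000000000000000000000000000000000000000000000000000000000000000000000000000000000080000000000000000000000000000000000000000000000000000000000000000000000000000000000000000000000000000000800080000000000000000000000000000000000000000000000000000000000000000000000000000000000000002000000000003000000040000000000030000) (nat_lit 0x6a0000510000380000200000080000050000020fffff0000000fffff0)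
  (DL.cons (nat_lit 0x500000000000000000000000000000000000000000000000000000000000000000000000000070000000000010000000000070000000000080000000000000000000000000000000000000000000000000000000000000000000000000002000000000005000000040000000000000000000000000000000000000000000000000000000000000000000000000004000000000004000000000000000000000000000000000000000000000000000000000000000000000000000000000000000000000006000000000007000500000000000000000000000000000000000000000000000000000000000000000000000000030000000000000000000300000000000000000000000000000000000000000000000000000000000000000000000000000000000000080000000200000000) (nat_lit 0x7f00006500004c00003300001b0000030000000fffff0fffff0fffff0)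
  (DL.cons (nat_lit 0) (nat_lit 0)
  (DL.cons (nat_lit 0) (nat_lit 0)
  (DL.cons (nat_lit 0x200000002000000000000000000000000000000000000000000000000000000000000000000000000000000000000000100000000000000000000000000000000000000000000000000000000000000000000000000000000000000000000000000020000000000000000000000000000000000000000000000000000000000000000000000000000000000000000000100000000000200000000) (nat_lit 0x4c0000330fffff00001b0000030000000fffff0fffff0fffff0fffff0)
  (DL.cons (nat_lit 0x1000000000001000000000000000000000000000000000000000000000000000000000000000000000000000100000000000200000000000200000000000000000000000000000000000000000000000000000000000000000000000000020000000000010000000000000000000000000000000000000000000000000000000000000000000000000000000000000000000100000000000000000002000000000000000000000000000000000000000000000000000000000000000000000000000000000000000100000000) (nat_lit 0x4c0000320fffff0000190000000fffff0fffff0fffff0fffff0fffff0)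
  (DL.cons (nat_lit 0x10000000000000000000000000000000000000000000000000000000000000000000000000000000000000001000000000000000000000000000000000000000000000000000000000000000000000000000100000000000100000000000000000000000000000000000000000000000000000000000000000000000000000000000000010000000000010000000000000000000000000000000000000000000000000000000000000000000000000000000000000000000000000001000000000001000000000000000000000000000000000000000000000000000000000000000000000000000000000001000000000002000000000001000000000000000000000000000000000000000000000000000000000000000000000000000000000000000200000000) (nat_lit 0xfffff00006600004c0000320000190000000fffff0fffff0fffff0fffff0)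
  DL.nil))))))))

noncomputable def d42_1 : DL := (DL.cons (nat_lit 0x30000000000040000000000000000000000000000000000000000000000000000000000000000000000000000000100000000000300000000000000000006000600000001000000080001) (nat_lit 0x2200000a0fffff0000060fffff0000040000020000010000000fffff0)
  (DL.cons (nat_lit 0x100000000000000000000000000000000000000000000000000000000000000000000000000080000000000040000000100000000000000000000000000000000000000000000000000000000000000000000000000000000000000060000000000000000000000000000000000000000000000000000000000000000000000000000000000000000000600000000000000040000000000000000000000000000000000000000000000000000000000000000000000000000000000000002000000080000000000000006000600000001) (nat_lit 0x510000380000200000080fffff0000050000030000010fffff0000000)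
  (DL.cons (nat_lit 0x30000000000000000000000000000000000000000000000000000000000000000000000000003000000000008000000050000000000000000000000000000000000000000000000000000000000000000000000000008000000000006000000000000000000000000000000000000000000000000000000000000000000000000000000000000000000000004000000000000000400000000000000000000000000000000000000000000000000000000000000000000000000060000000000050000000000000000000000000000000000000000000000000000000000000000000000000000000000000000000100000000000000000005) (nat_lit 0x6500004c00003300001b0000030fffff0000000fffff0fffff0fffff0)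
  (DL.cons (nat_lit 0) (nat_lit 0)
  (DL.cons (nat_lit 0) (nat_lit 0)
  (DL.cons (nat_lit 0x200000000000000000000000000000000000000000000000000000000000000000000000000010000000000020000000000000000000000000000000000000000000000000000000000000000000000000000000000000000000000020000000000020001000000000000000000000000000000000000000000000000000000000000000000000000000200000000000100000000000000000000000000000000000000000000000000000000000000000000000000000000000000000002000000000001000000000000) (nat_lit 0x4d00003400001c0000040000000fffff0fffff0fffff0fffff0fffff0)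
  (DL.cons (nat_lit 0x10000000000010000000000000000000000000000000000000000000000000000000000000000000000000000000000000000000000000002000000000000000000010000000000000000000000000000000000000000000000000000000000000000000000000001000000000002000000000000000000000000000000000000000000000000000000000000000000000000000000000000000000000001000000000000000000000000000000000000000000000000000000000000000000000000000000000000000000020000000000020002000000000001000000010000) (nat_lit 0x6b00005100003800001f0000070000030000000fffff0fffff0fffff0)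
  (DL.cons (nat_lit 0x20000000000020000000000000000000000000000000000000000000000000000000000000000000000000000000000000001000000000002000000000000000000000000000000000000000000000000000000000000000000000000000000000002000000000002000000000000000000000000000000000000000000000000000000000000000000000000000000000000000000000002000000000002) (nat_lit 0xfffff00004c0000320000190000000fffff0fffff0fffff0fffff0fffff0)
  DL.nil))))))))

noncomputable def d42_2 : DL := (DL.cons (nat_lit 0x80000000000000000000000000000000000000000000000000000000000000000000000000005000000000006000000010000000000000000000000000000000000000000000000000000000000000000000000000000000800030001000000060000000000060000000600000003000000000001000000080001) (nat_lit 0x2600000e00000a0000070000040000020000010000000fffff0fffff0)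
  (DL.cons (nat_lit 0x200000000000000000000000000000000000000000000000000000000000000000000000000000000000000080000000000000000000000000000000000000000000000000000000000000000000000000000000000000000000800000000000800010000000000000000000000000000000000000000000000000000000000000000000000000000000000000002000000010000000000000000000700000005000700000001) (nat_lit 0x3b00002300000b0000080000050000030000010fffff0000000fffff0)
  (DL.cons (nat_lit 0x20000000000000000000000000000000000000000000000000000000000000000000000000001000000000002000000000000000000000000000000000000000000000000000000000000000000000000000000000000000000000004000000000002000100000000000000000000000000000000000000000000000000000000000000000000000000070000000000020000000000000000000000000000000000000000000000000000000000000000000000000000000000000000000800000000000200000000000000000000000400070000) (nat_lit 0x520000390000210000090000050000020000000fffff0fffff0fffff0)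
  (DL.cons (nat_lit 0) (nat_lit 0)
  (DL.cons (nat_lit 0) (nat_lit 0)
  (DL.cons (nat_lit 0x2000000000002000100000000000000000000000000000000000000000000000000000000000000000000000000000000000000020000000000000000000000000000000000000000000000000000000000000000000000000000000000000000000100000000000100000000000200000001000000020000) (nat_lit 0x390000210000090000050000020000000fffff0fffff0fffff0fffff0)
  (DL.cons (nat_lit 0x1000000000000000000000000000000000000000000000000000000000000000000000000000000000000000100000000000000000002000000000000000000000000000000000000000000000000000000000000000000000000000100000000000200000000000000000000000000000000000000000000000000000000000000000000000000000000000000000000000200000000000000000000000000000000000000000000000000000000000000000000000000000000000000000002000000000000000100000000000000000000000000000000000000000000000000000000000000000000000000000000000000000000000200000000) (nat_lit 0x6500004c00003300001b0000030fffff0000000fffff0fffff0fffff0)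
  (DL.cons (nat_lit 0x1000000000000000000010000000000000000000000000000000000000000000000000000000000000000000000000001000000000001000000000000000000000000000000000000000000000000000000000000000000000000000000000000000000000001000000000001000100000000000000000000000000000000000000000000000000000000000000000000000000010000000000000000000000000000000000000000000000000000000000000000000000000000000000000000000000000000000000020000000100000000) (nat_lit 0xfffff00006500004c00003300001b0000030000000fffff0fffff0fffff0)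
  DL.nil))))))))

noncomputable def d42_3 : DL := (DL.cons (nat_lit 0x10000000000000000000000000000000000000000000000000000000000000000000000000000000800000001000800060000000000040001000000000008000100000001000400070001) (nat_lit 0xe00000a0000070000040000020000010000000fffff0fffff0fffff0)
  (DL.cons (nat_lit 0x50000000000050007000000000000000000000000000000000000000000000000000000000000000000000000000000000000000800000006000000000000000000080003000000080000) (nat_lit 0x2200000a0000070000040000020000000fffff0fffff0fffff0fffff0)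
  (DL.cons (nat_lit 0x8000000000001000100000000000000000000000000000000000000000000000000000000000000000000000000060000000000060000000000000000000000000000000000000000000000000000000000000000000000000000000000000000000100000000000100000000000000030000) (nat_lit 0x3600001e0000060000020fffff0000000fffff0fffff0fffff0fffff0)
  (DL.cons (nat_lit 0) (nat_lit 0)
  (DL.cons (nat_lit 0) (nat_lit 0)
  (DL.cons (nat_lit 0x2000000000000000000000000000000000000000000000000000000000000000000000000000200000000000100000000000000000000000000000000000000000000000000000000000000000000000000000000000000000002000000000000000000000002000100000000) (nat_lit 0x1f0000070000030fffff0000000fffff0fffff0fffff0fffff0fffff0)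
  (DL.cons (nat_lit 0x200000000000000000000000000000000000000000000000000000000000000000000000000010000000000020000000000000000000000000000000000000000000000000000000000000000000000000000000000000002000000000002000000000000000000000000000000000000000000000000000000000000000000000000000000000000000000020000000200000000000100000000) (nat_lit 0x360fffff00001e0000060000030000000fffff0fffff0fffff0fffff0)
  (DL.cons (nat_lit 0x2000000000002000000000000000000000000000000000000000000000000000000000000000000000000000000000000000000000001000000000002000100000000000000000000000000000000000000000000000000000000000000000000000000000000000000010000000100000000000000000001) (nat_lit 0xfffff00003700001e0000060fffff0000030000000fffff0fffff0fffff0)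
  DL.nil))))))))

noncomputable def d42_4 : DL := (DL.cons (nat_lit 0x300000000000700000000000100070000000000010001000500010001) (nat_lit 0xb0000080000050000030000010000000fffff0fffff0fffff0fffff0)
  (DL.cons (nat_lit 0x700000000000000000000000000000000000000000000000000000000000000000000000000000000000000070000000300000000000000000007000800000004) (nat_lit 0x90000060000030000010fffff0fffff0000000fffff0fffff0fffff0)
  (DL.cons (nat_lit 0x20000000000000000000000000000000000000000000000000000000000000000000000000005000000000004000000000000000000000000000000000000000000000000000000000000000000000000000000000000000000030000000000050000000000070000000400000007000000000002) (nat_lit 0x2300000b0000070000040000010fffff0000000fffff0fffff0fffff0)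
  (DL.cons (nat_lit 0) (nat_lit 0)
  (DL.cons (nat_lit 0) (nat_lit 0)
  (DL.cons (nat_lit 0x200000000000200000000000100000001000000010000000000000001) (nat_lit 0xc0000080000050000020000000fffff0fffff0fffff0fffff0fffff0)
  (DL.cons (nat_lit 0x200000000000000020000000000000000000000000000000000000000000000000000000000000000000000000000000000000000000000000000000100010000) (nat_lit 0xfffff00001d0000050fffff0000020fffff0000000fffff0fffff0fffff0)
  (DL.cons (nat_lit 0x2000000000001000100000000000000000000000000000000000000000000000000000000000000000000000000000000000000000000000200000000000000000000000100020000) (nat_lit 0xfffff0000210000090fffff0000050000020000000fffff0fffff0fffff0)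
  DL.nil))))))))

noncomputable def d42_5 : DL := (DL.cons (nat_lit 0x80000000700000005000000010005000800010001) (nat_lit 0x80000050000030000010000000fffff0fffff0fffff0fffff0fffff0)
  (DL.cons (nat_lit 0x70005000000020000000100010000000400000008) (nat_lit 0x80000050000030000010000000fffff0fffff0fffff0fffff0fffff0)
  (DL.cons (nat_lit 0x7000000000000000000000000000000000000000000000000000000000000000000000000000000000003000500000002000300000004000000070001000300060000) (nat_lit 0xa0000060000030000000fffff0fffff0fffff0fffff0fffff0fffff0)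
  (DL.cons (nat_lit 0) (nat_lit 0)
  (DL.cons (nat_lit 0) (nat_lit 0)
  (DL.cons (nat_lit 0x100000000000000000002000200000001000000010000) (nat_lit 0x80000050000020fffff0000000fffff0fffff0fffff0fffff0fffff0)
  (DL.cons (nat_lit 0x1000100000000000200000000000000000000000000000000000000000000000000000000000000000000000000000002000000000002000100010000000200000000) (nat_lit 0x1e0000060000030000000fffff0fffff0fffff0fffff0fffff0fffff0)
  (DL.cons (nat_lit 0x100000000000000000000000000000000000000000000000000000000000000000000000000020000000000000000000000000000000000000000000000000000000000000000000000000000000000000000000000000000000000020000) (nat_lit 0xfffff0000180000000fffff0fffff0fffff0fffff0fffff0fffff0fffff0)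
  DL.nil))))))))

noncomputable def d42_6 : DL := (DL.cons (nat_lit 0x500060000000100020001000200010006) (nat_lit 0x60000040000020000010000000fffff0fffff0fffff0fffff0fffff0)
  (DL.cons (nat_lit 0x30000000000080006000500000007) (nat_lit 0x50000030000010fffff0000000fffff0fffff0fffff0fffff0fffff0)
  (DL.cons (nat_lit 0x700030000000200000003000100000007000000000006) (nat_lit 0x80000050000020000000fffff0fffff0fffff0fffff0fffff0fffff0)
  (DL.cons (nat_lit 0) (nat_lit 0)
  (DL.cons (nat_lit 0) (nat_lit 0)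
  (DL.cons (nat_lit 0x1000100000002000000000001) (nat_lit 0x50000020000000fffff0fffff0fffff0fffff0fffff0fffff0fffff0)
  (DL.cons (nat_lit 0x200000000000000000000000000000000000000000000000000000000000000000000000000000000000000010002000200020000) (nat_lit 0x30000000fffff0fffff0fffff0fffff0fffff0fffff0fffff0fffff0)
  (DL.cons (nat_lit 0x1000000000001000200000002) (nat_lit 0xfffff0000040000000fffff0fffff0fffff0fffff0fffff0fffff0fffff0)
  DL.nil))))))))

noncomputable def d42_7 : DL := (DL.cons (nat_lit 0x100080005000700010006) (nat_lit 0x40000020000010000000fffff0fffff0fffff0fffff0fffff0fffff0)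
  (DL.cons (nat_lit 0x600010001000000070007) (nat_lit 0x40000020000010000000fffff0fffff0fffff0fffff0fffff0fffff0)
  (DL.cons (nat_lit 0x70006000500000000000200060003) (nat_lit 0x70000040000020000000fffff0fffff0fffff0fffff0fffff0fffff0)
  (DL.cons (nat_lit 0) (nat_lit 0)
  (DL.cons (nat_lit 0) (nat_lit 0)
  (DL.cons (nat_lit 0x10000000000000001000000020002) (nat_lit 0x50000030000010fffff0000000fffff0fffff0fffff0fffff0fffff0)
  (DL.cons (nat_lit 8589934594) (nat_lit 0xfffff0000020000000fffff0fffff0fffff0fffff0fffff0fffff0fffff0)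
  (DL.cons (nat_lit 0x2000100000001000000010001) (nat_lit 0xfffff0000030000000fffff0fffff0fffff0fffff0fffff0fffff0fffff0)
  DL.nil))))))))

noncomputable def d42_8 : DL := (DL.cons (nat_lit 4295491585) (nat_lit 0x10000000fffff0fffff0fffff0fffff0fffff0fffff0fffff0fffff0)
  (DL.cons (nat_lit 34359738376) (nat_lit 0x10000000fffff0fffff0fffff0fffff0fffff0fffff0fffff0fffff0)
  (DL.cons (nat_lit 0x6000400000000000200070008) (nat_lit 0x40000020000000fffff0fffff0fffff0fffff0fffff0fffff0fffff0)
  (DL.cons (nat_lit 0) (nat_lit 0)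
  (DL.cons (nat_lit 0) (nat_lit 0)
  (DL.cons (nat_lit 65538) (nat_lit 0xfffff0000000fffff0fffff0fffff0fffff0fffff0fffff0fffff0fffff0)
  (DL.cons (nat_lit 8590065666) (nat_lit 0x20000000fffff0fffff0fffff0fffff0fffff0fffff0fffff0fffff0)
  (DL.cons (nat_lit 0x20001000100020000) (nat_lit 0xfffff0000030000000fffff0fffff0fffff0fffff0fffff0fffff0fffff0)
  DL.nil))))))))

noncomputable def d42_9 : DL := (DL.cons (nat_lit 65542) (nat_lit 0x10000000fffff0fffff0fffff0fffff0fffff0fffff0fffff0fffff0)
  (DL.cons (nat_lit 65543) (nat_lit 0x10000000fffff0fffff0fffff0fffff0fffff0fffff0fffff0fffff0)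
  (DL.cons (nat_lit 0x6000300000003) (nat_lit 0x30000010fffff0000000fffff0fffff0fffff0fffff0fffff0fffff0)
  (DL.cons (nat_lit 0) (nat_lit 0)
  (DL.cons (nat_lit 0) (nat_lit 0)
  (DL.cons (nat_lit 131074) (nat_lit 0x10fffff0000000fffff0fffff0fffff0fffff0fffff0fffff0fffff0)
  (DL.cons (nat_lit 0x20001000200000002) (nat_lit 0x30000010fffff0000000fffff0fffff0fffff0fffff0fffff0fffff0)
  (DL.cons (nat_lit 8590065664) (nat_lit 0xfffff0000000fffff0fffff0fffff0fffff0fffff0fffff0fffff0fffff0)
  DL.nil))))))))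

noncomputable def d42 : DLL := (DLL.cons d42_0
  (DLL.cons d42_1
  (DLL.cons d42_2
  (DLL.cons d42_3
  (DLL.cons d42_4
  (DLL.cons d42_5
  (DLL.cons d42_6
  (DLL.cons d42_7
  (DLL.cons d42_8
  (DLL.cons d42_9
  DLL.nil))))))))))

noncomputable def m42 : TL := (TL.cons ⟨fun _ => nat_lit 0⟩
  (TL.cons ⟨fun _ => nat_lit 0⟩
  (TL.cons ⟨fun _ => nat_lit 0⟩
  (TL.cons ⟨fun _ => nat_lit 0⟩
  (TL.cons ⟨fun _ => nat_lit 0⟩
  (TL.cons ⟨fun _ => nat_lit 0⟩
  (TL.cons ⟨fun _ => nat_lit 0⟩
  (TL.cons ⟨fun _ => nat_lit 0⟩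
  (TL.cons ⟨fun _ => nat_lit 0⟩
  (TL.cons ⟨fun _ => nat_lit 0⟩
  (TL.cons ⟨fun _ => nat_lit 0⟩
  (TL.cons ⟨fun _ => nat_lit 0⟩
  (TL.cons ⟨fun _ => nat_lit 0⟩
  (TL.cons ⟨fun _ => nat_lit 0⟩
  (TL.cons ⟨fun _ => nat_lit 0⟩
  (TL.cons ⟨fun _ => nat_lit 0⟩
  (TL.cons ⟨fun _ => nat_lit 0⟩
  (TL.cons ⟨fun _ => nat_lit 0⟩
  (TL.cons ⟨fun _ => nat_lit 0⟩
  (TL.cons ⟨fun _ => nat_lit 0⟩
  (TL.cons ⟨fun _ => nat_lit 0⟩
  (TL.cons ⟨fun _ => nat_lit 0⟩
  (TL.cons ⟨fun _ => nat_lit 0⟩
  (TL.cons ⟨fun _ => nat_lit 0⟩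
  (TL.cons ⟨fun _ => nat_lit 0⟩
  (TL.cons ⟨fun _ => nat_lit 0⟩
  (TL.cons ⟨fun _ => nat_lit 0⟩
  (TL.cons ⟨fun _ => nat_lit 0⟩
  (TL.cons ⟨fun _ => nat_lit 0⟩
  (TL.cons ⟨fun _ => nat_lit 0⟩
  (TL.cons ⟨fun _ => nat_lit 0⟩
  (TL.cons ⟨fun _ => nat_lit 0⟩
  (TL.cons ⟨fun _ => nat_lit 0⟩
  (TL.cons ⟨fun _ => nat_lit 0⟩
  (TL.cons ⟨fun _ => nat_lit 0⟩
  (TL.cons ⟨fun _ => nat_lit 0⟩
  (TL.cons ⟨fun _ => nat_lit 0⟩
  (TL.cons ⟨fun _ => nat_lit 0⟩
  (TL.cons ⟨fun _ => nat_lit 0⟩
  (TL.cons ⟨fun _ => nat_lit 0⟩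
  (TL.cons ⟨fun _ => nat_lit 0⟩
  (TL.cons ⟨fun _ => nat_lit 0⟩
  (TL.cons ⟨fun _ => nat_lit 0⟩
  (TL.cons ⟨fun _ => nat_lit 0⟩
  (TL.cons ⟨fun _ => nat_lit 0⟩
  (TL.cons ⟨fun _ => nat_lit 0⟩
  (TL.cons ⟨fun _ => nat_lit 0⟩
  (TL.cons ⟨fun _ => nat_lit 0⟩
  (TL.cons ⟨fun _ => nat_lit 0⟩
  (TL.cons ⟨fun _ => nat_lit 0⟩
  (TL.cons ⟨fun _ => nat_lit 0⟩
  (TL.cons ⟨fun _ => nat_lit 0⟩
  (TL.cons ⟨fun _ => nat_lit 0⟩
  (TL.cons ⟨fun _ => nat_lit 0⟩
  (TL.cons ⟨fun _ => nat_lit 0⟩
  (TL.cons ⟨fun _ => nat_lit 0⟩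
  (TL.cons ⟨fun _ => nat_lit 0⟩
  (TL.cons ⟨fun _ => nat_lit 0⟩
  (TL.cons ⟨fun _ => nat_lit 0⟩
  (TL.cons ⟨fun _ => nat_lit 0⟩
  (TL.cons ⟨fun _ => nat_lit 0⟩
  (TL.cons ⟨fun _ => nat_lit 0⟩
  (TL.cons ⟨fun _ => nat_lit 0⟩
  (TL.cons ⟨fun _ => nat_lit 0⟩
  (TL.cons ⟨fun x => (x (nat_lit 0) (nat_lit 0) (nat_lit 0))⟩
  (TL.cons ⟨fun x => (x (nat_lit 0) (nat_lit 1) (nat_lit 0))⟩
  (TL.cons ⟨fun x => (Nat.add (x (nat_lit 0) (nat_lit 5) (nat_lit 0)) (x (nat_lit 1) (nat_lit 0) (nat_lit 0)))⟩
  (TL.cons ⟨fun x => (x (nat_lit 1) (nat_lit 1) (nat_lit 0))⟩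
  (TL.cons ⟨fun x => (Nat.add (x (nat_lit 0) (nat_lit 2) (nat_lit 0)) (Nat.add (x (nat_lit 1) (nat_lit 5) (nat_lit 0)) (x (nat_lit 2) (nat_lit 0) (nat_lit 0))))⟩
  (TL.cons ⟨fun x => (Nat.add (x (nat_lit 0) (nat_lit 6) (nat_lit 0)) (x (nat_lit 2) (nat_lit 1) (nat_lit 0)))⟩
  (TL.cons ⟨fun x => (Nat.add (x (nat_lit 1) (nat_lit 2) (nat_lit 0)) (Nat.add (x (nat_lit 2) (nat_lit 5) (nat_lit 0)) (x (nat_lit 3) (nat_lit 0) (nat_lit 0))))⟩
  (TL.cons ⟨fun x => (Nat.add (x (nat_lit 1) (nat_lit 6) (nat_lit 0)) (x (nat_lit 3) (nat_lit 1) (nat_lit 0)))⟩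
  (TL.cons ⟨fun x => (Nat.add (Nat.add (x (nat_lit 0) (nat_lit 7) (nat_lit 0)) (x (nat_lit 2) (nat_lit 2) (nat_lit 0))) (Nat.add (x (nat_lit 3) (nat_lit 5) (nat_lit 0)) (x (nat_lit 4) (nat_lit 0) (nat_lit 0))))⟩
  (TL.cons ⟨fun x => (Nat.add (x (nat_lit 2) (nat_lit 6) (nat_lit 0)) (x (nat_lit 4) (nat_lit 1) (nat_lit 0)))⟩
  (TL.cons ⟨fun x => (Nat.add (x (nat_lit 1) (nat_lit 7) (nat_lit 0)) (Nat.add (x (nat_lit 3) (nat_lit 2) (nat_lit 0)) (x (nat_lit 4) (nat_lit 5) (nat_lit 0))))⟩
  (TL.cons ⟨fun x => (Nat.add (x (nat_lit 3) (nat_lit 6) (nat_lit 0)) (x (nat_lit 5) (nat_lit 0) (nat_lit 0)))⟩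
  (TL.cons ⟨fun x => (Nat.add (x (nat_lit 2) (nat_lit 7) (nat_lit 0)) (Nat.add (x (nat_lit 4) (nat_lit 2) (nat_lit 0)) (x (nat_lit 5) (nat_lit 1) (nat_lit 0))))⟩
  (TL.cons ⟨fun x => (Nat.add (Nat.add (x (nat_lit 0) (nat_lit 3) (nat_lit 0)) (x (nat_lit 4) (nat_lit 6) (nat_lit 0))) (Nat.add (x (nat_lit 5) (nat_lit 5) (nat_lit 0)) (x (nat_lit 6) (nat_lit 0) (nat_lit 0))))⟩
  (TL.cons ⟨fun x => (Nat.add (x (nat_lit 0) (nat_lit 8) (nat_lit 0)) (Nat.add (x (nat_lit 3) (nat_lit 7) (nat_lit 0)) (x (nat_lit 6) (nat_lit 1) (nat_lit 0))))⟩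
  (TL.cons ⟨fun x => (Nat.add (Nat.add (x (nat_lit 1) (nat_lit 3) (nat_lit 0)) (x (nat_lit 5) (nat_lit 2) (nat_lit 0))) (Nat.add (x (nat_lit 6) (nat_lit 5) (nat_lit 0)) (x (nat_lit 7) (nat_lit 0) (nat_lit 0))))⟩
  (TL.cons ⟨fun x => (Nat.add (Nat.add (x (nat_lit 1) (nat_lit 8) (nat_lit 0)) (x (nat_lit 4) (nat_lit 7) (nat_lit 0))) (Nat.add (x (nat_lit 5) (nat_lit 6) (nat_lit 0)) (x (nat_lit 7) (nat_lit 1) (nat_lit 0))))⟩
  (TL.cons ⟨fun x => (Nat.add (Nat.add (x (nat_lit 0) (nat_lit 9) (nat_lit 0)) (x (nat_lit 2) (nat_lit 3) (nat_lit 0))) (Nat.add (x (nat_lit 6) (nat_lit 2) (nat_lit 0)) (Nat.add (x (nat_lit 7) (nat_lit 5) (nat_lit 0)) (x (nat_lit 8) (nat_lit 0) (nat_lit 0)))))⟩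
  (TL.cons ⟨fun x => (Nat.add (x (nat_lit 2) (nat_lit 8) (nat_lit 0)) (Nat.add (x (nat_lit 6) (nat_lit 6) (nat_lit 0)) (x (nat_lit 8) (nat_lit 1) (nat_lit 0))))⟩
  (TL.cons ⟨fun x => (Nat.add (Nat.add (x (nat_lit 1) (nat_lit 9) (nat_lit 0)) (Nat.add (x (nat_lit 3) (nat_lit 3) (nat_lit 0)) (x (nat_lit 5) (nat_lit 7) (nat_lit 0)))) (Nat.add (x (nat_lit 7) (nat_lit 2) (nat_lit 0)) (Nat.add (x (nat_lit 8) (nat_lit 5) (nat_lit 0)) (x (nat_lit 9) (nat_lit 0) (nat_lit 0)))))⟩
  (TL.cons ⟨fun x => (Nat.add (x (nat_lit 3) (nat_lit 8) (nat_lit 0)) (Nat.add (x (nat_lit 7) (nat_lit 6) (nat_lit 0)) (x (nat_lit 9) (nat_lit 1) (nat_lit 0))))⟩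
  (TL.cons ⟨fun x => (Nat.add (Nat.add (x (nat_lit 2) (nat_lit 9) (nat_lit 0)) (x (nat_lit 4) (nat_lit 3) (nat_lit 0))) (Nat.add (x (nat_lit 6) (nat_lit 7) (nat_lit 0)) (Nat.add (x (nat_lit 8) (nat_lit 2) (nat_lit 0)) (x (nat_lit 9) (nat_lit 5) (nat_lit 0)))))⟩
  (TL.cons ⟨fun x => (Nat.add (x (nat_lit 4) (nat_lit 8) (nat_lit 0)) (x (nat_lit 8) (nat_lit 6) (nat_lit 0)))⟩
  (TL.cons ⟨fun x => (Nat.add (x (nat_lit 3) (nat_lit 9) (nat_lit 0)) (Nat.add (x (nat_lit 7) (nat_lit 7) (nat_lit 0)) (x (nat_lit 9) (nat_lit 2) (nat_lit 0))))⟩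
  (TL.cons ⟨fun x => (Nat.add (x (nat_lit 5) (nat_lit 3) (nat_lit 0)) (x (nat_lit 9) (nat_lit 6) (nat_lit 0)))⟩
  (TL.cons ⟨fun x => (Nat.add (x (nat_lit 4) (nat_lit 9) (nat_lit 0)) (Nat.add (x (nat_lit 5) (nat_lit 8) (nat_lit 0)) (x (nat_lit 8) (nat_lit 7) (nat_lit 0))))⟩
  (TL.cons ⟨fun x => (Nat.add (x (nat_lit 0) (nat_lit 10) (nat_lit 0)) (x (nat_lit 6) (nat_lit 3) (nat_lit 0)))⟩
  TL.nil)))))))))))))))))))))))))))))))))))))))))))))))))))))))))))))))))))))))))))))))))))))))))))

noncomputable def m42_t : List TT := [.zero,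
  .zero,
  .zero,
  .zero,
  .zero,
  .zero,
  .zero,
  .zero,
  .zero,
  .zero,
  .zero,
  .zero,
  .zero,
  .zero,
  .zero,
  .zero,
  .zero,
  .zero,
  .zero,
  .zero,
  .zero,
  .zero,
  .zero,
  .zero,
  .zero,
  .zero,
  .zero,
  .zero,
  .zero,
  .zero,
  .zero,
  .zero,
  .zero,
  .zero,
  .zero,
  .zero,
  .zero,
  .zero,
  .zero,
  .zero,
  .zero,
  .zero,
  .zero,
  .zero,
  .zero,
  .zero,
  .zero,
  .zero,
  .zero,
  .zero,
  .zero,
  .zero,
  .zero,
  .zero,
  .zero,
  .zero,
  .zero,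
  .zero,
  .zero,
  .zero,
  .zero,
  .zero,
  .zero,
  .zero,
  (.leaf (nat_lit 0) (nat_lit 0) (nat_lit 0)),
  (.leaf (nat_lit 0) (nat_lit 1) (nat_lit 0)),
  (.add (.leaf (nat_lit 0) (nat_lit 5) (nat_lit 0)) (.leaf (nat_lit 1) (nat_lit 0) (nat_lit 0))),
  (.leaf (nat_lit 1) (nat_lit 1) (nat_lit 0)),
  (.add (.leaf (nat_lit 0) (nat_lit 2) (nat_lit 0)) (.add (.leaf (nat_lit 1) (nat_lit 5) (nat_lit 0)) (.leaf (nat_lit 2) (nat_lit 0) (nat_lit 0)))),
  (.add (.leaf (nat_lit 0) (nat_lit 6) (nat_lit 0)) (.leaf (nat_lit 2) (nat_lit 1) (nat_lit 0))),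
  (.add (.leaf (nat_lit 1) (nat_lit 2) (nat_lit 0)) (.add (.leaf (nat_lit 2) (nat_lit 5) (nat_lit 0)) (.leaf (nat_lit 3) (nat_lit 0) (nat_lit 0)))),
  (.add (.leaf (nat_lit 1) (nat_lit 6) (nat_lit 0)) (.leaf (nat_lit 3) (nat_lit 1) (nat_lit 0))),
  (.add (.add (.leaf (nat_lit 0) (nat_lit 7) (nat_lit 0)) (.leaf (nat_lit 2) (nat_lit 2) (nat_lit 0))) (.add (.leaf (nat_lit 3) (nat_lit 5) (nat_lit 0)) (.leaf (nat_lit 4) (nat_lit 0) (nat_lit 0)))),
  (.add (.leaf (nat_lit 2) (nat_lit 6) (nat_lit 0)) (.leaf (nat_lit 4) (nat_lit 1) (nat_lit 0))),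
  (.add (.leaf (nat_lit 1) (nat_lit 7) (nat_lit 0)) (.add (.leaf (nat_lit 3) (nat_lit 2) (nat_lit 0)) (.leaf (nat_lit 4) (nat_lit 5) (nat_lit 0)))),
  (.add (.leaf (nat_lit 3) (nat_lit 6) (nat_lit 0)) (.leaf (nat_lit 5) (nat_lit 0) (nat_lit 0))),
  (.add (.leaf (nat_lit 2) (nat_lit 7) (nat_lit 0)) (.add (.leaf (nat_lit 4) (nat_lit 2) (nat_lit 0)) (.leaf (nat_lit 5) (nat_lit 1) (nat_lit 0)))),
  (.add (.add (.leaf (nat_lit 0) (nat_lit 3) (nat_lit 0)) (.leaf (nat_lit 4) (nat_lit 6) (nat_lit 0))) (.add (.leaf (nat_lit 5) (nat_lit 5) (nat_lit 0)) (.leaf (nat_lit 6) (nat_lit 0) (nat_lit 0)))),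
  (.add (.leaf (nat_lit 0) (nat_lit 8) (nat_lit 0)) (.add (.leaf (nat_lit 3) (nat_lit 7) (nat_lit 0)) (.leaf (nat_lit 6) (nat_lit 1) (nat_lit 0)))),
  (.add (.add (.leaf (nat_lit 1) (nat_lit 3) (nat_lit 0)) (.leaf (nat_lit 5) (nat_lit 2) (nat_lit 0))) (.add (.leaf (nat_lit 6) (nat_lit 5) (nat_lit 0)) (.leaf (nat_lit 7) (nat_lit 0) (nat_lit 0)))),
  (.add (.add (.leaf (nat_lit 1) (nat_lit 8) (nat_lit 0)) (.leaf (nat_lit 4) (nat_lit 7) (nat_lit 0))) (.add (.leaf (nat_lit 5) (nat_lit 6) (nat_lit 0)) (.leaf (nat_lit 7) (nat_lit 1) (nat_lit 0)))),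
  (.add (.add (.leaf (nat_lit 0) (nat_lit 9) (nat_lit 0)) (.leaf (nat_lit 2) (nat_lit 3) (nat_lit 0))) (.add (.leaf (nat_lit 6) (nat_lit 2) (nat_lit 0)) (.add (.leaf (nat_lit 7) (nat_lit 5) (nat_lit 0)) (.leaf (nat_lit 8) (nat_lit 0) (nat_lit 0))))),
  (.add (.leaf (nat_lit 2) (nat_lit 8) (nat_lit 0)) (.add (.leaf (nat_lit 6) (nat_lit 6) (nat_lit 0)) (.leaf (nat_lit 8) (nat_lit 1) (nat_lit 0)))),
  (.add (.add (.leaf (nat_lit 1) (nat_lit 9) (nat_lit 0)) (.add (.leaf (nat_lit 3) (nat_lit 3) (nat_lit 0)) (.leaf (nat_lit 5) (nat_lit 7) (nat_lit 0)))) (.add (.leaf (nat_lit 7) (nat_lit 2) (nat_lit 0)) (.add (.leaf (nat_lit 8) (nat_lit 5) (nat_lit 0)) (.leaf (nat_lit 9) (nat_lit 0) (nat_lit 0))))),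
  (.add (.leaf (nat_lit 3) (nat_lit 8) (nat_lit 0)) (.add (.leaf (nat_lit 7) (nat_lit 6) (nat_lit 0)) (.leaf (nat_lit 9) (nat_lit 1) (nat_lit 0)))),
  (.add (.add (.leaf (nat_lit 2) (nat_lit 9) (nat_lit 0)) (.leaf (nat_lit 4) (nat_lit 3) (nat_lit 0))) (.add (.leaf (nat_lit 6) (nat_lit 7) (nat_lit 0)) (.add (.leaf (nat_lit 8) (nat_lit 2) (nat_lit 0)) (.leaf (nat_lit 9) (nat_lit 5) (nat_lit 0))))),
  (.add (.leaf (nat_lit 4) (nat_lit 8) (nat_lit 0)) (.leaf (nat_lit 8) (nat_lit 6) (nat_lit 0))),
  (.add (.leaf (nat_lit 3) (nat_lit 9) (nat_lit 0)) (.add (.leaf (nat_lit 7) (nat_lit 7) (nat_lit 0)) (.leaf (nat_lit 9) (nat_lit 2) (nat_lit 0)))),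
  (.add (.leaf (nat_lit 5) (nat_lit 3) (nat_lit 0)) (.leaf (nat_lit 9) (nat_lit 6) (nat_lit 0))),
  (.add (.leaf (nat_lit 4) (nat_lit 9) (nat_lit 0)) (.add (.leaf (nat_lit 5) (nat_lit 8) (nat_lit 0)) (.leaf (nat_lit 8) (nat_lit 7) (nat_lit 0)))),
  (.add (.leaf (nat_lit 0) (nat_lit 10) (nat_lit 0)) (.leaf (nat_lit 6) (nat_lit 3) (nat_lit 0)))]

theorem m42_eq : m42 = ofL m42_t := rfl

noncomputable def d43_0 : DL := (DL.cons (nat_lit 0x3000000000000000000000000000000000000000000000000000000000000000000000000000000000006000600000003000000000000000000000000000000000000000000000000000000000000000000000000000000000006000300000002000300000000000000000000000000000000000000000000000000000000000000000000000000000000000000060003000600000000000000000000000000000000000000000000000000000000000000000000000000000000000000060000000100060000000100000003000700020000000000000005000800070001) (nat_lit 0x5800003f00002700000f00000b0000080000050000030000010000000)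
  (DL.cons (nat_lit 0x10000000000000000000000000000000000000000000000000000000000000000000000000001000000030005000000080000000800000000000000000000000000000000000000000000000000000000000000000000000000040004000000060005000200000000000000000000000000000000000000000000000000000000000000000000000000000000000000000001000000000000000000000000000000000000000000000000000000000000000000000000000000000000000800040000000700010000000000000000000000000000000000000000000000000000000000000000000000000000000600000003000000020005000000000000000200070000000800000008) (nat_lit 0x6d00005400003b00002300000b0000080000050000030000010000000)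
  (DL.cons (nat_lit 0x2000100000000000000000000000000000000000000000000000000000000000000000000000600040000000500050000000700040000000700000000000000000000000000000000000000000000000000000000000000000000000000040002000000070008000200060000000000000000000000000000000000000000000000000000000000000000000000010007000000060004000000020000000000000000000000000000000000000000000000000000000000000000000000000000000000080004000000080006000000000000000000000000000000000000000000000000000000000000000000000000000700060000000300000000000000000000000000000000000000000000000000000000000000000000000000000000000000000006000700000004000200000005) (nat_lit 0x8000006600004d00003400001c0000040000000fffff0fffff0fffff0)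
  (DL.cons (nat_lit 0) (nat_lit 0)
  (DL.cons (nat_lit 0) (nat_lit 0)
  (DL.cons (nat_lit 0x10000000100000000000000000000000000000000000000000000000000000000000000000000000000010000000000020000000100000000000000000000000000000000000000000000000000000000000000000000000000010001000000000001000000020000000000000000000000000000000000000000000000000000000000000000000000000000000000000000000000000000000000000000000000000000000000000000000000000000000000000000000000000000000200000000000200000001000000000000000000000000000000000000000000000000000000000000000000000000000000000002000100000000000200000000000000020000000200000000) (nat_lit 0x6c00005300003a00002200000a0000060000030000000fffff0fffff0)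
  (DL.cons (nat_lit 0x200000000000000000000000000000000000000000000000000000000000000000000000000000001000000000001000000000000000000000001000000000000000000000000000000000000000000000000000000000000000000000000000200000002000000000001000200000000000000000000000000000000000000000000000000000000000000000000000000010000000000010000000000000000000000000000000000000000000000000000000000000000000000000000000000000000000200000000000200000000000100000000000000000000000000000000000000000000000000000000000000000000000000010000000200000000000000000000000000000000000000000000000000000000000000000000000000000000000000000001000200000001000100000000000000000000000000000000000000000000000000000000000000000000000000000000000000000000) (nat_lit 0x9600007c0000620000490000300000180000000fffff0fffff0fffff0)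
  (DL.cons (nat_lit 0x10000000000000000000000000000000000000000000000000000000000000000000000000000000100000000000200000000000000000000000000000000000000000000000000000000000000000000000000010000000200010000000200010000000000000000000000000000000000000000000000000000000000000000000000020001000000020000000000000000000000020000000000000000000000000000000000000000000000000000000000000000000000000002000000000002000000010000000000000000000000000000000000000000000000000000000000000000000000000001000100000001000200000002000000000000000000000000000000000000000000000000000000000000000000000000000000000002000100000001000100000000000000000000000000000000000000000000000000000000000000000000000000020000000000020000) (nat_lit 0xfffff00007e00006400004a0000310000180000000fffff0fffff0fffff0)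
  DL.nil))))))))

noncomputable def d43_1 : DL := (DL.cons (nat_lit 0x40008000000000000000000000000000000000000000000000000000000000000000000000000000000070001000000080004000000000000000000000000000000000000000000000000000000000000000000000000000000080000000500080006000000000000000000000000000000000000000000000000000000000000000000000000000000000000000600000003000300000006000100030000000600010000000800070001000800010006) (nat_lit 0x4000002800001000000c0000090000060000040000020000010000000)
  (DL.cons (nat_lit 0x800000000000000000000000000000000000000000000000000000000000000000000000000050006000000040008000600000000000000000000000000000000000000000000000000000000000000000000000000000004000000050007000000000000000000000000000000000000000000000000000000000000000000000000000000000000000300070000000600030000000000000000000000000000000000000000000000000000000000000000000000000000000200000007000800080005000000050000000000070003000600000001) (nat_lit 0x5400003b00002300000b0000080000050000030000010fffff0000000)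
  (DL.cons (nat_lit 0x20000000800000000000000000000000000000000000000000000000000000000000000000000000000060005000000050005000000040000000000000000000000000000000000000000000000000000000000000000000000000002000000020008000000000000000000000000000000000000000000000000000000000000000000000000000000000000000000010003000000060003000000000000000000000000000000000000000000000000000000000000000000000000000500020000000800080005000000000000000000000000000000000000000000000000000000000000000000000000000000000002000700000007000000000008000000080008) (nat_lit 0x6900005000003700001f0000070000030000000fffff0fffff0fffff0)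
  (DL.cons (nat_lit 0) (nat_lit 0)
  (DL.cons (nat_lit 0) (nat_lit 0)
  (DL.cons (nat_lit 0x100000000000000000000000000000000000000000000000000000000000000000000000000010002000000000002000000020000000000000000000000000000000000000000000000000000000000000000000000000000000000020001000000020001000000000000000000000000000000000000000000000000000000000000000000000000000000000000000000000002000000000000000000000000000000000000000000000000000000000000000000000000000000000001000200000001000000000001000000020000) (nat_lit 0x5000003700001f0000070000030fffff0000000fffff0fffff0fffff0)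
  (DL.cons (nat_lit 0x2000000000000000000000000000000000000000000000000000000000000000000000000000100000002000000000001000200000000000000000000000000000000000000000000000000000000000000000000000000020000000200000000000100000001000000000000000000000000000000000000000000000000000000000000000000000000000000000000000100000000000000000000000000000000000000000000000000000000000000000000000000000000000000000000000100010000000000000000000000000000000000000000000000000000000000000000000000000000000000000001000000000000000200000000000000000000000000000000000000000000000000000000000000000000000000000002000000010001000200000000) (nat_lit 0x7f00006500004c00003300001b0000030000000fffff0fffff0fffff0)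
  (DL.cons (nat_lit 0x200000000000000000000000000000000000000000000000000000000000000000000000000010001000000010000000000020000000000020000000000000000000000000000000000000000000000000000000000000000000000000002000000000002000000010002000000000000000000000000000000000000000000000000000000000000000000000002000000000002000200000002000000000000000000000000000000000000000000000000000000000000000000000000000000000001000100000001000000000000000000000000000000000000000000000000000000000000000000000000000000000000000000010000) (nat_lit 0xfffff00006400004a0000310000180000000fffff0fffff0fffff0fffff0)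
  DL.nil))))))))

noncomputable def d43_2 : DL := (DL.cons (nat_lit 0x3000000000000000000000000000000000000000000000000000000000000000000000000000000050000000100050004000000000000000000000000000000000000000000000000000000000000000000000000000000010000000300080006000100000006000100030000000200020000000800050004000500010006) (nat_lit 0x2800001000000c0000090000060000040000020000010000000fffff0)
  (DL.cons (nat_lit 0x1000700000000000000000000000000000000000000000000000000000000000000000000000000000000000200050000000000000000000000000000000000000000000000000000000000000000000000000000000000000008000500000008000700000000000000000000000000000000000000000000000000000000000000000000000000000003000000040006000000070000000600000000000000050007000000070004) (nat_lit 0x3c00002400000c0000090000060000040000020000010000000fffff0)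
  (DL.cons (nat_lit 0x100030000000000000000000000000000000000000000000000000000000000000000000000050000000000050003000000050000000000000000000000000000000000000000000000000000000000000000000000000000000000010008000000030008000000000000000000000000000000000000000000000000000000000000000000000000000200010000000800000000000000000000000000000000000000000000000000000000000000000000000000000000000000000005000600000008000200000007000000020004000500030000) (nat_lit 0x5300003a00002200000a0000060000030000000fffff0fffff0fffff0)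
  (DL.cons (nat_lit 0) (nat_lit 0)
  (DL.cons (nat_lit 0) (nat_lit 0)
  (DL.cons (nat_lit 0x2000000000000000000000000000000000000000000000000000000000000000000000000000000000000000200000000000100000000000000000000000000000000000000000000000000000000000000000000000000000002000000020002000200000000000000000000000000000000000000000000000000000000000000000000000000000000000200000000000100010000000100000001000100000002) (nat_lit 0x390000210000090000050fffff0fffff0000030000010fffff0000000)
  (DL.cons (nat_lit 0x2000200000000000000000000000000000000000000000000000000000000000000000000000000000000000200010000000000000002000000000000000000000000000000000000000000000000000000000000000000000000000200010000000200010002000000000000000000000000000000000000000000000000000000000000000000000000000000020000000000010000000000000000000000000000000000000000000000000000000000000000000000000000000000000000000000000002000200000000000000000000000000000000000000000000000000000000000000000000000000000000000000010000000000020000000100000001)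 (nat_lit 0x6800004f00003600001e0000060000030000000fffff0fffff0fffff0)
  (DL.cons (nat_lit 0x20001000000020002000200000000000000000000000000000000000000000000000000000000000000000000000000020001000000010001000000000000000000000000000000000000000000000000000000000000000000000000000000000000000000010001000000020001000000000000000000000000000000000000000000000000000000000000000000000000000100000000000200000000000000000000000000000000000000000000000000000000000000000000000000000000000000000002000000000001000000000002) (nat_lit 0xfffff00006600004d00003400001c0000040000000fffff0fffff0fffff0)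
  DL.nil))))))))

noncomputable def d43_3 : DL := (DL.cons (nat_lit 0x400000000000000000000000000000000000000000000000000000000000000000000000000000008000600030008000300020000000300000004000300070004000100010004000500040001) (nat_lit 0xf00000b0000080000050000030000010000000fffff0fffff0fffff0)
  (DL.cons (nat_lit 0x200000000000800010000000000000000000000000000000000000000000000000000000000000000000000000000000500000002000000070006000000020000000700040000000400000008) (nat_lit 0x2300000b0000080000050000030000010000000fffff0fffff0fffff0)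
  (DL.cons (nat_lit 0x7000000000000000000000000000000000000000000000000000000000000000000000000000000000005000400000002000500000000000000000000000000000000000000000000000000000000000000000000000000030005000000000000000500000000000000000000000000000000000000000000000000000000000000000000000000000000000800020000000200070000000300000004000600000002000000000002) (nat_lit 0x3c00002400000c0000080000050000020000000fffff0fffff0fffff0)
  (DL.cons (nat_lit 0) (nat_lit 0)
  (DL.cons (nat_lit 0) (nat_lit 0)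
  (DL.cons (nat_lit 0x2000000020000000100000000000000000000000000000000000000000000000000000000000000000000000000000000000100000000000000010000000100000001000100000002000000010000) (nat_lit 0x2400000c0000080000050000020fffff0000000fffff0fffff0fffff0)
  (DL.cons (nat_lit 0x20002000000020001000100000000000000000000000000000000000000000000000000000000000000000000000000000001000000010001000000000000000000000000000000000000000000000000000000000000000000000000000000000000000100000000000100010000000000000000000000000000000000000000000000000000000000000000000000000000000000000000000000010000000000000000000100020000) (nat_lit 0x510000380000200000080000050000020000000fffff0fffff0fffff0)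
  (DL.cons (nat_lit 0x200020000000000000000000000000000000000000000000000000000000000000000000000020002000000020002000000020000000000000000000000000000000000000000000000000000000000000000000000000000000000020000000000010001000000000000000000000000000000000000000000000000000000000000000000000000000200010000000100010001000000000000000000000000000000000000000000000000000000000000000000000000000000000000000200000002000000000001000000020001) (nat_lit 0xfffff00005000003700001f0000070000030000000fffff0fffff0fffff0)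
  DL.nil))))))))

noncomputable def d43_4 : DL := (DL.cons (nat_lit 0x7000000080008000800010008000000060000000000030003000800010006) (nat_lit 0xc0000090000060000040000020000010000000fffff0fffff0fffff0)
  (DL.cons (nat_lit 0x40000000000000000000000000000000000000000000000000000000000000000000000000000000200000006000700010005000000020000000500050008000700000004) (nat_lit 0xb0000080000050000030000010fffff0000000fffff0fffff0fffff0)
  (DL.cons (nat_lit 0x20000000000000000000000000000000000000000000000000000000000000000000000000006000700000005000600030000000000000000000000000000000000000000000000000000000000000000000000000000000000020008000000050004000000020000000200000004000400000000000800040002) (nat_lit 0x2600000e00000a0000070000040000020000000fffff0fffff0fffff0)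
  (DL.cons (nat_lit 0) (nat_lit 0)
  (DL.cons (nat_lit 0) (nat_lit 0)
  (DL.cons (nat_lit 0x200000000000000000000000000000000000000000000000000000000000000000000000000000000000000010000000100010000000200000002000000020001000000000002) (nat_lit 0xc0000080000050000020000000fffff0fffff0fffff0fffff0fffff0)
  (DL.cons (nat_lit 0x2000000000002000000000000000000000000000000000000000000000000000000000000000000000000000000000000000100020000000200010000000000000000000000000000000000000000000000000000000000000000000000000000000000000001000000010000000100010000) (nat_lit 0x3500001d0000050fffff0000020fffff0000000fffff0fffff0fffff0)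
  (DL.cons (nat_lit 0x20000000000000000000000000000000000000000000000000000000000000000000000000000000000020000000000020001000000000000000000000000000000000000000000000000000000000000000000000000000000000000000200000000000000000000000000000000000000000000000000000000000000000000000000000000000000000002000000000002000200000001000000020001000200000000) (nat_lit 0xfffff00003a00002200000a0000060000030000000fffff0fffff0fffff0)
  DL.nil))))))))

noncomputable def d43_5 : DL := (DL.cons (nat_lit 0x1000300000001000000070001) (nat_lit 0x60000040000020000010000000fffff0fffff0fffff0fffff0fffff0)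
  (DL.cons (nat_lit 0x6000000030000000000050000) (nat_lit 0x50000020fffff0000000fffff0fffff0fffff0fffff0fffff0fffff0)
  (DL.cons (nat_lit 0x1000000080000000000000000000100060000) (nat_lit 0x80000050000020000000fffff0fffff0fffff0fffff0fffff0fffff0)
  (DL.cons (nat_lit 0) (nat_lit 0)
  (DL.cons (nat_lit 0) (nat_lit 0)
  (DL.cons (nat_lit 0x10000000000000000000200010000) (nat_lit 0x50000020000000fffff0fffff0fffff0fffff0fffff0fffff0fffff0)
  (DL.cons (nat_lit 0x1000000000002000000000002000200000000) (nat_lit 0x70000030fffff0000000fffff0fffff0fffff0fffff0fffff0fffff0)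
  (DL.cons (nat_lit 0x200000000000000000000000000000000000000000000000000000000000000000000000000000000000000020000) (nat_lit 0xfffff0fffff0000000fffff0fffff0fffff0fffff0fffff0fffff0fffff0)
  DL.nil))))))))

noncomputable def d43_6 : DL := (DL.cons (nat_lit 34360262657) (nat_lit 0xfffff0000020000010000000fffff0fffff0fffff0fffff0fffff0fffff0)
  (DL.cons (nat_lit 0x40000000000000006000200000004) (nat_lit 0x50000030000010fffff0000000fffff0fffff0fffff0fffff0fffff0)
  (DL.cons (nat_lit 0x70000000000000000000700070000) (nat_lit 0x50000020000000fffff0fffff0fffff0fffff0fffff0fffff0fffff0)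
  (DL.cons (nat_lit 0) (nat_lit 0)
  (DL.cons (nat_lit 0) (nat_lit 0)
  (DL.cons (nat_lit 4295032832) (nat_lit 0x20000000fffff0fffff0fffff0fffff0fffff0fffff0fffff0fffff0)
  (DL.cons (nat_lit 0x2000000000000000000020000000100000000) (nat_lit 0x60000030000000fffff0fffff0fffff0fffff0fffff0fffff0fffff0)
  (DL.cons (nat_lit 0x200000000000000000000000000000000000000000000000000000000000000000000000000000000000000000000000100000000) (nat_lit 0xfffff0000030000000fffff0fffff0fffff0fffff0fffff0fffff0fffff0)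
  DL.nil))))))))

noncomputable def d43_7 : DL := (DL.cons (nat_lit 0x8000800010001) (nat_lit 0x20000010000000fffff0fffff0fffff0fffff0fffff0fffff0fffff0)
  (DL.cons (nat_lit 0x8000600000001) (nat_lit 0x30000010fffff0000000fffff0fffff0fffff0fffff0fffff0fffff0)
  (DL.cons (nat_lit 65539) (nat_lit 0x10fffff0fffff0000000fffff0fffff0fffff0fffff0fffff0fffff0)
  (DL.cons (nat_lit 0) (nat_lit 0)
  (DL.cons (nat_lit 0) (nat_lit 0)
  (DL.cons (nat_lit 8589934594) (nat_lit 0x10fffff0000000fffff0fffff0fffff0fffff0fffff0fffff0fffff0)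
  (DL.cons (nat_lit 0x2000000000000000200010000) (nat_lit 0xfffff0000040000020000000fffff0fffff0fffff0fffff0fffff0fffff0)
  (DL.cons (nat_lit 1) (nat_lit 0xfffff0fffff0000000fffff0fffff0fffff0fffff0fffff0fffff0fffff0)
  DL.nil))))))))

noncomputable def d43_8 : DL := (DL.cons (nat_lit 327681) (nat_lit 0x10000000fffff0fffff0fffff0fffff0fffff0fffff0fffff0fffff0)
  (DL.cons (nat_lit 327680) (nat_lit 0xfffff0fffff0fffff0fffff0fffff0fffff0fffff0fffff0fffff0)
  (DL.cons (nat_lit 2) (nat_lit 0xfffff0fffff0000000fffff0fffff0fffff0fffff0fffff0fffff0fffff0)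
  (DL.cons (nat_lit 0) (nat_lit 0)
  (DL.cons (nat_lit 0) (nat_lit 0)
  (DL.cons (nat_lit 2) (nat_lit 0xfffff0000000fffff0fffff0fffff0fffff0fffff0fffff0fffff0fffff0)
  (DL.cons (nat_lit 0x2000000000000000200010000) (nat_lit 0x40000020000000fffff0fffff0fffff0fffff0fffff0fffff0fffff0)
  (DL.cons (nat_lit 4295032832) (nat_lit 0xfffff0000020000000fffff0fffff0fffff0fffff0fffff0fffff0fffff0)
  DL.nil))))))))

noncomputable def d43_9 : DL := (DL.cons (nat_lit 1) (nat_lit 0xfffff0fffff0fffff0fffff0fffff0fffff0fffff0fffff0fffff0)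
  (DL.cons (nat_lit 7) (nat_lit 0xfffff0000000fffff0fffff0fffff0fffff0fffff0fffff0fffff0fffff0)
  (DL.cons (nat_lit 6) (nat_lit 0xfffff0000000fffff0fffff0fffff0fffff0fffff0fffff0fffff0fffff0)
  (DL.cons (nat_lit 0) (nat_lit 0)
  (DL.cons (nat_lit 0) (nat_lit 0)
  (DL.cons (nat_lit 1) (nat_lit 0xfffff0fffff0fffff0fffff0fffff0fffff0fffff0fffff0fffff0)
  (DL.cons (nat_lit 0x1000200000002) (nat_lit 0x30000010fffff0000000fffff0fffff0fffff0fffff0fffff0fffff0)
  (DL.cons (nat_lit 131072) (nat_lit 0xfffff0000000fffff0fffff0fffff0fffff0fffff0fffff0fffff0fffff0)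
  DL.nil))))))))

noncomputable def d43 : DLL := (DLL.cons d43_0
  (DLL.cons d43_1
  (DLL.cons d43_2
  (DLL.cons d43_3
  (DLL.cons d43_4
  (DLL.cons d43_5
  (DLL.cons d43_6
  (DLL.cons d43_7
  (DLL.cons d43_8
  (DLL.cons d43_9
  DLL.nil))))))))))

noncomputable def m43 : TL := (TL.cons ⟨fun _ => nat_lit 0⟩
  (TL.cons ⟨fun _ => nat_lit 0⟩
  (TL.cons ⟨fun _ => nat_lit 0⟩
  (TL.cons ⟨fun _ => nat_lit 0⟩
  (TL.cons ⟨fun _ => nat_lit 0⟩
  (TL.cons ⟨fun _ => nat_lit 0⟩
  (TL.cons ⟨fun _ => nat_lit 0⟩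
  (TL.cons ⟨fun _ => nat_lit 0⟩
  (TL.cons ⟨fun _ => nat_lit 0⟩
  (TL.cons ⟨fun _ => nat_lit 0⟩
  (TL.cons ⟨fun _ => nat_lit 0⟩
  (TL.cons ⟨fun _ => nat_lit 0⟩
  (TL.cons ⟨fun _ => nat_lit 0⟩
  (TL.cons ⟨fun _ => nat_lit 0⟩
  (TL.cons ⟨fun _ => nat_lit 0⟩
  (TL.cons ⟨fun _ => nat_lit 0⟩
  (TL.cons ⟨fun _ => nat_lit 0⟩
  (TL.cons ⟨fun _ => nat_lit 0⟩
  (TL.cons ⟨fun _ => nat_lit 0⟩
  (TL.cons ⟨fun _ => nat_lit 0⟩
  (TL.cons ⟨fun _ => nat_lit 0⟩
  (TL.cons ⟨fun _ => nat_lit 0⟩
  (TL.cons ⟨fun _ => nat_lit 0⟩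
  (TL.cons ⟨fun _ => nat_lit 0⟩
  (TL.cons ⟨fun _ => nat_lit 0⟩
  (TL.cons ⟨fun _ => nat_lit 0⟩
  (TL.cons ⟨fun _ => nat_lit 0⟩
  (TL.cons ⟨fun _ => nat_lit 0⟩
  (TL.cons ⟨fun _ => nat_lit 0⟩
  (TL.cons ⟨fun _ => nat_lit 0⟩
  (TL.cons ⟨fun _ => nat_lit 0⟩
  (TL.cons ⟨fun _ => nat_lit 0⟩
  (TL.cons ⟨fun _ => nat_lit 0⟩
  (TL.cons ⟨fun _ => nat_lit 0⟩
  (TL.cons ⟨fun _ => nat_lit 0⟩
  (TL.cons ⟨fun _ => nat_lit 0⟩
  (TL.cons ⟨fun _ => nat_lit 0⟩
  (TL.cons ⟨fun _ => nat_lit 0⟩
  (TL.cons ⟨fun _ => nat_lit 0⟩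
  (TL.cons ⟨fun _ => nat_lit 0⟩
  (TL.cons ⟨fun _ => nat_lit 0⟩
  (TL.cons ⟨fun _ => nat_lit 0⟩
  (TL.cons ⟨fun _ => nat_lit 0⟩
  (TL.cons ⟨fun _ => nat_lit 0⟩
  (TL.cons ⟨fun _ => nat_lit 0⟩
  (TL.cons ⟨fun _ => nat_lit 0⟩
  (TL.cons ⟨fun _ => nat_lit 0⟩
  (TL.cons ⟨fun _ => nat_lit 0⟩
  (TL.cons ⟨fun _ => nat_lit 0⟩
  (TL.cons ⟨fun _ => nat_lit 0⟩
  (TL.cons ⟨fun _ => nat_lit 0⟩
  (TL.cons ⟨fun _ => nat_lit 0⟩
  (TL.cons ⟨fun _ => nat_lit 0⟩
  (TL.cons ⟨fun _ => nat_lit 0⟩
  (TL.cons ⟨fun _ => nat_lit 0⟩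
  (TL.cons ⟨fun _ => nat_lit 0⟩
  (TL.cons ⟨fun _ => nat_lit 0⟩
  (TL.cons ⟨fun _ => nat_lit 0⟩
  (TL.cons ⟨fun _ => nat_lit 0⟩
  (TL.cons ⟨fun _ => nat_lit 0⟩
  (TL.cons ⟨fun _ => nat_lit 0⟩
  (TL.cons ⟨fun _ => nat_lit 0⟩
  (TL.cons ⟨fun _ => nat_lit 0⟩
  (TL.cons ⟨fun _ => nat_lit 0⟩
  (TL.cons ⟨fun _ => nat_lit 0⟩
  (TL.cons ⟨fun _ => nat_lit 0⟩
  (TL.cons ⟨fun x => (x (nat_lit 0) (nat_lit 0) (nat_lit 0))⟩
  (TL.cons ⟨fun x => (x (nat_lit 0) (nat_lit 1) (nat_lit 0))⟩
  (TL.cons ⟨fun x => (Nat.add (x (nat_lit 0) (nat_lit 5) (nat_lit 0)) (x (nat_lit 1) (nat_lit 0) (nat_lit 0)))⟩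
  (TL.cons ⟨fun x => (x (nat_lit 1) (nat_lit 1) (nat_lit 0))⟩
  (TL.cons ⟨fun x => (Nat.add (x (nat_lit 0) (nat_lit 2) (nat_lit 0)) (Nat.add (x (nat_lit 1) (nat_lit 5) (nat_lit 0)) (x (nat_lit 2) (nat_lit 0) (nat_lit 0))))⟩
  (TL.cons ⟨fun x => (Nat.add (x (nat_lit 0) (nat_lit 6) (nat_lit 0)) (x (nat_lit 2) (nat_lit 1) (nat_lit 0)))⟩
  (TL.cons ⟨fun x => (Nat.add (x (nat_lit 1) (nat_lit 2) (nat_lit 0)) (Nat.add (x (nat_lit 2) (nat_lit 5) (nat_lit 0)) (x (nat_lit 3) (nat_lit 0) (nat_lit 0))))⟩
  (TL.cons ⟨fun x => (Nat.add (x (nat_lit 1) (nat_lit 6) (nat_lit 0)) (x (nat_lit 3) (nat_lit 1) (nat_lit 0)))⟩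
  (TL.cons ⟨fun x => (Nat.add (Nat.add (x (nat_lit 0) (nat_lit 7) (nat_lit 0)) (x (nat_lit 2) (nat_lit 2) (nat_lit 0))) (Nat.add (x (nat_lit 3) (nat_lit 5) (nat_lit 0)) (x (nat_lit 4) (nat_lit 0) (nat_lit 0))))⟩
  (TL.cons ⟨fun x => (Nat.add (x (nat_lit 2) (nat_lit 6) (nat_lit 0)) (x (nat_lit 4) (nat_lit 1) (nat_lit 0)))⟩
  (TL.cons ⟨fun x => (Nat.add (Nat.add (x (nat_lit 1) (nat_lit 7) (nat_lit 0)) (x (nat_lit 3) (nat_lit 2) (nat_lit 0))) (Nat.add (x (nat_lit 4) (nat_lit 5) (nat_lit 0)) (x (nat_lit 5) (nat_lit 0) (nat_lit 0))))⟩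
  (TL.cons ⟨fun x => (Nat.add (x (nat_lit 3) (nat_lit 6) (nat_lit 0)) (x (nat_lit 5) (nat_lit 1) (nat_lit 0)))⟩
  (TL.cons ⟨fun x => (Nat.add (Nat.add (x (nat_lit 2) (nat_lit 7) (nat_lit 0)) (x (nat_lit 4) (nat_lit 2) (nat_lit 0))) (Nat.add (x (nat_lit 5) (nat_lit 5) (nat_lit 0)) (x (nat_lit 6) (nat_lit 0) (nat_lit 0))))⟩
  (TL.cons ⟨fun x => (Nat.add (x (nat_lit 0) (nat_lit 3) (nat_lit 0)) (Nat.add (x (nat_lit 4) (nat_lit 6) (nat_lit 0)) (x (nat_lit 6) (nat_lit 1) (nat_lit 0))))⟩
  (TL.cons ⟨fun x => (Nat.add (Nat.add (x (nat_lit 0) (nat_lit 8) (nat_lit 0)) (x (nat_lit 3) (nat_lit 7) (nat_lit 0))) (Nat.add (x (nat_lit 5) (nat_lit 2) (nat_lit 0)) (Nat.add (x (nat_lit 6) (nat_lit 5) (nat_lit 0)) (x (nat_lit 7) (nat_lit 0) (nat_lit 0)))))⟩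
  (TL.cons ⟨fun x => (Nat.add (x (nat_lit 1) (nat_lit 3) (nat_lit 0)) (Nat.add (x (nat_lit 5) (nat_lit 6) (nat_lit 0)) (x (nat_lit 7) (nat_lit 1) (nat_lit 0))))⟩
  (TL.cons ⟨fun x => (Nat.add (Nat.add (x (nat_lit 1) (nat_lit 8) (nat_lit 0)) (x (nat_lit 4) (nat_lit 7) (nat_lit 0))) (Nat.add (x (nat_lit 6) (nat_lit 2) (nat_lit 0)) (Nat.add (x (nat_lit 7) (nat_lit 5) (nat_lit 0)) (x (nat_lit 8) (nat_lit 0) (nat_lit 0)))))⟩
  (TL.cons ⟨fun x => (Nat.add (Nat.add (x (nat_lit 0) (nat_lit 9) (nat_lit 0)) (x (nat_lit 2) (nat_lit 3) (nat_lit 0))) (Nat.add (x (nat_lit 6) (nat_lit 6) (nat_lit 0)) (x (nat_lit 8) (nat_lit 1) (nat_lit 0))))⟩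
  (TL.cons ⟨fun x => (Nat.add (Nat.add (x (nat_lit 2) (nat_lit 8) (nat_lit 0)) (x (nat_lit 5) (nat_lit 7) (nat_lit 0))) (Nat.add (x (nat_lit 7) (nat_lit 2) (nat_lit 0)) (Nat.add (x (nat_lit 8) (nat_lit 5) (nat_lit 0)) (x (nat_lit 9) (nat_lit 0) (nat_lit 0)))))⟩
  (TL.cons ⟨fun x => (Nat.add (Nat.add (x (nat_lit 1) (nat_lit 9) (nat_lit 0)) (x (nat_lit 3) (nat_lit 3) (nat_lit 0))) (Nat.add (x (nat_lit 7) (nat_lit 6) (nat_lit 0)) (x (nat_lit 9) (nat_lit 1) (nat_lit 0))))⟩
  (TL.cons ⟨fun x => (Nat.add (Nat.add (x (nat_lit 3) (nat_lit 8) (nat_lit 0)) (x (nat_lit 6) (nat_lit 7) (nat_lit 0))) (Nat.add (x (nat_lit 8) (nat_lit 2) (nat_lit 0)) (x (nat_lit 9) (nat_lit 5) (nat_lit 0))))⟩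
  (TL.cons ⟨fun x => (Nat.add (x (nat_lit 2) (nat_lit 9) (nat_lit 0)) (Nat.add (x (nat_lit 4) (nat_lit 3) (nat_lit 0)) (x (nat_lit 8) (nat_lit 6) (nat_lit 0))))⟩
  (TL.cons ⟨fun x => (Nat.add (x (nat_lit 4) (nat_lit 8) (nat_lit 0)) (Nat.add (x (nat_lit 7) (nat_lit 7) (nat_lit 0)) (x (nat_lit 9) (nat_lit 2) (nat_lit 0))))⟩
  (TL.cons ⟨fun x => (Nat.add (x (nat_lit 3) (nat_lit 9) (nat_lit 0)) (Nat.add (x (nat_lit 5) (nat_lit 3) (nat_lit 0)) (x (nat_lit 9) (nat_lit 6) (nat_lit 0))))⟩
  (TL.cons ⟨fun x => (Nat.add (x (nat_lit 5) (nat_lit 8) (nat_lit 0)) (x (nat_lit 8) (nat_lit 7) (nat_lit 0)))⟩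
  TL.nil)))))))))))))))))))))))))))))))))))))))))))))))))))))))))))))))))))))))))))))))))))))))))))

noncomputable def m43_t : List TT := [.zero,
  .zero,
  .zero,
  .zero,
  .zero,
  .zero,
  .zero,
  .zero,
  .zero,
  .zero,
  .zero,
  .zero,
  .zero,
  .zero,
  .zero,
  .zero,
  .zero,
  .zero,
  .zero,
  .zero,
  .zero,
  .zero,
  .zero,
  .zero,
  .zero,
  .zero,
  .zero,
  .zero,
  .zero,
  .zero,
  .zero,
  .zero,
  .zero,
  .zero,
  .zero,
  .zero,
  .zero,
  .zero,
  .zero,
  .zero,
  .zero,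
  .zero,
  .zero,
  .zero,
  .zero,
  .zero,
  .zero,
  .zero,
  .zero,
  .zero,
  .zero,
  .zero,
  .zero,
  .zero,
  .zero,
  .zero,
  .zero,
  .zero,
  .zero,
  .zero,
  .zero,
  .zero,
  .zero,
  .zero,
  .zero,
  .zero,
  (.leaf (nat_lit 0) (nat_lit 0) (nat_lit 0)),
  (.leaf (nat_lit 0) (nat_lit 1) (nat_lit 0)),
  (.add (.leaf (nat_lit 0) (nat_lit 5) (nat_lit 0)) (.leaf (nat_lit 1) (nat_lit 0) (nat_lit 0))),
  (.leaf (nat_lit 1) (nat_lit 1) (nat_lit 0)),
  (.add (.leaf (nat_lit 0) (nat_lit 2) (nat_lit 0)) (.add (.leaf (nat_lit 1) (nat_lit 5) (nat_lit 0)) (.leaf (nat_lit 2) (nat_lit 0) (nat_lit 0)))),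
  (.add (.leaf (nat_lit 0) (nat_lit 6) (nat_lit 0)) (.leaf (nat_lit 2) (nat_lit 1) (nat_lit 0))),
  (.add (.leaf (nat_lit 1) (nat_lit 2) (nat_lit 0)) (.add (.leaf (nat_lit 2) (nat_lit 5) (nat_lit 0)) (.leaf (nat_lit 3) (nat_lit 0) (nat_lit 0)))),
  (.add (.leaf (nat_lit 1) (nat_lit 6) (nat_lit 0)) (.leaf (nat_lit 3) (nat_lit 1) (nat_lit 0))),
  (.add (.add (.leaf (nat_lit 0) (nat_lit 7) (nat_lit 0)) (.leaf (nat_lit 2) (nat_lit 2) (nat_lit 0))) (.add (.leaf (nat_lit 3) (nat_lit 5) (nat_lit 0)) (.leaf (nat_lit 4) (nat_lit 0) (nat_lit 0)))),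
  (.add (.leaf (nat_lit 2) (nat_lit 6) (nat_lit 0)) (.leaf (nat_lit 4) (nat_lit 1) (nat_lit 0))),
  (.add (.add (.leaf (nat_lit 1) (nat_lit 7) (nat_lit 0)) (.leaf (nat_lit 3) (nat_lit 2) (nat_lit 0))) (.add (.leaf (nat_lit 4) (nat_lit 5) (nat_lit 0)) (.leaf (nat_lit 5) (nat_lit 0) (nat_lit 0)))),
  (.add (.leaf (nat_lit 3) (nat_lit 6) (nat_lit 0)) (.leaf (nat_lit 5) (nat_lit 1) (nat_lit 0))),
  (.add (.add (.leaf (nat_lit 2) (nat_lit 7) (nat_lit 0)) (.leaf (nat_lit 4) (nat_lit 2) (nat_lit 0))) (.add (.leaf (nat_lit 5) (nat_lit 5) (nat_lit 0)) (.leaf (nat_lit 6) (nat_lit 0) (nat_lit 0)))),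
  (.add (.leaf (nat_lit 0) (nat_lit 3) (nat_lit 0)) (.add (.leaf (nat_lit 4) (nat_lit 6) (nat_lit 0)) (.leaf (nat_lit 6) (nat_lit 1) (nat_lit 0)))),
  (.add (.add (.leaf (nat_lit 0) (nat_lit 8) (nat_lit 0)) (.leaf (nat_lit 3) (nat_lit 7) (nat_lit 0))) (.add (.leaf (nat_lit 5) (nat_lit 2) (nat_lit 0)) (.add (.leaf (nat_lit 6) (nat_lit 5) (nat_lit 0)) (.leaf (nat_lit 7) (nat_lit 0) (nat_lit 0))))),
  (.add (.leaf (nat_lit 1) (nat_lit 3) (nat_lit 0)) (.add (.leaf (nat_lit 5) (nat_lit 6) (nat_lit 0)) (.leaf (nat_lit 7) (nat_lit 1) (nat_lit 0)))),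
  (.add (.add (.leaf (nat_lit 1) (nat_lit 8) (nat_lit 0)) (.leaf (nat_lit 4) (nat_lit 7) (nat_lit 0))) (.add (.leaf (nat_lit 6) (nat_lit 2) (nat_lit 0)) (.add (.leaf (nat_lit 7) (nat_lit 5) (nat_lit 0)) (.leaf (nat_lit 8) (nat_lit 0) (nat_lit 0))))),
  (.add (.add (.leaf (nat_lit 0) (nat_lit 9) (nat_lit 0)) (.leaf (nat_lit 2) (nat_lit 3) (nat_lit 0))) (.add (.leaf (nat_lit 6) (nat_lit 6) (nat_lit 0)) (.leaf (nat_lit 8) (nat_lit 1) (nat_lit 0)))),
  (.add (.add (.leaf (nat_lit 2) (nat_lit 8) (nat_lit 0)) (.leaf (nat_lit 5) (nat_lit 7) (nat_lit 0))) (.add (.leaf (nat_lit 7) (nat_lit 2) (nat_lit 0)) (.add (.leaf (nat_lit 8) (nat_lit 5) (nat_lit 0)) (.leaf (nat_lit 9) (nat_lit 0) (nat_lit 0))))),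
  (.add (.add (.leaf (nat_lit 1) (nat_lit 9) (nat_lit 0)) (.leaf (nat_lit 3) (nat_lit 3) (nat_lit 0))) (.add (.leaf (nat_lit 7) (nat_lit 6) (nat_lit 0)) (.leaf (nat_lit 9) (nat_lit 1) (nat_lit 0)))),
  (.add (.add (.leaf (nat_lit 3) (nat_lit 8) (nat_lit 0)) (.leaf (nat_lit 6) (nat_lit 7) (nat_lit 0))) (.add (.leaf (nat_lit 8) (nat_lit 2) (nat_lit 0)) (.leaf (nat_lit 9) (nat_lit 5) (nat_lit 0)))),
  (.add (.leaf (nat_lit 2) (nat_lit 9) (nat_lit 0)) (.add (.leaf (nat_lit 4) (nat_lit 3) (nat_lit 0)) (.leaf (nat_lit 8) (nat_lit 6) (nat_lit 0)))),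
  (.add (.leaf (nat_lit 4) (nat_lit 8) (nat_lit 0)) (.add (.leaf (nat_lit 7) (nat_lit 7) (nat_lit 0)) (.leaf (nat_lit 9) (nat_lit 2) (nat_lit 0)))),
  (.add (.leaf (nat_lit 3) (nat_lit 9) (nat_lit 0)) (.add (.leaf (nat_lit 5) (nat_lit 3) (nat_lit 0)) (.leaf (nat_lit 9) (nat_lit 6) (nat_lit 0)))),
  (.add (.leaf (nat_lit 5) (nat_lit 8) (nat_lit 0)) (.leaf (nat_lit 8) (nat_lit 7) (nat_lit 0)))]

theorem m43_eq : m43 = ofL m43_t := rfl

noncomputable def d44_0 : DL := (DL.cons (nat_lit 0x3000000000000000000000000000000000000000000000000000000000000000000000000000300000000000600000000000000000000000000000000000000000000000000000000000000000000000000000000000000000000000300000000000300030000000000000000000000000000000000000000000000000000000000000000000000000006000000000003000000000000000000000000000000000000000000000000000000000000000000000000000000000000000000030000000000060000000000000000000000070006000000040001) (nat_lit 0x5400003b00002300000b0000070000040000020fffff0000010000000)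
  (DL.cons (nat_lit 0x800000000000000000000000000000000000000000000000000000000000000000000000000000000000000070000000000080000000600000000000000000000000000000000000000000000000000000000000000000000000000050000000000000000000300000000000000000000000000000000000000000000000000000000000000000000000000000000000000050000000000000000000000000000000000000000000000000000000000000000000000000000000000000000000700000000000800050000000000000000000000000000000000000000000000000000000000000000000000000000000000000002000000050000000000070000) (nat_lit 0x6700004e00003500001d0000050fffff0000020fffff0000000fffff0)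
  (DL.cons (nat_lit 0x100000000000000000000000000000000000000000000000000000000000000000000000000040000000000080000000000000000000000030000000000000000000000000000000000000000000000000000000000000000000000000001000000000001000000060000000000000000000000000000000000000000000000000000000000000000000000000001000000000004000000000000000000000000000000000000000000000000000000000000000000000000000000000000000000000001000000000004000800000000000000000000000000000000000000000000000000000000000000000000000000030000000000000000000200000000000000000000000000000000000000000000000000000000000000000000000000000000000000020000000300000000) (nat_lit 0x7f00006500004c00003300001b0000030000000fffff0fffff0fffff0)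
  (DL.cons (nat_lit 0) (nat_lit 0)
  (DL.cons (nat_lit 0) (nat_lit 0)
  (DL.cons (nat_lit 0x2000000000000000000000000000000000000000000000000000000000000000000000000000200000000000100000001000000000000000000000000000000000000000000000000000000000000000000000000000000000000000200000000000200000000000000000000000000000000000000000000000000000000000000000000000000020000000000020000000100000000) (nat_lit 0x3400001b0fffff0000030fffff0000000fffff0fffff0fffff0fffff0)
  (DL.cons (nat_lit 0x10000000000000000000000000000000000000000000000000000000000000000000000000002000000000002000000000001000000000000000000000000000000000000000000000000000000000000000000000000000000000000000200000000000200000001000000000000000000000000000000000000000000000000000000000000000000000000000000000000000200000002000000000000000000000000000000000000000000000000000000000000000000000000000000000000000000000000000000000000000000000000000000000000000000000000000000000000000000000000000000000000000100000000) (nat_lit 0xfffff00006400004a0000310000180000000fffff0fffff0fffff0fffff0)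
  (DL.cons (nat_lit 0x100000000000000000000000000000000000000000000000000000000000000000000000000000000000000000000000000020000000000000000000000000000000000000000000000000000000000000000000000000000000000000002000000000000000000020000000000000000000000000000000000000000000000000000000000000000000000000001000000000001000000000001000000000000000000000000000000000000000000000000000000000000000000000000000000000000000000000000) (nat_lit 0xfffff0fffff00004c0000320000190000000fffff0fffff0fffff0fffff0)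
  DL.nil))))))))

noncomputable def d44_1 : DL := (DL.cons (nat_lit 0x30000000000040006000000000000000000000000000000000000000000000000000000000000000000000000000400000000000600000000000000000000000000000000000000000000000000000000000000000000000000000000000000000003000000000001000000050001) (nat_lit 0x3400001c0000040fffff0fffff0fffff0000020000010000000fffff0)
  (DL.cons (nat_lit 0x600000000000000000000000000000000000000000000000000000000000000000000000000050000000000060000000600000000000000000000000000000000000000000000000000000000000000000000000000000000000000000000000000000000000000000000000000000000000000000000000000000000000000000000000000000000000300000000000300070000000000000000000000000000000000000000000000000000000000000000000000000000000000000004000000060000000000030000000000000003000200000007) (nat_lit 0x5400003b00002300000b0000080000050000030000010fffff0000000)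
  (DL.cons (nat_lit 0x30000000000000000000000000000000000000000000000000000000000000000000000000003000000000003000000040000000000000000000000000000000000000000000000000000000000000000000000000003000000000007000000000000000000000000000000000000000000000000000000000000000000000000000000000000000000000008000000000000000600000000000000000000000000000000000000000000000000000000000000000000000000010000000000050000000000000000000000000000000000000000000000000000000000000000000000000000000000000000000300000000000100000000000000000002) (nat_lit 0x6800004f00003600001e0000060000030000000fffff0fffff0fffff0)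
  (DL.cons (nat_lit 0) (nat_lit 0)
  (DL.cons (nat_lit 0) (nat_lit 0)
  (DL.cons (nat_lit 0x20000000000000000000000000000000000000000000000000000000000000000000000000002000000000002000000000000000000000000000000000000000000000000000000000000000000000000000000000000000000000002000000000000000000000000000000000000000000000000000000000000000000000000000000000000000000010000000000010000000000000000000000000000000000000000000000000000000000000000000000000000000000000000000200000000000000000000000200020000) (nat_lit 0x4f00003600001e0000060000020fffff0000000fffff0fffff0fffff0)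
  (DL.cons (nat_lit 0x10000000000000000000000000000000000000000000000000000000000000000000000000000000000000001000000000001000000010000000000000000000000000000000000000000000000000000000000000000000000000001000000000000000000010000000000000000000000000000000000000000000000000000000000000000000000000000000000000002000000000000000000000000000000000000000000000000000000000000000000000000000000000000000000010000000000010002000000000001000000020000) (nat_lit 0xfffff00005100003800001f0000070000030000000fffff0fffff0fffff0)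
  (DL.cons (nat_lit 0x20000000000000000000000000000000000000000000000000000000000000000000000000000000000000000000000000000000000000000000000000000000000000000000000000000000000000000000000000002000000000000000000000000000000000000000000000000000000000000000000000000000000000000000000000000000000000002000000000002000100000000000000000000000000000000000000000000000000000000000000000000000000000000000000000000) (nat_lit 0xfffff0fffff00004a0000310000180fffff0000000fffff0fffff0fffff0)
  DL.nil))))))))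

noncomputable def d44_2 : DL := (DL.cons (nat_lit 0x2000000000000000000000000000000000000000000000000000000000000000000000000000800000000000600000001000000000000000000000000000000000000000000000000000000000000000000000000000000080000000100000006000000000001000000050001) (nat_lit 0x1f0000070fffff0fffff0000040000020000010000000fffff0fffff0)
  (DL.cons (nat_lit 0x600000000000000000000000000000000000000000000000000000000000000000000000000000000000000080000000000000000000000000000000000000000000000000000000000000000000000000000000000000000000600000000000400030000000000000000000000000000000000000000000000000000000000000000000000000000000000000001000000030000000000000000000100000002000600000007) (nat_lit 0x3b00002300000b0000080000050000030000010fffff0000000fffff0)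
  (DL.cons (nat_lit 0x80000000000000000000000000000000000000000000000000000000000000000000000000008000000000004000000000000000000000000000000000000000000000000000000000000000000000000000000000000000000000001000000000005000100000000000000000000000000000000000000000000000000000000000000000000000000070000000000080000000000000000000000000000000000000000000000000000000000000000000000000000000000000000000800000000000800000000000600000000000700070000) (nat_lit 0x520000390000210000090000050000020000000fffff0fffff0fffff0)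
  (DL.cons (nat_lit 0) (nat_lit 0)
  (DL.cons (nat_lit 0) (nat_lit 0)
  (DL.cons (nat_lit 0x2000000000001000200000000000000000000000000000000000000000000000000000000000000000000000000000000000000000000000000000000000000000000000000000000000000000000000000000000000000000000000000000000000100000000000200000000000200000002000000020000) (nat_lit 0x390000210000090000050000020000000fffff0fffff0fffff0fffff0)
  (DL.cons (nat_lit 0x200000002000000000000000000000000000000000000000000000000000000000000000000000000000000000000000200000000000000000000000000000000000000000000000000000000000000000000000000000000000000000002000000000002000200000000000000000000000000000000000000000000000000000000000000000000000000000000000000000000000000010000) (nat_lit 0xfffff00004c00003300001b0000030000000fffff0fffff0fffff0fffff0)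
  (DL.cons (nat_lit 0x20000000000000000000000000000000000000000000000000000000000000000000000000002000000000002000000000000000000000000000000000000000000000000000000000000000000000000000000000000000000000002000000000001000100000000000000000000000000000000000000000000000000000000000000000000000000010000000000000000000200000000000000000000000000000000000000000000000000000000000000000000000000000000000000020000000200000000) (nat_lit 0xfffff0fffff00004c00003300001b0000030000000fffff0fffff0fffff0)
  DL.nil))))))))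

noncomputable def d44_3 : DL := (DL.cons (nat_lit 0x10000000000000000000000000000000000000000000000000000000000000000000000000000000800000001000800060000000000010001000600000008000100000001000700010001) (nat_lit 0xe00000a0000070000040000020000010000000fffff0fffff0fffff0)
  (DL.cons (nat_lit 0x40000000000000007000000000000000000000000000000000000000000000000000000000000000000000000000000000000000200000007000000000000000000080006000000030000) (nat_lit 0x2200000a0000070000040000020000000fffff0fffff0fffff0fffff0)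
  (DL.cons (nat_lit 0x70000000000070007000000000000000000000000000000000000000000000000000000000000000000000000000600000000000300000000000000000000000000000000000000000000000000000000000000000000000000000000000000000007000000000004000000000003) (nat_lit 0x3400001c0000040000000fffff0fffff0fffff0fffff0fffff0fffff0)
  (DL.cons (nat_lit 0) (nat_lit 0)
  (DL.cons (nat_lit 0) (nat_lit 0)
  (DL.cons (nat_lit 0x2000000000000000000000000000000000000000000000000000000000000000000000000000100000000000200000000000000000000000000000000000000000000000000000000000000000000000000000000000000000001000000000001000000000000000100000000) (nat_lit 0x1f0000070000030fffff0000000fffff0fffff0fffff0fffff0fffff0)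
  (DL.cons (nat_lit 0x2000000000000000200000000000000000000000000000000000000000000000000000000000000000000000000000000000000010000000100000000) (nat_lit 0xfffff0fffff00001b0000030000000fffff0fffff0fffff0fffff0fffff0)
  (DL.cons (nat_lit 0x2000000000002000200000000000000000000000000000000000000000000000000000000000000000000000000020000000000010000000000000000000000000000000000000000000000000000000000000000000000000000000000000000000100000000000000000001) (nat_lit 0xfffff0fffff00003300001b0000030fffff0000000fffff0fffff0fffff0)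
  DL.nil))))))))

noncomputable def d44_4 : DL := (DL.cons (nat_lit 0x600000000000100000000000100010000000000010001000200010001) (nat_lit 0xb0000080000050000030000010000000fffff0fffff0fffff0fffff0)
  (DL.cons (nat_lit 0x10000000600000000000000000001000100000001) (nat_lit 0x90000060000030000010fffff0fffff0000000fffff0fffff0fffff0)
  (DL.cons (nat_lit 0x60000000000000000000000000000000000000000000000000000000000000000000000000001000000000008000000000000000000000000000000000000000000000000000000000000000000000000000000000000000000060000000000050000000000010000000700000007000000000008) (nat_lit 0x2300000b0000070000040000010fffff0000000fffff0fffff0fffff0)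
  (DL.cons (nat_lit 0) (nat_lit 0)
  (DL.cons (nat_lit 0) (nat_lit 0)
  (DL.cons (nat_lit 0x2000000000000000000000002000000020000000100000000) (nat_lit 0xa0000060000030000000fffff0fffff0fffff0fffff0fffff0fffff0)
  (DL.cons (nat_lit 0x1000000000002000100000000000000000000000000000000000000000000000000000000000000000000000000000000000000000000000000000001) (nat_lit 0xfffff00001b0000030fffff0000000fffff0fffff0fffff0fffff0fffff0)
  (DL.cons (nat_lit 0x100000000000000000000000000000000000000000000000000000000000000000000000000000000000000010000000200000000000000000000000100020000) (nat_lit 0xfffff0fffff0000090fffff0000050000020000000fffff0fffff0fffff0)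
  DL.nil))))))))

noncomputable def d44_5 : DL := (DL.cons (nat_lit 0x80003000700000002000000010008000800040001) (nat_lit 0x80000050000030000010000000fffff0fffff0fffff0fffff0fffff0)
  (DL.cons (nat_lit 0x60002000000010000000700020000000600000008) (nat_lit 0x80000050000030000010000000fffff0fffff0fffff0fffff0fffff0)
  (DL.cons (nat_lit 0x7000000000000000000000000000000000000000000000000000000000000000000000000000000000001000000000005000700000004000000050004000600060000) (nat_lit 0xa0000060000030000000fffff0fffff0fffff0fffff0fffff0fffff0)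
  (DL.cons (nat_lit 0) (nat_lit 0)
  (DL.cons (nat_lit 0) (nat_lit 0)
  (DL.cons (nat_lit 0x10000000200000000000200020001000000020000) (nat_lit 0x80000050000020fffff0000000fffff0fffff0fffff0fffff0fffff0)
  (DL.cons (nat_lit 0x200000000000000000000000000000000000000000000000000000000000000000000000000000002000000010002000200000000) (nat_lit 0xfffff0000030000000fffff0fffff0fffff0fffff0fffff0fffff0fffff0)
  (DL.cons (nat_lit 0x200000000000000000000000000000000000000000000000000000000000000000000000000000000000000000000) (nat_lit 0xfffff0fffff0000000fffff0fffff0fffff0fffff0fffff0fffff0fffff0)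
  DL.nil))))))))

noncomputable def d44_6 : DL := (DL.cons (nat_lit 0x200000000000100020001000800010006) (nat_lit 0x60000040000020000010000000fffff0fffff0fffff0fffff0fffff0)
  (DL.cons (nat_lit 0x300050002000600000004) (nat_lit 0x50000030000010fffff0000000fffff0fffff0fffff0fffff0fffff0)
  (DL.cons (nat_lit 0x4000600000002000000070007000100080000) (nat_lit 0x60000030000000fffff0fffff0fffff0fffff0fffff0fffff0fffff0)
  (DL.cons (nat_lit 0) (nat_lit 0)
  (DL.cons (nat_lit 0) (nat_lit 0)
  (DL.cons (nat_lit 0x10001000000010000) (nat_lit 0x30000000fffff0fffff0fffff0fffff0fffff0fffff0fffff0fffff0)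
  (DL.cons (nat_lit 0x200020000000100000000) (nat_lit 0xfffff0000030000000fffff0fffff0fffff0fffff0fffff0fffff0fffff0)
  (DL.cons (nat_lit 0x1000000000002) (nat_lit 0xfffff0fffff0000000fffff0fffff0fffff0fffff0fffff0fffff0fffff0)
  DL.nil))))))))

noncomputable def d44_7 : DL := (DL.cons (nat_lit 0x100080002000700010006) (nat_lit 0x40000020000010000000fffff0fffff0fffff0fffff0fffff0fffff0)
  (DL.cons (nat_lit 0x100030005000000070004) (nat_lit 0x40000020000010000000fffff0fffff0fffff0fffff0fffff0fffff0)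
  (DL.cons (nat_lit 0x800070003000200000000000200060000) (nat_lit 0x70000040000020000000fffff0fffff0fffff0fffff0fffff0fffff0)
  (DL.cons (nat_lit 0) (nat_lit 0)
  (DL.cons (nat_lit 0) (nat_lit 0)
  (DL.cons (nat_lit 0x20002000000000001000200000002) (nat_lit 0x50000030000010fffff0000000fffff0fffff0fffff0fffff0fffff0)
  (DL.cons (nat_lit 0x1000000020002000200010000) (nat_lit 0xfffff0000040000020000000fffff0fffff0fffff0fffff0fffff0fffff0)
  (DL.cons (nat_lit 65537) (nat_lit 0xfffff0fffff0000000fffff0fffff0fffff0fffff0fffff0fffff0fffff0)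
  DL.nil))))))))

noncomputable def d44_8 : DL := (DL.cons (nat_lit 4295294977) (nat_lit 0x10000000fffff0fffff0fffff0fffff0fffff0fffff0fffff0fffff0)
  (DL.cons (nat_lit 8) (nat_lit 0xfffff0000000fffff0fffff0fffff0fffff0fffff0fffff0fffff0fffff0)
  (DL.cons (nat_lit 0x5000000000000000200040005) (nat_lit 0x40000020000000fffff0fffff0fffff0fffff0fffff0fffff0fffff0)
  (DL.cons (nat_lit 0) (nat_lit 0)
  (DL.cons (nat_lit 0) (nat_lit 0)
  (DL.cons (nat_lit 8590000130) (nat_lit 0x20000000fffff0fffff0fffff0fffff0fffff0fffff0fffff0fffff0)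
  (DL.cons (nat_lit 0x1000200020000) (nat_lit 0xfffff0000020000000fffff0fffff0fffff0fffff0fffff0fffff0fffff0)
  (DL.cons (nat_lit 4295098368) (nat_lit 0xfffff0fffff0000000fffff0fffff0fffff0fffff0fffff0fffff0fffff0)
  DL.nil))))))))

noncomputable def d44_9 : DL := (DL.cons (nat_lit 65542) (nat_lit 0x10000000fffff0fffff0fffff0fffff0fffff0fffff0fffff0fffff0)
  (DL.cons (nat_lit 458759) (nat_lit 0x10000000fffff0fffff0fffff0fffff0fffff0fffff0fffff0fffff0)
  (DL.cons (nat_lit 393219) (nat_lit 0xfffff0000010fffff0000000fffff0fffff0fffff0fffff0fffff0fffff0)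
  (DL.cons (nat_lit 0) (nat_lit 0)
  (DL.cons (nat_lit 0) (nat_lit 0)
  (DL.cons (nat_lit 8590000130) (nat_lit 0x10fffff0000000fffff0fffff0fffff0fffff0fffff0fffff0fffff0)
  (DL.cons (nat_lit 4294967298) (nat_lit 0xfffff0000010fffff0000000fffff0fffff0fffff0fffff0fffff0fffff0)
  DL.nil)))))))

noncomputable def d44 : DLL := (DLL.cons d44_0
  (DLL.cons d44_1
  (DLL.cons d44_2
  (DLL.cons d44_3
  (DLL.cons d44_4
  (DLL.cons d44_5
  (DLL.cons d44_6
  (DLL.cons d44_7
  (DLL.cons d44_8
  (DLL.cons d44_9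
  DLL.nil))))))))))

noncomputable def m44 : TL := (TL.cons ⟨fun _ => nat_lit 0⟩
  (TL.cons ⟨fun _ => nat_lit 0⟩
  (TL.cons ⟨fun _ => nat_lit 0⟩
  (TL.cons ⟨fun _ => nat_lit 0⟩
  (TL.cons ⟨fun _ => nat_lit 0⟩
  (TL.cons ⟨fun _ => nat_lit 0⟩
  (TL.cons ⟨fun _ => nat_lit 0⟩
  (TL.cons ⟨fun _ => nat_lit 0⟩
  (TL.cons ⟨fun _ => nat_lit 0⟩
  (TL.cons ⟨fun _ => nat_lit 0⟩
  (TL.cons ⟨fun _ => nat_lit 0⟩
  (TL.cons ⟨fun _ => nat_lit 0⟩
  (TL.cons ⟨fun _ => nat_lit 0⟩
  (TL.cons ⟨fun _ => nat_lit 0⟩
  (TL.cons ⟨fun _ => nat_lit 0⟩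
  (TL.cons ⟨fun _ => nat_lit 0⟩
  (TL.cons ⟨fun _ => nat_lit 0⟩
  (TL.cons ⟨fun _ => nat_lit 0⟩
  (TL.cons ⟨fun _ => nat_lit 0⟩
  (TL.cons ⟨fun _ => nat_lit 0⟩
  (TL.cons ⟨fun _ => nat_lit 0⟩
  (TL.cons ⟨fun _ => nat_lit 0⟩
  (TL.cons ⟨fun _ => nat_lit 0⟩
  (TL.cons ⟨fun _ => nat_lit 0⟩
  (TL.cons ⟨fun _ => nat_lit 0⟩
  (TL.cons ⟨fun _ => nat_lit 0⟩
  (TL.cons ⟨fun _ => nat_lit 0⟩
  (TL.cons ⟨fun _ => nat_lit 0⟩
  (TL.cons ⟨fun _ => nat_lit 0⟩
  (TL.cons ⟨fun _ => nat_lit 0⟩
  (TL.cons ⟨fun _ => nat_lit 0⟩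
  (TL.cons ⟨fun _ => nat_lit 0⟩
  (TL.cons ⟨fun _ => nat_lit 0⟩
  (TL.cons ⟨fun _ => nat_lit 0⟩
  (TL.cons ⟨fun _ => nat_lit 0⟩
  (TL.cons ⟨fun _ => nat_lit 0⟩
  (TL.cons ⟨fun _ => nat_lit 0⟩
  (TL.cons ⟨fun _ => nat_lit 0⟩
  (TL.cons ⟨fun _ => nat_lit 0⟩
  (TL.cons ⟨fun _ => nat_lit 0⟩
  (TL.cons ⟨fun _ => nat_lit 0⟩
  (TL.cons ⟨fun _ => nat_lit 0⟩
  (TL.cons ⟨fun _ => nat_lit 0⟩
  (TL.cons ⟨fun _ => nat_lit 0⟩
  (TL.cons ⟨fun _ => nat_lit 0⟩
  (TL.cons ⟨fun _ => nat_lit 0⟩
  (TL.cons ⟨fun _ => nat_lit 0⟩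
  (TL.cons ⟨fun _ => nat_lit 0⟩
  (TL.cons ⟨fun _ => nat_lit 0⟩
  (TL.cons ⟨fun _ => nat_lit 0⟩
  (TL.cons ⟨fun _ => nat_lit 0⟩
  (TL.cons ⟨fun _ => nat_lit 0⟩
  (TL.cons ⟨fun _ => nat_lit 0⟩
  (TL.cons ⟨fun _ => nat_lit 0⟩
  (TL.cons ⟨fun _ => nat_lit 0⟩
  (TL.cons ⟨fun _ => nat_lit 0⟩
  (TL.cons ⟨fun _ => nat_lit 0⟩
  (TL.cons ⟨fun _ => nat_lit 0⟩
  (TL.cons ⟨fun _ => nat_lit 0⟩
  (TL.cons ⟨fun _ => nat_lit 0⟩
  (TL.cons ⟨fun _ => nat_lit 0⟩
  (TL.cons ⟨fun _ => nat_lit 0⟩
  (TL.cons ⟨fun _ => nat_lit 0⟩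
  (TL.cons ⟨fun _ => nat_lit 0⟩
  (TL.cons ⟨fun _ => nat_lit 0⟩
  (TL.cons ⟨fun _ => nat_lit 0⟩
  (TL.cons ⟨fun _ => nat_lit 0⟩
  (TL.cons ⟨fun x => (x (nat_lit 0) (nat_lit 0) (nat_lit 0))⟩
  (TL.cons ⟨fun x => (x (nat_lit 0) (nat_lit 1) (nat_lit 0))⟩
  (TL.cons ⟨fun x => (Nat.add (x (nat_lit 0) (nat_lit 5) (nat_lit 0)) (x (nat_lit 1) (nat_lit 0) (nat_lit 0)))⟩
  (TL.cons ⟨fun x => (x (nat_lit 1) (nat_lit 1) (nat_lit 0))⟩
  (TL.cons ⟨fun x => (Nat.add (x (nat_lit 0) (nat_lit 2) (nat_lit 0)) (Nat.add (x (nat_lit 1) (nat_lit 5) (nat_lit 0)) (x (nat_lit 2) (nat_lit 0) (nat_lit 0))))⟩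
  (TL.cons ⟨fun x => (Nat.add (x (nat_lit 0) (nat_lit 6) (nat_lit 0)) (x (nat_lit 2) (nat_lit 1) (nat_lit 0)))⟩
  (TL.cons ⟨fun x => (Nat.add (x (nat_lit 1) (nat_lit 2) (nat_lit 0)) (Nat.add (x (nat_lit 2) (nat_lit 5) (nat_lit 0)) (x (nat_lit 3) (nat_lit 0) (nat_lit 0))))⟩
  (TL.cons ⟨fun x => (Nat.add (x (nat_lit 1) (nat_lit 6) (nat_lit 0)) (x (nat_lit 3) (nat_lit 1) (nat_lit 0)))⟩
  (TL.cons ⟨fun x => (Nat.add (Nat.add (x (nat_lit 0) (nat_lit 7) (nat_lit 0)) (x (nat_lit 2) (nat_lit 2) (nat_lit 0))) (Nat.add (x (nat_lit 3) (nat_lit 5) (nat_lit 0)) (x (nat_lit 4) (nat_lit 0) (nat_lit 0))))⟩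
  (TL.cons ⟨fun x => (Nat.add (x (nat_lit 2) (nat_lit 6) (nat_lit 0)) (x (nat_lit 4) (nat_lit 1) (nat_lit 0)))⟩
  (TL.cons ⟨fun x => (Nat.add (x (nat_lit 1) (nat_lit 7) (nat_lit 0)) (Nat.add (x (nat_lit 3) (nat_lit 2) (nat_lit 0)) (x (nat_lit 4) (nat_lit 5) (nat_lit 0))))⟩
  (TL.cons ⟨fun x => (Nat.add (x (nat_lit 3) (nat_lit 6) (nat_lit 0)) (x (nat_lit 5) (nat_lit 0) (nat_lit 0)))⟩
  (TL.cons ⟨fun x => (Nat.add (x (nat_lit 2) (nat_lit 7) (nat_lit 0)) (Nat.add (x (nat_lit 4) (nat_lit 2) (nat_lit 0)) (x (nat_lit 5) (nat_lit 1) (nat_lit 0))))⟩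
  (TL.cons ⟨fun x => (Nat.add (Nat.add (x (nat_lit 0) (nat_lit 3) (nat_lit 0)) (x (nat_lit 4) (nat_lit 6) (nat_lit 0))) (Nat.add (x (nat_lit 5) (nat_lit 5) (nat_lit 0)) (x (nat_lit 6) (nat_lit 0) (nat_lit 0))))⟩
  (TL.cons ⟨fun x => (Nat.add (x (nat_lit 0) (nat_lit 8) (nat_lit 0)) (Nat.add (x (nat_lit 3) (nat_lit 7) (nat_lit 0)) (x (nat_lit 6) (nat_lit 1) (nat_lit 0))))⟩
  (TL.cons ⟨fun x => (Nat.add (Nat.add (x (nat_lit 1) (nat_lit 3) (nat_lit 0)) (x (nat_lit 5) (nat_lit 2) (nat_lit 0))) (Nat.add (x (nat_lit 6) (nat_lit 5) (nat_lit 0)) (x (nat_lit 7) (nat_lit 0) (nat_lit 0))))⟩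
  (TL.cons ⟨fun x => (Nat.add (Nat.add (x (nat_lit 1) (nat_lit 8) (nat_lit 0)) (x (nat_lit 4) (nat_lit 7) (nat_lit 0))) (Nat.add (x (nat_lit 5) (nat_lit 6) (nat_lit 0)) (x (nat_lit 7) (nat_lit 1) (nat_lit 0))))⟩
  (TL.cons ⟨fun x => (Nat.add (Nat.add (x (nat_lit 0) (nat_lit 9) (nat_lit 0)) (x (nat_lit 2) (nat_lit 3) (nat_lit 0))) (Nat.add (x (nat_lit 6) (nat_lit 2) (nat_lit 0)) (Nat.add (x (nat_lit 7) (nat_lit 5) (nat_lit 0)) (x (nat_lit 8) (nat_lit 0) (nat_lit 0)))))⟩
  (TL.cons ⟨fun x => (Nat.add (x (nat_lit 2) (nat_lit 8) (nat_lit 0)) (Nat.add (x (nat_lit 6) (nat_lit 6) (nat_lit 0)) (x (nat_lit 8) (nat_lit 1) (nat_lit 0))))⟩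
  (TL.cons ⟨fun x => (Nat.add (Nat.add (x (nat_lit 1) (nat_lit 9) (nat_lit 0)) (Nat.add (x (nat_lit 3) (nat_lit 3) (nat_lit 0)) (x (nat_lit 5) (nat_lit 7) (nat_lit 0)))) (Nat.add (x (nat_lit 7) (nat_lit 2) (nat_lit 0)) (Nat.add (x (nat_lit 8) (nat_lit 5) (nat_lit 0)) (x (nat_lit 9) (nat_lit 0) (nat_lit 0)))))⟩
  (TL.cons ⟨fun x => (Nat.add (x (nat_lit 3) (nat_lit 8) (nat_lit 0)) (Nat.add (x (nat_lit 7) (nat_lit 6) (nat_lit 0)) (x (nat_lit 9) (nat_lit 1) (nat_lit 0))))⟩
  (TL.cons ⟨fun x => (Nat.add (Nat.add (x (nat_lit 2) (nat_lit 9) (nat_lit 0)) (x (nat_lit 4) (nat_lit 3) (nat_lit 0))) (Nat.add (x (nat_lit 6) (nat_lit 7) (nat_lit 0)) (Nat.add (x (nat_lit 8) (nat_lit 2) (nat_lit 0)) (x (nat_lit 9) (nat_lit 5) (nat_lit 0)))))⟩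
  (TL.cons ⟨fun x => (Nat.add (x (nat_lit 4) (nat_lit 8) (nat_lit 0)) (x (nat_lit 8) (nat_lit 6) (nat_lit 0)))⟩
  (TL.cons ⟨fun x => (Nat.add (x (nat_lit 3) (nat_lit 9) (nat_lit 0)) (Nat.add (x (nat_lit 7) (nat_lit 7) (nat_lit 0)) (x (nat_lit 9) (nat_lit 2) (nat_lit 0))))⟩
  TL.nil)))))))))))))))))))))))))))))))))))))))))))))))))))))))))))))))))))))))))))))))))))))))))))

noncomputable def m44_t : List TT := [.zero,
  .zero,
  .zero,
  .zero,
  .zero,
  .zero,
  .zero,
  .zero,
  .zero,
  .zero,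
  .zero,
  .zero,
  .zero,
  .zero,
  .zero,
  .zero,
  .zero,
  .zero,
  .zero,
  .zero,
  .zero,
  .zero,
  .zero,
  .zero,
  .zero,
  .zero,
  .zero,
  .zero,
  .zero,
  .zero,
  .zero,
  .zero,
  .zero,
  .zero,
  .zero,
  .zero,
  .zero,
  .zero,
  .zero,
  .zero,
  .zero,
  .zero,
  .zero,
  .zero,
  .zero,
  .zero,
  .zero,
  .zero,
  .zero,
  .zero,
  .zero,
  .zero,
  .zero,
  .zero,
  .zero,
  .zero,
  .zero,
  .zero,
  .zero,
  .zero,
  .zero,
  .zero,
  .zero,
  .zero,
  .zero,
  .zero,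
  .zero,
  (.leaf (nat_lit 0) (nat_lit 0) (nat_lit 0)),
  (.leaf (nat_lit 0) (nat_lit 1) (nat_lit 0)),
  (.add (.leaf (nat_lit 0) (nat_lit 5) (nat_lit 0)) (.leaf (nat_lit 1) (nat_lit 0) (nat_lit 0))),
  (.leaf (nat_lit 1) (nat_lit 1) (nat_lit 0)),
  (.add (.leaf (nat_lit 0) (nat_lit 2) (nat_lit 0)) (.add (.leaf (nat_lit 1) (nat_lit 5) (nat_lit 0)) (.leaf (nat_lit 2) (nat_lit 0) (nat_lit 0)))),
  (.add (.leaf (nat_lit 0) (nat_lit 6) (nat_lit 0)) (.leaf (nat_lit 2) (nat_lit 1) (nat_lit 0))),
  (.add (.leaf (nat_lit 1) (nat_lit 2) (nat_lit 0)) (.add (.leaf (nat_lit 2) (nat_lit 5) (nat_lit 0)) (.leaf (nat_lit 3) (nat_lit 0) (nat_lit 0)))),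
  (.add (.leaf (nat_lit 1) (nat_lit 6) (nat_lit 0)) (.leaf (nat_lit 3) (nat_lit 1) (nat_lit 0))),
  (.add (.add (.leaf (nat_lit 0) (nat_lit 7) (nat_lit 0)) (.leaf (nat_lit 2) (nat_lit 2) (nat_lit 0))) (.add (.leaf (nat_lit 3) (nat_lit 5) (nat_lit 0)) (.leaf (nat_lit 4) (nat_lit 0) (nat_lit 0)))),
  (.add (.leaf (nat_lit 2) (nat_lit 6) (nat_lit 0)) (.leaf (nat_lit 4) (nat_lit 1) (nat_lit 0))),
  (.add (.leaf (nat_lit 1) (nat_lit 7) (nat_lit 0)) (.add (.leaf (nat_lit 3) (nat_lit 2) (nat_lit 0)) (.leaf (nat_lit 4) (nat_lit 5) (nat_lit 0)))),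
  (.add (.leaf (nat_lit 3) (nat_lit 6) (nat_lit 0)) (.leaf (nat_lit 5) (nat_lit 0) (nat_lit 0))),
  (.add (.leaf (nat_lit 2) (nat_lit 7) (nat_lit 0)) (.add (.leaf (nat_lit 4) (nat_lit 2) (nat_lit 0)) (.leaf (nat_lit 5) (nat_lit 1) (nat_lit 0)))),
  (.add (.add (.leaf (nat_lit 0) (nat_lit 3) (nat_lit 0)) (.leaf (nat_lit 4) (nat_lit 6) (nat_lit 0))) (.add (.leaf (nat_lit 5) (nat_lit 5) (nat_lit 0)) (.leaf (nat_lit 6) (nat_lit 0) (nat_lit 0)))),
  (.add (.leaf (nat_lit 0) (nat_lit 8) (nat_lit 0)) (.add (.leaf (nat_lit 3) (nat_lit 7) (nat_lit 0)) (.leaf (nat_lit 6) (nat_lit 1) (nat_lit 0)))),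
  (.add (.add (.leaf (nat_lit 1) (nat_lit 3) (nat_lit 0)) (.leaf (nat_lit 5) (nat_lit 2) (nat_lit 0))) (.add (.leaf (nat_lit 6) (nat_lit 5) (nat_lit 0)) (.leaf (nat_lit 7) (nat_lit 0) (nat_lit 0)))),
  (.add (.add (.leaf (nat_lit 1) (nat_lit 8) (nat_lit 0)) (.leaf (nat_lit 4) (nat_lit 7) (nat_lit 0))) (.add (.leaf (nat_lit 5) (nat_lit 6) (nat_lit 0)) (.leaf (nat_lit 7) (nat_lit 1) (nat_lit 0)))),
  (.add (.add (.leaf (nat_lit 0) (nat_lit 9) (nat_lit 0)) (.leaf (nat_lit 2) (nat_lit 3) (nat_lit 0))) (.add (.leaf (nat_lit 6) (nat_lit 2) (nat_lit 0)) (.add (.leaf (nat_lit 7) (nat_lit 5) (nat_lit 0)) (.leaf (nat_lit 8) (nat_lit 0) (nat_lit 0))))),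
  (.add (.leaf (nat_lit 2) (nat_lit 8) (nat_lit 0)) (.add (.leaf (nat_lit 6) (nat_lit 6) (nat_lit 0)) (.leaf (nat_lit 8) (nat_lit 1) (nat_lit 0)))),
  (.add (.add (.leaf (nat_lit 1) (nat_lit 9) (nat_lit 0)) (.add (.leaf (nat_lit 3) (nat_lit 3) (nat_lit 0)) (.leaf (nat_lit 5) (nat_lit 7) (nat_lit 0)))) (.add (.leaf (nat_lit 7) (nat_lit 2) (nat_lit 0)) (.add (.leaf (nat_lit 8) (nat_lit 5) (nat_lit 0)) (.leaf (nat_lit 9) (nat_lit 0) (nat_lit 0))))),
  (.add (.leaf (nat_lit 3) (nat_lit 8) (nat_lit 0)) (.add (.leaf (nat_lit 7) (nat_lit 6) (nat_lit 0)) (.leaf (nat_lit 9) (nat_lit 1) (nat_lit 0)))),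
  (.add (.add (.leaf (nat_lit 2) (nat_lit 9) (nat_lit 0)) (.leaf (nat_lit 4) (nat_lit 3) (nat_lit 0))) (.add (.leaf (nat_lit 6) (nat_lit 7) (nat_lit 0)) (.add (.leaf (nat_lit 8) (nat_lit 2) (nat_lit 0)) (.leaf (nat_lit 9) (nat_lit 5) (nat_lit 0))))),
  (.add (.leaf (nat_lit 4) (nat_lit 8) (nat_lit 0)) (.leaf (nat_lit 8) (nat_lit 6) (nat_lit 0))),
  (.add (.leaf (nat_lit 3) (nat_lit 9) (nat_lit 0)) (.add (.leaf (nat_lit 7) (nat_lit 7) (nat_lit 0)) (.leaf (nat_lit 9) (nat_lit 2) (nat_lit 0))))]

theorem m44_eq : m44 = ofL m44_t := rfl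

noncomputable def d45_0 : DL := (DL.cons (nat_lit 0x60000000000000000000000000000000000000000000000000000000000000000000000000006000000000006000300000003000000000000000000000000000000000000000000000000000000000000000000000000000000000003000600000008000300000000000000000000000000000000000000000000000000000000000000000000000000060006000000000003000300000000000000000000000000000000000000000000000000000000000000000000000000000000000000000000000700060000000700000003000100050003000000000008000200010001) (nat_lit 0x5800003f00002700000f00000b0000080000050000030000010000000)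
  (DL.cons (nat_lit 0x400050000000000000000000000000000000000000000000000000000000000000000000000000008000000080003000000000000000300000000000000000000000000000000000000000000000000000000000000000000000000020004000000060008000000050000000000000000000000000000000000000000000000000000000000000000000000000005000000080004000000000000000000000000000000000000000000000000000000000000000000000000000000000000000400010000000400030000000000000000000000000000000000000000000000000000000000000000000000000000000600000006000000010008000000040000000200060000000300000008) (nat_lit 0x6d00005400003b00002300000b0000080000050000030000010000000)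
  (DL.cons (nat_lit 0x80000000800000000000000000000000000000000000000000000000000000000000000000000000000010008000000080008000600020000000000000000000000000000000000000000000000000000000000000000000000010002000000050007000000000000000000000000000000000000000000000000000000000000000000000000000000000000000000070007000000020008000000000000000000000000000000000000000000000000000000000000000000000000000700030000000000000005000000000000000000000000000000000000000000000000000000000000000000000000000000000005000700000007000300000008) (nat_lit 0xfffff00006600004d00003400001c0000040000000fffff0fffff0fffff0)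
  (DL.cons (nat_lit 0) (nat_lit 0)
  (DL.cons (nat_lit 0) (nat_lit 0)
  (DL.cons (nat_lit 0x2000000010000000000000000000000000000000000000000000000000000000000000000000000000001000100000002000100000000000000000000000000000000000000000000000000000000000000000000000000000000000000000000000100000002000000000000000000000000000000000000000000000000000000000000000000000000000000000000000000000000000100000000000000000000000000000000000000000000000000000000000000000000000000000000000200020000000000010000000000000001000000020000) (nat_lit 0x5300003a0000210fffff0000090000050000020fffff0fffff0000000)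
  (DL.cons (nat_lit 0x10000000000000000000000000000000000000000000000000000000000000000000000000001000100000002000000000002000100000000000000000000000000000000000000000000000000000000000000000000000000010000000100000000000100000001000000000000000000000000000000000000000000000000000000000000000000000000000000000000000000000001000200000000000000000000000000000000000000000000000000000000000000000000000000020000000100010000000000000000000000000000000000000000000000000000000000000000000000000000000000000001000200000001000000000000000000000000000000000000000000000000000000000000000000000000000000000000000000020000) (nat_lit 0xfffff00007c0000620000490000300000180000000fffff0fffff0fffff0)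
  (DL.cons (nat_lit 0x2000000020000000000000000000000000000000000000000000000000000000000000000000000000002000000000000000000010000000000000000000000000000000000000000000000000000000000000000000000000002000100000000000200000000000000000000000000000000000000000000000000000000000000000000000000000000000000000002000200000001000200000000000000000000000000000000000000000000000000000000000000000000000000020000000000020000) (nat_lit 0xfffff0fffff0fffff00004a0000310000180000000fffff0fffff0fffff0)
  DL.nil))))))))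

noncomputable def d45_1 : DL := (DL.cons (nat_lit 0x40008000000000000000000000000000000000000000000000000000000000000000000000000000000070004000000080001000000000000000000000000000000000000000000000000000000000000000000000000000300020000000500080006000000000000000000000000000000000000000000000000000000000000000000000000000000000003000000000003000600000003000100030000000600070000000800040007000500010006) (nat_lit 0x4000002800001000000c0000090000060000040000020000010000000)
  (DL.cons (nat_lit 0x100000000000000000000000000000000000000000000000000000000000000000000000000000002000000040002000500070000000000000000000000000000000000000000000000000000000000000000000000000001000000070008000000000000000000000000000000000000000000000000000000000000000000000000000000000000000300040000000600030000000000000000000000000000000000000000000000000000000000000000000000000000000500000008000800050008000000050000000000020000000200000007) (nat_lit 0x5400003b00002300000b0000080000050000030000010fffff0000000)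
  (DL.cons (nat_lit 0x70000000000000000000000000000000000000000000000000000000000000000000000070005000000050008000000060000000000000000000000000000000000000000000000000000000000000000000000000000000000030003000000060007000000000000000000000000000000000000000000000000000000000000000000000000000100080000000200020005000000000000000000000000000000000000000000000000000000000000000000000000000000000008000100000001000400000002000000050005) (nat_lit 0xfffff00005000003700001f0000070000030000000fffff0fffff0fffff0)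
  (DL.cons (nat_lit 0) (nat_lit 0)
  (DL.cons (nat_lit 0) (nat_lit 0)
  (DL.cons (nat_lit 0x100000000000000000000000000000000000000000000000000000000000000000000000000000001000000000001000000000000000000000000000000000000000000000000000000000000000000000000000000000000000000000001000000010001000000000000000000000000000000000000000000000000000000000000000000000000000100000000000000000000000000000000000000000000000000000000000000000000000000000000000000000000000000000001000100000002000000000002000000010000) (nat_lit 0x5000003700001f0000070000030fffff0000000fffff0fffff0fffff0)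
  (DL.cons (nat_lit 0x20000000000000000000000000002000000000000000000000000000000000000000000000000000000000000000000000000000100000000000200000000000200000000000000000000000000000000000000000000000000000000000000000000000000020000000100020000000000000000000000000000000000000000000000000000000000000000000000000000000000000002000100000001000000000000000000000000000000000000000000000000000000000000000000000000000000000002000000000001000100010000) (nat_lit 0xfffff00006500004c00003300001b0000030000000fffff0fffff0fffff0)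
  (DL.cons (nat_lit 0x20000000000000000000000000000000000000000000000000000000000000000000000000000000100000001000200000001000000000000000000000000000000000000000000000000000000000000000000000000000000000001000100000001000100000000000000000000000000000000000000000000000000000000000000000000000000000000000000010000000100000000000000000000000000000000000000000000000000000000000000000000000000000000000100000000) (nat_lit 0xfffff0fffff0fffff0000490000300000180000000fffff0fffff0fffff0)
  DL.nil))))))))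

noncomputable def d45_2 : DL := (DL.cons (nat_lit 0x3000000000000000000000000000000000000000000000000000000000000000000000000000000020000000100080004000000000000000000000000000000000000000000000000000000000000000000000000000000010006000600080003000400000003000100060000000500080000000800080001000200010006) (nat_lit 0x2800001000000c0000090000060000040000020000010000000fffff0)
  (DL.cons (nat_lit 0x7000400000000000000000000000000000000000000000000000000000000000000000000000000020000000200030000000000000000000000000000000000000000000000000000000000000000000000000000000000000004000800000003000800000000000000000000000000000000000000000000000000000000000000000000000000000000000000050006000700000000000200000000000200020003000000070001) (nat_lit 0x3c00002400000c0000090000060000040000020000010000000fffff0)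
  (DL.cons (nat_lit 0x80000000000000000000000000000000000000000000000000000000000000000000000000000000000010008000000060002000000000000000000000000000000000000000000000000000000000000000000000000000200040000000200060003000000000000000000000000000000000000000000000000000000000000000000000000000000000002000600000005000500000004000000050007000800000000) (nat_lit 0xfffff00003a00002200000a0000060000030000000fffff0fffff0fffff0)
  (DL.cons (nat_lit 0) (nat_lit 0)
  (DL.cons (nat_lit 0) (nat_lit 0)
  (DL.cons (nat_lit 0x1000200000001000000000000000000000000000000000000000000000000000000000000000000000000000000010001000000020000000000000000000000000000000000000000000000000000000000000000000000000000000000000000000000010000000000000000000100000001000000000001000200000002) (nat_lit 0x3c00002400000c0000080000050fffff0000030000010fffff0000000)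
  (DL.cons (nat_lit 0x2000000000000000000000000000000000000000000000000000000000000000000000000000200000000000000010002000000000000000000000000000000000000000000000000000000000000000000000000000000020000000000010000000200000000000000000000000000000000000000000000000000000000000000000000000000000000000000010000000100000000000000000001) (nat_lit 0xfffff00003700001e0fffff0000060000030000000fffff0fffff0fffff0)
  (DL.cons (nat_lit 0x10000000000000000000000000000000000000000000000000000000000000000000000000000000000000001000000020000000000000000000000000000000000000000000000000000000000000000000000000000000100000000000200000002000000000000000000000000000000000000000000000000000000000000000000000000000000000001000000000001000100000002) (nat_lit 0xfffff0fffff0fffff00003400001c0000040000000fffff0fffff0fffff0)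
  DL.nil))))))))

noncomputable def d45_3 : DL := (DL.cons (nat_lit 0x400000000000000000000000000000000000000000000000000000000000000000000000000000008000300060008000300050000000000000007000300010007000100010007000800070001) (nat_lit 0xf00000b0000080000050000030000010000000fffff0fffff0fffff0)
  (DL.cons (nat_lit 0x300080000000400070000000000000000000000000000000000000000000000000000000000000000000000000000000200000003000600030000000000040000000700020000000800000008) (nat_lit 0x2300000b0000080000050000030000010000000fffff0fffff0fffff0)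
  (DL.cons (nat_lit 0x200000000000000000000000000000000000000000000000000000000000000000000000000030005000000060003000200000000000000000000000000000000000000000000000000000000000000000000000000000000000500020000000800010000000000000007000600000005000000000005) (nat_lit 0xfffff00002400000c0000080000050000020000000fffff0fffff0fffff0)
  (DL.cons (nat_lit 0) (nat_lit 0)
  (DL.cons (nat_lit 0) (nat_lit 0)
  (DL.cons (nat_lit 0x200020000000200020002000000000000000000000000000000000000000000000000000000000000000000000000000000000002000100000002000200000000000000000001000200000000) (nat_lit 0x2200000a0000060000030000000fffff0fffff0fffff0fffff0fffff0)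
  (DL.cons (nat_lit 0x200020000000000000000000000000000000000000000000000000000000000000000000000000000000000000002000000000000000000000000000000000000000000000000000000000000000000000000000000000000000100020000000000020000000000000000000000000000000000000000000000000000000000000000000000000000000000000001000000010000000000000000000100010000) (nat_lit 0xfffff0000380000200000080000050000020000000fffff0fffff0fffff0)
  (DL.cons (nat_lit 0x10000000100010001000000000000000000000000000000000000000000000000000000000000000000000000000000000000000200000002000200000001000000020001) (nat_lit 0xfffff0fffff0fffff00001f0000070000030000000fffff0fffff0fffff0)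
  DL.nil))))))))

noncomputable def d45_4 : DL := (DL.cons (nat_lit 0x7000600080008000800040008000000030000000000060006000800010006) (nat_lit 0xc0000090000060000040000020000010000000fffff0fffff0fffff0)
  (DL.cons (nat_lit 0x40000000000000000000000000000000000000000000000000000000000000000000000000000000200000002000400080001000000060000000200070002000700000001) (nat_lit 0xb0000080000050000030000010fffff0000000fffff0fffff0fffff0)
  (DL.cons (nat_lit 0x40008000000050002000000080000000800000007000100000000000200010008) (nat_lit 0xfffff00000e00000a0000070000040000020000000fffff0fffff0fffff0)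
  (DL.cons (nat_lit 0) (nat_lit 0)
  (DL.cons (nat_lit 0) (nat_lit 0)
  (DL.cons (nat_lit 0x1000000000000000000000000000000000000000000000000000000000000000000000000000000000002000000000000000100000001000000020000000200020000) (nat_lit 0xa0000060000030000000fffff0fffff0fffff0fffff0fffff0fffff0)
  (DL.cons (nat_lit 0x200000000000000010000000000000000000000000000000000000000000000000000000000000000000000000000000000000002000000020002000000000000000100020000) (nat_lit 0xfffff0000200000080000050000020000000fffff0fffff0fffff0fffff0)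
  (DL.cons (nat_lit 0x2000000000002000200000001000000020001000200000000) (nat_lit 0xfffff0fffff0fffff00000a0000060000030000000fffff0fffff0fffff0)
  DL.nil))))))))

noncomputable def d45_5 : DL := (DL.cons (nat_lit 0x1000300000001000000010001) (nat_lit 0x60000040000020000010000000fffff0fffff0fffff0fffff0fffff0)
  (DL.cons (nat_lit 0x2000000040000000000040000) (nat_lit 0x50000020fffff0000000fffff0fffff0fffff0fffff0fffff0fffff0)
  (DL.cons (nat_lit 0x40000000000000000000400060000) (nat_lit 0xfffff0000050000020000000fffff0fffff0fffff0fffff0fffff0fffff0)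
  (DL.cons (nat_lit 0) (nat_lit 0)
  (DL.cons (nat_lit 0) (nat_lit 0)
  (DL.cons (nat_lit 0x10000000000000000000200010000) (nat_lit 0x50000020000000fffff0fffff0fffff0fffff0fffff0fffff0fffff0)
  (DL.cons (nat_lit 0x2000000000002000000020000000100000000) (nat_lit 0xfffff0000060000030000000fffff0fffff0fffff0fffff0fffff0fffff0)
  DL.nil)))))))

noncomputable def d45_6 : DL := (DL.cons (nat_lit 0x600000000000800050001) (nat_lit 0x40000020000010000000fffff0fffff0fffff0fffff0fffff0fffff0)
  (DL.cons (nat_lit 0x30000000000000002000300000001) (nat_lit 0x50000030000010fffff0000000fffff0fffff0fffff0fffff0fffff0)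
  (DL.cons (nat_lit 17180393472) (nat_lit 0xfffff0000020000000fffff0fffff0fffff0fffff0fffff0fffff0fffff0)
  (DL.cons (nat_lit 0) (nat_lit 0)
  (DL.cons (nat_lit 0) (nat_lit 0)
  (DL.cons (nat_lit 1) (nat_lit 0xfffff0fffff0fffff0fffff0fffff0fffff0fffff0fffff0fffff0)
  (DL.cons (nat_lit 0x20000000100000000) (nat_lit 0xfffff0000030000000fffff0fffff0fffff0fffff0fffff0fffff0fffff0)
  DL.nil)))))))

noncomputable def d45_7 : DL := (DL.cons (nat_lit 0x8000800010001) (nat_lit 0x20000010000000fffff0fffff0fffff0fffff0fffff0fffff0fffff0)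
  (DL.cons (nat_lit 0x4000100000007) (nat_lit 0x30000010fffff0000000fffff0fffff0fffff0fffff0fffff0fffff0)
  (DL.cons (nat_lit 0) (nat_lit 0)
  (DL.cons (nat_lit 0) (nat_lit 0)
  (DL.cons (nat_lit 0) (nat_lit 0)
  (DL.cons (nat_lit 131072) (nat_lit 0xfffff0fffff0fffff0fffff0fffff0fffff0fffff0fffff0fffff0)
  (DL.cons (nat_lit 0x1000000000000000200020000) (nat_lit 0xfffff0000040000020000000fffff0fffff0fffff0fffff0fffff0fffff0)
  DL.nil)))))))

noncomputable def d45_8 : DL := (DL.cons (nat_lit 131073) (nat_lit 0x10000000fffff0fffff0fffff0fffff0fffff0fffff0fffff0fffff0)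
  (DL.cons (nat_lit 196608) (nat_lit 0xfffff0fffff0fffff0fffff0fffff0fffff0fffff0fffff0fffff0)
  (DL.cons (nat_lit 8) (nat_lit 0xfffff0fffff0000000fffff0fffff0fffff0fffff0fffff0fffff0fffff0)
  (DL.cons (nat_lit 0) (nat_lit 0)
  (DL.cons (nat_lit 0) (nat_lit 0)
  (DL.cons (nat_lit 2) (nat_lit 0xfffff0000000fffff0fffff0fffff0fffff0fffff0fffff0fffff0fffff0)
  (DL.cons (nat_lit 2) (nat_lit 0xfffff0000000fffff0fffff0fffff0fffff0fffff0fffff0fffff0fffff0)
  DL.nil)))))))

noncomputable def d45_9 : DL := (DL.cons (nat_lit 1) (nat_lit 0xfffff0fffff0fffff0fffff0fffff0fffff0fffff0fffff0fffff0)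
  (DL.cons (nat_lit 7) (nat_lit 0xfffff0000000fffff0fffff0fffff0fffff0fffff0fffff0fffff0fffff0)
  (DL.cons (nat_lit 3) (nat_lit 0xfffff0000000fffff0fffff0fffff0fffff0fffff0fffff0fffff0fffff0)
  (DL.cons (nat_lit 0) (nat_lit 0)
  (DL.cons (nat_lit 0) (nat_lit 0)
  (DL.cons (nat_lit 0) (nat_lit 0)
  (DL.cons (nat_lit 4294967298) (nat_lit 0xfffff0000010fffff0000000fffff0fffff0fffff0fffff0fffff0fffff0)
  DL.nil)))))))

noncomputable def d45 : DLL := (DLL.cons d45_0
  (DLL.cons d45_1
  (DLL.cons d45_2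
  (DLL.cons d45_3
  (DLL.cons d45_4
  (DLL.cons d45_5
  (DLL.cons d45_6
  (DLL.cons d45_7
  (DLL.cons d45_8
  (DLL.cons d45_9
  DLL.nil))))))))))

noncomputable def m45 : TL := (TL.cons ⟨fun _ => nat_lit 0⟩
  (TL.cons ⟨fun _ => nat_lit 0⟩
  (TL.cons ⟨fun _ => nat_lit 0⟩
  (TL.cons ⟨fun _ => nat_lit 0⟩
  (TL.cons ⟨fun _ => nat_lit 0⟩
  (TL.cons ⟨fun _ => nat_lit 0⟩
  (TL.cons ⟨fun _ => nat_lit 0⟩
  (TL.cons ⟨fun _ => nat_lit 0⟩
  (TL.cons ⟨fun _ => nat_lit 0⟩
  (TL.cons ⟨fun _ => nat_lit 0⟩
  (TL.cons ⟨fun _ => nat_lit 0⟩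
  (TL.cons ⟨fun _ => nat_lit 0⟩
  (TL.cons ⟨fun _ => nat_lit 0⟩
  (TL.cons ⟨fun _ => nat_lit 0⟩
  (TL.cons ⟨fun _ => nat_lit 0⟩
  (TL.cons ⟨fun _ => nat_lit 0⟩
  (TL.cons ⟨fun _ => nat_lit 0⟩
  (TL.cons ⟨fun _ => nat_lit 0⟩
  (TL.cons ⟨fun _ => nat_lit 0⟩
  (TL.cons ⟨fun _ => nat_lit 0⟩
  (TL.cons ⟨fun _ => nat_lit 0⟩
  (TL.cons ⟨fun _ => nat_lit 0⟩
  (TL.cons ⟨fun _ => nat_lit 0⟩
  (TL.cons ⟨fun _ => nat_lit 0⟩
  (TL.cons ⟨fun _ => nat_lit 0⟩
  (TL.cons ⟨fun _ => nat_lit 0⟩
  (TL.cons ⟨fun _ => nat_lit 0⟩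
  (TL.cons ⟨fun _ => nat_lit 0⟩
  (TL.cons ⟨fun _ => nat_lit 0⟩
  (TL.cons ⟨fun _ => nat_lit 0⟩
  (TL.cons ⟨fun _ => nat_lit 0⟩
  (TL.cons ⟨fun _ => nat_lit 0⟩
  (TL.cons ⟨fun _ => nat_lit 0⟩
  (TL.cons ⟨fun _ => nat_lit 0⟩
  (TL.cons ⟨fun _ => nat_lit 0⟩
  (TL.cons ⟨fun _ => nat_lit 0⟩
  (TL.cons ⟨fun _ => nat_lit 0⟩
  (TL.cons ⟨fun _ => nat_lit 0⟩
  (TL.cons ⟨fun _ => nat_lit 0⟩
  (TL.cons ⟨fun _ => nat_lit 0⟩
  (TL.cons ⟨fun _ => nat_lit 0⟩
  (TL.cons ⟨fun _ => nat_lit 0⟩
  (TL.cons ⟨fun _ => nat_lit 0⟩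
  (TL.cons ⟨fun _ => nat_lit 0⟩
  (TL.cons ⟨fun _ => nat_lit 0⟩
  (TL.cons ⟨fun _ => nat_lit 0⟩
  (TL.cons ⟨fun _ => nat_lit 0⟩
  (TL.cons ⟨fun _ => nat_lit 0⟩
  (TL.cons ⟨fun _ => nat_lit 0⟩
  (TL.cons ⟨fun _ => nat_lit 0⟩
  (TL.cons ⟨fun _ => nat_lit 0⟩
  (TL.cons ⟨fun _ => nat_lit 0⟩
  (TL.cons ⟨fun _ => nat_lit 0⟩
  (TL.cons ⟨fun _ => nat_lit 0⟩
  (TL.cons ⟨fun _ => nat_lit 0⟩
  (TL.cons ⟨fun _ => nat_lit 0⟩
  (TL.cons ⟨fun _ => nat_lit 0⟩
  (TL.cons ⟨fun _ => nat_lit 0⟩
  (TL.cons ⟨fun _ => nat_lit 0⟩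
  (TL.cons ⟨fun _ => nat_lit 0⟩
  (TL.cons ⟨fun _ => nat_lit 0⟩
  (TL.cons ⟨fun _ => nat_lit 0⟩
  (TL.cons ⟨fun _ => nat_lit 0⟩
  (TL.cons ⟨fun _ => nat_lit 0⟩
  (TL.cons ⟨fun _ => nat_lit 0⟩
  (TL.cons ⟨fun _ => nat_lit 0⟩
  (TL.cons ⟨fun _ => nat_lit 0⟩
  (TL.cons ⟨fun _ => nat_lit 0⟩
  (TL.cons ⟨fun _ => nat_lit 0⟩
  (TL.cons ⟨fun x => (x (nat_lit 0) (nat_lit 0) (nat_lit 0))⟩
  (TL.cons ⟨fun x => (x (nat_lit 0) (nat_lit 1) (nat_lit 0))⟩
  (TL.cons ⟨fun x => (Nat.add (x (nat_lit 0) (nat_lit 5) (nat_lit 0)) (x (nat_lit 1) (nat_lit 0) (nat_lit 0)))⟩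
  (TL.cons ⟨fun x => (x (nat_lit 1) (nat_lit 1) (nat_lit 0))⟩
  (TL.cons ⟨fun x => (Nat.add (x (nat_lit 0) (nat_lit 2) (nat_lit 0)) (Nat.add (x (nat_lit 1) (nat_lit 5) (nat_lit 0)) (x (nat_lit 2) (nat_lit 0) (nat_lit 0))))⟩
  (TL.cons ⟨fun x => (Nat.add (x (nat_lit 0) (nat_lit 6) (nat_lit 0)) (x (nat_lit 2) (nat_lit 1) (nat_lit 0)))⟩
  (TL.cons ⟨fun x => (Nat.add (x (nat_lit 1) (nat_lit 2) (nat_lit 0)) (Nat.add (x (nat_lit 2) (nat_lit 5) (nat_lit 0)) (x (nat_lit 3) (nat_lit 0) (nat_lit 0))))⟩
  (TL.cons ⟨fun x => (Nat.add (x (nat_lit 1) (nat_lit 6) (nat_lit 0)) (x (nat_lit 3) (nat_lit 1) (nat_lit 0)))⟩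
  (TL.cons ⟨fun x => (Nat.add (Nat.add (x (nat_lit 0) (nat_lit 7) (nat_lit 0)) (x (nat_lit 2) (nat_lit 2) (nat_lit 0))) (Nat.add (x (nat_lit 3) (nat_lit 5) (nat_lit 0)) (x (nat_lit 4) (nat_lit 0) (nat_lit 0))))⟩
  (TL.cons ⟨fun x => (Nat.add (x (nat_lit 2) (nat_lit 6) (nat_lit 0)) (x (nat_lit 4) (nat_lit 1) (nat_lit 0)))⟩
  (TL.cons ⟨fun x => (Nat.add (Nat.add (x (nat_lit 1) (nat_lit 7) (nat_lit 0)) (x (nat_lit 3) (nat_lit 2) (nat_lit 0))) (Nat.add (x (nat_lit 4) (nat_lit 5) (nat_lit 0)) (x (nat_lit 5) (nat_lit 0) (nat_lit 0))))⟩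
  (TL.cons ⟨fun x => (Nat.add (x (nat_lit 3) (nat_lit 6) (nat_lit 0)) (x (nat_lit 5) (nat_lit 1) (nat_lit 0)))⟩
  (TL.cons ⟨fun x => (Nat.add (Nat.add (x (nat_lit 2) (nat_lit 7) (nat_lit 0)) (x (nat_lit 4) (nat_lit 2) (nat_lit 0))) (Nat.add (x (nat_lit 5) (nat_lit 5) (nat_lit 0)) (x (nat_lit 6) (nat_lit 0) (nat_lit 0))))⟩
  (TL.cons ⟨fun x => (Nat.add (x (nat_lit 0) (nat_lit 3) (nat_lit 0)) (Nat.add (x (nat_lit 4) (nat_lit 6) (nat_lit 0)) (x (nat_lit 6) (nat_lit 1) (nat_lit 0))))⟩
  (TL.cons ⟨fun x => (Nat.add (Nat.add (x (nat_lit 0) (nat_lit 8) (nat_lit 0)) (x (nat_lit 3) (nat_lit 7) (nat_lit 0))) (Nat.add (x (nat_lit 5) (nat_lit 2) (nat_lit 0)) (Nat.add (x (nat_lit 6) (nat_lit 5) (nat_lit 0)) (x (nat_lit 7) (nat_lit 0) (nat_lit 0)))))⟩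
  (TL.cons ⟨fun x => (Nat.add (x (nat_lit 1) (nat_lit 3) (nat_lit 0)) (Nat.add (x (nat_lit 5) (nat_lit 6) (nat_lit 0)) (x (nat_lit 7) (nat_lit 1) (nat_lit 0))))⟩
  (TL.cons ⟨fun x => (Nat.add (Nat.add (x (nat_lit 1) (nat_lit 8) (nat_lit 0)) (x (nat_lit 4) (nat_lit 7) (nat_lit 0))) (Nat.add (x (nat_lit 6) (nat_lit 2) (nat_lit 0)) (Nat.add (x (nat_lit 7) (nat_lit 5) (nat_lit 0)) (x (nat_lit 8) (nat_lit 0) (nat_lit 0)))))⟩
  (TL.cons ⟨fun x => (Nat.add (Nat.add (x (nat_lit 0) (nat_lit 9) (nat_lit 0)) (x (nat_lit 2) (nat_lit 3) (nat_lit 0))) (Nat.add (x (nat_lit 6) (nat_lit 6) (nat_lit 0)) (x (nat_lit 8) (nat_lit 1) (nat_lit 0))))⟩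
  (TL.cons ⟨fun x => (Nat.add (Nat.add (x (nat_lit 2) (nat_lit 8) (nat_lit 0)) (x (nat_lit 5) (nat_lit 7) (nat_lit 0))) (Nat.add (x (nat_lit 7) (nat_lit 2) (nat_lit 0)) (Nat.add (x (nat_lit 8) (nat_lit 5) (nat_lit 0)) (x (nat_lit 9) (nat_lit 0) (nat_lit 0)))))⟩
  (TL.cons ⟨fun x => (Nat.add (Nat.add (x (nat_lit 1) (nat_lit 9) (nat_lit 0)) (x (nat_lit 3) (nat_lit 3) (nat_lit 0))) (Nat.add (x (nat_lit 7) (nat_lit 6) (nat_lit 0)) (x (nat_lit 9) (nat_lit 1) (nat_lit 0))))⟩
  (TL.cons ⟨fun x => (Nat.add (Nat.add (x (nat_lit 3) (nat_lit 8) (nat_lit 0)) (x (nat_lit 6) (nat_lit 7) (nat_lit 0))) (Nat.add (x (nat_lit 8) (nat_lit 2) (nat_lit 0)) (x (nat_lit 9) (nat_lit 5) (nat_lit 0))))⟩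
  (TL.cons ⟨fun x => (Nat.add (x (nat_lit 2) (nat_lit 9) (nat_lit 0)) (Nat.add (x (nat_lit 4) (nat_lit 3) (nat_lit 0)) (x (nat_lit 8) (nat_lit 6) (nat_lit 0))))⟩
  TL.nil)))))))))))))))))))))))))))))))))))))))))))))))))))))))))))))))))))))))))))))))))))))))))))

noncomputable def m45_t : List TT := [.zero,
  .zero,
  .zero,
  .zero,
  .zero,
  .zero,
  .zero,
  .zero,
  .zero,
  .zero,
  .zero,
  .zero,
  .zero,
  .zero,
  .zero,
  .zero,
  .zero,
  .zero,
  .zero,
  .zero,
  .zero,
  .zero,
  .zero,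
  .zero,
  .zero,
  .zero,
  .zero,
  .zero,
  .zero,
  .zero,
  .zero,
  .zero,
  .zero,
  .zero,
  .zero,
  .zero,
  .zero,
  .zero,
  .zero,
  .zero,
  .zero,
  .zero,
  .zero,
  .zero,
  .zero,
  .zero,
  .zero,
  .zero,
  .zero,
  .zero,
  .zero,
  .zero,
  .zero,
  .zero,
  .zero,
  .zero,
  .zero,
  .zero,
  .zero,
  .zero,
  .zero,
  .zero,
  .zero,
  .zero,
  .zero,
  .zero,
  .zero,
  .zero,
  .zero,
  (.leaf (nat_lit 0) (nat_lit 0) (nat_lit 0)),
  (.leaf (nat_lit 0) (nat_lit 1) (nat_lit 0)),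
  (.add (.leaf (nat_lit 0) (nat_lit 5) (nat_lit 0)) (.leaf (nat_lit 1) (nat_lit 0) (nat_lit 0))),
  (.leaf (nat_lit 1) (nat_lit 1) (nat_lit 0)),
  (.add (.leaf (nat_lit 0) (nat_lit 2) (nat_lit 0)) (.add (.leaf (nat_lit 1) (nat_lit 5) (nat_lit 0)) (.leaf (nat_lit 2) (nat_lit 0) (nat_lit 0)))),
  (.add (.leaf (nat_lit 0) (nat_lit 6) (nat_lit 0)) (.leaf (nat_lit 2) (nat_lit 1) (nat_lit 0))),
  (.add (.leaf (nat_lit 1) (nat_lit 2) (nat_lit 0)) (.add (.leaf (nat_lit 2) (nat_lit 5) (nat_lit 0)) (.leaf (nat_lit 3) (nat_lit 0) (nat_lit 0)))),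
  (.add (.leaf (nat_lit 1) (nat_lit 6) (nat_lit 0)) (.leaf (nat_lit 3) (nat_lit 1) (nat_lit 0))),
  (.add (.add (.leaf (nat_lit 0) (nat_lit 7) (nat_lit 0)) (.leaf (nat_lit 2) (nat_lit 2) (nat_lit 0))) (.add (.leaf (nat_lit 3) (nat_lit 5) (nat_lit 0)) (.leaf (nat_lit 4) (nat_lit 0) (nat_lit 0)))),
  (.add (.leaf (nat_lit 2) (nat_lit 6) (nat_lit 0)) (.leaf (nat_lit 4) (nat_lit 1) (nat_lit 0))),
  (.add (.add (.leaf (nat_lit 1) (nat_lit 7) (nat_lit 0)) (.leaf (nat_lit 3) (nat_lit 2) (nat_lit 0))) (.add (.leaf (nat_lit 4) (nat_lit 5) (nat_lit 0)) (.leaf (nat_lit 5) (nat_lit 0) (nat_lit 0)))),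
  (.add (.leaf (nat_lit 3) (nat_lit 6) (nat_lit 0)) (.leaf (nat_lit 5) (nat_lit 1) (nat_lit 0))),
  (.add (.add (.leaf (nat_lit 2) (nat_lit 7) (nat_lit 0)) (.leaf (nat_lit 4) (nat_lit 2) (nat_lit 0))) (.add (.leaf (nat_lit 5) (nat_lit 5) (nat_lit 0)) (.leaf (nat_lit 6) (nat_lit 0) (nat_lit 0)))),
  (.add (.leaf (nat_lit 0) (nat_lit 3) (nat_lit 0)) (.add (.leaf (nat_lit 4) (nat_lit 6) (nat_lit 0)) (.leaf (nat_lit 6) (nat_lit 1) (nat_lit 0)))),
  (.add (.add (.leaf (nat_lit 0) (nat_lit 8) (nat_lit 0)) (.leaf (nat_lit 3) (nat_lit 7) (nat_lit 0))) (.add (.leaf (nat_lit 5) (nat_lit 2) (nat_lit 0)) (.add (.leaf (nat_lit 6) (nat_lit 5) (nat_lit 0)) (.leaf (nat_lit 7) (nat_lit 0) (nat_lit 0))))),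
  (.add (.leaf (nat_lit 1) (nat_lit 3) (nat_lit 0)) (.add (.leaf (nat_lit 5) (nat_lit 6) (nat_lit 0)) (.leaf (nat_lit 7) (nat_lit 1) (nat_lit 0)))),
  (.add (.add (.leaf (nat_lit 1) (nat_lit 8) (nat_lit 0)) (.leaf (nat_lit 4) (nat_lit 7) (nat_lit 0))) (.add (.leaf (nat_lit 6) (nat_lit 2) (nat_lit 0)) (.add (.leaf (nat_lit 7) (nat_lit 5) (nat_lit 0)) (.leaf (nat_lit 8) (nat_lit 0) (nat_lit 0))))),
  (.add (.add (.leaf (nat_lit 0) (nat_lit 9) (nat_lit 0)) (.leaf (nat_lit 2) (nat_lit 3) (nat_lit 0))) (.add (.leaf (nat_lit 6) (nat_lit 6) (nat_lit 0)) (.leaf (nat_lit 8) (nat_lit 1) (nat_lit 0)))),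
  (.add (.add (.leaf (nat_lit 2) (nat_lit 8) (nat_lit 0)) (.leaf (nat_lit 5) (nat_lit 7) (nat_lit 0))) (.add (.leaf (nat_lit 7) (nat_lit 2) (nat_lit 0)) (.add (.leaf (nat_lit 8) (nat_lit 5) (nat_lit 0)) (.leaf (nat_lit 9) (nat_lit 0) (nat_lit 0))))),
  (.add (.add (.leaf (nat_lit 1) (nat_lit 9) (nat_lit 0)) (.leaf (nat_lit 3) (nat_lit 3) (nat_lit 0))) (.add (.leaf (nat_lit 7) (nat_lit 6) (nat_lit 0)) (.leaf (nat_lit 9) (nat_lit 1) (nat_lit 0)))),
  (.add (.add (.leaf (nat_lit 3) (nat_lit 8) (nat_lit 0)) (.leaf (nat_lit 6) (nat_lit 7) (nat_lit 0))) (.add (.leaf (nat_lit 8) (nat_lit 2) (nat_lit 0)) (.leaf (nat_lit 9) (nat_lit 5) (nat_lit 0)))),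
  (.add (.leaf (nat_lit 2) (nat_lit 9) (nat_lit 0)) (.add (.leaf (nat_lit 4) (nat_lit 3) (nat_lit 0)) (.leaf (nat_lit 8) (nat_lit 6) (nat_lit 0))))]

theorem m45_eq : m45 = ofL m45_t := rfl

noncomputable def d46_0 : DL := (DL.cons (nat_lit 0x30000000000000000000000000000000000000000000000000000000000000000000000000000000000000000000000000000000000000000000000000000000000000000000000000000000000000000000000000000000000000003000000000003000300000000000000000000000000000000000000000000000000000000000000000000000000030000000000060000000000000000000000000000000000000000000000000000000000000000000000000000000000000000000300000000000300000000000600000000000100070001) (nat_lit 0x520000390000210000090000050000020fffff0fffff0000010000000)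
  (DL.cons (nat_lit 0x300000000000000000000000000000000000000000000000000000000000000000000000000000000000000020000000000010000000700000000000000000000000000000000000000000000000000000000000000000000000000000000000000070000000500000000000000000000000000000000000000000000000000000000000000000000000000000000000000010000000000000000000000000000000000000000000000000000000000000000000000000000000000000000000800000000000200080000000000000000000000000000000000000000000000000000000000000000000000000000000000000002000000060000000000020000) (nat_lit 0x6700004e00003500001d0000050fffff0000020fffff0000000fffff0)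
  (DL.cons (nat_lit 0x10000000000000000000000000000000000000000000000000000000000000000000000000000000000000000000000000000000000000000000000000000000000000000000000000000000000000000000000000000000000000008000000000001000200000000000000000000000000000000000000000000000000000000000000000000000000030000000000030000000700000000000000000000000000000000000000000000000000000000000000000000000000000000000000050000000100000000) (nat_lit 0xfffff0fffff00004c00003300001b0000030000000fffff0fffff0fffff0)
  (DL.cons (nat_lit 0) (nat_lit 0)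
  (DL.cons (nat_lit 0) (nat_lit 0)
  (DL.cons (nat_lit 0x100000000000200000000000200000000000000000000000000000000000000000000000000000000000000000000000000000000000000000000000000000000000000000000000000000000000000000000000000000000000000000000000000000000000100000000) (nat_lit 0xfffff0000300fffff0000180000000fffff0fffff0fffff0fffff0fffff0)
  (DL.cons (nat_lit 0x100000000000100000002000000000000000000000000000000000000000000000000000000000000000000000000000000000000000100000001000000000000000000000000000000000000000000000000000000000000000000000000000000000000000100000000) (nat_lit 0xfffff0fffff0000320000190000000fffff0fffff0fffff0fffff0fffff0)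
  (DL.cons (nat_lit 0x10000000000000000000000000000000000000000000000000000000000000000000000000001000000000000000000000001000000000000000000000000000000000000000000000000000000000000000000000000000000000000000100000000) (nat_lit 0xfffff0fffff0fffff0fffff0000190000000fffff0fffff0fffff0fffff0)
  DL.nil))))))))

noncomputable def d46_1 : DL := (DL.cons (nat_lit 0x30000000000040003000000000000000000000000000000000000000000000000000000000000000000000000000400000000000000000000000000000000000000000000000000000000000000000000000000000000000000000000000000000003000000000000000000000003000000030000000300000001000000020001) (nat_lit 0x3d00002500000d0000090000060000040000020000010000000fffff0)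
  (DL.cons (nat_lit 0x2000000000000000000000000000000000000000000000000000000000000000000000000000400000000000700000003000000000000000000000000000000000000000000000000000000000000000000000000000000000000000000000000000700000000000000000000000000000000000000000000000000000000000000000000000000000000000000030000000700000000000700000004) (nat_lit 0x3700001e0fffff0000060fffff0000030fffff0000010fffff0000000)
  (DL.cons (nat_lit 0x3000000000000000500000000000000000000000000000000000000000000000000000000000000000000000000020000000000050000000000000000000000000000000000000000000000000000000000000000000000000000000000000000000800000000000500000000000000000008) (nat_lit 0xfffff0fffff00003600001e0000060000030000000fffff0fffff0fffff0)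
  (DL.cons (nat_lit 0) (nat_lit 0)
  (DL.cons (nat_lit 0) (nat_lit 0)
  (DL.cons (nat_lit 0x1000100000000000000000000000000000000000000000000000000000000000000000000000000000000000000010000000000000000000000000000000000000000000000000000000000000000000000000000000000000000000100000000000200000000000100010000) (nat_lit 0xfffff00003600001e0000060000020fffff0000000fffff0fffff0fffff0)
  (DL.cons (nat_lit 0x20000000000000000000000000000000000000000000000000000000000000000000000000001000000000001000000000000000000000000000000000000000000000000000000000000000000000000000000000000000000000002000000000002000000000001) (nat_lit 0xfffff0fffff00001d0000040fffff0000000fffff0fffff0fffff0fffff0)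
  (DL.cons (nat_lit 0x2000000000002000200000000000000000000000000000000000000000000000000000000000000000000000000000000000000000000) (nat_lit 0xfffff0fffff0fffff0fffff0000180fffff0000000fffff0fffff0fffff0)
  DL.nil))))))))

noncomputable def d46_2 : DL := (DL.cons (nat_lit 0x50000000000000000000000000000000000000000000000000000000000000000000000000002000000000006000000010000000000000000000000000000000000000000000000000000000000000000000000000000000800060001000000030000000000030003000000000001000000020001) (nat_lit 0x2300000b0000070fffff0000040000020000010000000fffff0fffff0)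
  (DL.cons (nat_lit 0x400000000000000000000000000000000000000000000000000000000000000000000000000000000000000040000000000000000000000000000000000000000000000000000000000000000000000000000000000000000000700000000000600050000000000000000000000000000000000000000000000000000000000000000000000000000000000000000000000050000000000000000000400000008000500000004) (nat_lit 0x3b00002300000b0000080000050000030000010fffff0000000fffff0)
  (DL.cons (nat_lit 0x400000000000000000000000000000000000000000000000000000000000000000000000000070000000000020000000000000000000000000000000000000000000000000000000000000000000000000000000000000000000800000000000500000000000300000000000100070000) (nat_lit 0xfffff0fffff0000210000090000050000020000000fffff0fffff0fffff0)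
  (DL.cons (nat_lit 0) (nat_lit 0)
  (DL.cons (nat_lit 0) (nat_lit 0)
  (DL.cons (nat_lit 0x200000000000000000000000000000000000000000000000000000000000000000000000000020000000000020000000000000000000000000000000000000000000000000000000000000000000000000000000000000000000100000000000000000000000200000001000000020000) (nat_lit 0xfffff0000210000090000050000020000000fffff0fffff0fffff0fffff0)
  (DL.cons (nat_lit 0x200000000000000000000000000000000000000000000000000000000000000000000000000000000000000000002000000000001000000020000000100000000) (nat_lit 0xfffff0fffff00001e0000060fffff0000030000000fffff0fffff0fffff0)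
  (DL.cons (nat_lit 0x100000000000000000000000000000000000000000000000000000000000000000000000000010000000000000000000100000000000000000000000000000000000000000000000000000000000000000000000000000000000000020000) (nat_lit 0xfffff0fffff0fffff0fffff0000180000000fffff0fffff0fffff0fffff0)
  DL.nil))))))))

noncomputable def d46_3 : DL := (DL.cons (nat_lit 0x10000000000000000000000000000000000000000000000000000000000000000000000000000000800030001000800060000000000070001000600000002000100000001000100040001) (nat_lit 0xe00000a0000070000040000020000010000000fffff0fffff0fffff0)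
  (DL.cons (nat_lit 0x300000000000700070000000000000000000000000000000000000000000000000000000000000000000000000000000000000002000000080000000000000000000800070000) (nat_lit 0x200000080000050000020fffff0000000fffff0fffff0fffff0fffff0)
  (DL.cons (nat_lit 0x600000000000700000000000600000006000000060000) (nat_lit 0xfffff0fffff0000090000050000020000000fffff0fffff0fffff0fffff0)
  (DL.cons (nat_lit 0) (nat_lit 0)
  (DL.cons (nat_lit 0) (nat_lit 0)
  (DL.cons (nat_lit 0x2000000000002000000000001) (nat_lit 0xfffff0000040000000fffff0fffff0fffff0fffff0fffff0fffff0fffff0)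
  (DL.cons (nat_lit 0x2000000000001000100000000000000000000000000000000000000000000000000000000000000000000000000000000000000000000000200000000) (nat_lit 0xfffff0fffff00001b0000030fffff0000000fffff0fffff0fffff0fffff0)
  (DL.cons (nat_lit 0x200000000000200000000000000000001) (nat_lit 0xfffff0fffff0fffff0fffff0000060000030000000fffff0fffff0fffff0)
  DL.nil))))))))

noncomputable def d46_4 : DL := (DL.cons (nat_lit 0x400000006000100070000000000010001000800010001) (nat_lit 0xb0000080000050000030000010000000fffff0fffff0fffff0fffff0)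
  (DL.cons (nat_lit 0x2000000000000000000000000000000000000000000000000000000000000000000000000000000000000000400000008000000000000000000040007) (nat_lit 0x70000040000010fffff0fffff0fffff0000000fffff0fffff0fffff0)
  (DL.cons (nat_lit 0x20000000000040000000400000001000000000005) (nat_lit 0xfffff0fffff0000070000040000010fffff0000000fffff0fffff0fffff0)
  (DL.cons (nat_lit 0) (nat_lit 0)
  (DL.cons (nat_lit 0) (nat_lit 0)
  (DL.cons (nat_lit 0x100000000000000000002000000020000000000000002) (nat_lit 0xfffff0000080000050000020000000fffff0fffff0fffff0fffff0fffff0)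
  (DL.cons (nat_lit 0x10000000000000000000000000000000000000000000000000000000000000000000000000000000000000000000000000000000100020000) (nat_lit 0xfffff0fffff0000050fffff0000020fffff0000000fffff0fffff0fffff0)
  (DL.cons (nat_lit 0x200000000000000000000000100020000) (nat_lit 0xfffff0fffff0fffff0fffff0000050000020000000fffff0fffff0fffff0)
  DL.nil))))))))

noncomputable def d46_5 : DL := (DL.cons (nat_lit 0x80000000700030005000000010002000800070001) (nat_lit 0x80000050000030000010000000fffff0fffff0fffff0fffff0fffff0)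
  (DL.cons (nat_lit 0x40008000000010000000400060000000200000008) (nat_lit 0x80000050000030000010000000fffff0fffff0fffff0fffff0fffff0)
  (DL.cons (nat_lit 0x60007000000030000) (nat_lit 0xfffff0fffff0000030000000fffff0fffff0fffff0fffff0fffff0fffff0)
  (DL.cons (nat_lit 0) (nat_lit 0)
  (DL.cons (nat_lit 0) (nat_lit 0)
  (DL.cons (nat_lit 0x20002000200020000) (nat_lit 0xfffff0000030000000fffff0fffff0fffff0fffff0fffff0fffff0fffff0)
  (DL.cons (nat_lit 8590065664) (nat_lit 0xfffff0fffff0000000fffff0fffff0fffff0fffff0fffff0fffff0fffff0)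
  DL.nil)))))))

noncomputable def d46_6 : DL := (DL.cons (nat_lit 0x200030000000100020001000500010006) (nat_lit 0x60000040000020000010000000fffff0fffff0fffff0fffff0fffff0)
  (DL.cons (nat_lit 0x80000000600080001000400000001) (nat_lit 0x50000030000010fffff0000000fffff0fffff0fffff0fffff0fffff0)
  (DL.cons (nat_lit 0x50000000000000003) (nat_lit 0xfffff0fffff0000020000000fffff0fffff0fffff0fffff0fffff0fffff0)
  (DL.cons (nat_lit 0) (nat_lit 0)
  (DL.cons (nat_lit 0) (nat_lit 0)
  (DL.cons (nat_lit 0x20002000000000002) (nat_lit 0xfffff0000020000000fffff0fffff0fffff0fffff0fffff0fffff0fffff0)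
  (DL.cons (nat_lit 4294967296) (nat_lit 0xfffff0fffff0000000fffff0fffff0fffff0fffff0fffff0fffff0fffff0)
  DL.nil)))))))

noncomputable def d46_7 : DL := (DL.cons (nat_lit 0x100080008000700010006) (nat_lit 0x40000020000010000000fffff0fffff0fffff0fffff0fffff0fffff0)
  (DL.cons (nat_lit 0x500080006000000070001) (nat_lit 0x40000020000010000000fffff0fffff0fffff0fffff0fffff0fffff0)
  (DL.cons (nat_lit 8590327814) (nat_lit 0xfffff0fffff0000020000000fffff0fffff0fffff0fffff0fffff0fffff0)
  (DL.cons (nat_lit 0) (nat_lit 0)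
  (DL.cons (nat_lit 0) (nat_lit 0)
  (DL.cons (nat_lit 0x1000100010002) (nat_lit 0xfffff0000030000010fffff0000000fffff0fffff0fffff0fffff0fffff0)
  (DL.cons (nat_lit 0x1000200020000) (nat_lit 0xfffff0fffff0000020000000fffff0fffff0fffff0fffff0fffff0fffff0)
  DL.nil)))))))

noncomputable def d46_8 : DL := (DL.cons (nat_lit 4295098369) (nat_lit 0x10000000fffff0fffff0fffff0fffff0fffff0fffff0fffff0fffff0)
  (DL.cons (nat_lit 30064771080) (nat_lit 0x10000000fffff0fffff0fffff0fffff0fffff0fffff0fffff0fffff0)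
  (DL.cons (nat_lit 65538) (nat_lit 0xfffff0fffff0000000fffff0fffff0fffff0fffff0fffff0fffff0fffff0)
  (DL.cons (nat_lit 0) (nat_lit 0)
  (DL.cons (nat_lit 0) (nat_lit 0)
  (DL.cons (nat_lit 65538) (nat_lit 0xfffff0000000fffff0fffff0fffff0fffff0fffff0fffff0fffff0fffff0)
  (DL.cons (nat_lit 65536) (nat_lit 0xfffff0fffff0000000fffff0fffff0fffff0fffff0fffff0fffff0fffff0)
  DL.nil)))))))

noncomputable def d46_9 : DL := (DL.cons (nat_lit 65542) (nat_lit 0x10000000fffff0fffff0fffff0fffff0fffff0fffff0fffff0fffff0)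
  (DL.cons (nat_lit 262151) (nat_lit 0x10000000fffff0fffff0fffff0fffff0fffff0fffff0fffff0fffff0)
  (DL.cons (nat_lit 3) (nat_lit 0xfffff0fffff0fffff0000000fffff0fffff0fffff0fffff0fffff0fffff0)
  (DL.cons (nat_lit 0) (nat_lit 0)
  (DL.cons (nat_lit 0) (nat_lit 0)
  (DL.cons (nat_lit 2) (nat_lit 0xfffff0fffff0000000fffff0fffff0fffff0fffff0fffff0fffff0fffff0)
  (DL.cons (nat_lit 2) (nat_lit 0xfffff0fffff0fffff0000000fffff0fffff0fffff0fffff0fffff0fffff0)
  DL.nil)))))))

noncomputable def d46 : DLL := (DLL.cons d46_0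
  (DLL.cons d46_1
  (DLL.cons d46_2
  (DLL.cons d46_3
  (DLL.cons d46_4
  (DLL.cons d46_5
  (DLL.cons d46_6
  (DLL.cons d46_7
  (DLL.cons d46_8
  (DLL.cons d46_9
  DLL.nil))))))))))

noncomputable def m46 : TL := (TL.cons ⟨fun _ => nat_lit 0⟩
  (TL.cons ⟨fun _ => nat_lit 0⟩
  (TL.cons ⟨fun _ => nat_lit 0⟩
  (TL.cons ⟨fun _ => nat_lit 0⟩
  (TL.cons ⟨fun _ => nat_lit 0⟩
  (TL.cons ⟨fun _ => nat_lit 0⟩
  (TL.cons ⟨fun _ => nat_lit 0⟩
  (TL.cons ⟨fun _ => nat_lit 0⟩
  (TL.cons ⟨fun _ => nat_lit 0⟩
  (TL.cons ⟨fun _ => nat_lit 0⟩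
  (TL.cons ⟨fun _ => nat_lit 0⟩
  (TL.cons ⟨fun _ => nat_lit 0⟩
  (TL.cons ⟨fun _ => nat_lit 0⟩
  (TL.cons ⟨fun _ => nat_lit 0⟩
  (TL.cons ⟨fun _ => nat_lit 0⟩
  (TL.cons ⟨fun _ => nat_lit 0⟩
  (TL.cons ⟨fun _ => nat_lit 0⟩
  (TL.cons ⟨fun _ => nat_lit 0⟩
  (TL.cons ⟨fun _ => nat_lit 0⟩
  (TL.cons ⟨fun _ => nat_lit 0⟩
  (TL.cons ⟨fun _ => nat_lit 0⟩
  (TL.cons ⟨fun _ => nat_lit 0⟩
  (TL.cons ⟨fun _ => nat_lit 0⟩
  (TL.cons ⟨fun _ => nat_lit 0⟩
  (TL.cons ⟨fun _ => nat_lit 0⟩
  (TL.cons ⟨fun _ => nat_lit 0⟩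
  (TL.cons ⟨fun _ => nat_lit 0⟩
  (TL.cons ⟨fun _ => nat_lit 0⟩
  (TL.cons ⟨fun _ => nat_lit 0⟩
  (TL.cons ⟨fun _ => nat_lit 0⟩
  (TL.cons ⟨fun _ => nat_lit 0⟩
  (TL.cons ⟨fun _ => nat_lit 0⟩
  (TL.cons ⟨fun _ => nat_lit 0⟩
  (TL.cons ⟨fun _ => nat_lit 0⟩
  (TL.cons ⟨fun _ => nat_lit 0⟩
  (TL.cons ⟨fun _ => nat_lit 0⟩
  (TL.cons ⟨fun _ => nat_lit 0⟩
  (TL.cons ⟨fun _ => nat_lit 0⟩
  (TL.cons ⟨fun _ => nat_lit 0⟩
  (TL.cons ⟨fun _ => nat_lit 0⟩
  (TL.cons ⟨fun _ => nat_lit 0⟩
  (TL.cons ⟨fun _ => nat_lit 0⟩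
  (TL.cons ⟨fun _ => nat_lit 0⟩
  (TL.cons ⟨fun _ => nat_lit 0⟩
  (TL.cons ⟨fun _ => nat_lit 0⟩
  (TL.cons ⟨fun _ => nat_lit 0⟩
  (TL.cons ⟨fun _ => nat_lit 0⟩
  (TL.cons ⟨fun _ => nat_lit 0⟩
  (TL.cons ⟨fun _ => nat_lit 0⟩
  (TL.cons ⟨fun _ => nat_lit 0⟩
  (TL.cons ⟨fun _ => nat_lit 0⟩
  (TL.cons ⟨fun _ => nat_lit 0⟩
  (TL.cons ⟨fun _ => nat_lit 0⟩
  (TL.cons ⟨fun _ => nat_lit 0⟩
  (TL.cons ⟨fun _ => nat_lit 0⟩
  (TL.cons ⟨fun _ => nat_lit 0⟩
  (TL.cons ⟨fun _ => nat_lit 0⟩
  (TL.cons ⟨fun _ => nat_lit 0⟩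
  (TL.cons ⟨fun _ => nat_lit 0⟩
  (TL.cons ⟨fun _ => nat_lit 0⟩
  (TL.cons ⟨fun _ => nat_lit 0⟩
  (TL.cons ⟨fun _ => nat_lit 0⟩
  (TL.cons ⟨fun _ => nat_lit 0⟩
  (TL.cons ⟨fun _ => nat_lit 0⟩
  (TL.cons ⟨fun _ => nat_lit 0⟩
  (TL.cons ⟨fun _ => nat_lit 0⟩
  (TL.cons ⟨fun _ => nat_lit 0⟩
  (TL.cons ⟨fun _ => nat_lit 0⟩
  (TL.cons ⟨fun _ => nat_lit 0⟩
  (TL.cons ⟨fun _ => nat_lit 0⟩
  (TL.cons ⟨fun x => (x (nat_lit 0) (nat_lit 0) (nat_lit 0))⟩
  (TL.cons ⟨fun x => (x (nat_lit 0) (nat_lit 1) (nat_lit 0))⟩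
  (TL.cons ⟨fun x => (Nat.add (x (nat_lit 0) (nat_lit 5) (nat_lit 0)) (x (nat_lit 1) (nat_lit 0) (nat_lit 0)))⟩
  (TL.cons ⟨fun x => (x (nat_lit 1) (nat_lit 1) (nat_lit 0))⟩
  (TL.cons ⟨fun x => (Nat.add (x (nat_lit 0) (nat_lit 2) (nat_lit 0)) (Nat.add (x (nat_lit 1) (nat_lit 5) (nat_lit 0)) (x (nat_lit 2) (nat_lit 0) (nat_lit 0))))⟩
  (TL.cons ⟨fun x => (Nat.add (x (nat_lit 0) (nat_lit 6) (nat_lit 0)) (x (nat_lit 2) (nat_lit 1) (nat_lit 0)))⟩
  (TL.cons ⟨fun x => (Nat.add (x (nat_lit 1) (nat_lit 2) (nat_lit 0)) (Nat.add (x (nat_lit 2) (nat_lit 5) (nat_lit 0)) (x (nat_lit 3) (nat_lit 0) (nat_lit 0))))⟩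
  (TL.cons ⟨fun x => (Nat.add (x (nat_lit 1) (nat_lit 6) (nat_lit 0)) (x (nat_lit 3) (nat_lit 1) (nat_lit 0)))⟩
  (TL.cons ⟨fun x => (Nat.add (Nat.add (x (nat_lit 0) (nat_lit 7) (nat_lit 0)) (x (nat_lit 2) (nat_lit 2) (nat_lit 0))) (Nat.add (x (nat_lit 3) (nat_lit 5) (nat_lit 0)) (x (nat_lit 4) (nat_lit 0) (nat_lit 0))))⟩
  (TL.cons ⟨fun x => (Nat.add (x (nat_lit 2) (nat_lit 6) (nat_lit 0)) (x (nat_lit 4) (nat_lit 1) (nat_lit 0)))⟩
  (TL.cons ⟨fun x => (Nat.add (x (nat_lit 1) (nat_lit 7) (nat_lit 0)) (Nat.add (x (nat_lit 3) (nat_lit 2) (nat_lit 0)) (x (nat_lit 4) (nat_lit 5) (nat_lit 0))))⟩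
  (TL.cons ⟨fun x => (Nat.add (x (nat_lit 3) (nat_lit 6) (nat_lit 0)) (x (nat_lit 5) (nat_lit 0) (nat_lit 0)))⟩
  (TL.cons ⟨fun x => (Nat.add (x (nat_lit 2) (nat_lit 7) (nat_lit 0)) (Nat.add (x (nat_lit 4) (nat_lit 2) (nat_lit 0)) (x (nat_lit 5) (nat_lit 1) (nat_lit 0))))⟩
  (TL.cons ⟨fun x => (Nat.add (Nat.add (x (nat_lit 0) (nat_lit 3) (nat_lit 0)) (x (nat_lit 4) (nat_lit 6) (nat_lit 0))) (Nat.add (x (nat_lit 5) (nat_lit 5) (nat_lit 0)) (x (nat_lit 6) (nat_lit 0) (nat_lit 0))))⟩
  (TL.cons ⟨fun x => (Nat.add (x (nat_lit 0) (nat_lit 8) (nat_lit 0)) (Nat.add (x (nat_lit 3) (nat_lit 7) (nat_lit 0)) (x (nat_lit 6) (nat_lit 1) (nat_lit 0))))⟩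
  (TL.cons ⟨fun x => (Nat.add (Nat.add (x (nat_lit 1) (nat_lit 3) (nat_lit 0)) (x (nat_lit 5) (nat_lit 2) (nat_lit 0))) (Nat.add (x (nat_lit 6) (nat_lit 5) (nat_lit 0)) (x (nat_lit 7) (nat_lit 0) (nat_lit 0))))⟩
  (TL.cons ⟨fun x => (Nat.add (Nat.add (x (nat_lit 1) (nat_lit 8) (nat_lit 0)) (x (nat_lit 4) (nat_lit 7) (nat_lit 0))) (Nat.add (x (nat_lit 5) (nat_lit 6) (nat_lit 0)) (x (nat_lit 7) (nat_lit 1) (nat_lit 0))))⟩
  (TL.cons ⟨fun x => (Nat.add (Nat.add (x (nat_lit 0) (nat_lit 9) (nat_lit 0)) (x (nat_lit 2) (nat_lit 3) (nat_lit 0))) (Nat.add (x (nat_lit 6) (nat_lit 2) (nat_lit 0)) (Nat.add (x (nat_lit 7) (nat_lit 5) (nat_lit 0)) (x (nat_lit 8) (nat_lit 0) (nat_lit 0)))))⟩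
  (TL.cons ⟨fun x => (Nat.add (x (nat_lit 2) (nat_lit 8) (nat_lit 0)) (Nat.add (x (nat_lit 6) (nat_lit 6) (nat_lit 0)) (x (nat_lit 8) (nat_lit 1) (nat_lit 0))))⟩
  (TL.cons ⟨fun x => (Nat.add (Nat.add (x (nat_lit 1) (nat_lit 9) (nat_lit 0)) (Nat.add (x (nat_lit 3) (nat_lit 3) (nat_lit 0)) (x (nat_lit 5) (nat_lit 7) (nat_lit 0)))) (Nat.add (x (nat_lit 7) (nat_lit 2) (nat_lit 0)) (Nat.add (x (nat_lit 8) (nat_lit 5) (nat_lit 0)) (x (nat_lit 9) (nat_lit 0) (nat_lit 0)))))⟩
  (TL.cons ⟨fun x => (Nat.add (x (nat_lit 3) (nat_lit 8) (nat_lit 0)) (Nat.add (x (nat_lit 7) (nat_lit 6) (nat_lit 0)) (x (nat_lit 9) (nat_lit 1) (nat_lit 0))))⟩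
  TL.nil)))))))))))))))))))))))))))))))))))))))))))))))))))))))))))))))))))))))))))))))))))))))))))

noncomputable def m46_t : List TT := [.zero,
  .zero,
  .zero,
  .zero,
  .zero,
  .zero,
  .zero,
  .zero,
  .zero,
  .zero,
  .zero,
  .zero,
  .zero,
  .zero,
  .zero,
  .zero,
  .zero,
  .zero,
  .zero,
  .zero,
  .zero,
  .zero,
  .zero,
  .zero,
  .zero,
  .zero,
  .zero,
  .zero,
  .zero,
  .zero,
  .zero,
  .zero,
  .zero,
  .zero,
  .zero,
  .zero,
  .zero,
  .zero,
  .zero,
  .zero,
  .zero,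
  .zero,
  .zero,
  .zero,
  .zero,
  .zero,
  .zero,
  .zero,
  .zero,
  .zero,
  .zero,
  .zero,
  .zero,
  .zero,
  .zero,
  .zero,
  .zero,
  .zero,
  .zero,
  .zero,
  .zero,
  .zero,
  .zero,
  .zero,
  .zero,
  .zero,
  .zero,
  .zero,
  .zero,
  .zero,
  (.leaf (nat_lit 0) (nat_lit 0) (nat_lit 0)),
  (.leaf (nat_lit 0) (nat_lit 1) (nat_lit 0)),
  (.add (.leaf (nat_lit 0) (nat_lit 5) (nat_lit 0)) (.leaf (nat_lit 1) (nat_lit 0) (nat_lit 0))),
  (.leaf (nat_lit 1) (nat_lit 1) (nat_lit 0)),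
  (.add (.leaf (nat_lit 0) (nat_lit 2) (nat_lit 0)) (.add (.leaf (nat_lit 1) (nat_lit 5) (nat_lit 0)) (.leaf (nat_lit 2) (nat_lit 0) (nat_lit 0)))),
  (.add (.leaf (nat_lit 0) (nat_lit 6) (nat_lit 0)) (.leaf (nat_lit 2) (nat_lit 1) (nat_lit 0))),
  (.add (.leaf (nat_lit 1) (nat_lit 2) (nat_lit 0)) (.add (.leaf (nat_lit 2) (nat_lit 5) (nat_lit 0)) (.leaf (nat_lit 3) (nat_lit 0) (nat_lit 0)))),
  (.add (.leaf (nat_lit 1) (nat_lit 6) (nat_lit 0)) (.leaf (nat_lit 3) (nat_lit 1) (nat_lit 0))),
  (.add (.add (.leaf (nat_lit 0) (nat_lit 7) (nat_lit 0)) (.leaf (nat_lit 2) (nat_lit 2) (nat_lit 0))) (.add (.leaf (nat_lit 3) (nat_lit 5) (nat_lit 0)) (.leaf (nat_lit 4) (nat_lit 0) (nat_lit 0)))),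
  (.add (.leaf (nat_lit 2) (nat_lit 6) (nat_lit 0)) (.leaf (nat_lit 4) (nat_lit 1) (nat_lit 0))),
  (.add (.leaf (nat_lit 1) (nat_lit 7) (nat_lit 0)) (.add (.leaf (nat_lit 3) (nat_lit 2) (nat_lit 0)) (.leaf (nat_lit 4) (nat_lit 5) (nat_lit 0)))),
  (.add (.leaf (nat_lit 3) (nat_lit 6) (nat_lit 0)) (.leaf (nat_lit 5) (nat_lit 0) (nat_lit 0))),
  (.add (.leaf (nat_lit 2) (nat_lit 7) (nat_lit 0)) (.add (.leaf (nat_lit 4) (nat_lit 2) (nat_lit 0)) (.leaf (nat_lit 5) (nat_lit 1) (nat_lit 0)))),
  (.add (.add (.leaf (nat_lit 0) (nat_lit 3) (nat_lit 0)) (.leaf (nat_lit 4) (nat_lit 6) (nat_lit 0))) (.add (.leaf (nat_lit 5) (nat_lit 5) (nat_lit 0)) (.leaf (nat_lit 6) (nat_lit 0) (nat_lit 0)))),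
  (.add (.leaf (nat_lit 0) (nat_lit 8) (nat_lit 0)) (.add (.leaf (nat_lit 3) (nat_lit 7) (nat_lit 0)) (.leaf (nat_lit 6) (nat_lit 1) (nat_lit 0)))),
  (.add (.add (.leaf (nat_lit 1) (nat_lit 3) (nat_lit 0)) (.leaf (nat_lit 5) (nat_lit 2) (nat_lit 0))) (.add (.leaf (nat_lit 6) (nat_lit 5) (nat_lit 0)) (.leaf (nat_lit 7) (nat_lit 0) (nat_lit 0)))),
  (.add (.add (.leaf (nat_lit 1) (nat_lit 8) (nat_lit 0)) (.leaf (nat_lit 4) (nat_lit 7) (nat_lit 0))) (.add (.leaf (nat_lit 5) (nat_lit 6) (nat_lit 0)) (.leaf (nat_lit 7) (nat_lit 1) (nat_lit 0)))),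
  (.add (.add (.leaf (nat_lit 0) (nat_lit 9) (nat_lit 0)) (.leaf (nat_lit 2) (nat_lit 3) (nat_lit 0))) (.add (.leaf (nat_lit 6) (nat_lit 2) (nat_lit 0)) (.add (.leaf (nat_lit 7) (nat_lit 5) (nat_lit 0)) (.leaf (nat_lit 8) (nat_lit 0) (nat_lit 0))))),
  (.add (.leaf (nat_lit 2) (nat_lit 8) (nat_lit 0)) (.add (.leaf (nat_lit 6) (nat_lit 6) (nat_lit 0)) (.leaf (nat_lit 8) (nat_lit 1) (nat_lit 0)))),
  (.add (.add (.leaf (nat_lit 1) (nat_lit 9) (nat_lit 0)) (.add (.leaf (nat_lit 3) (nat_lit 3) (nat_lit 0)) (.leaf (nat_lit 5) (nat_lit 7) (nat_lit 0)))) (.add (.leaf (nat_lit 7) (nat_lit 2) (nat_lit 0)) (.add (.leaf (nat_lit 8) (nat_lit 5) (nat_lit 0)) (.leaf (nat_lit 9) (nat_lit 0) (nat_lit 0))))),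
  (.add (.leaf (nat_lit 3) (nat_lit 8) (nat_lit 0)) (.add (.leaf (nat_lit 7) (nat_lit 6) (nat_lit 0)) (.leaf (nat_lit 9) (nat_lit 1) (nat_lit 0))))]

theorem m46_eq : m46 = ofL m46_t := rfl

noncomputable def d47_0 : DL := (DL.cons (nat_lit 0x6000000000000000000000000000000000000000000000000000000000000000000000006000300000000000000000006000000000000000000000000000000000000000000000000000000000000000000000000000000000003000300000005000300000000000000000000000000000000000000000000000000000000000000000000000000000003000000000003000000000000000000000000000000000000000000000000000000000000000000000000000000000000000000030000000400000000000400000003000400080006000000000002000500040001) (nat_lit 0x5800003f00002700000f00000b0000080000050000030000010000000)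
  (DL.cons (nat_lit 0x600000000000000000000000000000000000000000000000000000000000000000000000000080004000000080002000700040000000000000000000000000000000000000000000000000000000000000000000000000007000000050004000000000000000000000000000000000000000000000000000000000000000000000000000000000000000600040000000700050000000000000000000000000000000000000000000000000000000000000000000000000000000600000000000000060005000000080000000200080000000700000008) (nat_lit 0xfffff00005400003b00002300000b0000080000050000030000010000000)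
  (DL.cons (nat_lit 0x800040000000000000000000000000000000000000000000000000000000000000000000000080003000000080007000000010000000000000000000000000000000000000000000000000000000000000000000000000000000000030004000000050007000000000000000000000000000000000000000000000000000000000000000000000000000700000000000300000007000000000000000000000000000000000000000000000000000000000000000000000000000000000004000700000001000100000002) (nat_lit 0xfffff0fffff00004d00003400001c0000040000000fffff0fffff0fffff0)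
  (DL.cons (nat_lit 0) (nat_lit 0)
  (DL.cons (nat_lit 0) (nat_lit 0)
  (DL.cons (nat_lit 0x2000200000000000000000000000000000000000000000000000000000000000000000000000100020000000200020000000000000000000000000000000000000000000000000000000000000000000000000000000000000000000000010000000000020000000000000000000000000000000000000000000000000000000000000000000000000002000000000000000000010000000000000000000000000000000000000000000000000000000000000000000000000000000000000000000000020000000000010000) (nat_lit 0xfffff00004e00003500001d0000050fffff0fffff0000020fffff0000000)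
  (DL.cons (nat_lit 0x2000000000000000000000000000000000000000000000000000000000000000000000000000000000000000100000000000000000000000000000000000000000000000000000000000000000000000000000000000000000000000100020000000000000000000000000000000000000000000000000000000000000000000000000000000000000001000000000001000200000000000000000000000000000000000000000000000000000000000000000000000000000000000000010000) (nat_lit 0xfffff0fffff0fffff0000490000300000180000000fffff0fffff0fffff0)
  (DL.cons (nat_lit 0x10000000000000000000000000000000000000000000000000000000000000000000000000000000100000002000200000001000000000000000000000000000000000000000000000000000000000000000000000000000000000002000000000001000000000000000000000000000000000000000000000000000000000000000000000000000000020000000000020000) (nat_lit 0xfffff0fffff0fffff0fffff0000310000180000000fffff0fffff0fffff0)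
  DL.nil))))))))

noncomputable def d47_1 : DL := (DL.cons (nat_lit 0x40008000000000000000000000000000000000000000000000000000000000000000000000000000000070007000000080007000000000000000000000000000000000000000000000000000000000000000000000000000000050000000500080006000000000000000000000000000000000000000000000000000000000000000000000000000000000006000300000003000000000000000100000000000600040000000800010004000200010006) (nat_lit 0x4000002800001000000c0000090000060000040000020000010000000)
  (DL.cons (nat_lit 0x600020000000000000000000000000000000000000000000000000000000000000000000000000001000000000006000000000000000000000000000000000000000000000000000000000000000000000000000000000000000300010000000300060000000000000000000000000000000000000000000000000000000000000000000000000000000800000003000800080002000000050000000000030006000700000004) (nat_lit 0xfffff00003b00002300000b0000080000050000030000010fffff0000000)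
  (DL.cons (nat_lit 0x30000000000000000000000000000000000000000000000000000000000000000000000000000000000050003000000060005000000000000000000000000000000000000000000000000000000000000000000000000000000050000000500050005000000000000000000000000000000000000000000000000000000000000000000000000000000000008000400000004000200000005000000020002) (nat_lit 0xfffff0fffff00003700001f0000070000030000000fffff0fffff0fffff0)
  (DL.cons (nat_lit 0) (nat_lit 0)
  (DL.cons (nat_lit 0) (nat_lit 0)
  (DL.cons (nat_lit 0x1000000000002000000000000000000000000000000000000000000000000000000000000000000000000000200000000000000000001000000000000000000000000000000000000000000000000000000000000000000000000000000000002000000000000000200000000000200000000) (nat_lit 0xfffff00003700001f0000070000030fffff0000000fffff0fffff0fffff0)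
  (DL.cons (nat_lit 0x2000100000000000000000000000000000000000000000000000000000000000000000000000000010000000200000000000000000000000000000000000000000000000000000000000000000000000000000000000000000000000200000002000100000000000000000000000000000000000000000000000000000000000000000000000000000002000000020001000000020000) (nat_lit 0xfffff0fffff0fffff00003300001b0000030000000fffff0fffff0fffff0)
  (DL.cons (nat_lit 0x1000100000001000200000000000000000000000000000000000000000000000000000000000000000000000000000000000000010000000200000000000000000000000000000000000000000000000000000000000000000000000000000000000200000000) (nat_lit 0xfffff0fffff0fffff0fffff0000300000180000000fffff0fffff0fffff0)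
  DL.nil))))))))

noncomputable def d47_2 : DL := (DL.cons (nat_lit 0x3000000000000000000000000000000000000000000000000000000000000000000000000000000080000000100020004000000000000000000000000000000000000000000000000000000000000000000000000000000010000000000080000000100000000000100030000000500050000000800020007000800010006) (nat_lit 0x2800001000000c0000090000060000040000020000010000000fffff0)
  (DL.cons (nat_lit 0x500000001000300000000000000000000000000000000000000000000000000000000000000000000000000000006000000060006000200080000000100000000000700080008000000070007) (nat_lit 0xfffff00002400000c0000090000060000040000020000010000000fffff0)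
  (DL.cons (nat_lit 0x2000000000000000000000000000000000000000000000000000000000000000000000000000800040000000800030006000000000000000000000000000000000000000000000000000000000000000000000000000000000005000600000002000200000001000000080001000200060000) (nat_lit 0xfffff0fffff00002200000a0000060000030000000fffff0fffff0fffff0)
  (DL.cons (nat_lit 0) (nat_lit 0)
  (DL.cons (nat_lit 0) (nat_lit 0)
  (DL.cons (nat_lit 0x2000000000000000000000000000000000000000000000000000000000000000000000000000000000000000100010001000000000000000000000000000000000000000000000000000000000000000000000000000000000002000200000002000100000001000000010000000100000000000000010002) (nat_lit 0xfffff00002500000d0000090000060000030000010fffff0fffff0000000)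
  (DL.cons (nat_lit 0x1000200000000000000000000000000000000000000000000000000000000000000000000000000000000000000010000000200010000000200000001) (nat_lit 0xfffff0fffff0fffff00001e0000060000030000000fffff0fffff0fffff0)
  (DL.cons (nat_lit 0x2000000000000000000000000000000000000000000000000000000000000000000000000000100000000000200000001000000000000000000000000000000000000000000000000000000000000000000000000000000000000000000000001000200000002) (nat_lit 0xfffff0fffff0fffff0fffff00001c0000040000000fffff0fffff0fffff0)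
  DL.nil))))))))

noncomputable def d47_3 : DL := (DL.cons (nat_lit 0x400000000000000000000000000000000000000000000000000000000000000000000000000000008000000000008000300080000000600000007000300010001000100010001000200010001) (nat_lit 0xf00000b0000080000050000030000010000000fffff0fffff0fffff0)
  (DL.cons (nat_lit 0x400000000000000000000000000000000000000000000000000000000000000000000000000000002000000070003000800030000000000000007000300000008) (nat_lit 0xfffff0000090000060000030fffff0000010000000fffff0fffff0fffff0)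
  (DL.cons (nat_lit 0x800000000000000000000000000000000000000000000000000000000000000000000000000000000000600020000000500010000000600000004000600000008000000000008) (nat_lit 0xfffff0fffff00000c0000080000050000020000000fffff0fffff0fffff0)
  (DL.cons (nat_lit 0) (nat_lit 0)
  (DL.cons (nat_lit 0) (nat_lit 0)
  (DL.cons (nat_lit 0x200000000000000000000000000000000000000000000000000000000000000000000000000000000000000020000000100020000000200000002000100020001000000020000) (nat_lit 0xfffff00000c0000080000050000020fffff0000000fffff0fffff0fffff0)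
  (DL.cons (nat_lit 0x20000000100000000000000000001) (nat_lit 0xfffff0fffff0fffff0000060000030000000fffff0fffff0fffff0fffff0)
  (DL.cons (nat_lit 0x1000000000000000000000000000000000000000000000000000000000000000000000000000000000000000200000002000100000001000000020001) (nat_lit 0xfffff0fffff0fffff0fffff0000070000030000000fffff0fffff0fffff0)
  DL.nil))))))))

noncomputable def d47_4 : DL := (DL.cons (nat_lit 0x70000000800080008000700080006000000000000000800010006) (nat_lit 0xa0000070000040fffff0000020000010000000fffff0fffff0fffff0)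
  (DL.cons (nat_lit 0x6000000040000000800000005000700000007) (nat_lit 0xfffff0000080000050000030000010fffff0000000fffff0fffff0fffff0)
  (DL.cons (nat_lit 0x80003000000050000000800000007000700000000000500070005) (nat_lit 0xfffff0fffff00000a0000070000040000020000000fffff0fffff0fffff0)
  (DL.cons (nat_lit 0) (nat_lit 0)
  (DL.cons (nat_lit 0) (nat_lit 0)
  (DL.cons (nat_lit 0x200010000000000000001000000010000000000000001) (nat_lit 0xfffff0000080000050000020000000fffff0fffff0fffff0fffff0fffff0)
  (DL.cons (nat_lit 0x2000100000002000000010001000000020000) (nat_lit 0xfffff0fffff0fffff0000070000040000020000000fffff0fffff0fffff0)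
  (DL.cons (nat_lit 0x2000200000001000000020001000200000000) (nat_lit 0xfffff0fffff0fffff0fffff0000060000030000000fffff0fffff0fffff0)
  DL.nil))))))))

noncomputable def d47_5 : DL := (DL.cons (nat_lit 0x10001000000040001) (nat_lit 0x40fffff0000020000010000000fffff0fffff0fffff0fffff0fffff0)
  (DL.cons (nat_lit 0x60000000000060000) (nat_lit 0xfffff0000020fffff0000000fffff0fffff0fffff0fffff0fffff0fffff0)
  (DL.cons (nat_lit 30064967680) (nat_lit 0xfffff0fffff0000020000000fffff0fffff0fffff0fffff0fffff0fffff0)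
  (DL.cons (nat_lit 0) (nat_lit 0)
  (DL.cons (nat_lit 0) (nat_lit 0)
  (DL.cons (nat_lit 8590065664) (nat_lit 0xfffff0000020000000fffff0fffff0fffff0fffff0fffff0fffff0fffff0)
  (DL.cons (nat_lit 8589934592) (nat_lit 0xfffff0fffff0fffff0000000fffff0fffff0fffff0fffff0fffff0fffff0)
  DL.nil)))))))

noncomputable def d47_6 : DL := (DL.cons (nat_lit 0x300000000000800020001) (nat_lit 0x40000020000010000000fffff0fffff0fffff0fffff0fffff0fffff0)
  (DL.cons (nat_lit 0x1000100000007) (nat_lit 0xfffff0000030000010fffff0000000fffff0fffff0fffff0fffff0fffff0)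
  (DL.cons (nat_lit 0) (nat_lit 0)
  (DL.cons (nat_lit 0) (nat_lit 0)
  (DL.cons (nat_lit 0) (nat_lit 0)
  (DL.cons (nat_lit 65536) (nat_lit 0xfffff0000000fffff0fffff0fffff0fffff0fffff0fffff0fffff0fffff0)
  DL.nil))))))

noncomputable def d47_7 : DL := (DL.cons (nat_lit 0x8000800010001) (nat_lit 0x20000010000000fffff0fffff0fffff0fffff0fffff0fffff0fffff0)
  (DL.cons (nat_lit 8589934596) (nat_lit 0xfffff0000010fffff0000000fffff0fffff0fffff0fffff0fffff0fffff0)
  (DL.cons (nat_lit 6) (nat_lit 0xfffff0fffff0fffff0000000fffff0fffff0fffff0fffff0fffff0fffff0)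
  (DL.cons (nat_lit 0) (nat_lit 0)
  (DL.cons (nat_lit 0) (nat_lit 0)
  (DL.cons (nat_lit 1) (nat_lit 0xfffff0fffff0000000fffff0fffff0fffff0fffff0fffff0fffff0fffff0)
  DL.nil))))))

noncomputable def d47_8 : DL := (DL.cons (nat_lit 524289) (nat_lit 0x10000000fffff0fffff0fffff0fffff0fffff0fffff0fffff0fffff0)
  (DL.cons (nat_lit 0) (nat_lit 0)
  (DL.cons (nat_lit 5) (nat_lit 0xfffff0fffff0000000fffff0fffff0fffff0fffff0fffff0fffff0fffff0)
  (DL.cons (nat_lit 0) (nat_lit 0)
  (DL.cons (nat_lit 0) (nat_lit 0)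
  (DL.cons (nat_lit 2) (nat_lit 0xfffff0000000fffff0fffff0fffff0fffff0fffff0fffff0fffff0fffff0)
  DL.nil))))))

noncomputable def d47_9 : DL := (DL.cons (nat_lit 1) (nat_lit 0xfffff0fffff0fffff0fffff0fffff0fffff0fffff0fffff0fffff0)
  (DL.cons (nat_lit 7) (nat_lit 0xfffff0000000fffff0fffff0fffff0fffff0fffff0fffff0fffff0fffff0)
  (DL.cons (nat_lit 0) (nat_lit 0)
  (DL.cons (nat_lit 0) (nat_lit 0)
  (DL.cons (nat_lit 0) (nat_lit 0)
  (DL.cons (nat_lit 0) (nat_lit 0)
  (DL.cons (nat_lit 2) (nat_lit 0xfffff0fffff0fffff0000000fffff0fffff0fffff0fffff0fffff0fffff0)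
  DL.nil)))))))

noncomputable def d47 : DLL := (DLL.cons d47_0
  (DLL.cons d47_1
  (DLL.cons d47_2
  (DLL.cons d47_3
  (DLL.cons d47_4
  (DLL.cons d47_5
  (DLL.cons d47_6
  (DLL.cons d47_7
  (DLL.cons d47_8
  (DLL.cons d47_9
  DLL.nil))))))))))

noncomputable def m47 : TL := (TL.cons ⟨fun _ => nat_lit 0⟩
  (TL.cons ⟨fun _ => nat_lit 0⟩
  (TL.cons ⟨fun _ => nat_lit 0⟩
  (TL.cons ⟨fun _ => nat_lit 0⟩
  (TL.cons ⟨fun _ => nat_lit 0⟩
  (TL.cons ⟨fun _ => nat_lit 0⟩
  (TL.cons ⟨fun _ => nat_lit 0⟩
  (TL.cons ⟨fun _ => nat_lit 0⟩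
  (TL.cons ⟨fun _ => nat_lit 0⟩
  (TL.cons ⟨fun _ => nat_lit 0⟩
  (TL.cons ⟨fun _ => nat_lit 0⟩
  (TL.cons ⟨fun _ => nat_lit 0⟩
  (TL.cons ⟨fun _ => nat_lit 0⟩
  (TL.cons ⟨fun _ => nat_lit 0⟩
  (TL.cons ⟨fun _ => nat_lit 0⟩
  (TL.cons ⟨fun _ => nat_lit 0⟩
  (TL.cons ⟨fun _ => nat_lit 0⟩
  (TL.cons ⟨fun _ => nat_lit 0⟩
  (TL.cons ⟨fun _ => nat_lit 0⟩
  (TL.cons ⟨fun _ => nat_lit 0⟩
  (TL.cons ⟨fun _ => nat_lit 0⟩
  (TL.cons ⟨fun _ => nat_lit 0⟩
  (TL.cons ⟨fun _ => nat_lit 0⟩
  (TL.cons ⟨fun _ => nat_lit 0⟩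
  (TL.cons ⟨fun _ => nat_lit 0⟩
  (TL.cons ⟨fun _ => nat_lit 0⟩
  (TL.cons ⟨fun _ => nat_lit 0⟩
  (TL.cons ⟨fun _ => nat_lit 0⟩
  (TL.cons ⟨fun _ => nat_lit 0⟩
  (TL.cons ⟨fun _ => nat_lit 0⟩
  (TL.cons ⟨fun _ => nat_lit 0⟩
  (TL.cons ⟨fun _ => nat_lit 0⟩
  (TL.cons ⟨fun _ => nat_lit 0⟩
  (TL.cons ⟨fun _ => nat_lit 0⟩
  (TL.cons ⟨fun _ => nat_lit 0⟩
  (TL.cons ⟨fun _ => nat_lit 0⟩
  (TL.cons ⟨fun _ => nat_lit 0⟩
  (TL.cons ⟨fun _ => nat_lit 0⟩
  (TL.cons ⟨fun _ => nat_lit 0⟩
  (TL.cons ⟨fun _ => nat_lit 0⟩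
  (TL.cons ⟨fun _ => nat_lit 0⟩
  (TL.cons ⟨fun _ => nat_lit 0⟩
  (TL.cons ⟨fun _ => nat_lit 0⟩
  (TL.cons ⟨fun _ => nat_lit 0⟩
  (TL.cons ⟨fun _ => nat_lit 0⟩
  (TL.cons ⟨fun _ => nat_lit 0⟩
  (TL.cons ⟨fun _ => nat_lit 0⟩
  (TL.cons ⟨fun _ => nat_lit 0⟩
  (TL.cons ⟨fun _ => nat_lit 0⟩
  (TL.cons ⟨fun _ => nat_lit 0⟩
  (TL.cons ⟨fun _ => nat_lit 0⟩
  (TL.cons ⟨fun _ => nat_lit 0⟩
  (TL.cons ⟨fun _ => nat_lit 0⟩
  (TL.cons ⟨fun _ => nat_lit 0⟩
  (TL.cons ⟨fun _ => nat_lit 0⟩
  (TL.cons ⟨fun _ => nat_lit 0⟩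
  (TL.cons ⟨fun _ => nat_lit 0⟩
  (TL.cons ⟨fun _ => nat_lit 0⟩
  (TL.cons ⟨fun _ => nat_lit 0⟩
  (TL.cons ⟨fun _ => nat_lit 0⟩
  (TL.cons ⟨fun _ => nat_lit 0⟩
  (TL.cons ⟨fun _ => nat_lit 0⟩
  (TL.cons ⟨fun _ => nat_lit 0⟩
  (TL.cons ⟨fun _ => nat_lit 0⟩
  (TL.cons ⟨fun _ => nat_lit 0⟩
  (TL.cons ⟨fun _ => nat_lit 0⟩
  (TL.cons ⟨fun _ => nat_lit 0⟩
  (TL.cons ⟨fun _ => nat_lit 0⟩
  (TL.cons ⟨fun _ => nat_lit 0⟩
  (TL.cons ⟨fun _ => nat_lit 0⟩
  (TL.cons ⟨fun _ => nat_lit 0⟩
  (TL.cons ⟨fun _ => nat_lit 0⟩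
  (TL.cons ⟨fun x => (x (nat_lit 0) (nat_lit 0) (nat_lit 0))⟩
  (TL.cons ⟨fun x => (x (nat_lit 0) (nat_lit 1) (nat_lit 0))⟩
  (TL.cons ⟨fun x => (Nat.add (x (nat_lit 0) (nat_lit 5) (nat_lit 0)) (x (nat_lit 1) (nat_lit 0) (nat_lit 0)))⟩
  (TL.cons ⟨fun x => (x (nat_lit 1) (nat_lit 1) (nat_lit 0))⟩
  (TL.cons ⟨fun x => (Nat.add (x (nat_lit 0) (nat_lit 2) (nat_lit 0)) (Nat.add (x (nat_lit 1) (nat_lit 5) (nat_lit 0)) (x (nat_lit 2) (nat_lit 0) (nat_lit 0))))⟩
  (TL.cons ⟨fun x => (Nat.add (x (nat_lit 0) (nat_lit 6) (nat_lit 0)) (x (nat_lit 2) (nat_lit 1) (nat_lit 0)))⟩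
  (TL.cons ⟨fun x => (Nat.add (x (nat_lit 1) (nat_lit 2) (nat_lit 0)) (Nat.add (x (nat_lit 2) (nat_lit 5) (nat_lit 0)) (x (nat_lit 3) (nat_lit 0) (nat_lit 0))))⟩
  (TL.cons ⟨fun x => (Nat.add (x (nat_lit 1) (nat_lit 6) (nat_lit 0)) (x (nat_lit 3) (nat_lit 1) (nat_lit 0)))⟩
  (TL.cons ⟨fun x => (Nat.add (Nat.add (x (nat_lit 0) (nat_lit 7) (nat_lit 0)) (x (nat_lit 2) (nat_lit 2) (nat_lit 0))) (Nat.add (x (nat_lit 3) (nat_lit 5) (nat_lit 0)) (x (nat_lit 4) (nat_lit 0) (nat_lit 0))))⟩
  (TL.cons ⟨fun x => (Nat.add (x (nat_lit 2) (nat_lit 6) (nat_lit 0)) (x (nat_lit 4) (nat_lit 1) (nat_lit 0)))⟩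
  (TL.cons ⟨fun x => (Nat.add (Nat.add (x (nat_lit 1) (nat_lit 7) (nat_lit 0)) (x (nat_lit 3) (nat_lit 2) (nat_lit 0))) (Nat.add (x (nat_lit 4) (nat_lit 5) (nat_lit 0)) (x (nat_lit 5) (nat_lit 0) (nat_lit 0))))⟩
  (TL.cons ⟨fun x => (Nat.add (x (nat_lit 3) (nat_lit 6) (nat_lit 0)) (x (nat_lit 5) (nat_lit 1) (nat_lit 0)))⟩
  (TL.cons ⟨fun x => (Nat.add (Nat.add (x (nat_lit 2) (nat_lit 7) (nat_lit 0)) (x (nat_lit 4) (nat_lit 2) (nat_lit 0))) (Nat.add (x (nat_lit 5) (nat_lit 5) (nat_lit 0)) (x (nat_lit 6) (nat_lit 0) (nat_lit 0))))⟩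
  (TL.cons ⟨fun x => (Nat.add (x (nat_lit 0) (nat_lit 3) (nat_lit 0)) (Nat.add (x (nat_lit 4) (nat_lit 6) (nat_lit 0)) (x (nat_lit 6) (nat_lit 1) (nat_lit 0))))⟩
  (TL.cons ⟨fun x => (Nat.add (Nat.add (x (nat_lit 0) (nat_lit 8) (nat_lit 0)) (x (nat_lit 3) (nat_lit 7) (nat_lit 0))) (Nat.add (x (nat_lit 5) (nat_lit 2) (nat_lit 0)) (Nat.add (x (nat_lit 6) (nat_lit 5) (nat_lit 0)) (x (nat_lit 7) (nat_lit 0) (nat_lit 0)))))⟩
  (TL.cons ⟨fun x => (Nat.add (x (nat_lit 1) (nat_lit 3) (nat_lit 0)) (Nat.add (x (nat_lit 5) (nat_lit 6) (nat_lit 0)) (x (nat_lit 7) (nat_lit 1) (nat_lit 0))))⟩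
  (TL.cons ⟨fun x => (Nat.add (Nat.add (x (nat_lit 1) (nat_lit 8) (nat_lit 0)) (x (nat_lit 4) (nat_lit 7) (nat_lit 0))) (Nat.add (x (nat_lit 6) (nat_lit 2) (nat_lit 0)) (Nat.add (x (nat_lit 7) (nat_lit 5) (nat_lit 0)) (x (nat_lit 8) (nat_lit 0) (nat_lit 0)))))⟩
  (TL.cons ⟨fun x => (Nat.add (Nat.add (x (nat_lit 0) (nat_lit 9) (nat_lit 0)) (x (nat_lit 2) (nat_lit 3) (nat_lit 0))) (Nat.add (x (nat_lit 6) (nat_lit 6) (nat_lit 0)) (x (nat_lit 8) (nat_lit 1) (nat_lit 0))))⟩
  (TL.cons ⟨fun x => (Nat.add (Nat.add (x (nat_lit 2) (nat_lit 8) (nat_lit 0)) (x (nat_lit 5) (nat_lit 7) (nat_lit 0))) (Nat.add (x (nat_lit 7) (nat_lit 2) (nat_lit 0)) (Nat.add (x (nat_lit 8) (nat_lit 5) (nat_lit 0)) (x (nat_lit 9) (nat_lit 0) (nat_lit 0)))))⟩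
  TL.nil)))))))))))))))))))))))))))))))))))))))))))))))))))))))))))))))))))))))))))))))))))))))))))

noncomputable def m47_t : List TT := [.zero,
  .zero,
  .zero,
  .zero,
  .zero,
  .zero,
  .zero,
  .zero,
  .zero,
  .zero,
  .zero,
  .zero,
  .zero,
  .zero,
  .zero,
  .zero,
  .zero,
  .zero,
  .zero,
  .zero,
  .zero,
  .zero,
  .zero,
  .zero,
  .zero,
  .zero,
  .zero,
  .zero,
  .zero,
  .zero,
  .zero,
  .zero,
  .zero,
  .zero,
  .zero,
  .zero,
  .zero,
  .zero,
  .zero,
  .zero,
  .zero,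
  .zero,
  .zero,
  .zero,
  .zero,
  .zero,
  .zero,
  .zero,
  .zero,
  .zero,
  .zero,
  .zero,
  .zero,
  .zero,
  .zero,
  .zero,
  .zero,
  .zero,
  .zero,
  .zero,
  .zero,
  .zero,
  .zero,
  .zero,
  .zero,
  .zero,
  .zero,
  .zero,
  .zero,
  .zero,
  .zero,
  .zero,
  (.leaf (nat_lit 0) (nat_lit 0) (nat_lit 0)),
  (.leaf (nat_lit 0) (nat_lit 1) (nat_lit 0)),
  (.add (.leaf (nat_lit 0) (nat_lit 5) (nat_lit 0)) (.leaf (nat_lit 1) (nat_lit 0) (nat_lit 0))),
  (.leaf (nat_lit 1) (nat_lit 1) (nat_lit 0)),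
  (.add (.leaf (nat_lit 0) (nat_lit 2) (nat_lit 0)) (.add (.leaf (nat_lit 1) (nat_lit 5) (nat_lit 0)) (.leaf (nat_lit 2) (nat_lit 0) (nat_lit 0)))),
  (.add (.leaf (nat_lit 0) (nat_lit 6) (nat_lit 0)) (.leaf (nat_lit 2) (nat_lit 1) (nat_lit 0))),
  (.add (.leaf (nat_lit 1) (nat_lit 2) (nat_lit 0)) (.add (.leaf (nat_lit 2) (nat_lit 5) (nat_lit 0)) (.leaf (nat_lit 3) (nat_lit 0) (nat_lit 0)))),
  (.add (.leaf (nat_lit 1) (nat_lit 6) (nat_lit 0)) (.leaf (nat_lit 3) (nat_lit 1) (nat_lit 0))),
  (.add (.add (.leaf (nat_lit 0) (nat_lit 7) (nat_lit 0)) (.leaf (nat_lit 2) (nat_lit 2) (nat_lit 0))) (.add (.leaf (nat_lit 3) (nat_lit 5) (nat_lit 0)) (.leaf (nat_lit 4) (nat_lit 0) (nat_lit 0)))),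
  (.add (.leaf (nat_lit 2) (nat_lit 6) (nat_lit 0)) (.leaf (nat_lit 4) (nat_lit 1) (nat_lit 0))),
  (.add (.add (.leaf (nat_lit 1) (nat_lit 7) (nat_lit 0)) (.leaf (nat_lit 3) (nat_lit 2) (nat_lit 0))) (.add (.leaf (nat_lit 4) (nat_lit 5) (nat_lit 0)) (.leaf (nat_lit 5) (nat_lit 0) (nat_lit 0)))),
  (.add (.leaf (nat_lit 3) (nat_lit 6) (nat_lit 0)) (.leaf (nat_lit 5) (nat_lit 1) (nat_lit 0))),
  (.add (.add (.leaf (nat_lit 2) (nat_lit 7) (nat_lit 0)) (.leaf (nat_lit 4) (nat_lit 2) (nat_lit 0))) (.add (.leaf (nat_lit 5) (nat_lit 5) (nat_lit 0)) (.leaf (nat_lit 6) (nat_lit 0) (nat_lit 0)))),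
  (.add (.leaf (nat_lit 0) (nat_lit 3) (nat_lit 0)) (.add (.leaf (nat_lit 4) (nat_lit 6) (nat_lit 0)) (.leaf (nat_lit 6) (nat_lit 1) (nat_lit 0)))),
  (.add (.add (.leaf (nat_lit 0) (nat_lit 8) (nat_lit 0)) (.leaf (nat_lit 3) (nat_lit 7) (nat_lit 0))) (.add (.leaf (nat_lit 5) (nat_lit 2) (nat_lit 0)) (.add (.leaf (nat_lit 6) (nat_lit 5) (nat_lit 0)) (.leaf (nat_lit 7) (nat_lit 0) (nat_lit 0))))),
  (.add (.leaf (nat_lit 1) (nat_lit 3) (nat_lit 0)) (.add (.leaf (nat_lit 5) (nat_lit 6) (nat_lit 0)) (.leaf (nat_lit 7) (nat_lit 1) (nat_lit 0)))),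
  (.add (.add (.leaf (nat_lit 1) (nat_lit 8) (nat_lit 0)) (.leaf (nat_lit 4) (nat_lit 7) (nat_lit 0))) (.add (.leaf (nat_lit 6) (nat_lit 2) (nat_lit 0)) (.add (.leaf (nat_lit 7) (nat_lit 5) (nat_lit 0)) (.leaf (nat_lit 8) (nat_lit 0) (nat_lit 0))))),
  (.add (.add (.leaf (nat_lit 0) (nat_lit 9) (nat_lit 0)) (.leaf (nat_lit 2) (nat_lit 3) (nat_lit 0))) (.add (.leaf (nat_lit 6) (nat_lit 6) (nat_lit 0)) (.leaf (nat_lit 8) (nat_lit 1) (nat_lit 0)))),
  (.add (.add (.leaf (nat_lit 2) (nat_lit 8) (nat_lit 0)) (.leaf (nat_lit 5) (nat_lit 7) (nat_lit 0))) (.add (.leaf (nat_lit 7) (nat_lit 2) (nat_lit 0)) (.add (.leaf (nat_lit 8) (nat_lit 5) (nat_lit 0)) (.leaf (nat_lit 9) (nat_lit 0) (nat_lit 0)))))]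

theorem m47_eq : m47 = ofL m47_t := rfl

noncomputable def d48_0 : DL := (DL.cons (nat_lit 0x300030000000000000000000000000000000000000000000000000000000000000000000000000003000000000003000000000000000000000000000000000000000000000000000000000000000000000000000000000000000000060000000000000000000000030000000000040003000000010001) (nat_lit 0x3b00002300000b0000070000040000020fffff0000010000000)
  (DL.cons (nat_lit 0x400000000000000000000000000000000000000000000000000000000000000000000000000000000000000020000000000000000000000000000000000000000000000000000000000000000000000000000000000000000000300000000000800050000000000000000000000000000000000000000000000000000000000000000000000000000000000000002000000000003000000070000000000060000) (nat_lit 0xfffff0000380000200000080000050000020fffff0000000fffff0)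
  (DL.cons (nat_lit 0x7000500000000000000000000000000000000000000000000000000000000000000000000000000030000000000000000000000000000000000000000000000000000000000000000000000000000000000000000000000000000000000080000000500000000) (nat_lit 0xfffff0fffff00003300001b0000030000000fffff0fffff0fffff0)
  (DL.cons (nat_lit 0) (nat_lit 0)
  (DL.cons (nat_lit 0) (nat_lit 0)
  (DL.cons (nat_lit 0x20000000200000000) (nat_lit 0xfffff0fffff0000030fffff0000000fffff0fffff0fffff0fffff0)
  (DL.cons (nat_lit 0x2000000000000000000000000000000000000000000000000000000000000000000000000000000000000000100000000) (nat_lit 0xfffff0fffff0fffff0000000fffff0fffff0fffff0fffff0fffff0)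
  (DL.cons (nat_lit 0x1000000000000000000000000000000000000000000000000000000000000000000000000000000000000000200000000) (nat_lit 0xfffff0fffff0fffff0fffff0000000fffff0fffff0fffff0fffff0)
  DL.nil))))))))

noncomputable def d48_1 : DL := (DL.cons (nat_lit 0x100000000000300000000000000000006000600000001000000080001) (nat_lit 0xa0fffff0000060fffff0000040000020000010000000fffff0)
  (DL.cons (nat_lit 0x600000000000000070000000000000000000000000000000000000000000000000000000000000000000000000000000000000008000000030000000000020000000000000006000300000001) (nat_lit 0xfffff00002300000b0000080000050000030000010fffff0000000)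
  (DL.cons (nat_lit 0x100000000000000000000000000000000000000000000000000000000000000000000000000000000000000050000000000000000000000000000000000000000000000000000000000000000000000000000000000000000000400000000000300000000000000000005) (nat_lit 0xfffff0fffff00001e0000060000030000000fffff0fffff0fffff0)
  (DL.cons (nat_lit 0) (nat_lit 0)
  (DL.cons (nat_lit 0) (nat_lit 0)
  (DL.cons (nat_lit 0x1000000000000000000000000000000000000000000000000000000000000000000000000000200000000000100000001000000000000) (nat_lit 0xfffff0000040fffff0000000fffff0fffff0fffff0fffff0fffff0)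
  (DL.cons (nat_lit 0x20000000000020002000000000001000000010000) (nat_lit 0xfffff0fffff0fffff0000070000030000000fffff0fffff0fffff0)
  DL.nil)))))))

noncomputable def d48_2 : DL := (DL.cons (nat_lit 0x10000000000000000000000000000000000000000000000000000000000000000000000000000000800030001000000060000000000060000000600000003000000000001000000080001) (nat_lit 0xe00000a0000070000040000020000010000000fffff0fffff0)
  (DL.cons (nat_lit 0x10000000000000000000000000000000000000000000000000000000000000000000000000000000000000008000000040000000000000000000700000005000400000001) (nat_lit 0xfffff00000b0000080000050000030000010fffff0000000fffff0)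
  (DL.cons (nat_lit 0x200000000000200000000000000000000000400070000) (nat_lit 0xfffff0fffff0000090000050000020000000fffff0fffff0fffff0)
  (DL.cons (nat_lit 0) (nat_lit 0)
  (DL.cons (nat_lit 0) (nat_lit 0)
  (DL.cons (nat_lit 0x100000000000100000000000200000001000000020000) (nat_lit 0xfffff0000090000050000020000000fffff0fffff0fffff0fffff0)
  (DL.cons (nat_lit 0x100000000000000000000000000000000000000000000000000000000000000000000000000000000000000000000000200000000) (nat_lit 0xfffff0fffff0fffff0000030fffff0000000fffff0fffff0fffff0)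
  (DL.cons (nat_lit 0x20000000100000000) (nat_lit 0xfffff0fffff0fffff0fffff0000030000000fffff0fffff0fffff0)
  DL.nil))))))))

noncomputable def d48_3 : DL := (DL.cons (nat_lit 0x60000000000040001000000000008000100000001000400070001) (nat_lit 0xa0000070000040000020000010000000fffff0fffff0fffff0)
  (DL.cons (nat_lit 0x3000000000000000000080003000000020000) (nat_lit 0xfffff0000070000040000020000000fffff0fffff0fffff0fffff0)
  (DL.cons (nat_lit 0x100000000000000030000) (nat_lit 0xfffff0fffff0000020fffff0000000fffff0fffff0fffff0fffff0)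
  (DL.cons (nat_lit 0) (nat_lit 0)
  (DL.cons (nat_lit 0) (nat_lit 0)
  (DL.cons (nat_lit 0x2000100000000) (nat_lit 0xfffff0000030fffff0000000fffff0fffff0fffff0fffff0fffff0)
  (DL.cons (nat_lit 0x200000000000100000000) (nat_lit 0xfffff0fffff0fffff0000030000000fffff0fffff0fffff0fffff0)
  (DL.cons (nat_lit 0x100000000000000000001) (nat_lit 0xfffff0fffff0fffff0fffff0000030000000fffff0fffff0fffff0)
  DL.nil))))))))

noncomputable def d48_4 : DL := (DL.cons (nat_lit 0x100070000000000010001000500010001) (nat_lit 0x80000050000030000010000000fffff0fffff0fffff0fffff0)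
  (DL.cons (nat_lit 0x7000500000004) (nat_lit 0xfffff0000030000010fffff0fffff0000000fffff0fffff0fffff0)
  (DL.cons (nat_lit 0x400000007000000000002) (nat_lit 0xfffff0fffff0000040000010fffff0000000fffff0fffff0fffff0)
  (DL.cons (nat_lit 0) (nat_lit 0)
  (DL.cons (nat_lit 0) (nat_lit 0)
  (DL.cons (nat_lit 0x1000000010000000000000001) (nat_lit 0xfffff0000050000020000000fffff0fffff0fffff0fffff0fffff0)
  (DL.cons (nat_lit 4295032832) (nat_lit 0xfffff0fffff0fffff0000020fffff0000000fffff0fffff0fffff0)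
  (DL.cons (nat_lit 4295098368) (nat_lit 0xfffff0fffff0fffff0fffff0000020000000fffff0fffff0fffff0)
  DL.nil))))))))

noncomputable def d48_5 : DL := (DL.cons (nat_lit 0x5000000010005000800010001) (nat_lit 0x50000030000010000000fffff0fffff0fffff0fffff0fffff0)
  (DL.cons (nat_lit 0x40000000100000008) (nat_lit 0xfffff0000030000010000000fffff0fffff0fffff0fffff0fffff0)
  (DL.cons (nat_lit 12885295104) (nat_lit 0xfffff0fffff0000000fffff0fffff0fffff0fffff0fffff0fffff0)
  (DL.cons (nat_lit 0) (nat_lit 0)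
  (DL.cons (nat_lit 0) (nat_lit 0)
  (DL.cons (nat_lit 0x1000000010000) (nat_lit 0xfffff0000020fffff0000000fffff0fffff0fffff0fffff0fffff0)
  DL.nil))))))

noncomputable def d48_6 : DL := (DL.cons (nat_lit 0x100020001000200010006) (nat_lit 0x40000020000010000000fffff0fffff0fffff0fffff0fffff0)
  (DL.cons (nat_lit 34359738375) (nat_lit 0xfffff0000010fffff0000000fffff0fffff0fffff0fffff0fffff0)
  (DL.cons (nat_lit 6) (nat_lit 0xfffff0fffff0000000fffff0fffff0fffff0fffff0fffff0fffff0)
  (DL.cons (nat_lit 0) (nat_lit 0)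
  (DL.cons (nat_lit 0) (nat_lit 0)
  (DL.cons (nat_lit 1) (nat_lit 0xfffff0000000fffff0fffff0fffff0fffff0fffff0fffff0fffff0)
  DL.nil))))))

noncomputable def d48_7 : DL := (DL.cons (nat_lit 0x5000700010006) (nat_lit 0x20000010000000fffff0fffff0fffff0fffff0fffff0fffff0)
  (DL.cons (nat_lit 458759) (nat_lit 0xfffff0000010000000fffff0fffff0fffff0fffff0fffff0fffff0)
  (DL.cons (nat_lit 393219) (nat_lit 0xfffff0fffff0000000fffff0fffff0fffff0fffff0fffff0fffff0)
  (DL.cons (nat_lit 0) (nat_lit 0)
  (DL.cons (nat_lit 0) (nat_lit 0)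
  (DL.cons (nat_lit 131074) (nat_lit 0xfffff0000010fffff0000000fffff0fffff0fffff0fffff0fffff0)
  DL.nil))))))

noncomputable def d48_8 : DL := (DL.cons (nat_lit 1) (nat_lit 0xfffff0fffff0fffff0fffff0fffff0fffff0fffff0fffff0)
  DL.nil)

noncomputable def d48_9 : DL := (DL.cons (nat_lit 6) (nat_lit 0xfffff0fffff0fffff0fffff0fffff0fffff0fffff0fffff0)
  (DL.cons (nat_lit 0) (nat_lit 0)
  (DL.cons (nat_lit 3) (nat_lit 0xfffff0fffff0000000fffff0fffff0fffff0fffff0fffff0fffff0)
  (DL.cons (nat_lit 0) (nat_lit 0)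
  (DL.cons (nat_lit 0) (nat_lit 0)
  (DL.cons (nat_lit 2) (nat_lit 0xfffff0000000fffff0fffff0fffff0fffff0fffff0fffff0fffff0)
  DL.nil))))))

noncomputable def d48 : DLL := (DLL.cons d48_0
  (DLL.cons d48_1
  (DLL.cons d48_2
  (DLL.cons d48_3
  (DLL.cons d48_4
  (DLL.cons d48_5
  (DLL.cons d48_6
  (DLL.cons d48_7
  (DLL.cons d48_8
  (DLL.cons d48_9
  DLL.nil))))))))))

noncomputable def m48 : TL := (TL.cons ⟨fun _ => nat_lit 0⟩
  (TL.cons ⟨fun _ => nat_lit 0⟩
  (TL.cons ⟨fun _ => nat_lit 0⟩
  (TL.cons ⟨fun _ => nat_lit 0⟩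
  (TL.cons ⟨fun _ => nat_lit 0⟩
  (TL.cons ⟨fun _ => nat_lit 0⟩
  (TL.cons ⟨fun _ => nat_lit 0⟩
  (TL.cons ⟨fun _ => nat_lit 0⟩
  (TL.cons ⟨fun _ => nat_lit 0⟩
  (TL.cons ⟨fun _ => nat_lit 0⟩
  (TL.cons ⟨fun _ => nat_lit 0⟩
  (TL.cons ⟨fun _ => nat_lit 0⟩
  (TL.cons ⟨fun _ => nat_lit 0⟩
  (TL.cons ⟨fun _ => nat_lit 0⟩
  (TL.cons ⟨fun _ => nat_lit 0⟩
  (TL.cons ⟨fun _ => nat_lit 0⟩
  (TL.cons ⟨fun _ => nat_lit 0⟩
  (TL.cons ⟨fun _ => nat_lit 0⟩
  (TL.cons ⟨fun _ => nat_lit 0⟩
  (TL.cons ⟨fun _ => nat_lit 0⟩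
  (TL.cons ⟨fun _ => nat_lit 0⟩
  (TL.cons ⟨fun _ => nat_lit 0⟩
  (TL.cons ⟨fun _ => nat_lit 0⟩
  (TL.cons ⟨fun _ => nat_lit 0⟩
  (TL.cons ⟨fun _ => nat_lit 0⟩
  (TL.cons ⟨fun _ => nat_lit 0⟩
  (TL.cons ⟨fun _ => nat_lit 0⟩
  (TL.cons ⟨fun _ => nat_lit 0⟩
  (TL.cons ⟨fun _ => nat_lit 0⟩
  (TL.cons ⟨fun _ => nat_lit 0⟩
  (TL.cons ⟨fun _ => nat_lit 0⟩
  (TL.cons ⟨fun _ => nat_lit 0⟩
  (TL.cons ⟨fun _ => nat_lit 0⟩
  (TL.cons ⟨fun _ => nat_lit 0⟩
  (TL.cons ⟨fun _ => nat_lit 0⟩
  (TL.cons ⟨fun _ => nat_lit 0⟩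
  (TL.cons ⟨fun _ => nat_lit 0⟩
  (TL.cons ⟨fun _ => nat_lit 0⟩
  (TL.cons ⟨fun _ => nat_lit 0⟩
  (TL.cons ⟨fun _ => nat_lit 0⟩
  (TL.cons ⟨fun _ => nat_lit 0⟩
  (TL.cons ⟨fun _ => nat_lit 0⟩
  (TL.cons ⟨fun _ => nat_lit 0⟩
  (TL.cons ⟨fun _ => nat_lit 0⟩
  (TL.cons ⟨fun _ => nat_lit 0⟩
  (TL.cons ⟨fun _ => nat_lit 0⟩
  (TL.cons ⟨fun _ => nat_lit 0⟩
  (TL.cons ⟨fun _ => nat_lit 0⟩
  (TL.cons ⟨fun _ => nat_lit 0⟩
  (TL.cons ⟨fun _ => nat_lit 0⟩
  (TL.cons ⟨fun _ => nat_lit 0⟩
  (TL.cons ⟨fun _ => nat_lit 0⟩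
  (TL.cons ⟨fun _ => nat_lit 0⟩
  (TL.cons ⟨fun _ => nat_lit 0⟩
  (TL.cons ⟨fun _ => nat_lit 0⟩
  (TL.cons ⟨fun _ => nat_lit 0⟩
  (TL.cons ⟨fun _ => nat_lit 0⟩
  (TL.cons ⟨fun _ => nat_lit 0⟩
  (TL.cons ⟨fun _ => nat_lit 0⟩
  (TL.cons ⟨fun _ => nat_lit 0⟩
  (TL.cons ⟨fun _ => nat_lit 0⟩
  (TL.cons ⟨fun _ => nat_lit 0⟩
  (TL.cons ⟨fun _ => nat_lit 0⟩
  (TL.cons ⟨fun _ => nat_lit 0⟩
  (TL.cons ⟨fun _ => nat_lit 0⟩
  (TL.cons ⟨fun _ => nat_lit 0⟩
  (TL.cons ⟨fun _ => nat_lit 0⟩
  (TL.cons ⟨fun _ => nat_lit 0⟩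
  (TL.cons ⟨fun _ => nat_lit 0⟩
  (TL.cons ⟨fun _ => nat_lit 0⟩
  (TL.cons ⟨fun _ => nat_lit 0⟩
  (TL.cons ⟨fun _ => nat_lit 0⟩
  (TL.cons ⟨fun _ => nat_lit 0⟩
  (TL.cons ⟨fun x => (x (nat_lit 0) (nat_lit 0) (nat_lit 0))⟩
  (TL.cons ⟨fun x => (x (nat_lit 0) (nat_lit 1) (nat_lit 0))⟩
  (TL.cons ⟨fun x => (Nat.add (x (nat_lit 0) (nat_lit 5) (nat_lit 0)) (x (nat_lit 1) (nat_lit 0) (nat_lit 0)))⟩
  (TL.cons ⟨fun x => (x (nat_lit 1) (nat_lit 1) (nat_lit 0))⟩
  (TL.cons ⟨fun x => (Nat.add (x (nat_lit 0) (nat_lit 2) (nat_lit 0)) (Nat.add (x (nat_lit 1) (nat_lit 5) (nat_lit 0)) (x (nat_lit 2) (nat_lit 0) (nat_lit 0))))⟩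
  (TL.cons ⟨fun x => (Nat.add (x (nat_lit 0) (nat_lit 6) (nat_lit 0)) (x (nat_lit 2) (nat_lit 1) (nat_lit 0)))⟩
  (TL.cons ⟨fun x => (Nat.add (x (nat_lit 1) (nat_lit 2) (nat_lit 0)) (Nat.add (x (nat_lit 2) (nat_lit 5) (nat_lit 0)) (x (nat_lit 3) (nat_lit 0) (nat_lit 0))))⟩
  (TL.cons ⟨fun x => (Nat.add (x (nat_lit 1) (nat_lit 6) (nat_lit 0)) (x (nat_lit 3) (nat_lit 1) (nat_lit 0)))⟩
  (TL.cons ⟨fun x => (Nat.add (Nat.add (x (nat_lit 0) (nat_lit 7) (nat_lit 0)) (x (nat_lit 2) (nat_lit 2) (nat_lit 0))) (Nat.add (x (nat_lit 3) (nat_lit 5) (nat_lit 0)) (x (nat_lit 4) (nat_lit 0) (nat_lit 0))))⟩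
  (TL.cons ⟨fun x => (Nat.add (x (nat_lit 2) (nat_lit 6) (nat_lit 0)) (x (nat_lit 4) (nat_lit 1) (nat_lit 0)))⟩
  (TL.cons ⟨fun x => (Nat.add (x (nat_lit 1) (nat_lit 7) (nat_lit 0)) (Nat.add (x (nat_lit 3) (nat_lit 2) (nat_lit 0)) (x (nat_lit 4) (nat_lit 5) (nat_lit 0))))⟩
  (TL.cons ⟨fun x => (Nat.add (x (nat_lit 3) (nat_lit 6) (nat_lit 0)) (x (nat_lit 5) (nat_lit 0) (nat_lit 0)))⟩
  (TL.cons ⟨fun x => (Nat.add (x (nat_lit 2) (nat_lit 7) (nat_lit 0)) (Nat.add (x (nat_lit 4) (nat_lit 2) (nat_lit 0)) (x (nat_lit 5) (nat_lit 1) (nat_lit 0))))⟩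
  (TL.cons ⟨fun x => (Nat.add (Nat.add (x (nat_lit 0) (nat_lit 3) (nat_lit 0)) (x (nat_lit 4) (nat_lit 6) (nat_lit 0))) (Nat.add (x (nat_lit 5) (nat_lit 5) (nat_lit 0)) (x (nat_lit 6) (nat_lit 0) (nat_lit 0))))⟩
  (TL.cons ⟨fun x => (Nat.add (x (nat_lit 0) (nat_lit 8) (nat_lit 0)) (Nat.add (x (nat_lit 3) (nat_lit 7) (nat_lit 0)) (x (nat_lit 6) (nat_lit 1) (nat_lit 0))))⟩
  (TL.cons ⟨fun x => (Nat.add (Nat.add (x (nat_lit 1) (nat_lit 3) (nat_lit 0)) (x (nat_lit 5) (nat_lit 2) (nat_lit 0))) (Nat.add (x (nat_lit 6) (nat_lit 5) (nat_lit 0)) (x (nat_lit 7) (nat_lit 0) (nat_lit 0))))⟩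
  (TL.cons ⟨fun x => (Nat.add (Nat.add (x (nat_lit 1) (nat_lit 8) (nat_lit 0)) (x (nat_lit 4) (nat_lit 7) (nat_lit 0))) (Nat.add (x (nat_lit 5) (nat_lit 6) (nat_lit 0)) (x (nat_lit 7) (nat_lit 1) (nat_lit 0))))⟩
  (TL.cons ⟨fun x => (Nat.add (Nat.add (x (nat_lit 0) (nat_lit 9) (nat_lit 0)) (x (nat_lit 2) (nat_lit 3) (nat_lit 0))) (Nat.add (x (nat_lit 6) (nat_lit 2) (nat_lit 0)) (Nat.add (x (nat_lit 7) (nat_lit 5) (nat_lit 0)) (x (nat_lit 8) (nat_lit 0) (nat_lit 0)))))⟩
  TL.nil)))))))))))))))))))))))))))))))))))))))))))))))))))))))))))))))))))))))))))))))))))))))))))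

noncomputable def m48_t : List TT := [.zero,
  .zero,
  .zero,
  .zero,
  .zero,
  .zero,
  .zero,
  .zero,
  .zero,
  .zero,
  .zero,
  .zero,
  .zero,
  .zero,
  .zero,
  .zero,
  .zero,
  .zero,
  .zero,
  .zero,
  .zero,
  .zero,
  .zero,
  .zero,
  .zero,
  .zero,
  .zero,
  .zero,
  .zero,
  .zero,
  .zero,
  .zero,
  .zero,
  .zero,
  .zero,
  .zero,
  .zero,
  .zero,
  .zero,
  .zero,
  .zero,
  .zero,
  .zero,
  .zero,
  .zero,
  .zero,
  .zero,
  .zero,
  .zero,
  .zero,
  .zero,
  .zero,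
  .zero,
  .zero,
  .zero,
  .zero,
  .zero,
  .zero,
  .zero,
  .zero,
  .zero,
  .zero,
  .zero,
  .zero,
  .zero,
  .zero,
  .zero,
  .zero,
  .zero,
  .zero,
  .zero,
  .zero,
  .zero,
  (.leaf (nat_lit 0) (nat_lit 0) (nat_lit 0)),
  (.leaf (nat_lit 0) (nat_lit 1) (nat_lit 0)),
  (.add (.leaf (nat_lit 0) (nat_lit 5) (nat_lit 0)) (.leaf (nat_lit 1) (nat_lit 0) (nat_lit 0))),
  (.leaf (nat_lit 1) (nat_lit 1) (nat_lit 0)),
  (.add (.leaf (nat_lit 0) (nat_lit 2) (nat_lit 0)) (.add (.leaf (nat_lit 1) (nat_lit 5) (nat_lit 0)) (.leaf (nat_lit 2) (nat_lit 0) (nat_lit 0)))),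
  (.add (.leaf (nat_lit 0) (nat_lit 6) (nat_lit 0)) (.leaf (nat_lit 2) (nat_lit 1) (nat_lit 0))),
  (.add (.leaf (nat_lit 1) (nat_lit 2) (nat_lit 0)) (.add (.leaf (nat_lit 2) (nat_lit 5) (nat_lit 0)) (.leaf (nat_lit 3) (nat_lit 0) (nat_lit 0)))),
  (.add (.leaf (nat_lit 1) (nat_lit 6) (nat_lit 0)) (.leaf (nat_lit 3) (nat_lit 1) (nat_lit 0))),
  (.add (.add (.leaf (nat_lit 0) (nat_lit 7) (nat_lit 0)) (.leaf (nat_lit 2) (nat_lit 2) (nat_lit 0))) (.add (.leaf (nat_lit 3) (nat_lit 5) (nat_lit 0)) (.leaf (nat_lit 4) (nat_lit 0) (nat_lit 0)))),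
  (.add (.leaf (nat_lit 2) (nat_lit 6) (nat_lit 0)) (.leaf (nat_lit 4) (nat_lit 1) (nat_lit 0))),
  (.add (.leaf (nat_lit 1) (nat_lit 7) (nat_lit 0)) (.add (.leaf (nat_lit 3) (nat_lit 2) (nat_lit 0)) (.leaf (nat_lit 4) (nat_lit 5) (nat_lit 0)))),
  (.add (.leaf (nat_lit 3) (nat_lit 6) (nat_lit 0)) (.leaf (nat_lit 5) (nat_lit 0) (nat_lit 0))),
  (.add (.leaf (nat_lit 2) (nat_lit 7) (nat_lit 0)) (.add (.leaf (nat_lit 4) (nat_lit 2) (nat_lit 0)) (.leaf (nat_lit 5) (nat_lit 1) (nat_lit 0)))),
  (.add (.add (.leaf (nat_lit 0) (nat_lit 3) (nat_lit 0)) (.leaf (nat_lit 4) (nat_lit 6) (nat_lit 0))) (.add (.leaf (nat_lit 5) (nat_lit 5) (nat_lit 0)) (.leaf (nat_lit 6) (nat_lit 0) (nat_lit 0)))),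
  (.add (.leaf (nat_lit 0) (nat_lit 8) (nat_lit 0)) (.add (.leaf (nat_lit 3) (nat_lit 7) (nat_lit 0)) (.leaf (nat_lit 6) (nat_lit 1) (nat_lit 0)))),
  (.add (.add (.leaf (nat_lit 1) (nat_lit 3) (nat_lit 0)) (.leaf (nat_lit 5) (nat_lit 2) (nat_lit 0))) (.add (.leaf (nat_lit 6) (nat_lit 5) (nat_lit 0)) (.leaf (nat_lit 7) (nat_lit 0) (nat_lit 0)))),
  (.add (.add (.leaf (nat_lit 1) (nat_lit 8) (nat_lit 0)) (.leaf (nat_lit 4) (nat_lit 7) (nat_lit 0))) (.add (.leaf (nat_lit 5) (nat_lit 6) (nat_lit 0)) (.leaf (nat_lit 7) (nat_lit 1) (nat_lit 0)))),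
  (.add (.add (.leaf (nat_lit 0) (nat_lit 9) (nat_lit 0)) (.leaf (nat_lit 2) (nat_lit 3) (nat_lit 0))) (.add (.leaf (nat_lit 6) (nat_lit 2) (nat_lit 0)) (.add (.leaf (nat_lit 7) (nat_lit 5) (nat_lit 0)) (.leaf (nat_lit 8) (nat_lit 0) (nat_lit 0)))))]

theorem m48_eq : m48 = ofL m48_t := rfl

noncomputable def d49_0 : DL := (DL.cons (nat_lit 0x300000000000000000000000000000000000000000000000000000000000000000000000000000000000000060003000600000000000000000000000000000000000000000000000000000000000000000000000000000000000600060000000100060000000100000003000700020000000000000005000800070001) (nat_lit 0x2700000f00000b0000080000050000030000010000000)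
  (DL.cons (nat_lit 0x200000000000000000000000000000000000000000000000000000000000000000000000000000006000000030001000000000000000000000000000000000000000000000000000000000000000000000000000000000000000500070000000700010000000000000000000000000000000000000000000000000000000000000000000000000000000600000003000000080005000000030000000200040000000200000008) (nat_lit 0x3b00002300000b0000080000050000030000010000000)
  (DL.cons (nat_lit 0x3000000000000000000000000000000000000000000000000000000000000000000000000000700060000000300000006000000000000000000000000000000000000000000000000000000000000000000000000000000000003000700000004000500000005) (nat_lit 0xfffff0fffff00001c0000040000000fffff0fffff0fffff0)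
  (DL.cons (nat_lit 0) (nat_lit 0)
  (DL.cons (nat_lit 0) (nat_lit 0)
  (DL.cons (nat_lit 0x200000000000200000001000000000000000000000000000000000000000000000000000000000000000000000000000000000000000100000000000200000000000000020000000200000000) (nat_lit 0xfffff00002200000a0000060000030000000fffff0fffff0)
  (DL.cons (nat_lit 0x100000000000000000000000000000000000000000000000000000000000000000000000000010000000200000000000000000000000000000000000000000000000000000000000000000000000000000000000000000001000200000001000100000000000000000000000000000000000000000000000000000000000000000000000000000000000000000000) (nat_lit 0xfffff0fffff0000300000180000000fffff0fffff0fffff0)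
  (DL.cons (nat_lit 0x100000000000000000000000000000000000000000000000000000000000000000000000000020000000000020000) (nat_lit 0xfffff0fffff0fffff0fffff0000000fffff0fffff0fffff0)
  DL.nil))))))))

noncomputable def d49_1 : DL := (DL.cons (nat_lit 0x6000000000000000000000000000000000000000000000000000000000000000000000000000000000000000600000003000300000006000100030000000600010000000800070001000800010006) (nat_lit 0x1000000c0000090000060000040000020000010000000)
  (DL.cons (nat_lit 0x300010000000600000000000000000000000000000000000000000000000000000000000000000000000000000000000200000001000800050005000000050000000000010003000300000001) (nat_lit 0x2300000b0000080000050000030000010fffff0000000)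
  (DL.cons (nat_lit 0x5000000000000000000000000000000000000000000000000000000000000000000000000000000000005000700000007000300000008000000080008) (nat_lit 0xfffff0fffff0000070000030000000fffff0fffff0fffff0)
  (DL.cons (nat_lit 0) (nat_lit 0)
  (DL.cons (nat_lit 0) (nat_lit 0)
  (DL.cons (nat_lit 0x2000000000000000000000000000000000000000000000000000000000000000000000000000000000000000200000001000000000001000000020000) (nat_lit 0xfffff0000070000030fffff0000000fffff0fffff0fffff0)
  (DL.cons (nat_lit 0x1000000000000000200000000000000000000000000000000000000000000000000000000000000000000000000000002000000010001000200000000) (nat_lit 0xfffff0fffff00001b0000030000000fffff0fffff0fffff0)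
  DL.nil)))))))

noncomputable def d49_2 : DL := (DL.cons (nat_lit 0x6000100000006000100030000000200020000000800050004000500010006) (nat_lit 0xc0000090000060000040000020000010000000fffff0)
  (DL.cons (nat_lit 0x700000000000000000000000000000000000000000000000000000000000000000000000000000003000000070006000600040000000300000000000600050004000000070004) (nat_lit 0xc0000090000060000040000020000010000000fffff0)
  (DL.cons (nat_lit 0x8000200000007000000020004000500030000) (nat_lit 0xfffff0fffff0000060000030000000fffff0fffff0fffff0)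
  (DL.cons (nat_lit 0) (nat_lit 0)
  (DL.cons (nat_lit 0) (nat_lit 0)
  (DL.cons (nat_lit 0x100010000000100000001000100000002) (nat_lit 0xfffff0000050fffff0fffff0000030000010fffff0000000)
  (DL.cons (nat_lit 0x200000000000000000000000000000000000000000000000000000000000000000000000000000000000000010000000000020000000100000001) (nat_lit 0xfffff0fffff0000060000030000000fffff0fffff0fffff0)
  (DL.cons (nat_lit 0x1000000000002) (nat_lit 0xfffff0fffff0fffff0fffff0000000fffff0fffff0fffff0)
  DL.nil))))))))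

noncomputable def d49_3 : DL := (DL.cons (nat_lit 0x4000300070004000100010004000500040001) (nat_lit 0x80000050000030000010000000fffff0fffff0fffff0)
  (DL.cons (nat_lit 0x10006000000080000000700070000000700000008) (nat_lit 0x80000050000030000010000000fffff0fffff0fffff0)
  (DL.cons (nat_lit 0x4000600000002000000000002) (nat_lit 0xfffff0fffff0000050000020000000fffff0fffff0fffff0)
  (DL.cons (nat_lit 0) (nat_lit 0)
  (DL.cons (nat_lit 0) (nat_lit 0)
  (DL.cons (nat_lit 0x1000100000002000000010000) (nat_lit 0xfffff0000050000020fffff0000000fffff0fffff0fffff0)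
  (DL.cons (nat_lit 0x10000000000000000000100020000) (nat_lit 0xfffff0fffff0000050000020000000fffff0fffff0fffff0)
  (DL.cons (nat_lit 131073) (nat_lit 0xfffff0fffff0fffff0fffff0000000fffff0fffff0fffff0)
  DL.nil))))))))

noncomputable def d49_4 : DL := (DL.cons (nat_lit 0x60000000000030003000800010006) (nat_lit 0x60000040000020000010000000fffff0fffff0fffff0)
  (DL.cons (nat_lit 0x50000000500020008000700000004) (nat_lit 0x50000030000010fffff0000000fffff0fffff0fffff0)
  (DL.cons (nat_lit 0x4000400000000000800040002) (nat_lit 0xfffff0fffff0000040000020000000fffff0fffff0fffff0)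
  (DL.cons (nat_lit 0) (nat_lit 0)
  (DL.cons (nat_lit 0) (nat_lit 0)
  (DL.cons (nat_lit 0x20001000000000002) (nat_lit 0xfffff0000020000000fffff0fffff0fffff0fffff0fffff0)
  (DL.cons (nat_lit 0x10000000100010000) (nat_lit 0xfffff0fffff0000020fffff0000000fffff0fffff0fffff0)
  (DL.cons (nat_lit 8589934592) (nat_lit 0xfffff0fffff0fffff0fffff0000000fffff0fffff0fffff0)
  DL.nil))))))))

noncomputable def d49_5 : DL := (DL.cons (nat_lit 0x1000000070001) (nat_lit 0x20000010000000fffff0fffff0fffff0fffff0fffff0)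
  (DL.cons (nat_lit 131072) (nat_lit 0xfffff0000000fffff0fffff0fffff0fffff0fffff0fffff0)
  DL.nil))

noncomputable def d49_6 : DL := (DL.cons (nat_lit 524289) (nat_lit 0x10000000fffff0fffff0fffff0fffff0fffff0fffff0)
  (DL.cons (nat_lit 21474836484) (nat_lit 0x10fffff0000000fffff0fffff0fffff0fffff0fffff0)
  DL.nil))

noncomputable def d49_7 : DL := (DL.cons (nat_lit 1) (nat_lit 0xfffff0fffff0fffff0fffff0fffff0fffff0fffff0)
  (DL.cons (nat_lit 1) (nat_lit 0xfffff0000000fffff0fffff0fffff0fffff0fffff0fffff0)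
  DL.nil))

noncomputable def d49_8 : DL := DL.nil

noncomputable def d49 : DLL := (DLL.cons d49_0
  (DLL.cons d49_1
  (DLL.cons d49_2
  (DLL.cons d49_3
  (DLL.cons d49_4
  (DLL.cons d49_5
  (DLL.cons d49_6
  (DLL.cons d49_7
  (DLL.cons d49_8
  DLL.nil)))))))))

noncomputable def m49 : TL := (TL.cons ⟨fun _ => nat_lit 0⟩
  (TL.cons ⟨fun _ => nat_lit 0⟩
  (TL.cons ⟨fun _ => nat_lit 0⟩
  (TL.cons ⟨fun _ => nat_lit 0⟩
  (TL.cons ⟨fun _ => nat_lit 0⟩
  (TL.cons ⟨fun _ => nat_lit 0⟩
  (TL.cons ⟨fun _ => nat_lit 0⟩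
  (TL.cons ⟨fun _ => nat_lit 0⟩
  (TL.cons ⟨fun _ => nat_lit 0⟩
  (TL.cons ⟨fun _ => nat_lit 0⟩
  (TL.cons ⟨fun _ => nat_lit 0⟩
  (TL.cons ⟨fun _ => nat_lit 0⟩
  (TL.cons ⟨fun _ => nat_lit 0⟩
  (TL.cons ⟨fun _ => nat_lit 0⟩
  (TL.cons ⟨fun _ => nat_lit 0⟩
  (TL.cons ⟨fun _ => nat_lit 0⟩
  (TL.cons ⟨fun _ => nat_lit 0⟩
  (TL.cons ⟨fun _ => nat_lit 0⟩
  (TL.cons ⟨fun _ => nat_lit 0⟩
  (TL.cons ⟨fun _ => nat_lit 0⟩
  (TL.cons ⟨fun _ => nat_lit 0⟩
  (TL.cons ⟨fun _ => nat_lit 0⟩
  (TL.cons ⟨fun _ => nat_lit 0⟩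
  (TL.cons ⟨fun _ => nat_lit 0⟩
  (TL.cons ⟨fun _ => nat_lit 0⟩
  (TL.cons ⟨fun _ => nat_lit 0⟩
  (TL.cons ⟨fun _ => nat_lit 0⟩
  (TL.cons ⟨fun _ => nat_lit 0⟩
  (TL.cons ⟨fun _ => nat_lit 0⟩
  (TL.cons ⟨fun _ => nat_lit 0⟩
  (TL.cons ⟨fun _ => nat_lit 0⟩
  (TL.cons ⟨fun _ => nat_lit 0⟩
  (TL.cons ⟨fun _ => nat_lit 0⟩
  (TL.cons ⟨fun _ => nat_lit 0⟩
  (TL.cons ⟨fun _ => nat_lit 0⟩
  (TL.cons ⟨fun _ => nat_lit 0⟩
  (TL.cons ⟨fun _ => nat_lit 0⟩
  (TL.cons ⟨fun _ => nat_lit 0⟩
  (TL.cons ⟨fun _ => nat_lit 0⟩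
  (TL.cons ⟨fun _ => nat_lit 0⟩
  (TL.cons ⟨fun _ => nat_lit 0⟩
  (TL.cons ⟨fun _ => nat_lit 0⟩
  (TL.cons ⟨fun _ => nat_lit 0⟩
  (TL.cons ⟨fun _ => nat_lit 0⟩
  (TL.cons ⟨fun _ => nat_lit 0⟩
  (TL.cons ⟨fun _ => nat_lit 0⟩
  (TL.cons ⟨fun _ => nat_lit 0⟩
  (TL.cons ⟨fun _ => nat_lit 0⟩
  (TL.cons ⟨fun _ => nat_lit 0⟩
  (TL.cons ⟨fun _ => nat_lit 0⟩
  (TL.cons ⟨fun _ => nat_lit 0⟩
  (TL.cons ⟨fun _ => nat_lit 0⟩
  (TL.cons ⟨fun _ => nat_lit 0⟩
  (TL.cons ⟨fun _ => nat_lit 0⟩
  (TL.cons ⟨fun _ => nat_lit 0⟩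
  (TL.cons ⟨fun _ => nat_lit 0⟩
  (TL.cons ⟨fun _ => nat_lit 0⟩
  (TL.cons ⟨fun _ => nat_lit 0⟩
  (TL.cons ⟨fun _ => nat_lit 0⟩
  (TL.cons ⟨fun _ => nat_lit 0⟩
  (TL.cons ⟨fun _ => nat_lit 0⟩
  (TL.cons ⟨fun _ => nat_lit 0⟩
  (TL.cons ⟨fun _ => nat_lit 0⟩
  (TL.cons ⟨fun _ => nat_lit 0⟩
  (TL.cons ⟨fun _ => nat_lit 0⟩
  (TL.cons ⟨fun _ => nat_lit 0⟩
  (TL.cons ⟨fun _ => nat_lit 0⟩
  (TL.cons ⟨fun _ => nat_lit 0⟩
  (TL.cons ⟨fun _ => nat_lit 0⟩
  (TL.cons ⟨fun _ => nat_lit 0⟩
  (TL.cons ⟨fun _ => nat_lit 0⟩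
  (TL.cons ⟨fun _ => nat_lit 0⟩
  (TL.cons ⟨fun _ => nat_lit 0⟩
  (TL.cons ⟨fun _ => nat_lit 0⟩
  (TL.cons ⟨fun _ => nat_lit 0⟩
  (TL.cons ⟨fun x => (x (nat_lit 0) (nat_lit 0) (nat_lit 0))⟩
  (TL.cons ⟨fun x => (x (nat_lit 0) (nat_lit 1) (nat_lit 0))⟩
  (TL.cons ⟨fun x => (Nat.add (x (nat_lit 0) (nat_lit 5) (nat_lit 0)) (x (nat_lit 1) (nat_lit 0) (nat_lit 0)))⟩
  (TL.cons ⟨fun x => (x (nat_lit 1) (nat_lit 1) (nat_lit 0))⟩
  (TL.cons ⟨fun x => (Nat.add (x (nat_lit 0) (nat_lit 2) (nat_lit 0)) (Nat.add (x (nat_lit 1) (nat_lit 5) (nat_lit 0)) (x (nat_lit 2) (nat_lit 0) (nat_lit 0))))⟩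
  (TL.cons ⟨fun x => (Nat.add (x (nat_lit 0) (nat_lit 6) (nat_lit 0)) (x (nat_lit 2) (nat_lit 1) (nat_lit 0)))⟩
  (TL.cons ⟨fun x => (Nat.add (x (nat_lit 1) (nat_lit 2) (nat_lit 0)) (Nat.add (x (nat_lit 2) (nat_lit 5) (nat_lit 0)) (x (nat_lit 3) (nat_lit 0) (nat_lit 0))))⟩
  (TL.cons ⟨fun x => (Nat.add (x (nat_lit 1) (nat_lit 6) (nat_lit 0)) (x (nat_lit 3) (nat_lit 1) (nat_lit 0)))⟩
  (TL.cons ⟨fun x => (Nat.add (Nat.add (x (nat_lit 0) (nat_lit 7) (nat_lit 0)) (x (nat_lit 2) (nat_lit 2) (nat_lit 0))) (Nat.add (x (nat_lit 3) (nat_lit 5) (nat_lit 0)) (x (nat_lit 4) (nat_lit 0) (nat_lit 0))))⟩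
  (TL.cons ⟨fun x => (Nat.add (x (nat_lit 2) (nat_lit 6) (nat_lit 0)) (x (nat_lit 4) (nat_lit 1) (nat_lit 0)))⟩
  (TL.cons ⟨fun x => (Nat.add (Nat.add (x (nat_lit 1) (nat_lit 7) (nat_lit 0)) (x (nat_lit 3) (nat_lit 2) (nat_lit 0))) (Nat.add (x (nat_lit 4) (nat_lit 5) (nat_lit 0)) (x (nat_lit 5) (nat_lit 0) (nat_lit 0))))⟩
  (TL.cons ⟨fun x => (Nat.add (x (nat_lit 3) (nat_lit 6) (nat_lit 0)) (x (nat_lit 5) (nat_lit 1) (nat_lit 0)))⟩
  (TL.cons ⟨fun x => (Nat.add (Nat.add (x (nat_lit 2) (nat_lit 7) (nat_lit 0)) (x (nat_lit 4) (nat_lit 2) (nat_lit 0))) (Nat.add (x (nat_lit 5) (nat_lit 5) (nat_lit 0)) (x (nat_lit 6) (nat_lit 0) (nat_lit 0))))⟩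
  (TL.cons ⟨fun x => (Nat.add (x (nat_lit 0) (nat_lit 3) (nat_lit 0)) (Nat.add (x (nat_lit 4) (nat_lit 6) (nat_lit 0)) (x (nat_lit 6) (nat_lit 1) (nat_lit 0))))⟩
  (TL.cons ⟨fun x => (Nat.add (Nat.add (x (nat_lit 0) (nat_lit 8) (nat_lit 0)) (x (nat_lit 3) (nat_lit 7) (nat_lit 0))) (Nat.add (x (nat_lit 5) (nat_lit 2) (nat_lit 0)) (Nat.add (x (nat_lit 6) (nat_lit 5) (nat_lit 0)) (x (nat_lit 7) (nat_lit 0) (nat_lit 0)))))⟩
  (TL.cons ⟨fun x => (Nat.add (x (nat_lit 1) (nat_lit 3) (nat_lit 0)) (Nat.add (x (nat_lit 5) (nat_lit 6) (nat_lit 0)) (x (nat_lit 7) (nat_lit 1) (nat_lit 0))))⟩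
  TL.nil)))))))))))))))))))))))))))))))))))))))))))))))))))))))))))))))))))))))))))))))))))))))))))

noncomputable def m49_t : List TT := [.zero,
  .zero,
  .zero,
  .zero,
  .zero,
  .zero,
  .zero,
  .zero,
  .zero,
  .zero,
  .zero,
  .zero,
  .zero,
  .zero,
  .zero,
  .zero,
  .zero,
  .zero,
  .zero,
  .zero,
  .zero,
  .zero,
  .zero,
  .zero,
  .zero,
  .zero,
  .zero,
  .zero,
  .zero,
  .zero,
  .zero,
  .zero,
  .zero,
  .zero,
  .zero,
  .zero,
  .zero,
  .zero,
  .zero,
  .zero,
  .zero,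
  .zero,
  .zero,
  .zero,
  .zero,
  .zero,
  .zero,
  .zero,
  .zero,
  .zero,
  .zero,
  .zero,
  .zero,
  .zero,
  .zero,
  .zero,
  .zero,
  .zero,
  .zero,
  .zero,
  .zero,
  .zero,
  .zero,
  .zero,
  .zero,
  .zero,
  .zero,
  .zero,
  .zero,
  .zero,
  .zero,
  .zero,
  .zero,
  .zero,
  .zero,
  (.leaf (nat_lit 0) (nat_lit 0) (nat_lit 0)),
  (.leaf (nat_lit 0) (nat_lit 1) (nat_lit 0)),
  (.add (.leaf (nat_lit 0) (nat_lit 5) (nat_lit 0)) (.leaf (nat_lit 1) (nat_lit 0) (nat_lit 0))),
  (.leaf (nat_lit 1) (nat_lit 1) (nat_lit 0)),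
  (.add (.leaf (nat_lit 0) (nat_lit 2) (nat_lit 0)) (.add (.leaf (nat_lit 1) (nat_lit 5) (nat_lit 0)) (.leaf (nat_lit 2) (nat_lit 0) (nat_lit 0)))),
  (.add (.leaf (nat_lit 0) (nat_lit 6) (nat_lit 0)) (.leaf (nat_lit 2) (nat_lit 1) (nat_lit 0))),
  (.add (.leaf (nat_lit 1) (nat_lit 2) (nat_lit 0)) (.add (.leaf (nat_lit 2) (nat_lit 5) (nat_lit 0)) (.leaf (nat_lit 3) (nat_lit 0) (nat_lit 0)))),
  (.add (.leaf (nat_lit 1) (nat_lit 6) (nat_lit 0)) (.leaf (nat_lit 3) (nat_lit 1) (nat_lit 0))),
  (.add (.add (.leaf (nat_lit 0) (nat_lit 7) (nat_lit 0)) (.leaf (nat_lit 2) (nat_lit 2) (nat_lit 0))) (.add (.leaf (nat_lit 3) (nat_lit 5) (nat_lit 0)) (.leaf (nat_lit 4) (nat_lit 0) (nat_lit 0)))),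
  (.add (.leaf (nat_lit 2) (nat_lit 6) (nat_lit 0)) (.leaf (nat_lit 4) (nat_lit 1) (nat_lit 0))),
  (.add (.add (.leaf (nat_lit 1) (nat_lit 7) (nat_lit 0)) (.leaf (nat_lit 3) (nat_lit 2) (nat_lit 0))) (.add (.leaf (nat_lit 4) (nat_lit 5) (nat_lit 0)) (.leaf (nat_lit 5) (nat_lit 0) (nat_lit 0)))),
  (.add (.leaf (nat_lit 3) (nat_lit 6) (nat_lit 0)) (.leaf (nat_lit 5) (nat_lit 1) (nat_lit 0))),
  (.add (.add (.leaf (nat_lit 2) (nat_lit 7) (nat_lit 0)) (.leaf (nat_lit 4) (nat_lit 2) (nat_lit 0))) (.add (.leaf (nat_lit 5) (nat_lit 5) (nat_lit 0)) (.leaf (nat_lit 6) (nat_lit 0) (nat_lit 0)))),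
  (.add (.leaf (nat_lit 0) (nat_lit 3) (nat_lit 0)) (.add (.leaf (nat_lit 4) (nat_lit 6) (nat_lit 0)) (.leaf (nat_lit 6) (nat_lit 1) (nat_lit 0)))),
  (.add (.add (.leaf (nat_lit 0) (nat_lit 8) (nat_lit 0)) (.leaf (nat_lit 3) (nat_lit 7) (nat_lit 0))) (.add (.leaf (nat_lit 5) (nat_lit 2) (nat_lit 0)) (.add (.leaf (nat_lit 6) (nat_lit 5) (nat_lit 0)) (.leaf (nat_lit 7) (nat_lit 0) (nat_lit 0))))),
  (.add (.leaf (nat_lit 1) (nat_lit 3) (nat_lit 0)) (.add (.leaf (nat_lit 5) (nat_lit 6) (nat_lit 0)) (.leaf (nat_lit 7) (nat_lit 1) (nat_lit 0))))]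

theorem m49_eq : m49 = ofL m49_t := rfl

noncomputable def d50_0 : DL := (DL.cons (nat_lit 0x60000000000060000000000000000000000070006000000040001) (nat_lit 0xb0000070000040000020fffff0000010000000)
  (DL.cons (nat_lit 0x100000000000800020000000000000000000000000000000000000000000000000000000000000000000000000000000000000002000000080000000000010000) (nat_lit 0x1d0000050fffff0000020fffff0000000fffff0)
  (DL.cons (nat_lit 0x800000000000000000000000000000000000000000000000000000000000000000000000000000000000000020000000600000000) (nat_lit 0xfffff0fffff0000030000000fffff0fffff0fffff0)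
  (DL.cons (nat_lit 0) (nat_lit 0)
  (DL.cons (nat_lit 0) (nat_lit 0)
  (DL.cons (nat_lit 0x200000000000100000000) (nat_lit 0xfffff0000030000000fffff0fffff0fffff0fffff0)
  (DL.cons (nat_lit 4294967296) (nat_lit 0xfffff0fffff0000000fffff0fffff0fffff0fffff0)
  DL.nil)))))))

noncomputable def d50_1 : DL := (DL.cons (nat_lit 0x1000000050001) (nat_lit 0xfffff0fffff0fffff0000020000010000000fffff0)
  (DL.cons (nat_lit 0x10000000000000000000000000000000000000000000000000000000000000000000000000000000000000001000000060000000000000003000800000007) (nat_lit 0x80fffff0000050000030000010fffff0000000)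
  (DL.cons (nat_lit 0x400000000000000000002) (nat_lit 0xfffff0fffff0000030000000fffff0fffff0fffff0)
  (DL.cons (nat_lit 0) (nat_lit 0)
  (DL.cons (nat_lit 0) (nat_lit 0)
  (DL.cons (nat_lit 8590065664) (nat_lit 0xfffff0000020fffff0000000fffff0fffff0fffff0)
  (DL.cons (nat_lit 0x2000000000001000000020000) (nat_lit 0xfffff0fffff0000030000000fffff0fffff0fffff0)
  (DL.cons (nat_lit 0x100000000000000000000000000000000000000000000000000000000000000000000000000000000000000000000) (nat_lit 0xfffff0fffff0fffff0000000fffff0fffff0fffff0)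
  DL.nil))))))))

noncomputable def d50_2 : DL := (DL.cons (nat_lit 0x6000000000001000000050001) (nat_lit 0xfffff0000040000020000010000000fffff0fffff0)
  (DL.cons (nat_lit 0x60000000000000000000100000002000300000007) (nat_lit 0x80000050000030000010fffff0000000fffff0)
  (DL.cons (nat_lit 30065229824) (nat_lit 0xfffff0fffff0000020000000fffff0fffff0fffff0)
  (DL.cons (nat_lit 0) (nat_lit 0)
  (DL.cons (nat_lit 0) (nat_lit 0)
  (DL.cons (nat_lit 0x2000000020000) (nat_lit 0xfffff0000020000000fffff0fffff0fffff0fffff0)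
  (DL.cons (nat_lit 65536) (nat_lit 0xfffff0fffff0000000fffff0fffff0fffff0fffff0)
  (DL.cons (nat_lit 8589934592) (nat_lit 0xfffff0fffff0fffff0000000fffff0fffff0fffff0)
  DL.nil))))))))

noncomputable def d50_3 : DL := (DL.cons (nat_lit 0x8000100000001000700010001) (nat_lit 0x40000020000010000000fffff0fffff0fffff0)
  (DL.cons (nat_lit 0x80006000000060000) (nat_lit 0x40000020000000fffff0fffff0fffff0fffff0)
  (DL.cons (nat_lit 0) (nat_lit 0)
  (DL.cons (nat_lit 0) (nat_lit 0)
  (DL.cons (nat_lit 0) (nat_lit 0)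
  (DL.cons (nat_lit 4294967296) (nat_lit 0xfffff0000000fffff0fffff0fffff0fffff0fffff0)
  (DL.cons (nat_lit 0) (nat_lit 0)
  (DL.cons (nat_lit 1) (nat_lit 0xfffff0fffff0fffff0000000fffff0fffff0fffff0)
  DL.nil))))))))

noncomputable def d50_4 : DL := (DL.cons (nat_lit 0x10001000200010001) (nat_lit 0x30000010000000fffff0fffff0fffff0fffff0)
  (DL.cons (nat_lit 30064771073) (nat_lit 0x10fffff0fffff0000000fffff0fffff0fffff0)
  (DL.cons (nat_lit 8) (nat_lit 0xfffff0fffff0fffff0000000fffff0fffff0fffff0)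
  (DL.cons (nat_lit 0) (nat_lit 0)
  (DL.cons (nat_lit 0) (nat_lit 0)
  (DL.cons (nat_lit 0) (nat_lit 0)
  (DL.cons (nat_lit 0) (nat_lit 0)
  (DL.cons (nat_lit 131072) (nat_lit 0xfffff0fffff0fffff0000000fffff0fffff0fffff0)
  DL.nil))))))))

noncomputable def d50_5 : DL := (DL.cons (nat_lit 34360000513) (nat_lit 0x10000000fffff0fffff0fffff0fffff0fffff0)
  (DL.cons (nat_lit 12884901896) (nat_lit 0x10000000fffff0fffff0fffff0fffff0fffff0)
  (DL.cons (nat_lit 0) (nat_lit 0)
  (DL.cons (nat_lit 0) (nat_lit 0)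
  (DL.cons (nat_lit 0) (nat_lit 0)
  (DL.cons (nat_lit 131072) (nat_lit 0xfffff0000000fffff0fffff0fffff0fffff0fffff0)
  DL.nil))))))

noncomputable def d50_6 : DL := (DL.cons (nat_lit 65542) (nat_lit 0x10000000fffff0fffff0fffff0fffff0fffff0)
  (DL.cons (nat_lit 4) (nat_lit 0xfffff0000000fffff0fffff0fffff0fffff0fffff0)
  DL.nil))

noncomputable def d50_7 : DL := (DL.cons (nat_lit 6) (nat_lit 0xfffff0fffff0fffff0fffff0fffff0fffff0)
  (DL.cons (nat_lit 4) (nat_lit 0xfffff0fffff0fffff0fffff0fffff0fffff0)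
  (DL.cons (nat_lit 0) (nat_lit 0)
  (DL.cons (nat_lit 0) (nat_lit 0)
  (DL.cons (nat_lit 0) (nat_lit 0)
  (DL.cons (nat_lit 2) (nat_lit 0xfffff0000000fffff0fffff0fffff0fffff0fffff0)
  DL.nil))))))

noncomputable def d50 : DLL := (DLL.cons d50_0
  (DLL.cons d50_1
  (DLL.cons d50_2
  (DLL.cons d50_3
  (DLL.cons d50_4
  (DLL.cons d50_5
  (DLL.cons d50_6
  (DLL.cons d50_7
  DLL.nil))))))))

noncomputable def m50 : TL := (TL.cons ⟨fun _ => nat_lit 0⟩
  (TL.cons ⟨fun _ => nat_lit 0⟩
  (TL.cons ⟨fun _ => nat_lit 0⟩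
  (TL.cons ⟨fun _ => nat_lit 0⟩
  (TL.cons ⟨fun _ => nat_lit 0⟩
  (TL.cons ⟨fun _ => nat_lit 0⟩
  (TL.cons ⟨fun _ => nat_lit 0⟩
  (TL.cons ⟨fun _ => nat_lit 0⟩
  (TL.cons ⟨fun _ => nat_lit 0⟩
  (TL.cons ⟨fun _ => nat_lit 0⟩
  (TL.cons ⟨fun _ => nat_lit 0⟩
  (TL.cons ⟨fun _ => nat_lit 0⟩
  (TL.cons ⟨fun _ => nat_lit 0⟩
  (TL.cons ⟨fun _ => nat_lit 0⟩
  (TL.cons ⟨fun _ => nat_lit 0⟩
  (TL.cons ⟨fun _ => nat_lit 0⟩
  (TL.cons ⟨fun _ => nat_lit 0⟩
  (TL.cons ⟨fun _ => nat_lit 0⟩
  (TL.cons ⟨fun _ => nat_lit 0⟩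
  (TL.cons ⟨fun _ => nat_lit 0⟩
  (TL.cons ⟨fun _ => nat_lit 0⟩
  (TL.cons ⟨fun _ => nat_lit 0⟩
  (TL.cons ⟨fun _ => nat_lit 0⟩
  (TL.cons ⟨fun _ => nat_lit 0⟩
  (TL.cons ⟨fun _ => nat_lit 0⟩
  (TL.cons ⟨fun _ => nat_lit 0⟩
  (TL.cons ⟨fun _ => nat_lit 0⟩
  (TL.cons ⟨fun _ => nat_lit 0⟩
  (TL.cons ⟨fun _ => nat_lit 0⟩
  (TL.cons ⟨fun _ => nat_lit 0⟩
  (TL.cons ⟨fun _ => nat_lit 0⟩
  (TL.cons ⟨fun _ => nat_lit 0⟩
  (TL.cons ⟨fun _ => nat_lit 0⟩
  (TL.cons ⟨fun _ => nat_lit 0⟩
  (TL.cons ⟨fun _ => nat_lit 0⟩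
  (TL.cons ⟨fun _ => nat_lit 0⟩
  (TL.cons ⟨fun _ => nat_lit 0⟩
  (TL.cons ⟨fun _ => nat_lit 0⟩
  (TL.cons ⟨fun _ => nat_lit 0⟩
  (TL.cons ⟨fun _ => nat_lit 0⟩
  (TL.cons ⟨fun _ => nat_lit 0⟩
  (TL.cons ⟨fun _ => nat_lit 0⟩
  (TL.cons ⟨fun _ => nat_lit 0⟩
  (TL.cons ⟨fun _ => nat_lit 0⟩
  (TL.cons ⟨fun _ => nat_lit 0⟩
  (TL.cons ⟨fun _ => nat_lit 0⟩
  (TL.cons ⟨fun _ => nat_lit 0⟩
  (TL.cons ⟨fun _ => nat_lit 0⟩
  (TL.cons ⟨fun _ => nat_lit 0⟩
  (TL.cons ⟨fun _ => nat_lit 0⟩
  (TL.cons ⟨fun _ => nat_lit 0⟩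
  (TL.cons ⟨fun _ => nat_lit 0⟩
  (TL.cons ⟨fun _ => nat_lit 0⟩
  (TL.cons ⟨fun _ => nat_lit 0⟩
  (TL.cons ⟨fun _ => nat_lit 0⟩
  (TL.cons ⟨fun _ => nat_lit 0⟩
  (TL.cons ⟨fun _ => nat_lit 0⟩
  (TL.cons ⟨fun _ => nat_lit 0⟩
  (TL.cons ⟨fun _ => nat_lit 0⟩
  (TL.cons ⟨fun _ => nat_lit 0⟩
  (TL.cons ⟨fun _ => nat_lit 0⟩
  (TL.cons ⟨fun _ => nat_lit 0⟩
  (TL.cons ⟨fun _ => nat_lit 0⟩
  (TL.cons ⟨fun _ => nat_lit 0⟩
  (TL.cons ⟨fun _ => nat_lit 0⟩
  (TL.cons ⟨fun _ => nat_lit 0⟩
  (TL.cons ⟨fun _ => nat_lit 0⟩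
  (TL.cons ⟨fun _ => nat_lit 0⟩
  (TL.cons ⟨fun _ => nat_lit 0⟩
  (TL.cons ⟨fun _ => nat_lit 0⟩
  (TL.cons ⟨fun _ => nat_lit 0⟩
  (TL.cons ⟨fun _ => nat_lit 0⟩
  (TL.cons ⟨fun _ => nat_lit 0⟩
  (TL.cons ⟨fun _ => nat_lit 0⟩
  (TL.cons ⟨fun _ => nat_lit 0⟩
  (TL.cons ⟨fun _ => nat_lit 0⟩
  (TL.cons ⟨fun x => (x (nat_lit 0) (nat_lit 0) (nat_lit 0))⟩
  (TL.cons ⟨fun x => (x (nat_lit 0) (nat_lit 1) (nat_lit 0))⟩
  (TL.cons ⟨fun x => (Nat.add (x (nat_lit 0) (nat_lit 5) (nat_lit 0)) (x (nat_lit 1) (nat_lit 0) (nat_lit 0)))⟩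
  (TL.cons ⟨fun x => (x (nat_lit 1) (nat_lit 1) (nat_lit 0))⟩
  (TL.cons ⟨fun x => (Nat.add (x (nat_lit 0) (nat_lit 2) (nat_lit 0)) (Nat.add (x (nat_lit 1) (nat_lit 5) (nat_lit 0)) (x (nat_lit 2) (nat_lit 0) (nat_lit 0))))⟩
  (TL.cons ⟨fun x => (Nat.add (x (nat_lit 0) (nat_lit 6) (nat_lit 0)) (x (nat_lit 2) (nat_lit 1) (nat_lit 0)))⟩
  (TL.cons ⟨fun x => (Nat.add (x (nat_lit 1) (nat_lit 2) (nat_lit 0)) (Nat.add (x (nat_lit 2) (nat_lit 5) (nat_lit 0)) (x (nat_lit 3) (nat_lit 0) (nat_lit 0))))⟩
  (TL.cons ⟨fun x => (Nat.add (x (nat_lit 1) (nat_lit 6) (nat_lit 0)) (x (nat_lit 3) (nat_lit 1) (nat_lit 0)))⟩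
  (TL.cons ⟨fun x => (Nat.add (Nat.add (x (nat_lit 0) (nat_lit 7) (nat_lit 0)) (x (nat_lit 2) (nat_lit 2) (nat_lit 0))) (Nat.add (x (nat_lit 3) (nat_lit 5) (nat_lit 0)) (x (nat_lit 4) (nat_lit 0) (nat_lit 0))))⟩
  (TL.cons ⟨fun x => (Nat.add (x (nat_lit 2) (nat_lit 6) (nat_lit 0)) (x (nat_lit 4) (nat_lit 1) (nat_lit 0)))⟩
  (TL.cons ⟨fun x => (Nat.add (x (nat_lit 1) (nat_lit 7) (nat_lit 0)) (Nat.add (x (nat_lit 3) (nat_lit 2) (nat_lit 0)) (x (nat_lit 4) (nat_lit 5) (nat_lit 0))))⟩
  (TL.cons ⟨fun x => (Nat.add (x (nat_lit 3) (nat_lit 6) (nat_lit 0)) (x (nat_lit 5) (nat_lit 0) (nat_lit 0)))⟩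
  (TL.cons ⟨fun x => (Nat.add (x (nat_lit 2) (nat_lit 7) (nat_lit 0)) (Nat.add (x (nat_lit 4) (nat_lit 2) (nat_lit 0)) (x (nat_lit 5) (nat_lit 1) (nat_lit 0))))⟩
  (TL.cons ⟨fun x => (Nat.add (Nat.add (x (nat_lit 0) (nat_lit 3) (nat_lit 0)) (x (nat_lit 4) (nat_lit 6) (nat_lit 0))) (Nat.add (x (nat_lit 5) (nat_lit 5) (nat_lit 0)) (x (nat_lit 6) (nat_lit 0) (nat_lit 0))))⟩
  (TL.cons ⟨fun x => (Nat.add (x (nat_lit 0) (nat_lit 8) (nat_lit 0)) (Nat.add (x (nat_lit 3) (nat_lit 7) (nat_lit 0)) (x (nat_lit 6) (nat_lit 1) (nat_lit 0))))⟩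
  TL.nil)))))))))))))))))))))))))))))))))))))))))))))))))))))))))))))))))))))))))))))))))))))))))))

noncomputable def m50_t : List TT := [.zero,
  .zero,
  .zero,
  .zero,
  .zero,
  .zero,
  .zero,
  .zero,
  .zero,
  .zero,
  .zero,
  .zero,
  .zero,
  .zero,
  .zero,
  .zero,
  .zero,
  .zero,
  .zero,
  .zero,
  .zero,
  .zero,
  .zero,
  .zero,
  .zero,
  .zero,
  .zero,
  .zero,
  .zero,
  .zero,
  .zero,
  .zero,
  .zero,
  .zero,
  .zero,
  .zero,
  .zero,
  .zero,
  .zero,
  .zero,
  .zero,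
  .zero,
  .zero,
  .zero,
  .zero,
  .zero,
  .zero,
  .zero,
  .zero,
  .zero,
  .zero,
  .zero,
  .zero,
  .zero,
  .zero,
  .zero,
  .zero,
  .zero,
  .zero,
  .zero,
  .zero,
  .zero,
  .zero,
  .zero,
  .zero,
  .zero,
  .zero,
  .zero,
  .zero,
  .zero,
  .zero,
  .zero,
  .zero,
  .zero,
  .zero,
  .zero,
  (.leaf (nat_lit 0) (nat_lit 0) (nat_lit 0)),
  (.leaf (nat_lit 0) (nat_lit 1) (nat_lit 0)),
  (.add (.leaf (nat_lit 0) (nat_lit 5) (nat_lit 0)) (.leaf (nat_lit 1) (nat_lit 0) (nat_lit 0))),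
  (.leaf (nat_lit 1) (nat_lit 1) (nat_lit 0)),
  (.add (.leaf (nat_lit 0) (nat_lit 2) (nat_lit 0)) (.add (.leaf (nat_lit 1) (nat_lit 5) (nat_lit 0)) (.leaf (nat_lit 2) (nat_lit 0) (nat_lit 0)))),
  (.add (.leaf (nat_lit 0) (nat_lit 6) (nat_lit 0)) (.leaf (nat_lit 2) (nat_lit 1) (nat_lit 0))),
  (.add (.leaf (nat_lit 1) (nat_lit 2) (nat_lit 0)) (.add (.leaf (nat_lit 2) (nat_lit 5) (nat_lit 0)) (.leaf (nat_lit 3) (nat_lit 0) (nat_lit 0)))),
  (.add (.leaf (nat_lit 1) (nat_lit 6) (nat_lit 0)) (.leaf (nat_lit 3) (nat_lit 1) (nat_lit 0))),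
  (.add (.add (.leaf (nat_lit 0) (nat_lit 7) (nat_lit 0)) (.leaf (nat_lit 2) (nat_lit 2) (nat_lit 0))) (.add (.leaf (nat_lit 3) (nat_lit 5) (nat_lit 0)) (.leaf (nat_lit 4) (nat_lit 0) (nat_lit 0)))),
  (.add (.leaf (nat_lit 2) (nat_lit 6) (nat_lit 0)) (.leaf (nat_lit 4) (nat_lit 1) (nat_lit 0))),
  (.add (.leaf (nat_lit 1) (nat_lit 7) (nat_lit 0)) (.add (.leaf (nat_lit 3) (nat_lit 2) (nat_lit 0)) (.leaf (nat_lit 4) (nat_lit 5) (nat_lit 0)))),
  (.add (.leaf (nat_lit 3) (nat_lit 6) (nat_lit 0)) (.leaf (nat_lit 5) (nat_lit 0) (nat_lit 0))),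
  (.add (.leaf (nat_lit 2) (nat_lit 7) (nat_lit 0)) (.add (.leaf (nat_lit 4) (nat_lit 2) (nat_lit 0)) (.leaf (nat_lit 5) (nat_lit 1) (nat_lit 0)))),
  (.add (.add (.leaf (nat_lit 0) (nat_lit 3) (nat_lit 0)) (.leaf (nat_lit 4) (nat_lit 6) (nat_lit 0))) (.add (.leaf (nat_lit 5) (nat_lit 5) (nat_lit 0)) (.leaf (nat_lit 6) (nat_lit 0) (nat_lit 0)))),
  (.add (.leaf (nat_lit 0) (nat_lit 8) (nat_lit 0)) (.add (.leaf (nat_lit 3) (nat_lit 7) (nat_lit 0)) (.leaf (nat_lit 6) (nat_lit 1) (nat_lit 0))))]

theorem m50_eq : m50 = ofL m50_t := rfl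

noncomputable def d51_0 : DL := (DL.cons (nat_lit 0x300000000000000000000000000000000000000000000000000000000000000000000000000000000000600000000000700060000000700000003000100050003000000000008000200010001) (nat_lit 0xf00000b0000080000050000030000010000000)
  (DL.cons (nat_lit 0x30000000000000000000000000000000000000000000000000000000000000000000000000000000600000006000000070008000000070000000200030000000600000008) (nat_lit 0xfffff00000b0000080000050000030000010000000)
  (DL.cons (nat_lit 0x2000000000000000000000000000000000000000000000000000000000000000000000000000000000002000700000007000600000008) (nat_lit 0xfffff0fffff0000040000000fffff0fffff0fffff0)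
  (DL.cons (nat_lit 0) (nat_lit 0)
  (DL.cons (nat_lit 0) (nat_lit 0)
  (DL.cons (nat_lit 0x100000000000000000000000000000000000000000000000000000000000000000000000000000000000000020000000000010000000000000001000000020000) (nat_lit 0xfffff0000090000050000020fffff0fffff0000000)
  (DL.cons (nat_lit 131072) (nat_lit 0xfffff0fffff0fffff0000000fffff0fffff0fffff0)
  DL.nil)))))))

noncomputable def d51_1 : DL := (DL.cons (nat_lit 0x3000600000003000100030000000600070000000800040007000500010006) (nat_lit 0xc0000090000060000040000020000010000000)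
  (DL.cons (nat_lit 0x20008000000050000000000050000000800000007) (nat_lit 0xfffff0000080000050000030000010fffff0000000)
  (DL.cons (nat_lit 0x1000700000002000000050005) (nat_lit 0xfffff0fffff0000030000000fffff0fffff0fffff0)
  (DL.cons (nat_lit 0) (nat_lit 0)
  (DL.cons (nat_lit 0) (nat_lit 0)
  (DL.cons (nat_lit 0x2000000000002000000010000) (nat_lit 0xfffff0000030fffff0000000fffff0fffff0fffff0)
  (DL.cons (nat_lit 4295032832) (nat_lit 0xfffff0fffff0fffff0000000fffff0fffff0fffff0)
  DL.nil)))))))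

noncomputable def d51_2 : DL := (DL.cons (nat_lit 0x100060000000500080000000800080001000200010006) (nat_lit 0x90000060000040000020000010000000fffff0)
  (DL.cons (nat_lit 0x8000000000008000200070001) (nat_lit 0xfffff0000040000020fffff0000010000000fffff0)
  (DL.cons (nat_lit 0x50007000800000000) (nat_lit 0xfffff0fffff0000030000000fffff0fffff0fffff0)
  (DL.cons (nat_lit 0) (nat_lit 0)
  (DL.cons (nat_lit 0) (nat_lit 0)
  (DL.cons (nat_lit 0x1000000000001000200000002) (nat_lit 0xfffff0000050fffff0000030000010fffff0000000)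
  (DL.cons (nat_lit 1) (nat_lit 0xfffff0fffff0fffff0000000fffff0fffff0fffff0)
  DL.nil)))))))

noncomputable def d51_3 : DL := (DL.cons (nat_lit 0x10007000100010007000800070001) (nat_lit 0x50000030000010000000fffff0fffff0fffff0)
  (DL.cons (nat_lit 0x50000000200000008) (nat_lit 0xfffff0000030000010000000fffff0fffff0fffff0)
  (DL.cons (nat_lit 0x5000000000005) (nat_lit 0xfffff0fffff0000020000000fffff0fffff0fffff0)
  (DL.cons (nat_lit 0) (nat_lit 0)
  (DL.cons (nat_lit 0) (nat_lit 0)
  (DL.cons (nat_lit 8589934592) (nat_lit 0xfffff0000000fffff0fffff0fffff0fffff0fffff0)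
  (DL.cons (nat_lit 65536) (nat_lit 0xfffff0fffff0fffff0000000fffff0fffff0fffff0)
  DL.nil)))))))

noncomputable def d51_4 : DL := (DL.cons (nat_lit 0x60006000800010006) (nat_lit 0x40000020000010000000fffff0fffff0fffff0)
  (DL.cons (nat_lit 30064771073) (nat_lit 0xfffff0000010fffff0000000fffff0fffff0fffff0)
  (DL.cons (nat_lit 8590000136) (nat_lit 0xfffff0fffff0000020000000fffff0fffff0fffff0)
  DL.nil)))

noncomputable def d51_5 : DL := (DL.cons (nat_lit 65537) (nat_lit 0x10000000fffff0fffff0fffff0fffff0fffff0)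
  DL.nil)

noncomputable def d51_6 : DL := (DL.cons (nat_lit 1) (nat_lit 0xfffff0fffff0fffff0fffff0fffff0fffff0)
  (DL.cons (nat_lit 1) (nat_lit 0xfffff0000000fffff0fffff0fffff0fffff0fffff0)
  DL.nil))

noncomputable def d51 : DLL := (DLL.cons d51_0
  (DLL.cons d51_1
  (DLL.cons d51_2
  (DLL.cons d51_3
  (DLL.cons d51_4
  (DLL.cons d51_5
  (DLL.cons d51_6
  DLL.nil)))))))

noncomputable def m51 : TL := (TL.cons ⟨fun _ => nat_lit 0⟩
  (TL.cons ⟨fun _ => nat_lit 0⟩
  (TL.cons ⟨fun _ => nat_lit 0⟩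
  (TL.cons ⟨fun _ => nat_lit 0⟩
  (TL.cons ⟨fun _ => nat_lit 0⟩
  (TL.cons ⟨fun _ => nat_lit 0⟩
  (TL.cons ⟨fun _ => nat_lit 0⟩
  (TL.cons ⟨fun _ => nat_lit 0⟩
  (TL.cons ⟨fun _ => nat_lit 0⟩
  (TL.cons ⟨fun _ => nat_lit 0⟩
  (TL.cons ⟨fun _ => nat_lit 0⟩
  (TL.cons ⟨fun _ => nat_lit 0⟩
  (TL.cons ⟨fun _ => nat_lit 0⟩
  (TL.cons ⟨fun _ => nat_lit 0⟩
  (TL.cons ⟨fun _ => nat_lit 0⟩
  (TL.cons ⟨fun _ => nat_lit 0⟩
  (TL.cons ⟨fun _ => nat_lit 0⟩
  (TL.cons ⟨fun _ => nat_lit 0⟩
  (TL.cons ⟨fun _ => nat_lit 0⟩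
  (TL.cons ⟨fun _ => nat_lit 0⟩
  (TL.cons ⟨fun _ => nat_lit 0⟩
  (TL.cons ⟨fun _ => nat_lit 0⟩
  (TL.cons ⟨fun _ => nat_lit 0⟩
  (TL.cons ⟨fun _ => nat_lit 0⟩
  (TL.cons ⟨fun _ => nat_lit 0⟩
  (TL.cons ⟨fun _ => nat_lit 0⟩
  (TL.cons ⟨fun _ => nat_lit 0⟩
  (TL.cons ⟨fun _ => nat_lit 0⟩
  (TL.cons ⟨fun _ => nat_lit 0⟩
  (TL.cons ⟨fun _ => nat_lit 0⟩
  (TL.cons ⟨fun _ => nat_lit 0⟩
  (TL.cons ⟨fun _ => nat_lit 0⟩
  (TL.cons ⟨fun _ => nat_lit 0⟩
  (TL.cons ⟨fun _ => nat_lit 0⟩
  (TL.cons ⟨fun _ => nat_lit 0⟩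
  (TL.cons ⟨fun _ => nat_lit 0⟩
  (TL.cons ⟨fun _ => nat_lit 0⟩
  (TL.cons ⟨fun _ => nat_lit 0⟩
  (TL.cons ⟨fun _ => nat_lit 0⟩
  (TL.cons ⟨fun _ => nat_lit 0⟩
  (TL.cons ⟨fun _ => nat_lit 0⟩
  (TL.cons ⟨fun _ => nat_lit 0⟩
  (TL.cons ⟨fun _ => nat_lit 0⟩
  (TL.cons ⟨fun _ => nat_lit 0⟩
  (TL.cons ⟨fun _ => nat_lit 0⟩
  (TL.cons ⟨fun _ => nat_lit 0⟩
  (TL.cons ⟨fun _ => nat_lit 0⟩
  (TL.cons ⟨fun _ => nat_lit 0⟩
  (TL.cons ⟨fun _ => nat_lit 0⟩
  (TL.cons ⟨fun _ => nat_lit 0⟩
  (TL.cons ⟨fun _ => nat_lit 0⟩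
  (TL.cons ⟨fun _ => nat_lit 0⟩
  (TL.cons ⟨fun _ => nat_lit 0⟩
  (TL.cons ⟨fun _ => nat_lit 0⟩
  (TL.cons ⟨fun _ => nat_lit 0⟩
  (TL.cons ⟨fun _ => nat_lit 0⟩
  (TL.cons ⟨fun _ => nat_lit 0⟩
  (TL.cons ⟨fun _ => nat_lit 0⟩
  (TL.cons ⟨fun _ => nat_lit 0⟩
  (TL.cons ⟨fun _ => nat_lit 0⟩
  (TL.cons ⟨fun _ => nat_lit 0⟩
  (TL.cons ⟨fun _ => nat_lit 0⟩
  (TL.cons ⟨fun _ => nat_lit 0⟩
  (TL.cons ⟨fun _ => nat_lit 0⟩
  (TL.cons ⟨fun _ => nat_lit 0⟩
  (TL.cons ⟨fun _ => nat_lit 0⟩
  (TL.cons ⟨fun _ => nat_lit 0⟩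
  (TL.cons ⟨fun _ => nat_lit 0⟩
  (TL.cons ⟨fun _ => nat_lit 0⟩
  (TL.cons ⟨fun _ => nat_lit 0⟩
  (TL.cons ⟨fun _ => nat_lit 0⟩
  (TL.cons ⟨fun _ => nat_lit 0⟩
  (TL.cons ⟨fun _ => nat_lit 0⟩
  (TL.cons ⟨fun _ => nat_lit 0⟩
  (TL.cons ⟨fun _ => nat_lit 0⟩
  (TL.cons ⟨fun _ => nat_lit 0⟩
  (TL.cons ⟨fun _ => nat_lit 0⟩
  (TL.cons ⟨fun _ => nat_lit 0⟩
  (TL.cons ⟨fun x => (x (nat_lit 0) (nat_lit 0) (nat_lit 0))⟩
  (TL.cons ⟨fun x => (x (nat_lit 0) (nat_lit 1) (nat_lit 0))⟩
  (TL.cons ⟨fun x => (Nat.add (x (nat_lit 0) (nat_lit 5) (nat_lit 0)) (x (nat_lit 1) (nat_lit 0) (nat_lit 0)))⟩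
  (TL.cons ⟨fun x => (x (nat_lit 1) (nat_lit 1) (nat_lit 0))⟩
  (TL.cons ⟨fun x => (Nat.add (x (nat_lit 0) (nat_lit 2) (nat_lit 0)) (Nat.add (x (nat_lit 1) (nat_lit 5) (nat_lit 0)) (x (nat_lit 2) (nat_lit 0) (nat_lit 0))))⟩
  (TL.cons ⟨fun x => (Nat.add (x (nat_lit 0) (nat_lit 6) (nat_lit 0)) (x (nat_lit 2) (nat_lit 1) (nat_lit 0)))⟩
  (TL.cons ⟨fun x => (Nat.add (x (nat_lit 1) (nat_lit 2) (nat_lit 0)) (Nat.add (x (nat_lit 2) (nat_lit 5) (nat_lit 0)) (x (nat_lit 3) (nat_lit 0) (nat_lit 0))))⟩
  (TL.cons ⟨fun x => (Nat.add (x (nat_lit 1) (nat_lit 6) (nat_lit 0)) (x (nat_lit 3) (nat_lit 1) (nat_lit 0)))⟩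
  (TL.cons ⟨fun x => (Nat.add (Nat.add (x (nat_lit 0) (nat_lit 7) (nat_lit 0)) (x (nat_lit 2) (nat_lit 2) (nat_lit 0))) (Nat.add (x (nat_lit 3) (nat_lit 5) (nat_lit 0)) (x (nat_lit 4) (nat_lit 0) (nat_lit 0))))⟩
  (TL.cons ⟨fun x => (Nat.add (x (nat_lit 2) (nat_lit 6) (nat_lit 0)) (x (nat_lit 4) (nat_lit 1) (nat_lit 0)))⟩
  (TL.cons ⟨fun x => (Nat.add (Nat.add (x (nat_lit 1) (nat_lit 7) (nat_lit 0)) (x (nat_lit 3) (nat_lit 2) (nat_lit 0))) (Nat.add (x (nat_lit 4) (nat_lit 5) (nat_lit 0)) (x (nat_lit 5) (nat_lit 0) (nat_lit 0))))⟩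
  (TL.cons ⟨fun x => (Nat.add (x (nat_lit 3) (nat_lit 6) (nat_lit 0)) (x (nat_lit 5) (nat_lit 1) (nat_lit 0)))⟩
  (TL.cons ⟨fun x => (Nat.add (Nat.add (x (nat_lit 2) (nat_lit 7) (nat_lit 0)) (x (nat_lit 4) (nat_lit 2) (nat_lit 0))) (Nat.add (x (nat_lit 5) (nat_lit 5) (nat_lit 0)) (x (nat_lit 6) (nat_lit 0) (nat_lit 0))))⟩
  TL.nil)))))))))))))))))))))))))))))))))))))))))))))))))))))))))))))))))))))))))))))))))))))))))))

noncomputable def m51_t : List TT := [.zero,
  .zero,
  .zero,
  .zero,
  .zero,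
  .zero,
  .zero,
  .zero,
  .zero,
  .zero,
  .zero,
  .zero,
  .zero,
  .zero,
  .zero,
  .zero,
  .zero,
  .zero,
  .zero,
  .zero,
  .zero,
  .zero,
  .zero,
  .zero,
  .zero,
  .zero,
  .zero,
  .zero,
  .zero,
  .zero,
  .zero,
  .zero,
  .zero,
  .zero,
  .zero,
  .zero,
  .zero,
  .zero,
  .zero,
  .zero,
  .zero,
  .zero,
  .zero,
  .zero,
  .zero,
  .zero,
  .zero,
  .zero,
  .zero,
  .zero,
  .zero,
  .zero,
  .zero,
  .zero,
  .zero,
  .zero,
  .zero,
  .zero,
  .zero,
  .zero,
  .zero,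
  .zero,
  .zero,
  .zero,
  .zero,
  .zero,
  .zero,
  .zero,
  .zero,
  .zero,
  .zero,
  .zero,
  .zero,
  .zero,
  .zero,
  .zero,
  .zero,
  .zero,
  (.leaf (nat_lit 0) (nat_lit 0) (nat_lit 0)),
  (.leaf (nat_lit 0) (nat_lit 1) (nat_lit 0)),
  (.add (.leaf (nat_lit 0) (nat_lit 5) (nat_lit 0)) (.leaf (nat_lit 1) (nat_lit 0) (nat_lit 0))),
  (.leaf (nat_lit 1) (nat_lit 1) (nat_lit 0)),
  (.add (.leaf (nat_lit 0) (nat_lit 2) (nat_lit 0)) (.add (.leaf (nat_lit 1) (nat_lit 5) (nat_lit 0)) (.leaf (nat_lit 2) (nat_lit 0) (nat_lit 0)))),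
  (.add (.leaf (nat_lit 0) (nat_lit 6) (nat_lit 0)) (.leaf (nat_lit 2) (nat_lit 1) (nat_lit 0))),
  (.add (.leaf (nat_lit 1) (nat_lit 2) (nat_lit 0)) (.add (.leaf (nat_lit 2) (nat_lit 5) (nat_lit 0)) (.leaf (nat_lit 3) (nat_lit 0) (nat_lit 0)))),
  (.add (.leaf (nat_lit 1) (nat_lit 6) (nat_lit 0)) (.leaf (nat_lit 3) (nat_lit 1) (nat_lit 0))),
  (.add (.add (.leaf (nat_lit 0) (nat_lit 7) (nat_lit 0)) (.leaf (nat_lit 2) (nat_lit 2) (nat_lit 0))) (.add (.leaf (nat_lit 3) (nat_lit 5) (nat_lit 0)) (.leaf (nat_lit 4) (nat_lit 0) (nat_lit 0)))),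
  (.add (.leaf (nat_lit 2) (nat_lit 6) (nat_lit 0)) (.leaf (nat_lit 4) (nat_lit 1) (nat_lit 0))),
  (.add (.add (.leaf (nat_lit 1) (nat_lit 7) (nat_lit 0)) (.leaf (nat_lit 3) (nat_lit 2) (nat_lit 0))) (.add (.leaf (nat_lit 4) (nat_lit 5) (nat_lit 0)) (.leaf (nat_lit 5) (nat_lit 0) (nat_lit 0)))),
  (.add (.leaf (nat_lit 3) (nat_lit 6) (nat_lit 0)) (.leaf (nat_lit 5) (nat_lit 1) (nat_lit 0))),
  (.add (.add (.leaf (nat_lit 2) (nat_lit 7) (nat_lit 0)) (.leaf (nat_lit 4) (nat_lit 2) (nat_lit 0))) (.add (.leaf (nat_lit 5) (nat_lit 5) (nat_lit 0)) (.leaf (nat_lit 6) (nat_lit 0) (nat_lit 0))))]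

theorem m51_eq : m51 = ofL m51_t := rfl

noncomputable def d52_0 : DL := (DL.cons (nat_lit 0x300000000000600000000000100070001) (nat_lit 0x50000020fffff0fffff0000010000000)
  (DL.cons (nat_lit 327680) (nat_lit 0xfffff0fffff0fffff0fffff0000000fffff0)
  (DL.cons (nat_lit 17179869184) (nat_lit 0xfffff0fffff0000000fffff0fffff0fffff0)
  DL.nil)))

noncomputable def d52_1 : DL := (DL.cons (nat_lit 0x30000000300000001000000020001) (nat_lit 0x60000040000020000010000000fffff0)
  (DL.cons (nat_lit 0x100000000000400000004) (nat_lit 0xfffff0000030fffff0000010fffff0000000)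
  (DL.cons (nat_lit 8) (nat_lit 0xfffff0fffff0000000fffff0fffff0fffff0)
  (DL.cons (nat_lit 0) (nat_lit 0)
  (DL.cons (nat_lit 0) (nat_lit 0)
  (DL.cons (nat_lit 65536) (nat_lit 0xfffff0fffff0000000fffff0fffff0fffff0)
  DL.nil))))))

noncomputable def d52_2 : DL := (DL.cons (nat_lit 0x3000000000001000000020001) (nat_lit 0x40000020000010000000fffff0fffff0)
  (DL.cons (nat_lit 0x8000200000004) (nat_lit 0xfffff0000030000010fffff0000000fffff0)
  (DL.cons (nat_lit 458752) (nat_lit 0xfffff0fffff0000000fffff0fffff0fffff0)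
  (DL.cons (nat_lit 0) (nat_lit 0)
  (DL.cons (nat_lit 0) (nat_lit 0)
  (DL.cons (nat_lit 131072) (nat_lit 0xfffff0000000fffff0fffff0fffff0fffff0)
  (DL.cons (nat_lit 4294967296) (nat_lit 0xfffff0fffff0000000fffff0fffff0fffff0)
  DL.nil)))))))

noncomputable def d52_3 : DL := (DL.cons (nat_lit 0x1000100040001) (nat_lit 0x20000010000000fffff0fffff0fffff0)
  (DL.cons (nat_lit 65536) (nat_lit 0xfffff0000000fffff0fffff0fffff0fffff0)
  DL.nil))

noncomputable def d52_4 : DL := (DL.cons (nat_lit 34359803905) (nat_lit 0x10000000fffff0fffff0fffff0fffff0)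
  (DL.cons (nat_lit 7) (nat_lit 0xfffff0fffff0000000fffff0fffff0fffff0)
  (DL.cons (nat_lit 5) (nat_lit 0xfffff0fffff0000000fffff0fffff0fffff0)
  (DL.cons (nat_lit 0) (nat_lit 0)
  (DL.cons (nat_lit 0) (nat_lit 0)
  (DL.cons (nat_lit 0) (nat_lit 0)
  (DL.cons (nat_lit 131072) (nat_lit 0xfffff0fffff0000000fffff0fffff0fffff0)
  DL.nil)))))))

noncomputable def d52_5 : DL := (DL.cons (nat_lit 1) (nat_lit 0xfffff0fffff0fffff0fffff0fffff0)
  DL.nil)

noncomputable def d52_6 : DL := (DL.cons (nat_lit 6) (nat_lit 0xfffff0fffff0fffff0fffff0fffff0)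
  DL.nil)

noncomputable def d52 : DLL := (DLL.cons d52_0
  (DLL.cons d52_1
  (DLL.cons d52_2
  (DLL.cons d52_3
  (DLL.cons d52_4
  (DLL.cons d52_5
  (DLL.cons d52_6
  DLL.nil)))))))

noncomputable def m52 : TL := (TL.cons ⟨fun _ => nat_lit 0⟩
  (TL.cons ⟨fun _ => nat_lit 0⟩
  (TL.cons ⟨fun _ => nat_lit 0⟩
  (TL.cons ⟨fun _ => nat_lit 0⟩
  (TL.cons ⟨fun _ => nat_lit 0⟩
  (TL.cons ⟨fun _ => nat_lit 0⟩
  (TL.cons ⟨fun _ => nat_lit 0⟩
  (TL.cons ⟨fun _ => nat_lit 0⟩
  (TL.cons ⟨fun _ => nat_lit 0⟩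
  (TL.cons ⟨fun _ => nat_lit 0⟩
  (TL.cons ⟨fun _ => nat_lit 0⟩
  (TL.cons ⟨fun _ => nat_lit 0⟩
  (TL.cons ⟨fun _ => nat_lit 0⟩
  (TL.cons ⟨fun _ => nat_lit 0⟩
  (TL.cons ⟨fun _ => nat_lit 0⟩
  (TL.cons ⟨fun _ => nat_lit 0⟩
  (TL.cons ⟨fun _ => nat_lit 0⟩
  (TL.cons ⟨fun _ => nat_lit 0⟩
  (TL.cons ⟨fun _ => nat_lit 0⟩
  (TL.cons ⟨fun _ => nat_lit 0⟩
  (TL.cons ⟨fun _ => nat_lit 0⟩
  (TL.cons ⟨fun _ => nat_lit 0⟩
  (TL.cons ⟨fun _ => nat_lit 0⟩
  (TL.cons ⟨fun _ => nat_lit 0⟩
  (TL.cons ⟨fun _ => nat_lit 0⟩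
  (TL.cons ⟨fun _ => nat_lit 0⟩
  (TL.cons ⟨fun _ => nat_lit 0⟩
  (TL.cons ⟨fun _ => nat_lit 0⟩
  (TL.cons ⟨fun _ => nat_lit 0⟩
  (TL.cons ⟨fun _ => nat_lit 0⟩
  (TL.cons ⟨fun _ => nat_lit 0⟩
  (TL.cons ⟨fun _ => nat_lit 0⟩
  (TL.cons ⟨fun _ => nat_lit 0⟩
  (TL.cons ⟨fun _ => nat_lit 0⟩
  (TL.cons ⟨fun _ => nat_lit 0⟩
  (TL.cons ⟨fun _ => nat_lit 0⟩
  (TL.cons ⟨fun _ => nat_lit 0⟩
  (TL.cons ⟨fun _ => nat_lit 0⟩
  (TL.cons ⟨fun _ => nat_lit 0⟩
  (TL.cons ⟨fun _ => nat_lit 0⟩
  (TL.cons ⟨fun _ => nat_lit 0⟩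
  (TL.cons ⟨fun _ => nat_lit 0⟩
  (TL.cons ⟨fun _ => nat_lit 0⟩
  (TL.cons ⟨fun _ => nat_lit 0⟩
  (TL.cons ⟨fun _ => nat_lit 0⟩
  (TL.cons ⟨fun _ => nat_lit 0⟩
  (TL.cons ⟨fun _ => nat_lit 0⟩
  (TL.cons ⟨fun _ => nat_lit 0⟩
  (TL.cons ⟨fun _ => nat_lit 0⟩
  (TL.cons ⟨fun _ => nat_lit 0⟩
  (TL.cons ⟨fun _ => nat_lit 0⟩
  (TL.cons ⟨fun _ => nat_lit 0⟩
  (TL.cons ⟨fun _ => nat_lit 0⟩
  (TL.cons ⟨fun _ => nat_lit 0⟩
  (TL.cons ⟨fun _ => nat_lit 0⟩
  (TL.cons ⟨fun _ => nat_lit 0⟩
  (TL.cons ⟨fun _ => nat_lit 0⟩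
  (TL.cons ⟨fun _ => nat_lit 0⟩
  (TL.cons ⟨fun _ => nat_lit 0⟩
  (TL.cons ⟨fun _ => nat_lit 0⟩
  (TL.cons ⟨fun _ => nat_lit 0⟩
  (TL.cons ⟨fun _ => nat_lit 0⟩
  (TL.cons ⟨fun _ => nat_lit 0⟩
  (TL.cons ⟨fun _ => nat_lit 0⟩
  (TL.cons ⟨fun _ => nat_lit 0⟩
  (TL.cons ⟨fun _ => nat_lit 0⟩
  (TL.cons ⟨fun _ => nat_lit 0⟩
  (TL.cons ⟨fun _ => nat_lit 0⟩
  (TL.cons ⟨fun _ => nat_lit 0⟩
  (TL.cons ⟨fun _ => nat_lit 0⟩
  (TL.cons ⟨fun _ => nat_lit 0⟩
  (TL.cons ⟨fun _ => nat_lit 0⟩
  (TL.cons ⟨fun _ => nat_lit 0⟩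
  (TL.cons ⟨fun _ => nat_lit 0⟩
  (TL.cons ⟨fun _ => nat_lit 0⟩
  (TL.cons ⟨fun _ => nat_lit 0⟩
  (TL.cons ⟨fun _ => nat_lit 0⟩
  (TL.cons ⟨fun _ => nat_lit 0⟩
  (TL.cons ⟨fun _ => nat_lit 0⟩
  (TL.cons ⟨fun x => (x (nat_lit 0) (nat_lit 0) (nat_lit 0))⟩
  (TL.cons ⟨fun x => (x (nat_lit 0) (nat_lit 1) (nat_lit 0))⟩
  (TL.cons ⟨fun x => (Nat.add (x (nat_lit 0) (nat_lit 5) (nat_lit 0)) (x (nat_lit 1) (nat_lit 0) (nat_lit 0)))⟩
  (TL.cons ⟨fun x => (x (nat_lit 1) (nat_lit 1) (nat_lit 0))⟩
  (TL.cons ⟨fun x => (Nat.add (x (nat_lit 0) (nat_lit 2) (nat_lit 0)) (Nat.add (x (nat_lit 1) (nat_lit 5) (nat_lit 0)) (x (nat_lit 2) (nat_lit 0) (nat_lit 0))))⟩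
  (TL.cons ⟨fun x => (Nat.add (x (nat_lit 0) (nat_lit 6) (nat_lit 0)) (x (nat_lit 2) (nat_lit 1) (nat_lit 0)))⟩
  (TL.cons ⟨fun x => (Nat.add (x (nat_lit 1) (nat_lit 2) (nat_lit 0)) (Nat.add (x (nat_lit 2) (nat_lit 5) (nat_lit 0)) (x (nat_lit 3) (nat_lit 0) (nat_lit 0))))⟩
  (TL.cons ⟨fun x => (Nat.add (x (nat_lit 1) (nat_lit 6) (nat_lit 0)) (x (nat_lit 3) (nat_lit 1) (nat_lit 0)))⟩
  (TL.cons ⟨fun x => (Nat.add (Nat.add (x (nat_lit 0) (nat_lit 7) (nat_lit 0)) (x (nat_lit 2) (nat_lit 2) (nat_lit 0))) (Nat.add (x (nat_lit 3) (nat_lit 5) (nat_lit 0)) (x (nat_lit 4) (nat_lit 0) (nat_lit 0))))⟩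
  (TL.cons ⟨fun x => (Nat.add (x (nat_lit 2) (nat_lit 6) (nat_lit 0)) (x (nat_lit 4) (nat_lit 1) (nat_lit 0)))⟩
  (TL.cons ⟨fun x => (Nat.add (x (nat_lit 1) (nat_lit 7) (nat_lit 0)) (Nat.add (x (nat_lit 3) (nat_lit 2) (nat_lit 0)) (x (nat_lit 4) (nat_lit 5) (nat_lit 0))))⟩
  (TL.cons ⟨fun x => (Nat.add (x (nat_lit 3) (nat_lit 6) (nat_lit 0)) (x (nat_lit 5) (nat_lit 0) (nat_lit 0)))⟩
  TL.nil)))))))))))))))))))))))))))))))))))))))))))))))))))))))))))))))))))))))))))))))))))))))))))

noncomputable def m52_t : List TT := [.zero,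
  .zero,
  .zero,
  .zero,
  .zero,
  .zero,
  .zero,
  .zero,
  .zero,
  .zero,
  .zero,
  .zero,
  .zero,
  .zero,
  .zero,
  .zero,
  .zero,
  .zero,
  .zero,
  .zero,
  .zero,
  .zero,
  .zero,
  .zero,
  .zero,
  .zero,
  .zero,
  .zero,
  .zero,
  .zero,
  .zero,
  .zero,
  .zero,
  .zero,
  .zero,
  .zero,
  .zero,
  .zero,
  .zero,
  .zero,
  .zero,
  .zero,
  .zero,
  .zero,
  .zero,
  .zero,
  .zero,
  .zero,
  .zero,
  .zero,
  .zero,
  .zero,
  .zero,
  .zero,
  .zero,
  .zero,
  .zero,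
  .zero,
  .zero,
  .zero,
  .zero,
  .zero,
  .zero,
  .zero,
  .zero,
  .zero,
  .zero,
  .zero,
  .zero,
  .zero,
  .zero,
  .zero,
  .zero,
  .zero,
  .zero,
  .zero,
  .zero,
  .zero,
  .zero,
  (.leaf (nat_lit 0) (nat_lit 0) (nat_lit 0)),
  (.leaf (nat_lit 0) (nat_lit 1) (nat_lit 0)),
  (.add (.leaf (nat_lit 0) (nat_lit 5) (nat_lit 0)) (.leaf (nat_lit 1) (nat_lit 0) (nat_lit 0))),
  (.leaf (nat_lit 1) (nat_lit 1) (nat_lit 0)),
  (.add (.leaf (nat_lit 0) (nat_lit 2) (nat_lit 0)) (.add (.leaf (nat_lit 1) (nat_lit 5) (nat_lit 0)) (.leaf (nat_lit 2) (nat_lit 0) (nat_lit 0)))),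
  (.add (.leaf (nat_lit 0) (nat_lit 6) (nat_lit 0)) (.leaf (nat_lit 2) (nat_lit 1) (nat_lit 0))),
  (.add (.leaf (nat_lit 1) (nat_lit 2) (nat_lit 0)) (.add (.leaf (nat_lit 2) (nat_lit 5) (nat_lit 0)) (.leaf (nat_lit 3) (nat_lit 0) (nat_lit 0)))),
  (.add (.leaf (nat_lit 1) (nat_lit 6) (nat_lit 0)) (.leaf (nat_lit 3) (nat_lit 1) (nat_lit 0))),
  (.add (.add (.leaf (nat_lit 0) (nat_lit 7) (nat_lit 0)) (.leaf (nat_lit 2) (nat_lit 2) (nat_lit 0))) (.add (.leaf (nat_lit 3) (nat_lit 5) (nat_lit 0)) (.leaf (nat_lit 4) (nat_lit 0) (nat_lit 0)))),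
  (.add (.leaf (nat_lit 2) (nat_lit 6) (nat_lit 0)) (.leaf (nat_lit 4) (nat_lit 1) (nat_lit 0))),
  (.add (.leaf (nat_lit 1) (nat_lit 7) (nat_lit 0)) (.add (.leaf (nat_lit 3) (nat_lit 2) (nat_lit 0)) (.leaf (nat_lit 4) (nat_lit 5) (nat_lit 0)))),
  (.add (.leaf (nat_lit 3) (nat_lit 6) (nat_lit 0)) (.leaf (nat_lit 5) (nat_lit 0) (nat_lit 0)))]

theorem m52_eq : m52 = ofL m52_t := rfl

noncomputable def d53_0 : DL := (DL.cons (nat_lit 0x3000400080006000000000002000500040001) (nat_lit 0x80000050000030000010000000)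
  (DL.cons (nat_lit 0x30005000000020000000200050000000100000008) (nat_lit 0x80000050000030000010000000)
  (DL.cons (nat_lit 0) (nat_lit 0)
  (DL.cons (nat_lit 0) (nat_lit 0)
  (DL.cons (nat_lit 0) (nat_lit 0)
  (DL.cons (nat_lit 0x20000000000010000) (nat_lit 0xfffff0fffff0000020fffff0000000)
  DL.nil))))))

noncomputable def d53_1 : DL := (DL.cons (nat_lit 0x600040000000800010004000200010006) (nat_lit 0x60000040000020000010000000)
  (DL.cons (nat_lit 0x50000000000060006000400000004) (nat_lit 0x50000030000010fffff0000000)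
  (DL.cons (nat_lit 0) (nat_lit 0)
  (DL.cons (nat_lit 0) (nat_lit 0)
  (DL.cons (nat_lit 0) (nat_lit 0)
  (DL.cons (nat_lit 8589934592) (nat_lit 0xfffff0000000fffff0fffff0fffff0)
  DL.nil))))))

noncomputable def d53_2 : DL := (DL.cons (nat_lit 0x800020007000800010006) (nat_lit 0x40000020000010000000fffff0)
  (DL.cons (nat_lit 0x400080005000000070007) (nat_lit 0x40000020000010000000fffff0)
  (DL.cons (nat_lit 0) (nat_lit 0)
  (DL.cons (nat_lit 0) (nat_lit 0)
  (DL.cons (nat_lit 0) (nat_lit 0)
  (DL.cons (nat_lit 65538) (nat_lit 0xfffff0000010fffff0fffff0000000)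
  DL.nil))))))

noncomputable def d53_3 : DL := (DL.cons (nat_lit 8590000129) (nat_lit 0x10000000fffff0fffff0fffff0)
  (DL.cons (nat_lit 25769803784) (nat_lit 0x10000000fffff0fffff0fffff0)
  (DL.cons (nat_lit 0) (nat_lit 0)
  (DL.cons (nat_lit 0) (nat_lit 0)
  (DL.cons (nat_lit 0) (nat_lit 0)
  (DL.cons (nat_lit 131072) (nat_lit 0xfffff0000000fffff0fffff0fffff0)
  DL.nil))))))

noncomputable def d53_4 : DL := (DL.cons (nat_lit 65542) (nat_lit 0x10000000fffff0fffff0fffff0)
  (DL.cons (nat_lit 7) (nat_lit 0xfffff0000000fffff0fffff0fffff0)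
  DL.nil))

noncomputable def d53_5 : DL := DL.nil

noncomputable def d53 : DLL := (DLL.cons d53_0
  (DLL.cons d53_1
  (DLL.cons d53_2
  (DLL.cons d53_3
  (DLL.cons d53_4
  (DLL.cons d53_5
  DLL.nil))))))

noncomputable def m53 : TL := (TL.cons ⟨fun _ => nat_lit 0⟩
  (TL.cons ⟨fun _ => nat_lit 0⟩
  (TL.cons ⟨fun _ => nat_lit 0⟩
  (TL.cons ⟨fun _ => nat_lit 0⟩
  (TL.cons ⟨fun _ => nat_lit 0⟩
  (TL.cons ⟨fun _ => nat_lit 0⟩
  (TL.cons ⟨fun _ => nat_lit 0⟩
  (TL.cons ⟨fun _ => nat_lit 0⟩
  (TL.cons ⟨fun _ => nat_lit 0⟩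
  (TL.cons ⟨fun _ => nat_lit 0⟩
  (TL.cons ⟨fun _ => nat_lit 0⟩
  (TL.cons ⟨fun _ => nat_lit 0⟩
  (TL.cons ⟨fun _ => nat_lit 0⟩
  (TL.cons ⟨fun _ => nat_lit 0⟩
  (TL.cons ⟨fun _ => nat_lit 0⟩
  (TL.cons ⟨fun _ => nat_lit 0⟩
  (TL.cons ⟨fun _ => nat_lit 0⟩
  (TL.cons ⟨fun _ => nat_lit 0⟩
  (TL.cons ⟨fun _ => nat_lit 0⟩
  (TL.cons ⟨fun _ => nat_lit 0⟩
  (TL.cons ⟨fun _ => nat_lit 0⟩
  (TL.cons ⟨fun _ => nat_lit 0⟩
  (TL.cons ⟨fun _ => nat_lit 0⟩
  (TL.cons ⟨fun _ => nat_lit 0⟩
  (TL.cons ⟨fun _ => nat_lit 0⟩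
  (TL.cons ⟨fun _ => nat_lit 0⟩
  (TL.cons ⟨fun _ => nat_lit 0⟩
  (TL.cons ⟨fun _ => nat_lit 0⟩
  (TL.cons ⟨fun _ => nat_lit 0⟩
  (TL.cons ⟨fun _ => nat_lit 0⟩
  (TL.cons ⟨fun _ => nat_lit 0⟩
  (TL.cons ⟨fun _ => nat_lit 0⟩
  (TL.cons ⟨fun _ => nat_lit 0⟩
  (TL.cons ⟨fun _ => nat_lit 0⟩
  (TL.cons ⟨fun _ => nat_lit 0⟩
  (TL.cons ⟨fun _ => nat_lit 0⟩
  (TL.cons ⟨fun _ => nat_lit 0⟩
  (TL.cons ⟨fun _ => nat_lit 0⟩
  (TL.cons ⟨fun _ => nat_lit 0⟩
  (TL.cons ⟨fun _ => nat_lit 0⟩
  (TL.cons ⟨fun _ => nat_lit 0⟩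
  (TL.cons ⟨fun _ => nat_lit 0⟩
  (TL.cons ⟨fun _ => nat_lit 0⟩
  (TL.cons ⟨fun _ => nat_lit 0⟩
  (TL.cons ⟨fun _ => nat_lit 0⟩
  (TL.cons ⟨fun _ => nat_lit 0⟩
  (TL.cons ⟨fun _ => nat_lit 0⟩
  (TL.cons ⟨fun _ => nat_lit 0⟩
  (TL.cons ⟨fun _ => nat_lit 0⟩
  (TL.cons ⟨fun _ => nat_lit 0⟩
  (TL.cons ⟨fun _ => nat_lit 0⟩
  (TL.cons ⟨fun _ => nat_lit 0⟩
  (TL.cons ⟨fun _ => nat_lit 0⟩
  (TL.cons ⟨fun _ => nat_lit 0⟩
  (TL.cons ⟨fun _ => nat_lit 0⟩
  (TL.cons ⟨fun _ => nat_lit 0⟩
  (TL.cons ⟨fun _ => nat_lit 0⟩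
  (TL.cons ⟨fun _ => nat_lit 0⟩
  (TL.cons ⟨fun _ => nat_lit 0⟩
  (TL.cons ⟨fun _ => nat_lit 0⟩
  (TL.cons ⟨fun _ => nat_lit 0⟩
  (TL.cons ⟨fun _ => nat_lit 0⟩
  (TL.cons ⟨fun _ => nat_lit 0⟩
  (TL.cons ⟨fun _ => nat_lit 0⟩
  (TL.cons ⟨fun _ => nat_lit 0⟩
  (TL.cons ⟨fun _ => nat_lit 0⟩
  (TL.cons ⟨fun _ => nat_lit 0⟩
  (TL.cons ⟨fun _ => nat_lit 0⟩
  (TL.cons ⟨fun _ => nat_lit 0⟩
  (TL.cons ⟨fun _ => nat_lit 0⟩
  (TL.cons ⟨fun _ => nat_lit 0⟩
  (TL.cons ⟨fun _ => nat_lit 0⟩
  (TL.cons ⟨fun _ => nat_lit 0⟩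
  (TL.cons ⟨fun _ => nat_lit 0⟩
  (TL.cons ⟨fun _ => nat_lit 0⟩
  (TL.cons ⟨fun _ => nat_lit 0⟩
  (TL.cons ⟨fun _ => nat_lit 0⟩
  (TL.cons ⟨fun _ => nat_lit 0⟩
  (TL.cons ⟨fun _ => nat_lit 0⟩
  (TL.cons ⟨fun _ => nat_lit 0⟩
  (TL.cons ⟨fun _ => nat_lit 0⟩
  (TL.cons ⟨fun x => (x (nat_lit 0) (nat_lit 0) (nat_lit 0))⟩
  (TL.cons ⟨fun x => (x (nat_lit 0) (nat_lit 1) (nat_lit 0))⟩
  (TL.cons ⟨fun x => (Nat.add (x (nat_lit 0) (nat_lit 5) (nat_lit 0)) (x (nat_lit 1) (nat_lit 0) (nat_lit 0)))⟩
  (TL.cons ⟨fun x => (x (nat_lit 1) (nat_lit 1) (nat_lit 0))⟩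
  (TL.cons ⟨fun x => (Nat.add (x (nat_lit 0) (nat_lit 2) (nat_lit 0)) (Nat.add (x (nat_lit 1) (nat_lit 5) (nat_lit 0)) (x (nat_lit 2) (nat_lit 0) (nat_lit 0))))⟩
  (TL.cons ⟨fun x => (Nat.add (x (nat_lit 0) (nat_lit 6) (nat_lit 0)) (x (nat_lit 2) (nat_lit 1) (nat_lit 0)))⟩
  (TL.cons ⟨fun x => (Nat.add (x (nat_lit 1) (nat_lit 2) (nat_lit 0)) (Nat.add (x (nat_lit 2) (nat_lit 5) (nat_lit 0)) (x (nat_lit 3) (nat_lit 0) (nat_lit 0))))⟩
  (TL.cons ⟨fun x => (Nat.add (x (nat_lit 1) (nat_lit 6) (nat_lit 0)) (x (nat_lit 3) (nat_lit 1) (nat_lit 0)))⟩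
  (TL.cons ⟨fun x => (Nat.add (Nat.add (x (nat_lit 0) (nat_lit 7) (nat_lit 0)) (x (nat_lit 2) (nat_lit 2) (nat_lit 0))) (Nat.add (x (nat_lit 3) (nat_lit 5) (nat_lit 0)) (x (nat_lit 4) (nat_lit 0) (nat_lit 0))))⟩
  (TL.cons ⟨fun x => (Nat.add (x (nat_lit 2) (nat_lit 6) (nat_lit 0)) (x (nat_lit 4) (nat_lit 1) (nat_lit 0)))⟩
  TL.nil)))))))))))))))))))))))))))))))))))))))))))))))))))))))))))))))))))))))))))))))))))))))))))

noncomputable def m53_t : List TT := [.zero,
  .zero,
  .zero,
  .zero,
  .zero,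
  .zero,
  .zero,
  .zero,
  .zero,
  .zero,
  .zero,
  .zero,
  .zero,
  .zero,
  .zero,
  .zero,
  .zero,
  .zero,
  .zero,
  .zero,
  .zero,
  .zero,
  .zero,
  .zero,
  .zero,
  .zero,
  .zero,
  .zero,
  .zero,
  .zero,
  .zero,
  .zero,
  .zero,
  .zero,
  .zero,
  .zero,
  .zero,
  .zero,
  .zero,
  .zero,
  .zero,
  .zero,
  .zero,
  .zero,
  .zero,
  .zero,
  .zero,
  .zero,
  .zero,
  .zero,
  .zero,
  .zero,
  .zero,
  .zero,
  .zero,
  .zero,
  .zero,
  .zero,
  .zero,
  .zero,
  .zero,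
  .zero,
  .zero,
  .zero,
  .zero,
  .zero,
  .zero,
  .zero,
  .zero,
  .zero,
  .zero,
  .zero,
  .zero,
  .zero,
  .zero,
  .zero,
  .zero,
  .zero,
  .zero,
  .zero,
  .zero,
  (.leaf (nat_lit 0) (nat_lit 0) (nat_lit 0)),
  (.leaf (nat_lit 0) (nat_lit 1) (nat_lit 0)),
  (.add (.leaf (nat_lit 0) (nat_lit 5) (nat_lit 0)) (.leaf (nat_lit 1) (nat_lit 0) (nat_lit 0))),
  (.leaf (nat_lit 1) (nat_lit 1) (nat_lit 0)),
  (.add (.leaf (nat_lit 0) (nat_lit 2) (nat_lit 0)) (.add (.leaf (nat_lit 1) (nat_lit 5) (nat_lit 0)) (.leaf (nat_lit 2) (nat_lit 0) (nat_lit 0)))),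
  (.add (.leaf (nat_lit 0) (nat_lit 6) (nat_lit 0)) (.leaf (nat_lit 2) (nat_lit 1) (nat_lit 0))),
  (.add (.leaf (nat_lit 1) (nat_lit 2) (nat_lit 0)) (.add (.leaf (nat_lit 2) (nat_lit 5) (nat_lit 0)) (.leaf (nat_lit 3) (nat_lit 0) (nat_lit 0)))),
  (.add (.leaf (nat_lit 1) (nat_lit 6) (nat_lit 0)) (.leaf (nat_lit 3) (nat_lit 1) (nat_lit 0))),
  (.add (.add (.leaf (nat_lit 0) (nat_lit 7) (nat_lit 0)) (.leaf (nat_lit 2) (nat_lit 2) (nat_lit 0))) (.add (.leaf (nat_lit 3) (nat_lit 5) (nat_lit 0)) (.leaf (nat_lit 4) (nat_lit 0) (nat_lit 0)))),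
  (.add (.leaf (nat_lit 2) (nat_lit 6) (nat_lit 0)) (.leaf (nat_lit 4) (nat_lit 1) (nat_lit 0)))]

theorem m53_eq : m53 = ofL m53_t := rfl

noncomputable def d54_0 : DL := (DL.cons (nat_lit 0x40003000000010001) (nat_lit 0x40000020fffff0000010000000)
  (DL.cons (nat_lit 4294967296) (nat_lit 0xfffff0000000fffff0fffff0fffff0)
  DL.nil))

noncomputable def d54_1 : DL := (DL.cons (nat_lit 0x600000001000000080001) (nat_lit 0x40000020000010000000fffff0)
  (DL.cons (nat_lit 393217) (nat_lit 0xfffff0000010fffff0fffff0000000)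
  DL.nil))

noncomputable def d54_2 : DL := (DL.cons (nat_lit 0x1000000080001) (nat_lit 0x20000010000000fffff0fffff0)
  (DL.cons (nat_lit 4294967297) (nat_lit 0xfffff0000010fffff0000000fffff0)
  DL.nil))

noncomputable def d54_3 : DL := (DL.cons (nat_lit 458753) (nat_lit 0x10000000fffff0fffff0fffff0)
  DL.nil)

noncomputable def d54_4 : DL := (DL.cons (nat_lit 1) (nat_lit 0xfffff0fffff0fffff0fffff0)
  (DL.cons (nat_lit 4) (nat_lit 0xfffff0000000fffff0fffff0fffff0)
  DL.nil))

noncomputable def d54 : DLL := (DLL.cons d54_0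
  (DLL.cons d54_1
  (DLL.cons d54_2
  (DLL.cons d54_3
  (DLL.cons d54_4
  DLL.nil)))))

noncomputable def m54 : TL := (TL.cons ⟨fun _ => nat_lit 0⟩
  (TL.cons ⟨fun _ => nat_lit 0⟩
  (TL.cons ⟨fun _ => nat_lit 0⟩
  (TL.cons ⟨fun _ => nat_lit 0⟩
  (TL.cons ⟨fun _ => nat_lit 0⟩
  (TL.cons ⟨fun _ => nat_lit 0⟩
  (TL.cons ⟨fun _ => nat_lit 0⟩
  (TL.cons ⟨fun _ => nat_lit 0⟩
  (TL.cons ⟨fun _ => nat_lit 0⟩
  (TL.cons ⟨fun _ => nat_lit 0⟩
  (TL.cons ⟨fun _ => nat_lit 0⟩
  (TL.cons ⟨fun _ => nat_lit 0⟩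
  (TL.cons ⟨fun _ => nat_lit 0⟩
  (TL.cons ⟨fun _ => nat_lit 0⟩
  (TL.cons ⟨fun _ => nat_lit 0⟩
  (TL.cons ⟨fun _ => nat_lit 0⟩
  (TL.cons ⟨fun _ => nat_lit 0⟩
  (TL.cons ⟨fun _ => nat_lit 0⟩
  (TL.cons ⟨fun _ => nat_lit 0⟩
  (TL.cons ⟨fun _ => nat_lit 0⟩
  (TL.cons ⟨fun _ => nat_lit 0⟩
  (TL.cons ⟨fun _ => nat_lit 0⟩
  (TL.cons ⟨fun _ => nat_lit 0⟩
  (TL.cons ⟨fun _ => nat_lit 0⟩
  (TL.cons ⟨fun _ => nat_lit 0⟩
  (TL.cons ⟨fun _ => nat_lit 0⟩
  (TL.cons ⟨fun _ => nat_lit 0⟩
  (TL.cons ⟨fun _ => nat_lit 0⟩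
  (TL.cons ⟨fun _ => nat_lit 0⟩
  (TL.cons ⟨fun _ => nat_lit 0⟩
  (TL.cons ⟨fun _ => nat_lit 0⟩
  (TL.cons ⟨fun _ => nat_lit 0⟩
  (TL.cons ⟨fun _ => nat_lit 0⟩
  (TL.cons ⟨fun _ => nat_lit 0⟩
  (TL.cons ⟨fun _ => nat_lit 0⟩
  (TL.cons ⟨fun _ => nat_lit 0⟩
  (TL.cons ⟨fun _ => nat_lit 0⟩
  (TL.cons ⟨fun _ => nat_lit 0⟩
  (TL.cons ⟨fun _ => nat_lit 0⟩
  (TL.cons ⟨fun _ => nat_lit 0⟩
  (TL.cons ⟨fun _ => nat_lit 0⟩
  (TL.cons ⟨fun _ => nat_lit 0⟩
  (TL.cons ⟨fun _ => nat_lit 0⟩
  (TL.cons ⟨fun _ => nat_lit 0⟩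
  (TL.cons ⟨fun _ => nat_lit 0⟩
  (TL.cons ⟨fun _ => nat_lit 0⟩
  (TL.cons ⟨fun _ => nat_lit 0⟩
  (TL.cons ⟨fun _ => nat_lit 0⟩
  (TL.cons ⟨fun _ => nat_lit 0⟩
  (TL.cons ⟨fun _ => nat_lit 0⟩
  (TL.cons ⟨fun _ => nat_lit 0⟩
  (TL.cons ⟨fun _ => nat_lit 0⟩
  (TL.cons ⟨fun _ => nat_lit 0⟩
  (TL.cons ⟨fun _ => nat_lit 0⟩
  (TL.cons ⟨fun _ => nat_lit 0⟩
  (TL.cons ⟨fun _ => nat_lit 0⟩
  (TL.cons ⟨fun _ => nat_lit 0⟩
  (TL.cons ⟨fun _ => nat_lit 0⟩
  (TL.cons ⟨fun _ => nat_lit 0⟩
  (TL.cons ⟨fun _ => nat_lit 0⟩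
  (TL.cons ⟨fun _ => nat_lit 0⟩
  (TL.cons ⟨fun _ => nat_lit 0⟩
  (TL.cons ⟨fun _ => nat_lit 0⟩
  (TL.cons ⟨fun _ => nat_lit 0⟩
  (TL.cons ⟨fun _ => nat_lit 0⟩
  (TL.cons ⟨fun _ => nat_lit 0⟩
  (TL.cons ⟨fun _ => nat_lit 0⟩
  (TL.cons ⟨fun _ => nat_lit 0⟩
  (TL.cons ⟨fun _ => nat_lit 0⟩
  (TL.cons ⟨fun _ => nat_lit 0⟩
  (TL.cons ⟨fun _ => nat_lit 0⟩
  (TL.cons ⟨fun _ => nat_lit 0⟩
  (TL.cons ⟨fun _ => nat_lit 0⟩
  (TL.cons ⟨fun _ => nat_lit 0⟩
  (TL.cons ⟨fun _ => nat_lit 0⟩
  (TL.cons ⟨fun _ => nat_lit 0⟩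
  (TL.cons ⟨fun _ => nat_lit 0⟩
  (TL.cons ⟨fun _ => nat_lit 0⟩
  (TL.cons ⟨fun _ => nat_lit 0⟩
  (TL.cons ⟨fun _ => nat_lit 0⟩
  (TL.cons ⟨fun _ => nat_lit 0⟩
  (TL.cons ⟨fun _ => nat_lit 0⟩
  (TL.cons ⟨fun x => (x (nat_lit 0) (nat_lit 0) (nat_lit 0))⟩
  (TL.cons ⟨fun x => (x (nat_lit 0) (nat_lit 1) (nat_lit 0))⟩
  (TL.cons ⟨fun x => (Nat.add (x (nat_lit 0) (nat_lit 5) (nat_lit 0)) (x (nat_lit 1) (nat_lit 0) (nat_lit 0)))⟩
  (TL.cons ⟨fun x => (x (nat_lit 1) (nat_lit 1) (nat_lit 0))⟩
  (TL.cons ⟨fun x => (Nat.add (x (nat_lit 0) (nat_lit 2) (nat_lit 0)) (Nat.add (x (nat_lit 1) (nat_lit 5) (nat_lit 0)) (x (nat_lit 2) (nat_lit 0) (nat_lit 0))))⟩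
  (TL.cons ⟨fun x => (Nat.add (x (nat_lit 0) (nat_lit 6) (nat_lit 0)) (x (nat_lit 2) (nat_lit 1) (nat_lit 0)))⟩
  (TL.cons ⟨fun x => (Nat.add (x (nat_lit 1) (nat_lit 2) (nat_lit 0)) (Nat.add (x (nat_lit 2) (nat_lit 5) (nat_lit 0)) (x (nat_lit 3) (nat_lit 0) (nat_lit 0))))⟩
  (TL.cons ⟨fun x => (Nat.add (x (nat_lit 1) (nat_lit 6) (nat_lit 0)) (x (nat_lit 3) (nat_lit 1) (nat_lit 0)))⟩
  (TL.cons ⟨fun x => (Nat.add (Nat.add (x (nat_lit 0) (nat_lit 7) (nat_lit 0)) (x (nat_lit 2) (nat_lit 2) (nat_lit 0))) (Nat.add (x (nat_lit 3) (nat_lit 5) (nat_lit 0)) (x (nat_lit 4) (nat_lit 0) (nat_lit 0))))⟩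
  TL.nil)))))))))))))))))))))))))))))))))))))))))))))))))))))))))))))))))))))))))))))))))))))))))))

noncomputable def m54_t : List TT := [.zero,
  .zero,
  .zero,
  .zero,
  .zero,
  .zero,
  .zero,
  .zero,
  .zero,
  .zero,
  .zero,
  .zero,
  .zero,
  .zero,
  .zero,
  .zero,
  .zero,
  .zero,
  .zero,
  .zero,
  .zero,
  .zero,
  .zero,
  .zero,
  .zero,
  .zero,
  .zero,
  .zero,
  .zero,
  .zero,
  .zero,
  .zero,
  .zero,
  .zero,
  .zero,
  .zero,
  .zero,
  .zero,
  .zero,
  .zero,
  .zero,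
  .zero,
  .zero,
  .zero,
  .zero,
  .zero,
  .zero,
  .zero,
  .zero,
  .zero,
  .zero,
  .zero,
  .zero,
  .zero,
  .zero,
  .zero,
  .zero,
  .zero,
  .zero,
  .zero,
  .zero,
  .zero,
  .zero,
  .zero,
  .zero,
  .zero,
  .zero,
  .zero,
  .zero,
  .zero,
  .zero,
  .zero,
  .zero,
  .zero,
  .zero,
  .zero,
  .zero,
  .zero,
  .zero,
  .zero,
  .zero,
  .zero,
  (.leaf (nat_lit 0) (nat_lit 0) (nat_lit 0)),
  (.leaf (nat_lit 0) (nat_lit 1) (nat_lit 0)),
  (.add (.leaf (nat_lit 0) (nat_lit 5) (nat_lit 0)) (.leaf (nat_lit 1) (nat_lit 0) (nat_lit 0))),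
  (.leaf (nat_lit 1) (nat_lit 1) (nat_lit 0)),
  (.add (.leaf (nat_lit 0) (nat_lit 2) (nat_lit 0)) (.add (.leaf (nat_lit 1) (nat_lit 5) (nat_lit 0)) (.leaf (nat_lit 2) (nat_lit 0) (nat_lit 0)))),
  (.add (.leaf (nat_lit 0) (nat_lit 6) (nat_lit 0)) (.leaf (nat_lit 2) (nat_lit 1) (nat_lit 0))),
  (.add (.leaf (nat_lit 1) (nat_lit 2) (nat_lit 0)) (.add (.leaf (nat_lit 2) (nat_lit 5) (nat_lit 0)) (.leaf (nat_lit 3) (nat_lit 0) (nat_lit 0)))),
  (.add (.leaf (nat_lit 1) (nat_lit 6) (nat_lit 0)) (.leaf (nat_lit 3) (nat_lit 1) (nat_lit 0))),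
  (.add (.add (.leaf (nat_lit 0) (nat_lit 7) (nat_lit 0)) (.leaf (nat_lit 2) (nat_lit 2) (nat_lit 0))) (.add (.leaf (nat_lit 3) (nat_lit 5) (nat_lit 0)) (.leaf (nat_lit 4) (nat_lit 0) (nat_lit 0))))]

theorem m54_eq : m54 = ofL m54_t := rfl

noncomputable def d55_0 : DL := (DL.cons (nat_lit 0x20000000000000005000800070001) (nat_lit 0x50000030000010000000)
  (DL.cons (nat_lit 0x10000000500000008) (nat_lit 0xfffff0000030000010000000)
  (DL.cons (nat_lit 0) (nat_lit 0)
  (DL.cons (nat_lit 0) (nat_lit 0)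
  (DL.cons (nat_lit 0) (nat_lit 0)
  (DL.cons (nat_lit 8589934592) (nat_lit 0xfffff0000000fffff0fffff0)
  DL.nil))))))

noncomputable def d55_1 : DL := (DL.cons (nat_lit 0x800070001000800010006) (nat_lit 0x40000020000010000000)
  (DL.cons (nat_lit 1) (nat_lit 0xfffff0fffff0fffff0000000)
  DL.nil))

noncomputable def d55_2 : DL := (DL.cons (nat_lit 0x4000500010006) (nat_lit 0x20000010000000fffff0)
  (DL.cons (nat_lit 458756) (nat_lit 0xfffff0000010000000fffff0)
  (DL.cons (nat_lit 0) (nat_lit 0)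
  (DL.cons (nat_lit 0) (nat_lit 0)
  (DL.cons (nat_lit 0) (nat_lit 0)
  (DL.cons (nat_lit 4294967298) (nat_lit 0xfffff0000010fffff0000000)
  DL.nil))))))

noncomputable def d55_3 : DL := (DL.cons (nat_lit 1) (nat_lit 0xfffff0fffff0fffff0)
  DL.nil)

noncomputable def d55_4 : DL := (DL.cons (nat_lit 6) (nat_lit 0xfffff0fffff0fffff0)
  DL.nil)

noncomputable def d55 : DLL := (DLL.cons d55_0
  (DLL.cons d55_1
  (DLL.cons d55_2
  (DLL.cons d55_3
  (DLL.cons d55_4
  DLL.nil)))))

noncomputable def m55 : TL := (TL.cons ⟨fun _ => nat_lit 0⟩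
  (TL.cons ⟨fun _ => nat_lit 0⟩
  (TL.cons ⟨fun _ => nat_lit 0⟩
  (TL.cons ⟨fun _ => nat_lit 0⟩
  (TL.cons ⟨fun _ => nat_lit 0⟩
  (TL.cons ⟨fun _ => nat_lit 0⟩
  (TL.cons ⟨fun _ => nat_lit 0⟩
  (TL.cons ⟨fun _ => nat_lit 0⟩
  (TL.cons ⟨fun _ => nat_lit 0⟩
  (TL.cons ⟨fun _ => nat_lit 0⟩
  (TL.cons ⟨fun _ => nat_lit 0⟩
  (TL.cons ⟨fun _ => nat_lit 0⟩
  (TL.cons ⟨fun _ => nat_lit 0⟩
  (TL.cons ⟨fun _ => nat_lit 0⟩
  (TL.cons ⟨fun _ => nat_lit 0⟩
  (TL.cons ⟨fun _ => nat_lit 0⟩
  (TL.cons ⟨fun _ => nat_lit 0⟩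
  (TL.cons ⟨fun _ => nat_lit 0⟩
  (TL.cons ⟨fun _ => nat_lit 0⟩
  (TL.cons ⟨fun _ => nat_lit 0⟩
  (TL.cons ⟨fun _ => nat_lit 0⟩
  (TL.cons ⟨fun _ => nat_lit 0⟩
  (TL.cons ⟨fun _ => nat_lit 0⟩
  (TL.cons ⟨fun _ => nat_lit 0⟩
  (TL.cons ⟨fun _ => nat_lit 0⟩
  (TL.cons ⟨fun _ => nat_lit 0⟩
  (TL.cons ⟨fun _ => nat_lit 0⟩
  (TL.cons ⟨fun _ => nat_lit 0⟩
  (TL.cons ⟨fun _ => nat_lit 0⟩
  (TL.cons ⟨fun _ => nat_lit 0⟩
  (TL.cons ⟨fun _ => nat_lit 0⟩
  (TL.cons ⟨fun _ => nat_lit 0⟩
  (TL.cons ⟨fun _ => nat_lit 0⟩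
  (TL.cons ⟨fun _ => nat_lit 0⟩
  (TL.cons ⟨fun _ => nat_lit 0⟩
  (TL.cons ⟨fun _ => nat_lit 0⟩
  (TL.cons ⟨fun _ => nat_lit 0⟩
  (TL.cons ⟨fun _ => nat_lit 0⟩
  (TL.cons ⟨fun _ => nat_lit 0⟩
  (TL.cons ⟨fun _ => nat_lit 0⟩
  (TL.cons ⟨fun _ => nat_lit 0⟩
  (TL.cons ⟨fun _ => nat_lit 0⟩
  (TL.cons ⟨fun _ => nat_lit 0⟩
  (TL.cons ⟨fun _ => nat_lit 0⟩
  (TL.cons ⟨fun _ => nat_lit 0⟩
  (TL.cons ⟨fun _ => nat_lit 0⟩
  (TL.cons ⟨fun _ => nat_lit 0⟩
  (TL.cons ⟨fun _ => nat_lit 0⟩
  (TL.cons ⟨fun _ => nat_lit 0⟩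
  (TL.cons ⟨fun _ => nat_lit 0⟩
  (TL.cons ⟨fun _ => nat_lit 0⟩
  (TL.cons ⟨fun _ => nat_lit 0⟩
  (TL.cons ⟨fun _ => nat_lit 0⟩
  (TL.cons ⟨fun _ => nat_lit 0⟩
  (TL.cons ⟨fun _ => nat_lit 0⟩
  (TL.cons ⟨fun _ => nat_lit 0⟩
  (TL.cons ⟨fun _ => nat_lit 0⟩
  (TL.cons ⟨fun _ => nat_lit 0⟩
  (TL.cons ⟨fun _ => nat_lit 0⟩
  (TL.cons ⟨fun _ => nat_lit 0⟩
  (TL.cons ⟨fun _ => nat_lit 0⟩
  (TL.cons ⟨fun _ => nat_lit 0⟩
  (TL.cons ⟨fun _ => nat_lit 0⟩
  (TL.cons ⟨fun _ => nat_lit 0⟩
  (TL.cons ⟨fun _ => nat_lit 0⟩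
  (TL.cons ⟨fun _ => nat_lit 0⟩
  (TL.cons ⟨fun _ => nat_lit 0⟩
  (TL.cons ⟨fun _ => nat_lit 0⟩
  (TL.cons ⟨fun _ => nat_lit 0⟩
  (TL.cons ⟨fun _ => nat_lit 0⟩
  (TL.cons ⟨fun _ => nat_lit 0⟩
  (TL.cons ⟨fun _ => nat_lit 0⟩
  (TL.cons ⟨fun _ => nat_lit 0⟩
  (TL.cons ⟨fun _ => nat_lit 0⟩
  (TL.cons ⟨fun _ => nat_lit 0⟩
  (TL.cons ⟨fun _ => nat_lit 0⟩
  (TL.cons ⟨fun _ => nat_lit 0⟩
  (TL.cons ⟨fun _ => nat_lit 0⟩
  (TL.cons ⟨fun _ => nat_lit 0⟩
  (TL.cons ⟨fun _ => nat_lit 0⟩
  (TL.cons ⟨fun _ => nat_lit 0⟩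
  (TL.cons ⟨fun _ => nat_lit 0⟩
  (TL.cons ⟨fun _ => nat_lit 0⟩
  (TL.cons ⟨fun _ => nat_lit 0⟩
  (TL.cons ⟨fun x => (x (nat_lit 0) (nat_lit 0) (nat_lit 0))⟩
  (TL.cons ⟨fun x => (x (nat_lit 0) (nat_lit 1) (nat_lit 0))⟩
  (TL.cons ⟨fun x => (Nat.add (x (nat_lit 0) (nat_lit 5) (nat_lit 0)) (x (nat_lit 1) (nat_lit 0) (nat_lit 0)))⟩
  (TL.cons ⟨fun x => (x (nat_lit 1) (nat_lit 1) (nat_lit 0))⟩
  (TL.cons ⟨fun x => (Nat.add (x (nat_lit 0) (nat_lit 2) (nat_lit 0)) (Nat.add (x (nat_lit 1) (nat_lit 5) (nat_lit 0)) (x (nat_lit 2) (nat_lit 0) (nat_lit 0))))⟩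
  (TL.cons ⟨fun x => (Nat.add (x (nat_lit 0) (nat_lit 6) (nat_lit 0)) (x (nat_lit 2) (nat_lit 1) (nat_lit 0)))⟩
  (TL.cons ⟨fun x => (Nat.add (x (nat_lit 1) (nat_lit 2) (nat_lit 0)) (Nat.add (x (nat_lit 2) (nat_lit 5) (nat_lit 0)) (x (nat_lit 3) (nat_lit 0) (nat_lit 0))))⟩
  TL.nil)))))))))))))))))))))))))))))))))))))))))))))))))))))))))))))))))))))))))))))))))))))))))))

noncomputable def m55_t : List TT := [.zero,
  .zero,
  .zero,
  .zero,
  .zero,
  .zero,
  .zero,
  .zero,
  .zero,
  .zero,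
  .zero,
  .zero,
  .zero,
  .zero,
  .zero,
  .zero,
  .zero,
  .zero,
  .zero,
  .zero,
  .zero,
  .zero,
  .zero,
  .zero,
  .zero,
  .zero,
  .zero,
  .zero,
  .zero,
  .zero,
  .zero,
  .zero,
  .zero,
  .zero,
  .zero,
  .zero,
  .zero,
  .zero,
  .zero,
  .zero,
  .zero,
  .zero,
  .zero,
  .zero,
  .zero,
  .zero,
  .zero,
  .zero,
  .zero,
  .zero,
  .zero,
  .zero,
  .zero,
  .zero,
  .zero,
  .zero,
  .zero,
  .zero,
  .zero,
  .zero,
  .zero,
  .zero,
  .zero,
  .zero,
  .zero,
  .zero,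
  .zero,
  .zero,
  .zero,
  .zero,
  .zero,
  .zero,
  .zero,
  .zero,
  .zero,
  .zero,
  .zero,
  .zero,
  .zero,
  .zero,
  .zero,
  .zero,
  .zero,
  .zero,
  (.leaf (nat_lit 0) (nat_lit 0) (nat_lit 0)),
  (.leaf (nat_lit 0) (nat_lit 1) (nat_lit 0)),
  (.add (.leaf (nat_lit 0) (nat_lit 5) (nat_lit 0)) (.leaf (nat_lit 1) (nat_lit 0) (nat_lit 0))),
  (.leaf (nat_lit 1) (nat_lit 1) (nat_lit 0)),
  (.add (.leaf (nat_lit 0) (nat_lit 2) (nat_lit 0)) (.add (.leaf (nat_lit 1) (nat_lit 5) (nat_lit 0)) (.leaf (nat_lit 2) (nat_lit 0) (nat_lit 0)))),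
  (.add (.leaf (nat_lit 0) (nat_lit 6) (nat_lit 0)) (.leaf (nat_lit 2) (nat_lit 1) (nat_lit 0))),
  (.add (.leaf (nat_lit 1) (nat_lit 2) (nat_lit 0)) (.add (.leaf (nat_lit 2) (nat_lit 5) (nat_lit 0)) (.leaf (nat_lit 3) (nat_lit 0) (nat_lit 0))))]

theorem m55_eq : m55 = ofL m55_t := rfl

noncomputable def d56_0 : DL := (DL.cons (nat_lit 262145) (nat_lit 0xfffff0000010000000)
  (DL.cons (nat_lit 262144) (nat_lit 0xfffff0000000fffff0)
  DL.nil))

noncomputable def d56_1 : DL := (DL.cons (nat_lit 327681) (nat_lit 0x10000000fffff0)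
  (DL.cons (nat_lit 21474836487) (nat_lit 0x10fffff0000000)
  DL.nil))

noncomputable def d56_2 : DL := (DL.cons (nat_lit 1) (nat_lit 0xfffff0fffff0)
  (DL.cons (nat_lit 7) (nat_lit 0xfffff0000000fffff0)
  DL.nil))

noncomputable def d56_3 : DL := DL.nil

noncomputable def d56 : DLL := (DLL.cons d56_0
  (DLL.cons d56_1
  (DLL.cons d56_2
  (DLL.cons d56_3
  DLL.nil))))

noncomputable def m56 : TL := (TL.cons ⟨fun _ => nat_lit 0⟩
  (TL.cons ⟨fun _ => nat_lit 0⟩
  (TL.cons ⟨fun _ => nat_lit 0⟩
  (TL.cons ⟨fun _ => nat_lit 0⟩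
  (TL.cons ⟨fun _ => nat_lit 0⟩
  (TL.cons ⟨fun _ => nat_lit 0⟩
  (TL.cons ⟨fun _ => nat_lit 0⟩
  (TL.cons ⟨fun _ => nat_lit 0⟩
  (TL.cons ⟨fun _ => nat_lit 0⟩
  (TL.cons ⟨fun _ => nat_lit 0⟩
  (TL.cons ⟨fun _ => nat_lit 0⟩
  (TL.cons ⟨fun _ => nat_lit 0⟩
  (TL.cons ⟨fun _ => nat_lit 0⟩
  (TL.cons ⟨fun _ => nat_lit 0⟩
  (TL.cons ⟨fun _ => nat_lit 0⟩
  (TL.cons ⟨fun _ => nat_lit 0⟩
  (TL.cons ⟨fun _ => nat_lit 0⟩
  (TL.cons ⟨fun _ => nat_lit 0⟩
  (TL.cons ⟨fun _ => nat_lit 0⟩
  (TL.cons ⟨fun _ => nat_lit 0⟩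
  (TL.cons ⟨fun _ => nat_lit 0⟩
  (TL.cons ⟨fun _ => nat_lit 0⟩
  (TL.cons ⟨fun _ => nat_lit 0⟩
  (TL.cons ⟨fun _ => nat_lit 0⟩
  (TL.cons ⟨fun _ => nat_lit 0⟩
  (TL.cons ⟨fun _ => nat_lit 0⟩
  (TL.cons ⟨fun _ => nat_lit 0⟩
  (TL.cons ⟨fun _ => nat_lit 0⟩
  (TL.cons ⟨fun _ => nat_lit 0⟩
  (TL.cons ⟨fun _ => nat_lit 0⟩
  (TL.cons ⟨fun _ => nat_lit 0⟩
  (TL.cons ⟨fun _ => nat_lit 0⟩
  (TL.cons ⟨fun _ => nat_lit 0⟩
  (TL.cons ⟨fun _ => nat_lit 0⟩
  (TL.cons ⟨fun _ => nat_lit 0⟩
  (TL.cons ⟨fun _ => nat_lit 0⟩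
  (TL.cons ⟨fun _ => nat_lit 0⟩
  (TL.cons ⟨fun _ => nat_lit 0⟩
  (TL.cons ⟨fun _ => nat_lit 0⟩
  (TL.cons ⟨fun _ => nat_lit 0⟩
  (TL.cons ⟨fun _ => nat_lit 0⟩
  (TL.cons ⟨fun _ => nat_lit 0⟩
  (TL.cons ⟨fun _ => nat_lit 0⟩
  (TL.cons ⟨fun _ => nat_lit 0⟩
  (TL.cons ⟨fun _ => nat_lit 0⟩
  (TL.cons ⟨fun _ => nat_lit 0⟩
  (TL.cons ⟨fun _ => nat_lit 0⟩
  (TL.cons ⟨fun _ => nat_lit 0⟩
  (TL.cons ⟨fun _ => nat_lit 0⟩
  (TL.cons ⟨fun _ => nat_lit 0⟩
  (TL.cons ⟨fun _ => nat_lit 0⟩
  (TL.cons ⟨fun _ => nat_lit 0⟩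
  (TL.cons ⟨fun _ => nat_lit 0⟩
  (TL.cons ⟨fun _ => nat_lit 0⟩
  (TL.cons ⟨fun _ => nat_lit 0⟩
  (TL.cons ⟨fun _ => nat_lit 0⟩
  (TL.cons ⟨fun _ => nat_lit 0⟩
  (TL.cons ⟨fun _ => nat_lit 0⟩
  (TL.cons ⟨fun _ => nat_lit 0⟩
  (TL.cons ⟨fun _ => nat_lit 0⟩
  (TL.cons ⟨fun _ => nat_lit 0⟩
  (TL.cons ⟨fun _ => nat_lit 0⟩
  (TL.cons ⟨fun _ => nat_lit 0⟩
  (TL.cons ⟨fun _ => nat_lit 0⟩
  (TL.cons ⟨fun _ => nat_lit 0⟩
  (TL.cons ⟨fun _ => nat_lit 0⟩
  (TL.cons ⟨fun _ => nat_lit 0⟩
  (TL.cons ⟨fun _ => nat_lit 0⟩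
  (TL.cons ⟨fun _ => nat_lit 0⟩
  (TL.cons ⟨fun _ => nat_lit 0⟩
  (TL.cons ⟨fun _ => nat_lit 0⟩
  (TL.cons ⟨fun _ => nat_lit 0⟩
  (TL.cons ⟨fun _ => nat_lit 0⟩
  (TL.cons ⟨fun _ => nat_lit 0⟩
  (TL.cons ⟨fun _ => nat_lit 0⟩
  (TL.cons ⟨fun _ => nat_lit 0⟩
  (TL.cons ⟨fun _ => nat_lit 0⟩
  (TL.cons ⟨fun _ => nat_lit 0⟩
  (TL.cons ⟨fun _ => nat_lit 0⟩
  (TL.cons ⟨fun _ => nat_lit 0⟩
  (TL.cons ⟨fun _ => nat_lit 0⟩
  (TL.cons ⟨fun _ => nat_lit 0⟩
  (TL.cons ⟨fun _ => nat_lit 0⟩
  (TL.cons ⟨fun _ => nat_lit 0⟩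
  (TL.cons ⟨fun _ => nat_lit 0⟩
  (TL.cons ⟨fun x => (x (nat_lit 0) (nat_lit 0) (nat_lit 0))⟩
  (TL.cons ⟨fun x => (x (nat_lit 0) (nat_lit 1) (nat_lit 0))⟩
  (TL.cons ⟨fun x => (Nat.add (x (nat_lit 0) (nat_lit 5) (nat_lit 0)) (x (nat_lit 1) (nat_lit 0) (nat_lit 0)))⟩
  (TL.cons ⟨fun x => (x (nat_lit 1) (nat_lit 1) (nat_lit 0))⟩
  (TL.cons ⟨fun x => (Nat.add (x (nat_lit 0) (nat_lit 2) (nat_lit 0)) (Nat.add (x (nat_lit 1) (nat_lit 5) (nat_lit 0)) (x (nat_lit 2) (nat_lit 0) (nat_lit 0))))⟩
  (TL.cons ⟨fun x => (Nat.add (x (nat_lit 0) (nat_lit 6) (nat_lit 0)) (x (nat_lit 2) (nat_lit 1) (nat_lit 0)))⟩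
  TL.nil)))))))))))))))))))))))))))))))))))))))))))))))))))))))))))))))))))))))))))))))))))))))))))

noncomputable def m56_t : List TT := [.zero,
  .zero,
  .zero,
  .zero,
  .zero,
  .zero,
  .zero,
  .zero,
  .zero,
  .zero,
  .zero,
  .zero,
  .zero,
  .zero,
  .zero,
  .zero,
  .zero,
  .zero,
  .zero,
  .zero,
  .zero,
  .zero,
  .zero,
  .zero,
  .zero,
  .zero,
  .zero,
  .zero,
  .zero,
  .zero,
  .zero,
  .zero,
  .zero,
  .zero,
  .zero,
  .zero,
  .zero,
  .zero,
  .zero,
  .zero,
  .zero,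
  .zero,
  .zero,
  .zero,
  .zero,
  .zero,
  .zero,
  .zero,
  .zero,
  .zero,
  .zero,
  .zero,
  .zero,
  .zero,
  .zero,
  .zero,
  .zero,
  .zero,
  .zero,
  .zero,
  .zero,
  .zero,
  .zero,
  .zero,
  .zero,
  .zero,
  .zero,
  .zero,
  .zero,
  .zero,
  .zero,
  .zero,
  .zero,
  .zero,
  .zero,
  .zero,
  .zero,
  .zero,
  .zero,
  .zero,
  .zero,
  .zero,
  .zero,
  .zero,
  .zero,
  (.leaf (nat_lit 0) (nat_lit 0) (nat_lit 0)),
  (.leaf (nat_lit 0) (nat_lit 1) (nat_lit 0)),
  (.add (.leaf (nat_lit 0) (nat_lit 5) (nat_lit 0)) (.leaf (nat_lit 1) (nat_lit 0) (nat_lit 0))),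
  (.leaf (nat_lit 1) (nat_lit 1) (nat_lit 0)),
  (.add (.leaf (nat_lit 0) (nat_lit 2) (nat_lit 0)) (.add (.leaf (nat_lit 1) (nat_lit 5) (nat_lit 0)) (.leaf (nat_lit 2) (nat_lit 0) (nat_lit 0)))),
  (.add (.leaf (nat_lit 0) (nat_lit 6) (nat_lit 0)) (.leaf (nat_lit 2) (nat_lit 1) (nat_lit 0)))]

theorem m56_eq : m56 = ofL m56_t := rfl

noncomputable def d57_0 : DL := (DL.cons (nat_lit 8590000129) (nat_lit 268435456)
  (DL.cons (nat_lit 8) (nat_lit 0xfffff0000000)
  (DL.cons (nat_lit 0) (nat_lit 0)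
  (DL.cons (nat_lit 0) (nat_lit 0)
  (DL.cons (nat_lit 0) (nat_lit 0)
  (DL.cons (nat_lit 131072) (nat_lit 0xfffff0000000)
  DL.nil))))))

noncomputable def d57_1 : DL := (DL.cons (nat_lit 65542) (nat_lit 268435456)
  (DL.cons (nat_lit 7) (nat_lit 0xfffff0000000)
  DL.nil))

noncomputable def d57_2 : DL := (DL.cons (nat_lit 6) (nat_lit 16777200)
  (DL.cons (nat_lit 1) (nat_lit 16777200)
  (DL.cons (nat_lit 0) (nat_lit 0)
  (DL.cons (nat_lit 0) (nat_lit 0)
  (DL.cons (nat_lit 0) (nat_lit 0)
  (DL.cons (nat_lit 2) (nat_lit 0xfffff0000000)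
  DL.nil))))))

noncomputable def d57 : DLL := (DLL.cons d57_0
  (DLL.cons d57_1
  (DLL.cons d57_2
  DLL.nil)))

noncomputable def m57 : TL := (TL.cons ⟨fun _ => nat_lit 0⟩
  (TL.cons ⟨fun _ => nat_lit 0⟩
  (TL.cons ⟨fun _ => nat_lit 0⟩
  (TL.cons ⟨fun _ => nat_lit 0⟩
  (TL.cons ⟨fun _ => nat_lit 0⟩
  (TL.cons ⟨fun _ => nat_lit 0⟩
  (TL.cons ⟨fun _ => nat_lit 0⟩
  (TL.cons ⟨fun _ => nat_lit 0⟩
  (TL.cons ⟨fun _ => nat_lit 0⟩
  (TL.cons ⟨fun _ => nat_lit 0⟩
  (TL.cons ⟨fun _ => nat_lit 0⟩
  (TL.cons ⟨fun _ => nat_lit 0⟩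
  (TL.cons ⟨fun _ => nat_lit 0⟩
  (TL.cons ⟨fun _ => nat_lit 0⟩
  (TL.cons ⟨fun _ => nat_lit 0⟩
  (TL.cons ⟨fun _ => nat_lit 0⟩
  (TL.cons ⟨fun _ => nat_lit 0⟩
  (TL.cons ⟨fun _ => nat_lit 0⟩
  (TL.cons ⟨fun _ => nat_lit 0⟩
  (TL.cons ⟨fun _ => nat_lit 0⟩
  (TL.cons ⟨fun _ => nat_lit 0⟩
  (TL.cons ⟨fun _ => nat_lit 0⟩
  (TL.cons ⟨fun _ => nat_lit 0⟩
  (TL.cons ⟨fun _ => nat_lit 0⟩
  (TL.cons ⟨fun _ => nat_lit 0⟩
  (TL.cons ⟨fun _ => nat_lit 0⟩
  (TL.cons ⟨fun _ => nat_lit 0⟩
  (TL.cons ⟨fun _ => nat_lit 0⟩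
  (TL.cons ⟨fun _ => nat_lit 0⟩
  (TL.cons ⟨fun _ => nat_lit 0⟩
  (TL.cons ⟨fun _ => nat_lit 0⟩
  (TL.cons ⟨fun _ => nat_lit 0⟩
  (TL.cons ⟨fun _ => nat_lit 0⟩
  (TL.cons ⟨fun _ => nat_lit 0⟩
  (TL.cons ⟨fun _ => nat_lit 0⟩
  (TL.cons ⟨fun _ => nat_lit 0⟩
  (TL.cons ⟨fun _ => nat_lit 0⟩
  (TL.cons ⟨fun _ => nat_lit 0⟩
  (TL.cons ⟨fun _ => nat_lit 0⟩
  (TL.cons ⟨fun _ => nat_lit 0⟩
  (TL.cons ⟨fun _ => nat_lit 0⟩
  (TL.cons ⟨fun _ => nat_lit 0⟩
  (TL.cons ⟨fun _ => nat_lit 0⟩
  (TL.cons ⟨fun _ => nat_lit 0⟩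
  (TL.cons ⟨fun _ => nat_lit 0⟩
  (TL.cons ⟨fun _ => nat_lit 0⟩
  (TL.cons ⟨fun _ => nat_lit 0⟩
  (TL.cons ⟨fun _ => nat_lit 0⟩
  (TL.cons ⟨fun _ => nat_lit 0⟩
  (TL.cons ⟨fun _ => nat_lit 0⟩
  (TL.cons ⟨fun _ => nat_lit 0⟩
  (TL.cons ⟨fun _ => nat_lit 0⟩
  (TL.cons ⟨fun _ => nat_lit 0⟩
  (TL.cons ⟨fun _ => nat_lit 0⟩
  (TL.cons ⟨fun _ => nat_lit 0⟩
  (TL.cons ⟨fun _ => nat_lit 0⟩
  (TL.cons ⟨fun _ => nat_lit 0⟩
  (TL.cons ⟨fun _ => nat_lit 0⟩
  (TL.cons ⟨fun _ => nat_lit 0⟩
  (TL.cons ⟨fun _ => nat_lit 0⟩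
  (TL.cons ⟨fun _ => nat_lit 0⟩
  (TL.cons ⟨fun _ => nat_lit 0⟩
  (TL.cons ⟨fun _ => nat_lit 0⟩
  (TL.cons ⟨fun _ => nat_lit 0⟩
  (TL.cons ⟨fun _ => nat_lit 0⟩
  (TL.cons ⟨fun _ => nat_lit 0⟩
  (TL.cons ⟨fun _ => nat_lit 0⟩
  (TL.cons ⟨fun _ => nat_lit 0⟩
  (TL.cons ⟨fun _ => nat_lit 0⟩
  (TL.cons ⟨fun _ => nat_lit 0⟩
  (TL.cons ⟨fun _ => nat_lit 0⟩
  (TL.cons ⟨fun _ => nat_lit 0⟩
  (TL.cons ⟨fun _ => nat_lit 0⟩
  (TL.cons ⟨fun _ => nat_lit 0⟩
  (TL.cons ⟨fun _ => nat_lit 0⟩
  (TL.cons ⟨fun _ => nat_lit 0⟩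
  (TL.cons ⟨fun _ => nat_lit 0⟩
  (TL.cons ⟨fun _ => nat_lit 0⟩
  (TL.cons ⟨fun _ => nat_lit 0⟩
  (TL.cons ⟨fun _ => nat_lit 0⟩
  (TL.cons ⟨fun _ => nat_lit 0⟩
  (TL.cons ⟨fun _ => nat_lit 0⟩
  (TL.cons ⟨fun _ => nat_lit 0⟩
  (TL.cons ⟨fun _ => nat_lit 0⟩
  (TL.cons ⟨fun _ => nat_lit 0⟩
  (TL.cons ⟨fun _ => nat_lit 0⟩
  (TL.cons ⟨fun _ => nat_lit 0⟩
  (TL.cons ⟨fun x => (x (nat_lit 0) (nat_lit 0) (nat_lit 0))⟩
  (TL.cons ⟨fun x => (x (nat_lit 0) (nat_lit 1) (nat_lit 0))⟩
  (TL.cons ⟨fun x => (Nat.add (x (nat_lit 0) (nat_lit 5) (nat_lit 0)) (x (nat_lit 1) (nat_lit 0) (nat_lit 0)))⟩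
  (TL.cons ⟨fun x => (x (nat_lit 1) (nat_lit 1) (nat_lit 0))⟩
  TL.nil)))))))))))))))))))))))))))))))))))))))))))))))))))))))))))))))))))))))))))))))))))))))))))

noncomputable def m57_t : List TT := [.zero,
  .zero,
  .zero,
  .zero,
  .zero,
  .zero,
  .zero,
  .zero,
  .zero,
  .zero,
  .zero,
  .zero,
  .zero,
  .zero,
  .zero,
  .zero,
  .zero,
  .zero,
  .zero,
  .zero,
  .zero,
  .zero,
  .zero,
  .zero,
  .zero,
  .zero,
  .zero,
  .zero,
  .zero,
  .zero,
  .zero,
  .zero,
  .zero,
  .zero,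
  .zero,
  .zero,
  .zero,
  .zero,
  .zero,
  .zero,
  .zero,
  .zero,
  .zero,
  .zero,
  .zero,
  .zero,
  .zero,
  .zero,
  .zero,
  .zero,
  .zero,
  .zero,
  .zero,
  .zero,
  .zero,
  .zero,
  .zero,
  .zero,
  .zero,
  .zero,
  .zero,
  .zero,
  .zero,
  .zero,
  .zero,
  .zero,
  .zero,
  .zero,
  .zero,
  .zero,
  .zero,
  .zero,
  .zero,
  .zero,
  .zero,
  .zero,
  .zero,
  .zero,
  .zero,
  .zero,
  .zero,
  .zero,
  .zero,
  .zero,
  .zero,
  .zero,
  .zero,
  (.leaf (nat_lit 0) (nat_lit 0) (nat_lit 0)),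
  (.leaf (nat_lit 0) (nat_lit 1) (nat_lit 0)),
  (.add (.leaf (nat_lit 0) (nat_lit 5) (nat_lit 0)) (.leaf (nat_lit 1) (nat_lit 0) (nat_lit 0))),
  (.leaf (nat_lit 1) (nat_lit 1) (nat_lit 0))]

theorem m57_eq : m57 = ofL m57_t := rfl

noncomputable def d58_0 : DL := (DL.cons (nat_lit 458753) (nat_lit 268435456)
  DL.nil)

noncomputable def d58_1 : DL := (DL.cons (nat_lit 1) (nat_lit 16777200)
  (DL.cons (nat_lit 4) (nat_lit 0xfffff0000000)
  DL.nil))

noncomputable def d58 : DLL := (DLL.cons d58_0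
  (DLL.cons d58_1
  DLL.nil))

noncomputable def m58 : TL := (TL.cons ⟨fun _ => nat_lit 0⟩
  (TL.cons ⟨fun _ => nat_lit 0⟩
  (TL.cons ⟨fun _ => nat_lit 0⟩
  (TL.cons ⟨fun _ => nat_lit 0⟩
  (TL.cons ⟨fun _ => nat_lit 0⟩
  (TL.cons ⟨fun _ => nat_lit 0⟩
  (TL.cons ⟨fun _ => nat_lit 0⟩
  (TL.cons ⟨fun _ => nat_lit 0⟩
  (TL.cons ⟨fun _ => nat_lit 0⟩
  (TL.cons ⟨fun _ => nat_lit 0⟩
  (TL.cons ⟨fun _ => nat_lit 0⟩
  (TL.cons ⟨fun _ => nat_lit 0⟩
  (TL.cons ⟨fun _ => nat_lit 0⟩
  (TL.cons ⟨fun _ => nat_lit 0⟩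
  (TL.cons ⟨fun _ => nat_lit 0⟩
  (TL.cons ⟨fun _ => nat_lit 0⟩
  (TL.cons ⟨fun _ => nat_lit 0⟩
  (TL.cons ⟨fun _ => nat_lit 0⟩
  (TL.cons ⟨fun _ => nat_lit 0⟩
  (TL.cons ⟨fun _ => nat_lit 0⟩
  (TL.cons ⟨fun _ => nat_lit 0⟩
  (TL.cons ⟨fun _ => nat_lit 0⟩
  (TL.cons ⟨fun _ => nat_lit 0⟩
  (TL.cons ⟨fun _ => nat_lit 0⟩
  (TL.cons ⟨fun _ => nat_lit 0⟩
  (TL.cons ⟨fun _ => nat_lit 0⟩
  (TL.cons ⟨fun _ => nat_lit 0⟩
  (TL.cons ⟨fun _ => nat_lit 0⟩
  (TL.cons ⟨fun _ => nat_lit 0⟩
  (TL.cons ⟨fun _ => nat_lit 0⟩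
  (TL.cons ⟨fun _ => nat_lit 0⟩
  (TL.cons ⟨fun _ => nat_lit 0⟩
  (TL.cons ⟨fun _ => nat_lit 0⟩
  (TL.cons ⟨fun _ => nat_lit 0⟩
  (TL.cons ⟨fun _ => nat_lit 0⟩
  (TL.cons ⟨fun _ => nat_lit 0⟩
  (TL.cons ⟨fun _ => nat_lit 0⟩
  (TL.cons ⟨fun _ => nat_lit 0⟩
  (TL.cons ⟨fun _ => nat_lit 0⟩
  (TL.cons ⟨fun _ => nat_lit 0⟩
  (TL.cons ⟨fun _ => nat_lit 0⟩
  (TL.cons ⟨fun _ => nat_lit 0⟩
  (TL.cons ⟨fun _ => nat_lit 0⟩
  (TL.cons ⟨fun _ => nat_lit 0⟩
  (TL.cons ⟨fun _ => nat_lit 0⟩
  (TL.cons ⟨fun _ => nat_lit 0⟩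
  (TL.cons ⟨fun _ => nat_lit 0⟩
  (TL.cons ⟨fun _ => nat_lit 0⟩
  (TL.cons ⟨fun _ => nat_lit 0⟩
  (TL.cons ⟨fun _ => nat_lit 0⟩
  (TL.cons ⟨fun _ => nat_lit 0⟩
  (TL.cons ⟨fun _ => nat_lit 0⟩
  (TL.cons ⟨fun _ => nat_lit 0⟩
  (TL.cons ⟨fun _ => nat_lit 0⟩
  (TL.cons ⟨fun _ => nat_lit 0⟩
  (TL.cons ⟨fun _ => nat_lit 0⟩
  (TL.cons ⟨fun _ => nat_lit 0⟩
  (TL.cons ⟨fun _ => nat_lit 0⟩
  (TL.cons ⟨fun _ => nat_lit 0⟩
  (TL.cons ⟨fun _ => nat_lit 0⟩
  (TL.cons ⟨fun _ => nat_lit 0⟩
  (TL.cons ⟨fun _ => nat_lit 0⟩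
  (TL.cons ⟨fun _ => nat_lit 0⟩
  (TL.cons ⟨fun _ => nat_lit 0⟩
  (TL.cons ⟨fun _ => nat_lit 0⟩
  (TL.cons ⟨fun _ => nat_lit 0⟩
  (TL.cons ⟨fun _ => nat_lit 0⟩
  (TL.cons ⟨fun _ => nat_lit 0⟩
  (TL.cons ⟨fun _ => nat_lit 0⟩
  (TL.cons ⟨fun _ => nat_lit 0⟩
  (TL.cons ⟨fun _ => nat_lit 0⟩
  (TL.cons ⟨fun _ => nat_lit 0⟩
  (TL.cons ⟨fun _ => nat_lit 0⟩
  (TL.cons ⟨fun _ => nat_lit 0⟩
  (TL.cons ⟨fun _ => nat_lit 0⟩
  (TL.cons ⟨fun _ => nat_lit 0⟩
  (TL.cons ⟨fun _ => nat_lit 0⟩
  (TL.cons ⟨fun _ => nat_lit 0⟩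
  (TL.cons ⟨fun _ => nat_lit 0⟩
  (TL.cons ⟨fun _ => nat_lit 0⟩
  (TL.cons ⟨fun _ => nat_lit 0⟩
  (TL.cons ⟨fun _ => nat_lit 0⟩
  (TL.cons ⟨fun _ => nat_lit 0⟩
  (TL.cons ⟨fun _ => nat_lit 0⟩
  (TL.cons ⟨fun _ => nat_lit 0⟩
  (TL.cons ⟨fun _ => nat_lit 0⟩
  (TL.cons ⟨fun _ => nat_lit 0⟩
  (TL.cons ⟨fun _ => nat_lit 0⟩
  (TL.cons ⟨fun x => (x (nat_lit 0) (nat_lit 0) (nat_lit 0))⟩
  (TL.cons ⟨fun x => (x (nat_lit 0) (nat_lit 1) (nat_lit 0))⟩
  (TL.cons ⟨fun x => (Nat.add (x (nat_lit 0) (nat_lit 5) (nat_lit 0)) (x (nat_lit 1) (nat_lit 0) (nat_lit 0)))⟩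
  TL.nil)))))))))))))))))))))))))))))))))))))))))))))))))))))))))))))))))))))))))))))))))))))))))))

noncomputable def m58_t : List TT := [.zero,
  .zero,
  .zero,
  .zero,
  .zero,
  .zero,
  .zero,
  .zero,
  .zero,
  .zero,
  .zero,
  .zero,
  .zero,
  .zero,
  .zero,
  .zero,
  .zero,
  .zero,
  .zero,
  .zero,
  .zero,
  .zero,
  .zero,
  .zero,
  .zero,
  .zero,
  .zero,
  .zero,
  .zero,
  .zero,
  .zero,
  .zero,
  .zero,
  .zero,
  .zero,
  .zero,
  .zero,
  .zero,
  .zero,
  .zero,
  .zero,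
  .zero,
  .zero,
  .zero,
  .zero,
  .zero,
  .zero,
  .zero,
  .zero,
  .zero,
  .zero,
  .zero,
  .zero,
  .zero,
  .zero,
  .zero,
  .zero,
  .zero,
  .zero,
  .zero,
  .zero,
  .zero,
  .zero,
  .zero,
  .zero,
  .zero,
  .zero,
  .zero,
  .zero,
  .zero,
  .zero,
  .zero,
  .zero,
  .zero,
  .zero,
  .zero,
  .zero,
  .zero,
  .zero,
  .zero,
  .zero,
  .zero,
  .zero,
  .zero,
  .zero,
  .zero,
  .zero,
  .zero,
  (.leaf (nat_lit 0) (nat_lit 0) (nat_lit 0)),
  (.leaf (nat_lit 0) (nat_lit 1) (nat_lit 0)),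
  (.add (.leaf (nat_lit 0) (nat_lit 5) (nat_lit 0)) (.leaf (nat_lit 1) (nat_lit 0) (nat_lit 0)))]

theorem m58_eq : m58 = ofL m58_t := rfl

noncomputable def d59_0 : DL := (DL.cons (nat_lit 1) (nat_lit 0)
  DL.nil)

noncomputable def d59_1 : DL := (DL.cons (nat_lit 6) (nat_lit 0)
  DL.nil)

noncomputable def d59 : DLL := (DLL.cons d59_0
  (DLL.cons d59_1
  DLL.nil))

noncomputable def m59 : TL := (TL.cons ⟨fun _ => nat_lit 0⟩
  (TL.cons ⟨fun _ => nat_lit 0⟩
  (TL.cons ⟨fun _ => nat_lit 0⟩
  (TL.cons ⟨fun _ => nat_lit 0⟩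
  (TL.cons ⟨fun _ => nat_lit 0⟩
  (TL.cons ⟨fun _ => nat_lit 0⟩
  (TL.cons ⟨fun _ => nat_lit 0⟩
  (TL.cons ⟨fun _ => nat_lit 0⟩
  (TL.cons ⟨fun _ => nat_lit 0⟩
  (TL.cons ⟨fun _ => nat_lit 0⟩
  (TL.cons ⟨fun _ => nat_lit 0⟩
  (TL.cons ⟨fun _ => nat_lit 0⟩
  (TL.cons ⟨fun _ => nat_lit 0⟩
  (TL.cons ⟨fun _ => nat_lit 0⟩
  (TL.cons ⟨fun _ => nat_lit 0⟩
  (TL.cons ⟨fun _ => nat_lit 0⟩
  (TL.cons ⟨fun _ => nat_lit 0⟩
  (TL.cons ⟨fun _ => nat_lit 0⟩
  (TL.cons ⟨fun _ => nat_lit 0⟩
  (TL.cons ⟨fun _ => nat_lit 0⟩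
  (TL.cons ⟨fun _ => nat_lit 0⟩
  (TL.cons ⟨fun _ => nat_lit 0⟩
  (TL.cons ⟨fun _ => nat_lit 0⟩
  (TL.cons ⟨fun _ => nat_lit 0⟩
  (TL.cons ⟨fun _ => nat_lit 0⟩
  (TL.cons ⟨fun _ => nat_lit 0⟩
  (TL.cons ⟨fun _ => nat_lit 0⟩
  (TL.cons ⟨fun _ => nat_lit 0⟩
  (TL.cons ⟨fun _ => nat_lit 0⟩
  (TL.cons ⟨fun _ => nat_lit 0⟩
  (TL.cons ⟨fun _ => nat_lit 0⟩
  (TL.cons ⟨fun _ => nat_lit 0⟩
  (TL.cons ⟨fun _ => nat_lit 0⟩
  (TL.cons ⟨fun _ => nat_lit 0⟩
  (TL.cons ⟨fun _ => nat_lit 0⟩
  (TL.cons ⟨fun _ => nat_lit 0⟩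
  (TL.cons ⟨fun _ => nat_lit 0⟩
  (TL.cons ⟨fun _ => nat_lit 0⟩
  (TL.cons ⟨fun _ => nat_lit 0⟩
  (TL.cons ⟨fun _ => nat_lit 0⟩
  (TL.cons ⟨fun _ => nat_lit 0⟩
  (TL.cons ⟨fun _ => nat_lit 0⟩
  (TL.cons ⟨fun _ => nat_lit 0⟩
  (TL.cons ⟨fun _ => nat_lit 0⟩
  (TL.cons ⟨fun _ => nat_lit 0⟩
  (TL.cons ⟨fun _ => nat_lit 0⟩
  (TL.cons ⟨fun _ => nat_lit 0⟩
  (TL.cons ⟨fun _ => nat_lit 0⟩
  (TL.cons ⟨fun _ => nat_lit 0⟩
  (TL.cons ⟨fun _ => nat_lit 0⟩
  (TL.cons ⟨fun _ => nat_lit 0⟩
  (TL.cons ⟨fun _ => nat_lit 0⟩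
  (TL.cons ⟨fun _ => nat_lit 0⟩
  (TL.cons ⟨fun _ => nat_lit 0⟩
  (TL.cons ⟨fun _ => nat_lit 0⟩
  (TL.cons ⟨fun _ => nat_lit 0⟩
  (TL.cons ⟨fun _ => nat_lit 0⟩
  (TL.cons ⟨fun _ => nat_lit 0⟩
  (TL.cons ⟨fun _ => nat_lit 0⟩
  (TL.cons ⟨fun _ => nat_lit 0⟩
  (TL.cons ⟨fun _ => nat_lit 0⟩
  (TL.cons ⟨fun _ => nat_lit 0⟩
  (TL.cons ⟨fun _ => nat_lit 0⟩
  (TL.cons ⟨fun _ => nat_lit 0⟩
  (TL.cons ⟨fun _ => nat_lit 0⟩
  (TL.cons ⟨fun _ => nat_lit 0⟩
  (TL.cons ⟨fun _ => nat_lit 0⟩
  (TL.cons ⟨fun _ => nat_lit 0⟩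
  (TL.cons ⟨fun _ => nat_lit 0⟩
  (TL.cons ⟨fun _ => nat_lit 0⟩
  (TL.cons ⟨fun _ => nat_lit 0⟩
  (TL.cons ⟨fun _ => nat_lit 0⟩
  (TL.cons ⟨fun _ => nat_lit 0⟩
  (TL.cons ⟨fun _ => nat_lit 0⟩
  (TL.cons ⟨fun _ => nat_lit 0⟩
  (TL.cons ⟨fun _ => nat_lit 0⟩
  (TL.cons ⟨fun _ => nat_lit 0⟩
  (TL.cons ⟨fun _ => nat_lit 0⟩
  (TL.cons ⟨fun _ => nat_lit 0⟩
  (TL.cons ⟨fun _ => nat_lit 0⟩
  (TL.cons ⟨fun _ => nat_lit 0⟩
  (TL.cons ⟨fun _ => nat_lit 0⟩
  (TL.cons ⟨fun _ => nat_lit 0⟩
  (TL.cons ⟨fun _ => nat_lit 0⟩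
  (TL.cons ⟨fun _ => nat_lit 0⟩
  (TL.cons ⟨fun _ => nat_lit 0⟩
  (TL.cons ⟨fun _ => nat_lit 0⟩
  (TL.cons ⟨fun _ => nat_lit 0⟩
  (TL.cons ⟨fun _ => nat_lit 0⟩
  (TL.cons ⟨fun _ => nat_lit 0⟩
  (TL.cons ⟨fun x => (x (nat_lit 0) (nat_lit 0) (nat_lit 0))⟩
  TL.nil)))))))))))))))))))))))))))))))))))))))))))))))))))))))))))))))))))))))))))))))))))))))))))

noncomputable def m59_t : List TT := [.zero,
  .zero,
  .zero,
  .zero,
  .zero,
  .zero,
  .zero,
  .zero,
  .zero,
  .zero,
  .zero,
  .zero,
  .zero,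
  .zero,
  .zero,
  .zero,
  .zero,
  .zero,
  .zero,
  .zero,
  .zero,
  .zero,
  .zero,
  .zero,
  .zero,
  .zero,
  .zero,
  .zero,
  .zero,
  .zero,
  .zero,
  .zero,
  .zero,
  .zero,
  .zero,
  .zero,
  .zero,
  .zero,
  .zero,
  .zero,
  .zero,
  .zero,
  .zero,
  .zero,
  .zero,
  .zero,
  .zero,
  .zero,
  .zero,
  .zero,
  .zero,
  .zero,
  .zero,
  .zero,
  .zero,
  .zero,
  .zero,
  .zero,
  .zero,
  .zero,
  .zero,
  .zero,
  .zero,
  .zero,
  .zero,
  .zero,
  .zero,
  .zero,
  .zero,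
  .zero,
  .zero,
  .zero,
  .zero,
  .zero,
  .zero,
  .zero,
  .zero,
  .zero,
  .zero,
  .zero,
  .zero,
  .zero,
  .zero,
  .zero,
  .zero,
  .zero,
  .zero,
  .zero,
  .zero,
  .zero,
  (.leaf (nat_lit 0) (nat_lit 0) (nat_lit 0))]

theorem m59_eq : m59 = ofL m59_t := rfl

noncomputable def d60_0 : DL := DL.nil

noncomputable def d60 : DLL := (DLL.cons d60_0
  DLL.nil)

noncomputable def m60 : TL := TL.nil

noncomputable def m60_t : List TT := []

theorem m60_eq : m60 = ofL m60_t := rfl

end Vale.Agent.P236KE.S90
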