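import Vale.Agent.P236KE.Sph
import Vale.Agent.P236KE.S90.Deg
import Vale.Agent.P236KE.S90.D0
import Vale.Agent.P236KE.S90.D10
import Vale.Agent.P236KE.S90.D11
import Vale.Agent.P236KE.S90.D12
import Vale.Agent.P236KE.S90.D14
import Vale.Agent.P236KE.S90.D17
import Vale.Agent.P236KE.S90.D20
import Vale.Agent.P236KE.S90.D24
import Vale.Agent.P236KE.S90.D37
import Vale.Agent.P236KE.S90.D4
import Vale.Agent.P236KE.S90.D5
import Vale.Agent.P236KE.S90.D6
import Vale.Agent.P236KE.S90.D7
import Vale.Agent.P236KE.S90.D8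
import Vale.Agent.P236KE.S90.D9

/-!
# P236KE / the resolution of the unit (generated)
-/

set_option maxRecDepth 100000

namespace Vale.Agent.P236KE.S90

/-- the data of the resolution of the unit in weights at most 90 -/
noncomputable def sph : Sq := ⟨nn, [g0, g1, g2, g3, g4, g5, g6, g7, g8, g9, g10, g11, g12, g13, g14, g15, g16, g17, g18, g19, g20, g21, g22, g23, g24, g25, g26, g27, g28, g29, g30, g31, g32, g33, g34, g35, g36, g37, g38, g39, g40, g41, g42, g43, g44, g45, g46, g47, g48, g49, g50, g51, g52, g53, g54, g55, g56, g57, g58, g59, g60],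
  [d0, d1, d2, d3, d4, d5, d6, d7, d8, d9, d10, d11, d12, d13, d14, d15, d16, d17, d18, d19, d20, d21, d22, d23, d24, d25, d26, d27, d28, d29, d30, d31, d32, d33, d34, d35, d36, d37, d38, d39, d40, d41, d42, d43, d44, d45, d46, d47, d48, d49, d50, d51, d52, d53, d54, d55, d56, d57, d58, d59, d60], (nat_lit 23), (nat_lit 161), rfl⟩

end Vale.Agent.P236KE.S90
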