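import Vale.Agent.P236KE.S90.Cnt
import Vale.Agent.P236KE.S90.K17
import Vale.Agent.P236KE.S90.K18
import Vale.Agent.P236KE.S90.G3
import Vale.Agent.P236KE.S90.K19

/-!
# P236KE / assembly (generated)
-/

set_option maxRecDepth 100000

namespace Vale.Agent.P236KE.S90

theorem mid10 : midOk m10_t (sph.d 11) (sph.n 11) 90 = true := by decide +kernel

theorem lo10 (up : DLL) (dup : ℕ) : sph.Lo ⟨cf3, d10, up, m10, g10, dup, (nat_lit 23), (nat_lit 161), (nat_lit 90)⟩ 90 10 :=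
  ⟨rfl, rfl, rfl, rfl, rfl, rfl, ⟨_, m10_eq, mid10⟩,
    (by decide : 90 < 117), (by decide : 23 ≤ 32), (by decide : 161 ≤ 300)⟩

theorem kq10 : sph.KQ 90 10 :=
  ⟨_, _, lo10 d11 g12, rfl, rfl, (AllB.append k10_0 k10_1), by decide +kernel⟩

theorem cq10 : sph.CQ 90 zs hs ng cs 10 :=
  ⟨⟨_, _, lo10 e10 h10, rfl, g10_0, by decide +kernel, by decide +kernel⟩, by decide +kernel⟩

theorem ck10 : Vale.Agent.P236K2.ckD (2 ^ 28) (cs 11) (cs 10) (Sq.pn (sph.n 10) (sph.d 10) fun _ => []) 91 = true := by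
  decide +kernel

theorem mid11 : midOk m11_t (sph.d 12) (sph.n 12) 90 = true := by decide +kernel

theorem lo11 (up : DLL) (dup : ℕ) : sph.Lo ⟨cf3, d11, up, m11, g11, dup, (nat_lit 23), (nat_lit 161), (nat_lit 90)⟩ 90 11 :=
  ⟨rfl, rfl, rfl, rfl, rfl, rfl, ⟨_, m11_eq, mid11⟩,
    (by decide : 90 < 117), (by decide : 23 ≤ 32), (by decide : 161 ≤ 300)⟩

theorem kq11 : sph.KQ 90 11 :=
  ⟨_, _, lo11 d12 g13, rfl, rfl, (AllB.append k11_0 k11_1), by decide +kernel⟩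

theorem cq11 : sph.CQ 90 zs hs ng cs 11 :=
  ⟨⟨_, _, lo11 e11 h11, rfl, g11_0, by decide +kernel, by decide +kernel⟩, by decide +kernel⟩

theorem ck11 : Vale.Agent.P236K2.ckD (2 ^ 28) (cs 12) (cs 11) (Sq.pn (sph.n 11) (sph.d 11) fun _ => []) 91 = true := by
  decide +kernel

end Vale.Agent.P236KE.S90
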