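import Vale.Agent.P236KE.Cfg
import Vale.Agent.P236KE.S90.Deg
import Vale.Agent.P236KE.S90.D12
import Vale.Agent.P236KE.S90.Z10
import Vale.Agent.P236KE.S90.D14
import Vale.Agent.P236KE.S90.D17
import Vale.Agent.P236KE.S90.D20
import Vale.Agent.P236KE.S90.D24

/-!
# P236KE / checks (generated)
-/

set_option maxRecDepth 100000

namespace Vale.Agent.P236KE.S90

noncomputable def g12_1_l : List Gp := [⟨(nat_lit 3), (nat_lit 2), (nat_lit 86), (nat_lit 12), (nat_lit 1), (nat_lit 24), (nat_lit 90), (nat_lit 17), (nat_lit 204), (nat_lit 67)⟩,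
  ⟨(nat_lit 5), (nat_lit 4), (nat_lit 75), (nat_lit 11), (nat_lit 1), (nat_lit 28), (nat_lit 86), (nat_lit 15), (nat_lit 165), (nat_lit 59)⟩,
  ⟨(nat_lit 5), (nat_lit 2), (nat_lit 86), (nat_lit 12), (nat_lit 1), (nat_lit 28), (nat_lit 90), (nat_lit 16), (nat_lit 192), (nat_lit 63)⟩,
  ⟨(nat_lit 7), (nat_lit 2), (nat_lit 86), (nat_lit 12), (nat_lit 1), (nat_lit 32), (nat_lit 90), (nat_lit 15), (nat_lit 180), (nat_lit 59)⟩,
  ⟨(nat_lit 9), (nat_lit 1), (nat_lit 29), (nat_lit 29), (nat_lit 1), (nat_lit 36), (nat_lit 72), (nat_lit 10), (nat_lit 290), (nat_lit 37)⟩,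
  ⟨(nat_lit 10), (nat_lit 2), (nat_lit 29), (nat_lit 29), (nat_lit 1), (nat_lit 51), (nat_lit 72), (nat_lit 6), (nat_lit 174), (nat_lit 22)⟩,
  ⟨(nat_lit 9), (nat_lit 1), (nat_lit 58), (nat_lit 17), (nat_lit 1), (nat_lit 36), (nat_lit 81), (nat_lit 12), (nat_lit 204), (nat_lit 46)⟩,
  ⟨(nat_lit 9), (nat_lit 1), (nat_lit 75), (nat_lit 23), (nat_lit 1), (nat_lit 36), (nat_lit 90), (nat_lit 14), (nat_lit 322), (nat_lit 55)⟩,
  ⟨(nat_lit 10), (nat_lit 2), (nat_lit 58), (nat_lit 17), (nat_lit 1), (nat_lit 51), (nat_lit 81), (nat_lit 8), (nat_lit 136), (nat_lit 31)⟩,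
  ⟨(nat_lit 10), (nat_lit 2), (nat_lit 75), (nat_lit 23), (nat_lit 1), (nat_lit 51), (nat_lit 90), (nat_lit 10), (nat_lit 230), (nat_lit 40)⟩,
  ⟨(nat_lit 12), (nat_lit 14), (nat_lit 29), (nat_lit 29), (nat_lit 1), (nat_lit 55), (nat_lit 72), (nat_lit 5), (nat_lit 145), (nat_lit 18)⟩,
  ⟨(nat_lit 12), (nat_lit 6), (nat_lit 58), (nat_lit 17), (nat_lit 1), (nat_lit 55), (nat_lit 81), (nat_lit 7), (nat_lit 119), (nat_lit 27)⟩,
  ⟨(nat_lit 12), (nat_lit 6), (nat_lit 75), (nat_lit 23), (nat_lit 1), (nat_lit 55), (nat_lit 90), (nat_lit 9), (nat_lit 207), (nat_lit 36)⟩,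
  ⟨(nat_lit 18), (nat_lit 8), (nat_lit 58), (nat_lit 17), (nat_lit 1), (nat_lit 64), (nat_lit 81), (nat_lit 5), (nat_lit 85), (nat_lit 18)⟩,
  ⟨(nat_lit 18), (nat_lit 8), (nat_lit 75), (nat_lit 23), (nat_lit 1), (nat_lit 64), (nat_lit 90), (nat_lit 7), (nat_lit 161), (nat_lit 27)⟩,
  ⟨(nat_lit 26), (nat_lit 8), (nat_lit 59), (nat_lit 18), (nat_lit 1), (nat_lit 74), (nat_lit 82), (nat_lit 3), (nat_lit 54), (nat_lit 9)⟩,
  ⟨(nat_lit 26), (nat_lit 14), (nat_lit 77), (nat_lit 21), (nat_lit 1), (nat_lit 74), (nat_lit 90), (nat_lit 5), (nat_lit 105), (nat_lit 17)⟩]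

theorem g12_1 : AllB (okG ⟨cf3, d12, e12, m12, g12, h12, (nat_lit 23), (nat_lit 161), (nat_lit 90)⟩ z12) g12_1_l :=
  ⟨by decide +kernel,
  by decide +kernel,
  by decide +kernel,
  by decide +kernel,
  by decide +kernel,
  by decide +kernel,
  by decide +kernel,
  by decide +kernel,
  by decide +kernel,
  by decide +kernel,
  by decide +kernel,
  by decide +kernel,
  by decide +kernel,
  by decide +kernel,
  by decide +kernel,
  by decide +kernel,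
  by decide +kernel,
  trivial⟩

noncomputable def g13_0_l : List Gp := [⟨(nat_lit 0), (nat_lit 9), (nat_lit 0), (nat_lit 14), (nat_lit 1), (nat_lit 19), (nat_lit 38), (nat_lit 5), (nat_lit 70), (nat_lit 20)⟩,
  ⟨(nat_lit 0), (nat_lit 5), (nat_lit 14), (nat_lit 16), (nat_lit 1), (nat_lit 19), (nat_lit 55), (nat_lit 10), (nat_lit 160), (nat_lit 37)⟩,
  ⟨(nat_lit 5), (nat_lit 4), (nat_lit 14), (nat_lit 16), (nat_lit 1), (nat_lit 30), (nat_lit 55), (nat_lit 7), (nat_lit 112), (nat_lit 26)⟩,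
  ⟨(nat_lit 9), (nat_lit 3), (nat_lit 13), (nat_lit 17), (nat_lit 1), (nat_lit 38), (nat_lit 55), (nat_lit 5), (nat_lit 85), (nat_lit 18)⟩,
  ⟨(nat_lit 0), (nat_lit 3), (nat_lit 30), (nat_lit 13), (nat_lit 1), (nat_lit 19), (nat_lit 64), (nat_lit 12), (nat_lit 156), (nat_lit 46)⟩,
  ⟨(nat_lit 3), (nat_lit 2), (nat_lit 30), (nat_lit 13), (nat_lit 1), (nat_lit 25), (nat_lit 64), (nat_lit 10), (nat_lit 130), (nat_lit 40)⟩,
  ⟨(nat_lit 0), (nat_lit 3), (nat_lit 43), (nat_lit 14), (nat_lit 1), (nat_lit 19), (nat_lit 73), (nat_lit 14), (nat_lit 196), (nat_lit 55)⟩,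
  ⟨(nat_lit 3), (nat_lit 2), (nat_lit 43), (nat_lit 14), (nat_lit 1), (nat_lit 25), (nat_lit 73), (nat_lit 13), (nat_lit 182), (nat_lit 49)⟩,
  ⟨(nat_lit 5), (nat_lit 4), (nat_lit 30), (nat_lit 13), (nat_lit 1), (nat_lit 30), (nat_lit 64), (nat_lit 9), (nat_lit 117), (nat_lit 35)⟩,
  ⟨(nat_lit 5), (nat_lit 4), (nat_lit 43), (nat_lit 14), (nat_lit 1), (nat_lit 30), (nat_lit 73), (nat_lit 11), (nat_lit 154), (nat_lit 44)⟩,
  ⟨(nat_lit 0), (nat_lit 3), (nat_lit 57), (nat_lit 8), (nat_lit 1), (nat_lit 19), (nat_lit 78), (nat_lit 15), (nat_lit 120), (nat_lit 60)⟩,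
  ⟨(nat_lit 0), (nat_lit 3), (nat_lit 65), (nat_lit 9), (nat_lit 1), (nat_lit 19), (nat_lit 82), (nat_lit 16), (nat_lit 144), (nat_lit 64)⟩,
  ⟨(nat_lit 3), (nat_lit 2), (nat_lit 57), (nat_lit 17), (nat_lit 1), (nat_lit 25), (nat_lit 82), (nat_lit 15), (nat_lit 255), (nat_lit 58)⟩,
  ⟨(nat_lit 0), (nat_lit 3), (nat_lit 74), (nat_lit 10), (nat_lit 1), (nat_lit 19), (nat_lit 86), (nat_lit 17), (nat_lit 170), (nat_lit 68)⟩,
  ⟨(nat_lit 0), (nat_lit 2), (nat_lit 84), (nat_lit 9), (nat_lit 1), (nat_lit 19), (nat_lit 90), (nat_lit 18), (nat_lit 162), (nat_lit 72)⟩,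
  ⟨(nat_lit 2), (nat_lit 1), (nat_lit 84), (nat_lit 9), (nat_lit 1), (nat_lit 23), (nat_lit 90), (nat_lit 17), (nat_lit 153), (nat_lit 68)⟩,
  ⟨(nat_lit 3), (nat_lit 2), (nat_lit 74), (nat_lit 10), (nat_lit 1), (nat_lit 25), (nat_lit 86), (nat_lit 16), (nat_lit 160), (nat_lit 62)⟩,
  ⟨(nat_lit 3), (nat_lit 2), (nat_lit 84), (nat_lit 9), (nat_lit 1), (nat_lit 25), (nat_lit 90), (nat_lit 17), (nat_lit 153), (nat_lit 66)⟩,
  ⟨(nat_lit 5), (nat_lit 4), (nat_lit 57), (nat_lit 17), (nat_lit 1), (nat_lit 30), (nat_lit 82), (nat_lit 14), (nat_lit 238), (nat_lit 53)⟩,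
  ⟨(nat_lit 5), (nat_lit 4), (nat_lit 74), (nat_lit 10), (nat_lit 1), (nat_lit 30), (nat_lit 86), (nat_lit 15), (nat_lit 150), (nat_lit 57)⟩,
  ⟨(nat_lit 5), (nat_lit 4), (nat_lit 84), (nat_lit 9), (nat_lit 1), (nat_lit 30), (nat_lit 90), (nat_lit 16), (nat_lit 144), (nat_lit 61)⟩,
  ⟨(nat_lit 9), (nat_lit 3), (nat_lit 30), (nat_lit 27), (nat_lit 1), (nat_lit 38), (nat_lit 73), (nat_lit 9), (nat_lit 243), (nat_lit 36)⟩,
  ⟨(nat_lit 9), (nat_lit 1), (nat_lit 57), (nat_lit 17), (nat_lit 1), (nat_lit 38), (nat_lit 82), (nat_lit 12), (nat_lit 204), (nat_lit 45)⟩,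
  ⟨(nat_lit 9), (nat_lit 1), (nat_lit 74), (nat_lit 19), (nat_lit 1), (nat_lit 38), (nat_lit 90), (nat_lit 14), (nat_lit 266), (nat_lit 53)⟩,
  ⟨(nat_lit 10), (nat_lit 2), (nat_lit 57), (nat_lit 17), (nat_lit 1), (nat_lit 52), (nat_lit 82), (nat_lit 8), (nat_lit 136), (nat_lit 31)⟩,
  ⟨(nat_lit 10), (nat_lit 2), (nat_lit 74), (nat_lit 19), (nat_lit 1), (nat_lit 52), (nat_lit 90), (nat_lit 10), (nat_lit 190), (nat_lit 39)⟩,
  ⟨(nat_lit 12), (nat_lit 10), (nat_lit 31), (nat_lit 26), (nat_lit 1), (nat_lit 57), (nat_lit 73), (nat_lit 5), (nat_lit 130), (nat_lit 17)⟩,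
  ⟨(nat_lit 12), (nat_lit 10), (nat_lit 57), (nat_lit 17), (nat_lit 1), (nat_lit 57), (nat_lit 82), (nat_lit 7), (nat_lit 119), (nat_lit 26)⟩,
  ⟨(nat_lit 12), (nat_lit 5), (nat_lit 74), (nat_lit 19), (nat_lit 1), (nat_lit 57), (nat_lit 90), (nat_lit 9), (nat_lit 171), (nat_lit 34)⟩,
  ⟨(nat_lit 17), (nat_lit 5), (nat_lit 74), (nat_lit 19), (nat_lit 1), (nat_lit 65), (nat_lit 90), (nat_lit 7), (nat_lit 133), (nat_lit 26)⟩,
  ⟨(nat_lit 22), (nat_lit 12), (nat_lit 57), (nat_lit 36), (nat_lit 1), (nat_lit 74), (nat_lit 90), (nat_lit 5), (nat_lit 180), (nat_lit 17)⟩]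

theorem g13_0 : AllB (okG ⟨cf3, d13, e13, m13, g13, h13, (nat_lit 23), (nat_lit 161), (nat_lit 90)⟩ z13) g13_0_l :=
  ⟨by decide +kernel,
  by decide +kernel,
  by decide +kernel,
  by decide +kernel,
  by decide +kernel,
  by decide +kernel,
  by decide +kernel,
  by decide +kernel,
  by decide +kernel,
  by decide +kernel,
  by decide +kernel,
  by decide +kernel,
  by decide +kernel,
  by decide +kernel,
  by decide +kernel,
  by decide +kernel,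
  by decide +kernel,
  by decide +kernel,
  by decide +kernel,
  by decide +kernel,
  by decide +kernel,
  by decide +kernel,
  by decide +kernel,
  by decide +kernel,
  by decide +kernel,
  by decide +kernel,
  by decide +kernel,
  by decide +kernel,
  by decide +kernel,
  by decide +kernel,
  by decide +kernel,
  trivial⟩

noncomputable def g14_0_l : List Gp := [⟨(nat_lit 0), (nat_lit 10), (nat_lit 0), (nat_lit 14), (nat_lit 1), (nat_lit 21), (nat_lit 39), (nat_lit 5), (nat_lit 70), (nat_lit 19)⟩,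
  ⟨(nat_lit 0), (nat_lit 5), (nat_lit 14), (nat_lit 14), (nat_lit 1), (nat_lit 21), (nat_lit 56), (nat_lit 9), (nat_lit 126), (nat_lit 36)⟩,
  ⟨(nat_lit 5), (nat_lit 4), (nat_lit 14), (nat_lit 14), (nat_lit 1), (nat_lit 31), (nat_lit 56), (nat_lit 7), (nat_lit 98), (nat_lit 26)⟩,
  ⟨(nat_lit 9), (nat_lit 2), (nat_lit 14), (nat_lit 14), (nat_lit 1), (nat_lit 39), (nat_lit 56), (nat_lit 5), (nat_lit 70), (nat_lit 18)⟩,
  ⟨(nat_lit 0), (nat_lit 3), (nat_lit 28), (nat_lit 13), (nat_lit 1), (nat_lit 21), (nat_lit 65), (nat_lit 12), (nat_lit 156), (nat_lit 45)⟩,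
  ⟨(nat_lit 3), (nat_lit 2), (nat_lit 28), (nat_lit 13), (nat_lit 1), (nat_lit 27), (nat_lit 65), (nat_lit 10), (nat_lit 130), (nat_lit 39)⟩,
  ⟨(nat_lit 0), (nat_lit 3), (nat_lit 41), (nat_lit 15), (nat_lit 1), (nat_lit 21), (nat_lit 73), (nat_lit 14), (nat_lit 210), (nat_lit 53)⟩,
  ⟨(nat_lit 3), (nat_lit 2), (nat_lit 41), (nat_lit 15), (nat_lit 1), (nat_lit 27), (nat_lit 73), (nat_lit 12), (nat_lit 180), (nat_lit 47)⟩,
  ⟨(nat_lit 5), (nat_lit 4), (nat_lit 28), (nat_lit 13), (nat_lit 1), (nat_lit 31), (nat_lit 65), (nat_lit 9), (nat_lit 117), (nat_lit 35)⟩,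
  ⟨(nat_lit 5), (nat_lit 4), (nat_lit 41), (nat_lit 15), (nat_lit 1), (nat_lit 31), (nat_lit 73), (nat_lit 11), (nat_lit 165), (nat_lit 43)⟩,
  ⟨(nat_lit 0), (nat_lit 3), (nat_lit 56), (nat_lit 10), (nat_lit 1), (nat_lit 21), (nat_lit 78), (nat_lit 15), (nat_lit 150), (nat_lit 58)⟩,
  ⟨(nat_lit 0), (nat_lit 3), (nat_lit 66), (nat_lit 7), (nat_lit 1), (nat_lit 21), (nat_lit 82), (nat_lit 16), (nat_lit 112), (nat_lit 62)⟩,
  ⟨(nat_lit 3), (nat_lit 2), (nat_lit 56), (nat_lit 17), (nat_lit 1), (nat_lit 27), (nat_lit 82), (nat_lit 14), (nat_lit 238), (nat_lit 56)⟩,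
  ⟨(nat_lit 0), (nat_lit 3), (nat_lit 73), (nat_lit 8), (nat_lit 1), (nat_lit 21), (nat_lit 86), (nat_lit 17), (nat_lit 136), (nat_lit 66)⟩,
  ⟨(nat_lit 0), (nat_lit 3), (nat_lit 81), (nat_lit 8), (nat_lit 1), (nat_lit 21), (nat_lit 90), (nat_lit 18), (nat_lit 144), (nat_lit 70)⟩,
  ⟨(nat_lit 3), (nat_lit 2), (nat_lit 73), (nat_lit 16), (nat_lit 1), (nat_lit 27), (nat_lit 90), (nat_lit 16), (nat_lit 256), (nat_lit 64)⟩,
  ⟨(nat_lit 5), (nat_lit 4), (nat_lit 56), (nat_lit 17), (nat_lit 1), (nat_lit 31), (nat_lit 82), (nat_lit 13), (nat_lit 221), (nat_lit 52)⟩,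
  ⟨(nat_lit 5), (nat_lit 4), (nat_lit 73), (nat_lit 8), (nat_lit 1), (nat_lit 31), (nat_lit 86), (nat_lit 14), (nat_lit 112), (nat_lit 56)⟩,
  ⟨(nat_lit 5), (nat_lit 4), (nat_lit 81), (nat_lit 8), (nat_lit 1), (nat_lit 31), (nat_lit 90), (nat_lit 15), (nat_lit 120), (nat_lit 60)⟩,
  ⟨(nat_lit 9), (nat_lit 2), (nat_lit 28), (nat_lit 28), (nat_lit 1), (nat_lit 39), (nat_lit 73), (nat_lit 9), (nat_lit 252), (nat_lit 35)⟩,
  ⟨(nat_lit 9), (nat_lit 2), (nat_lit 56), (nat_lit 17), (nat_lit 1), (nat_lit 39), (nat_lit 82), (nat_lit 11), (nat_lit 187), (nat_lit 44)⟩,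
  ⟨(nat_lit 9), (nat_lit 1), (nat_lit 73), (nat_lit 16), (nat_lit 1), (nat_lit 39), (nat_lit 90), (nat_lit 13), (nat_lit 208), (nat_lit 52)⟩,
  ⟨(nat_lit 10), (nat_lit 1), (nat_lit 73), (nat_lit 16), (nat_lit 1), (nat_lit 54), (nat_lit 90), (nat_lit 10), (nat_lit 160), (nat_lit 37)⟩,
  ⟨(nat_lit 11), (nat_lit 11), (nat_lit 27), (nat_lit 29), (nat_lit 1), (nat_lit 56), (nat_lit 73), (nat_lit 5), (nat_lit 145), (nat_lit 18)⟩,
  ⟨(nat_lit 11), (nat_lit 5), (nat_lit 56), (nat_lit 17), (nat_lit 1), (nat_lit 56), (nat_lit 82), (nat_lit 7), (nat_lit 119), (nat_lit 27)⟩,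
  ⟨(nat_lit 11), (nat_lit 5), (nat_lit 73), (nat_lit 16), (nat_lit 1), (nat_lit 56), (nat_lit 90), (nat_lit 9), (nat_lit 144), (nat_lit 35)⟩,
  ⟨(nat_lit 16), (nat_lit 6), (nat_lit 56), (nat_lit 33), (nat_lit 1), (nat_lit 65), (nat_lit 90), (nat_lit 7), (nat_lit 231), (nat_lit 26)⟩,
  ⟨(nat_lit 22), (nat_lit 10), (nat_lit 59), (nat_lit 30), (nat_lit 1), (nat_lit 75), (nat_lit 90), (nat_lit 4), (nat_lit 120), (nat_lit 16)⟩]

theorem g14_0 : AllB (okG ⟨cf3, d14, e14, m14, g14, h14, (nat_lit 23), (nat_lit 161), (nat_lit 90)⟩ z14) g14_0_l :=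
  ⟨by decide +kernel,
  by decide +kernel,
  by decide +kernel,
  by decide +kernel,
  by decide +kernel,
  by decide +kernel,
  by decide +kernel,
  by decide +kernel,
  by decide +kernel,
  by decide +kernel,
  by decide +kernel,
  by decide +kernel,
  by decide +kernel,
  by decide +kernel,
  by decide +kernel,
  by decide +kernel,
  by decide +kernel,
  by decide +kernel,
  by decide +kernel,
  by decide +kernel,
  by decide +kernel,
  by decide +kernel,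
  by decide +kernel,
  by decide +kernel,
  by decide +kernel,
  by decide +kernel,
  by decide +kernel,
  by decide +kernel,
  trivial⟩

noncomputable def g15_0_l : List Gp := [⟨(nat_lit 0), (nat_lit 8), (nat_lit 0), (nat_lit 13), (nat_lit 1), (nat_lit 22), (nat_lit 40), (nat_lit 5), (nat_lit 65), (nat_lit 19)⟩,
  ⟨(nat_lit 0), (nat_lit 8), (nat_lit 13), (nat_lit 16), (nat_lit 1), (nat_lit 22), (nat_lit 57), (nat_lit 9), (nat_lit 144), (nat_lit 36)⟩,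
  ⟨(nat_lit 8), (nat_lit 3), (nat_lit 12), (nat_lit 17), (nat_lit 1), (nat_lit 39), (nat_lit 57), (nat_lit 5), (nat_lit 85), (nat_lit 19)⟩,
  ⟨(nat_lit 0), (nat_lit 4), (nat_lit 29), (nat_lit 13), (nat_lit 1), (nat_lit 22), (nat_lit 66), (nat_lit 12), (nat_lit 156), (nat_lit 45)⟩,
  ⟨(nat_lit 4), (nat_lit 4), (nat_lit 29), (nat_lit 13), (nat_lit 1), (nat_lit 30), (nat_lit 66), (nat_lit 10), (nat_lit 130), (nat_lit 37)⟩,
  ⟨(nat_lit 0), (nat_lit 4), (nat_lit 42), (nat_lit 11), (nat_lit 1), (nat_lit 22), (nat_lit 74), (nat_lit 14), (nat_lit 154), (nat_lit 53)⟩,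
  ⟨(nat_lit 4), (nat_lit 4), (nat_lit 42), (nat_lit 11), (nat_lit 1), (nat_lit 30), (nat_lit 74), (nat_lit 12), (nat_lit 132), (nat_lit 45)⟩,
  ⟨(nat_lit 0), (nat_lit 4), (nat_lit 53), (nat_lit 12), (nat_lit 1), (nat_lit 22), (nat_lit 82), (nat_lit 16), (nat_lit 192), (nat_lit 61)⟩,
  ⟨(nat_lit 0), (nat_lit 4), (nat_lit 65), (nat_lit 9), (nat_lit 1), (nat_lit 22), (nat_lit 86), (nat_lit 17), (nat_lit 153), (nat_lit 65)⟩,
  ⟨(nat_lit 0), (nat_lit 2), (nat_lit 74), (nat_lit 8), (nat_lit 1), (nat_lit 22), (nat_lit 90), (nat_lit 18), (nat_lit 144), (nat_lit 69)⟩,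
  ⟨(nat_lit 2), (nat_lit 2), (nat_lit 74), (nat_lit 8), (nat_lit 1), (nat_lit 26), (nat_lit 90), (nat_lit 17), (nat_lit 136), (nat_lit 65)⟩,
  ⟨(nat_lit 4), (nat_lit 2), (nat_lit 53), (nat_lit 12), (nat_lit 1), (nat_lit 30), (nat_lit 82), (nat_lit 14), (nat_lit 168), (nat_lit 53)⟩,
  ⟨(nat_lit 6), (nat_lit 2), (nat_lit 53), (nat_lit 12), (nat_lit 1), (nat_lit 35), (nat_lit 82), (nat_lit 12), (nat_lit 144), (nat_lit 48)⟩,
  ⟨(nat_lit 4), (nat_lit 2), (nat_lit 65), (nat_lit 17), (nat_lit 1), (nat_lit 30), (nat_lit 90), (nat_lit 16), (nat_lit 272), (nat_lit 61)⟩,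
  ⟨(nat_lit 6), (nat_lit 2), (nat_lit 65), (nat_lit 17), (nat_lit 1), (nat_lit 35), (nat_lit 90), (nat_lit 14), (nat_lit 238), (nat_lit 56)⟩,
  ⟨(nat_lit 8), (nat_lit 3), (nat_lit 29), (nat_lit 24), (nat_lit 1), (nat_lit 39), (nat_lit 74), (nat_lit 9), (nat_lit 216), (nat_lit 36)⟩,
  ⟨(nat_lit 8), (nat_lit 2), (nat_lit 53), (nat_lit 12), (nat_lit 1), (nat_lit 39), (nat_lit 82), (nat_lit 11), (nat_lit 132), (nat_lit 44)⟩,
  ⟨(nat_lit 8), (nat_lit 2), (nat_lit 65), (nat_lit 17), (nat_lit 1), (nat_lit 39), (nat_lit 90), (nat_lit 13), (nat_lit 221), (nat_lit 52)⟩,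
  ⟨(nat_lit 10), (nat_lit 1), (nat_lit 53), (nat_lit 29), (nat_lit 1), (nat_lit 55), (nat_lit 90), (nat_lit 9), (nat_lit 261), (nat_lit 36)⟩,
  ⟨(nat_lit 11), (nat_lit 10), (nat_lit 27), (nat_lit 25), (nat_lit 1), (nat_lit 57), (nat_lit 72), (nat_lit 4), (nat_lit 100), (nat_lit 16)⟩,
  ⟨(nat_lit 11), (nat_lit 10), (nat_lit 52), (nat_lit 13), (nat_lit 1), (nat_lit 57), (nat_lit 82), (nat_lit 7), (nat_lit 91), (nat_lit 26)⟩,
  ⟨(nat_lit 11), (nat_lit 4), (nat_lit 65), (nat_lit 17), (nat_lit 1), (nat_lit 57), (nat_lit 90), (nat_lit 9), (nat_lit 153), (nat_lit 34)⟩,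
  ⟨(nat_lit 15), (nat_lit 6), (nat_lit 65), (nat_lit 17), (nat_lit 1), (nat_lit 66), (nat_lit 90), (nat_lit 7), (nat_lit 119), (nat_lit 25)⟩,
  ⟨(nat_lit 21), (nat_lit 8), (nat_lit 52), (nat_lit 30), (nat_lit 1), (nat_lit 74), (nat_lit 90), (nat_lit 5), (nat_lit 150), (nat_lit 17)⟩]

theorem g15_0 : AllB (okG ⟨cf3, d15, e15, m15, g15, h15, (nat_lit 23), (nat_lit 161), (nat_lit 90)⟩ z15) g15_0_l :=
  ⟨by decide +kernel,
  by decide +kernel,
  by decide +kernel,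
  by decide +kernel,
  by decide +kernel,
  by decide +kernel,
  by decide +kernel,
  by decide +kernel,
  by decide +kernel,
  by decide +kernel,
  by decide +kernel,
  by decide +kernel,
  by decide +kernel,
  by decide +kernel,
  by decide +kernel,
  by decide +kernel,
  by decide +kernel,
  by decide +kernel,
  by decide +kernel,
  by decide +kernel,
  by decide +kernel,
  by decide +kernel,
  by decide +kernel,
  by decide +kernel,
  trivial⟩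

noncomputable def g16_0_l : List Gp := [⟨(nat_lit 0), (nat_lit 9), (nat_lit 0), (nat_lit 13), (nat_lit 1), (nat_lit 24), (nat_lit 40), (nat_lit 5), (nat_lit 65), (nat_lit 17)⟩,
  ⟨(nat_lit 0), (nat_lit 9), (nat_lit 13), (nat_lit 13), (nat_lit 1), (nat_lit 24), (nat_lit 57), (nat_lit 9), (nat_lit 117), (nat_lit 34)⟩,
  ⟨(nat_lit 9), (nat_lit 2), (nat_lit 13), (nat_lit 13), (nat_lit 1), (nat_lit 42), (nat_lit 57), (nat_lit 4), (nat_lit 52), (nat_lit 16)⟩,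
  ⟨(nat_lit 0), (nat_lit 5), (nat_lit 26), (nat_lit 10), (nat_lit 1), (nat_lit 24), (nat_lit 66), (nat_lit 11), (nat_lit 110), (nat_lit 43)⟩,
  ⟨(nat_lit 0), (nat_lit 5), (nat_lit 36), (nat_lit 15), (nat_lit 1), (nat_lit 24), (nat_lit 74), (nat_lit 13), (nat_lit 195), (nat_lit 51)⟩,
  ⟨(nat_lit 5), (nat_lit 4), (nat_lit 26), (nat_lit 10), (nat_lit 1), (nat_lit 34), (nat_lit 66), (nat_lit 9), (nat_lit 90), (nat_lit 33)⟩,
  ⟨(nat_lit 5), (nat_lit 4), (nat_lit 36), (nat_lit 15), (nat_lit 1), (nat_lit 34), (nat_lit 74), (nat_lit 11), (nat_lit 165), (nat_lit 41)⟩,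
  ⟨(nat_lit 0), (nat_lit 3), (nat_lit 51), (nat_lit 15), (nat_lit 1), (nat_lit 24), (nat_lit 82), (nat_lit 15), (nat_lit 225), (nat_lit 59)⟩,
  ⟨(nat_lit 3), (nat_lit 2), (nat_lit 51), (nat_lit 15), (nat_lit 1), (nat_lit 30), (nat_lit 82), (nat_lit 14), (nat_lit 210), (nat_lit 53)⟩,
  ⟨(nat_lit 0), (nat_lit 3), (nat_lit 66), (nat_lit 10), (nat_lit 1), (nat_lit 24), (nat_lit 90), (nat_lit 17), (nat_lit 170), (nat_lit 67)⟩,
  ⟨(nat_lit 3), (nat_lit 2), (nat_lit 66), (nat_lit 10), (nat_lit 1), (nat_lit 30), (nat_lit 90), (nat_lit 16), (nat_lit 160), (nat_lit 61)⟩,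
  ⟨(nat_lit 5), (nat_lit 4), (nat_lit 51), (nat_lit 15), (nat_lit 1), (nat_lit 34), (nat_lit 82), (nat_lit 13), (nat_lit 195), (nat_lit 49)⟩,
  ⟨(nat_lit 5), (nat_lit 4), (nat_lit 66), (nat_lit 10), (nat_lit 1), (nat_lit 34), (nat_lit 90), (nat_lit 15), (nat_lit 150), (nat_lit 57)⟩,
  ⟨(nat_lit 9), (nat_lit 2), (nat_lit 26), (nat_lit 25), (nat_lit 1), (nat_lit 42), (nat_lit 74), (nat_lit 9), (nat_lit 225), (nat_lit 33)⟩,
  ⟨(nat_lit 9), (nat_lit 1), (nat_lit 51), (nat_lit 25), (nat_lit 1), (nat_lit 42), (nat_lit 90), (nat_lit 13), (nat_lit 325), (nat_lit 49)⟩,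
  ⟨(nat_lit 10), (nat_lit 1), (nat_lit 51), (nat_lit 25), (nat_lit 1), (nat_lit 57), (nat_lit 90), (nat_lit 9), (nat_lit 225), (nat_lit 34)⟩,
  ⟨(nat_lit 11), (nat_lit 10), (nat_lit 27), (nat_lit 24), (nat_lit 1), (nat_lit 59), (nat_lit 74), (nat_lit 4), (nat_lit 96), (nat_lit 16)⟩,
  ⟨(nat_lit 11), (nat_lit 4), (nat_lit 51), (nat_lit 25), (nat_lit 1), (nat_lit 59), (nat_lit 90), (nat_lit 8), (nat_lit 200), (nat_lit 32)⟩,
  ⟨(nat_lit 15), (nat_lit 6), (nat_lit 51), (nat_lit 25), (nat_lit 1), (nat_lit 67), (nat_lit 90), (nat_lit 6), (nat_lit 150), (nat_lit 24)⟩,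
  ⟨(nat_lit 21), (nat_lit 5), (nat_lit 53), (nat_lit 23), (nat_lit 1), (nat_lit 76), (nat_lit 90), (nat_lit 4), (nat_lit 92), (nat_lit 15)⟩]

theorem g16_0 : AllB (okG ⟨cf3, d16, e16, m16, g16, h16, (nat_lit 23), (nat_lit 161), (nat_lit 90)⟩ z16) g16_0_l :=
  ⟨by decide +kernel,
  by decide +kernel,
  by decide +kernel,
  by decide +kernel,
  by decide +kernel,
  by decide +kernel,
  by decide +kernel,
  by decide +kernel,
  by decide +kernel,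
  by decide +kernel,
  by decide +kernel,
  by decide +kernel,
  by decide +kernel,
  by decide +kernel,
  by decide +kernel,
  by decide +kernel,
  by decide +kernel,
  by decide +kernel,
  by decide +kernel,
  by decide +kernel,
  trivial⟩

noncomputable def g17_0_l : List Gp := [⟨(nat_lit 0), (nat_lit 8), (nat_lit 0), (nat_lit 12), (nat_lit 1), (nat_lit 25), (nat_lit 41), (nat_lit 5), (nat_lit 60), (nat_lit 17)⟩,
  ⟨(nat_lit 0), (nat_lit 8), (nat_lit 12), (nat_lit 15), (nat_lit 1), (nat_lit 25), (nat_lit 58), (nat_lit 9), (nat_lit 135), (nat_lit 34)⟩,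
  ⟨(nat_lit 8), (nat_lit 3), (nat_lit 12), (nat_lit 15), (nat_lit 1), (nat_lit 42), (nat_lit 58), (nat_lit 5), (nat_lit 75), (nat_lit 17)⟩,
  ⟨(nat_lit 0), (nat_lit 5), (nat_lit 27), (nat_lit 9), (nat_lit 1), (nat_lit 25), (nat_lit 67), (nat_lit 11), (nat_lit 99), (nat_lit 43)⟩,
  ⟨(nat_lit 0), (nat_lit 5), (nat_lit 36), (nat_lit 11), (nat_lit 1), (nat_lit 25), (nat_lit 75), (nat_lit 13), (nat_lit 143), (nat_lit 51)⟩,
  ⟨(nat_lit 5), (nat_lit 5), (nat_lit 27), (nat_lit 9), (nat_lit 1), (nat_lit 36), (nat_lit 67), (nat_lit 8), (nat_lit 72), (nat_lit 32)⟩,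
  ⟨(nat_lit 5), (nat_lit 5), (nat_lit 36), (nat_lit 11), (nat_lit 1), (nat_lit 36), (nat_lit 75), (nat_lit 10), (nat_lit 110), (nat_lit 40)⟩,
  ⟨(nat_lit 0), (nat_lit 3), (nat_lit 47), (nat_lit 11), (nat_lit 1), (nat_lit 25), (nat_lit 83), (nat_lit 15), (nat_lit 165), (nat_lit 59)⟩,
  ⟨(nat_lit 3), (nat_lit 2), (nat_lit 47), (nat_lit 11), (nat_lit 1), (nat_lit 31), (nat_lit 83), (nat_lit 14), (nat_lit 154), (nat_lit 53)⟩,
  ⟨(nat_lit 0), (nat_lit 3), (nat_lit 58), (nat_lit 6), (nat_lit 1), (nat_lit 25), (nat_lit 87), (nat_lit 16), (nat_lit 96), (nat_lit 63)⟩,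
  ⟨(nat_lit 0), (nat_lit 3), (nat_lit 64), (nat_lit 7), (nat_lit 1), (nat_lit 25), (nat_lit 90), (nat_lit 17), (nat_lit 119), (nat_lit 66)⟩,
  ⟨(nat_lit 3), (nat_lit 2), (nat_lit 58), (nat_lit 13), (nat_lit 1), (nat_lit 31), (nat_lit 90), (nat_lit 15), (nat_lit 195), (nat_lit 60)⟩,
  ⟨(nat_lit 5), (nat_lit 5), (nat_lit 47), (nat_lit 11), (nat_lit 1), (nat_lit 36), (nat_lit 83), (nat_lit 12), (nat_lit 132), (nat_lit 48)⟩,
  ⟨(nat_lit 5), (nat_lit 3), (nat_lit 58), (nat_lit 13), (nat_lit 1), (nat_lit 36), (nat_lit 90), (nat_lit 14), (nat_lit 182), (nat_lit 55)⟩,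
  ⟨(nat_lit 8), (nat_lit 2), (nat_lit 58), (nat_lit 13), (nat_lit 1), (nat_lit 42), (nat_lit 90), (nat_lit 13), (nat_lit 169), (nat_lit 49)⟩,
  ⟨(nat_lit 10), (nat_lit 11), (nat_lit 27), (nat_lit 20), (nat_lit 1), (nat_lit 58), (nat_lit 75), (nat_lit 5), (nat_lit 100), (nat_lit 18)⟩,
  ⟨(nat_lit 10), (nat_lit 7), (nat_lit 47), (nat_lit 11), (nat_lit 1), (nat_lit 58), (nat_lit 83), (nat_lit 7), (nat_lit 77), (nat_lit 26)⟩,
  ⟨(nat_lit 10), (nat_lit 7), (nat_lit 58), (nat_lit 13), (nat_lit 1), (nat_lit 58), (nat_lit 90), (nat_lit 9), (nat_lit 117), (nat_lit 33)⟩,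
  ⟨(nat_lit 17), (nat_lit 7), (nat_lit 47), (nat_lit 24), (nat_lit 1), (nat_lit 71), (nat_lit 90), (nat_lit 5), (nat_lit 120), (nat_lit 20)⟩]

theorem g17_0 : AllB (okG ⟨cf3, d17, e17, m17, g17, h17, (nat_lit 23), (nat_lit 161), (nat_lit 90)⟩ z17) g17_0_l :=
  ⟨by decide +kernel,
  by decide +kernel,
  by decide +kernel,
  by decide +kernel,
  by decide +kernel,
  by decide +kernel,
  by decide +kernel,
  by decide +kernel,
  by decide +kernel,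
  by decide +kernel,
  by decide +kernel,
  by decide +kernel,
  by decide +kernel,
  by decide +kernel,
  by decide +kernel,
  by decide +kernel,
  by decide +kernel,
  by decide +kernel,
  by decide +kernel,
  trivial⟩

noncomputable def g18_0_l : List Gp := [⟨(nat_lit 0), (nat_lit 9), (nat_lit 0), (nat_lit 13), (nat_lit 1), (nat_lit 27), (nat_lit 43), (nat_lit 5), (nat_lit 65), (nat_lit 17)⟩,
  ⟨(nat_lit 0), (nat_lit 10), (nat_lit 13), (nat_lit 12), (nat_lit 1), (nat_lit 27), (nat_lit 59), (nat_lit 9), (nat_lit 108), (nat_lit 33)⟩,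
  ⟨(nat_lit 0), (nat_lit 5), (nat_lit 25), (nat_lit 8), (nat_lit 1), (nat_lit 27), (nat_lit 66), (nat_lit 10), (nat_lit 80), (nat_lit 40)⟩,
  ⟨(nat_lit 0), (nat_lit 3), (nat_lit 33), (nat_lit 15), (nat_lit 1), (nat_lit 27), (nat_lit 75), (nat_lit 13), (nat_lit 195), (nat_lit 49)⟩,
  ⟨(nat_lit 3), (nat_lit 2), (nat_lit 33), (nat_lit 15), (nat_lit 1), (nat_lit 33), (nat_lit 75), (nat_lit 11), (nat_lit 165), (nat_lit 43)⟩,
  ⟨(nat_lit 5), (nat_lit 5), (nat_lit 25), (nat_lit 8), (nat_lit 1), (nat_lit 37), (nat_lit 66), (nat_lit 8), (nat_lit 64), (nat_lit 30)⟩,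
  ⟨(nat_lit 5), (nat_lit 5), (nat_lit 33), (nat_lit 15), (nat_lit 1), (nat_lit 37), (nat_lit 75), (nat_lit 10), (nat_lit 150), (nat_lit 39)⟩,
  ⟨(nat_lit 0), (nat_lit 3), (nat_lit 48), (nat_lit 16), (nat_lit 1), (nat_lit 27), (nat_lit 83), (nat_lit 15), (nat_lit 240), (nat_lit 57)⟩,
  ⟨(nat_lit 3), (nat_lit 2), (nat_lit 48), (nat_lit 16), (nat_lit 1), (nat_lit 33), (nat_lit 83), (nat_lit 13), (nat_lit 208), (nat_lit 51)⟩,
  ⟨(nat_lit 0), (nat_lit 3), (nat_lit 64), (nat_lit 10), (nat_lit 1), (nat_lit 27), (nat_lit 90), (nat_lit 16), (nat_lit 160), (nat_lit 64)⟩,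
  ⟨(nat_lit 3), (nat_lit 2), (nat_lit 64), (nat_lit 10), (nat_lit 1), (nat_lit 33), (nat_lit 90), (nat_lit 15), (nat_lit 150), (nat_lit 58)⟩,
  ⟨(nat_lit 5), (nat_lit 5), (nat_lit 48), (nat_lit 16), (nat_lit 1), (nat_lit 37), (nat_lit 83), (nat_lit 12), (nat_lit 192), (nat_lit 47)⟩,
  ⟨(nat_lit 5), (nat_lit 3), (nat_lit 64), (nat_lit 10), (nat_lit 1), (nat_lit 37), (nat_lit 90), (nat_lit 14), (nat_lit 140), (nat_lit 54)⟩,
  ⟨(nat_lit 8), (nat_lit 2), (nat_lit 64), (nat_lit 10), (nat_lit 1), (nat_lit 43), (nat_lit 90), (nat_lit 12), (nat_lit 120), (nat_lit 48)⟩,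
  ⟨(nat_lit 10), (nat_lit 10), (nat_lit 25), (nat_lit 23), (nat_lit 1), (nat_lit 60), (nat_lit 75), (nat_lit 4), (nat_lit 92), (nat_lit 16)⟩,
  ⟨(nat_lit 10), (nat_lit 7), (nat_lit 48), (nat_lit 16), (nat_lit 1), (nat_lit 60), (nat_lit 83), (nat_lit 6), (nat_lit 96), (nat_lit 24)⟩,
  ⟨(nat_lit 10), (nat_lit 7), (nat_lit 64), (nat_lit 10), (nat_lit 1), (nat_lit 60), (nat_lit 90), (nat_lit 8), (nat_lit 80), (nat_lit 31)⟩,
  ⟨(nat_lit 17), (nat_lit 7), (nat_lit 48), (nat_lit 26), (nat_lit 1), (nat_lit 72), (nat_lit 90), (nat_lit 5), (nat_lit 130), (nat_lit 19)⟩]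

theorem g18_0 : AllB (okG ⟨cf3, d18, e18, m18, g18, h18, (nat_lit 23), (nat_lit 161), (nat_lit 90)⟩ z18) g18_0_l :=
  ⟨by decide +kernel,
  by decide +kernel,
  by decide +kernel,
  by decide +kernel,
  by decide +kernel,
  by decide +kernel,
  by decide +kernel,
  by decide +kernel,
  by decide +kernel,
  by decide +kernel,
  by decide +kernel,
  by decide +kernel,
  by decide +kernel,
  by decide +kernel,
  by decide +kernel,
  by decide +kernel,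
  by decide +kernel,
  by decide +kernel,
  trivial⟩

noncomputable def g19_0_l : List Gp := [⟨(nat_lit 0), (nat_lit 8), (nat_lit 0), (nat_lit 12), (nat_lit 1), (nat_lit 28), (nat_lit 44), (nat_lit 5), (nat_lit 60), (nat_lit 17)⟩,
  ⟨(nat_lit 0), (nat_lit 10), (nat_lit 12), (nat_lit 14), (nat_lit 1), (nat_lit 28), (nat_lit 58), (nat_lit 8), (nat_lit 112), (nat_lit 31)⟩,
  ⟨(nat_lit 0), (nat_lit 5), (nat_lit 26), (nat_lit 10), (nat_lit 1), (nat_lit 28), (nat_lit 68), (nat_lit 11), (nat_lit 110), (nat_lit 41)⟩,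
  ⟨(nat_lit 0), (nat_lit 5), (nat_lit 36), (nat_lit 11), (nat_lit 1), (nat_lit 28), (nat_lit 75), (nat_lit 12), (nat_lit 132), (nat_lit 48)⟩,
  ⟨(nat_lit 5), (nat_lit 5), (nat_lit 26), (nat_lit 10), (nat_lit 1), (nat_lit 39), (nat_lit 68), (nat_lit 8), (nat_lit 80), (nat_lit 30)⟩,
  ⟨(nat_lit 5), (nat_lit 5), (nat_lit 36), (nat_lit 11), (nat_lit 1), (nat_lit 39), (nat_lit 75), (nat_lit 10), (nat_lit 110), (nat_lit 37)⟩,
  ⟨(nat_lit 0), (nat_lit 3), (nat_lit 47), (nat_lit 11), (nat_lit 1), (nat_lit 28), (nat_lit 83), (nat_lit 14), (nat_lit 154), (nat_lit 56)⟩,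
  ⟨(nat_lit 3), (nat_lit 2), (nat_lit 47), (nat_lit 11), (nat_lit 1), (nat_lit 34), (nat_lit 83), (nat_lit 13), (nat_lit 143), (nat_lit 50)⟩,
  ⟨(nat_lit 0), (nat_lit 3), (nat_lit 58), (nat_lit 11), (nat_lit 1), (nat_lit 28), (nat_lit 90), (nat_lit 16), (nat_lit 176), (nat_lit 63)⟩,
  ⟨(nat_lit 3), (nat_lit 2), (nat_lit 58), (nat_lit 11), (nat_lit 1), (nat_lit 34), (nat_lit 90), (nat_lit 15), (nat_lit 165), (nat_lit 57)⟩,
  ⟨(nat_lit 5), (nat_lit 5), (nat_lit 47), (nat_lit 11), (nat_lit 1), (nat_lit 39), (nat_lit 83), (nat_lit 12), (nat_lit 132), (nat_lit 45)⟩,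
  ⟨(nat_lit 5), (nat_lit 5), (nat_lit 58), (nat_lit 11), (nat_lit 1), (nat_lit 39), (nat_lit 90), (nat_lit 13), (nat_lit 143), (nat_lit 52)⟩,
  ⟨(nat_lit 10), (nat_lit 9), (nat_lit 26), (nat_lit 21), (nat_lit 1), (nat_lit 61), (nat_lit 75), (nat_lit 4), (nat_lit 84), (nat_lit 15)⟩,
  ⟨(nat_lit 10), (nat_lit 7), (nat_lit 47), (nat_lit 22), (nat_lit 1), (nat_lit 61), (nat_lit 90), (nat_lit 8), (nat_lit 176), (nat_lit 30)⟩,
  ⟨(nat_lit 17), (nat_lit 7), (nat_lit 47), (nat_lit 22), (nat_lit 1), (nat_lit 74), (nat_lit 90), (nat_lit 5), (nat_lit 110), (nat_lit 17)⟩]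

theorem g19_0 : AllB (okG ⟨cf3, d19, e19, m19, g19, h19, (nat_lit 23), (nat_lit 161), (nat_lit 90)⟩ z19) g19_0_l :=
  ⟨by decide +kernel,
  by decide +kernel,
  by decide +kernel,
  by decide +kernel,
  by decide +kernel,
  by decide +kernel,
  by decide +kernel,
  by decide +kernel,
  by decide +kernel,
  by decide +kernel,
  by decide +kernel,
  by decide +kernel,
  by decide +kernel,
  by decide +kernel,
  by decide +kernel,
  trivial⟩

noncomputable def g20_0_l : List Gp := [⟨(nat_lit 0), (nat_lit 8), (nat_lit 0), (nat_lit 12), (nat_lit 1), (nat_lit 30), (nat_lit 45), (nat_lit 4), (nat_lit 48), (nat_lit 16)⟩,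
  ⟨(nat_lit 0), (nat_lit 10), (nat_lit 12), (nat_lit 12), (nat_lit 1), (nat_lit 30), (nat_lit 60), (nat_lit 8), (nat_lit 96), (nat_lit 31)⟩,
  ⟨(nat_lit 0), (nat_lit 5), (nat_lit 24), (nat_lit 9), (nat_lit 1), (nat_lit 30), (nat_lit 69), (nat_lit 10), (nat_lit 90), (nat_lit 40)⟩,
  ⟨(nat_lit 0), (nat_lit 5), (nat_lit 33), (nat_lit 12), (nat_lit 1), (nat_lit 30), (nat_lit 76), (nat_lit 12), (nat_lit 144), (nat_lit 47)⟩,
  ⟨(nat_lit 5), (nat_lit 5), (nat_lit 24), (nat_lit 9), (nat_lit 1), (nat_lit 40), (nat_lit 69), (nat_lit 8), (nat_lit 72), (nat_lit 30)⟩,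
  ⟨(nat_lit 5), (nat_lit 5), (nat_lit 33), (nat_lit 12), (nat_lit 1), (nat_lit 40), (nat_lit 76), (nat_lit 10), (nat_lit 120), (nat_lit 37)⟩,
  ⟨(nat_lit 0), (nat_lit 3), (nat_lit 45), (nat_lit 13), (nat_lit 1), (nat_lit 30), (nat_lit 83), (nat_lit 14), (nat_lit 182), (nat_lit 54)⟩,
  ⟨(nat_lit 3), (nat_lit 2), (nat_lit 45), (nat_lit 13), (nat_lit 1), (nat_lit 36), (nat_lit 83), (nat_lit 12), (nat_lit 156), (nat_lit 48)⟩,
  ⟨(nat_lit 0), (nat_lit 3), (nat_lit 58), (nat_lit 13), (nat_lit 1), (nat_lit 30), (nat_lit 90), (nat_lit 16), (nat_lit 208), (nat_lit 61)⟩,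
  ⟨(nat_lit 3), (nat_lit 2), (nat_lit 58), (nat_lit 13), (nat_lit 1), (nat_lit 36), (nat_lit 90), (nat_lit 14), (nat_lit 182), (nat_lit 55)⟩,
  ⟨(nat_lit 5), (nat_lit 5), (nat_lit 45), (nat_lit 13), (nat_lit 1), (nat_lit 40), (nat_lit 83), (nat_lit 11), (nat_lit 143), (nat_lit 44)⟩,
  ⟨(nat_lit 5), (nat_lit 5), (nat_lit 58), (nat_lit 13), (nat_lit 1), (nat_lit 40), (nat_lit 90), (nat_lit 13), (nat_lit 169), (nat_lit 51)⟩,
  ⟨(nat_lit 10), (nat_lit 9), (nat_lit 25), (nat_lit 20), (nat_lit 1), (nat_lit 63), (nat_lit 76), (nat_lit 4), (nat_lit 80), (nat_lit 14)⟩,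
  ⟨(nat_lit 10), (nat_lit 7), (nat_lit 45), (nat_lit 26), (nat_lit 1), (nat_lit 63), (nat_lit 90), (nat_lit 7), (nat_lit 182), (nat_lit 28)⟩,
  ⟨(nat_lit 17), (nat_lit 7), (nat_lit 45), (nat_lit 26), (nat_lit 1), (nat_lit 75), (nat_lit 90), (nat_lit 4), (nat_lit 104), (nat_lit 16)⟩]

theorem g20_0 : AllB (okG ⟨cf3, d20, e20, m20, g20, h20, (nat_lit 23), (nat_lit 161), (nat_lit 90)⟩ z20) g20_0_l :=
  ⟨by decide +kernel,
  by decide +kernel,
  by decide +kernel,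
  by decide +kernel,
  by decide +kernel,
  by decide +kernel,
  by decide +kernel,
  by decide +kernel,
  by decide +kernel,
  by decide +kernel,
  by decide +kernel,
  by decide +kernel,
  by decide +kernel,
  by decide +kernel,
  by decide +kernel,
  trivial⟩

noncomputable def g21_0_l : List Gp := [⟨(nat_lit 0), (nat_lit 8), (nat_lit 0), (nat_lit 12), (nat_lit 1), (nat_lit 31), (nat_lit 47), (nat_lit 5), (nat_lit 60), (nat_lit 17)⟩,
  ⟨(nat_lit 0), (nat_lit 10), (nat_lit 12), (nat_lit 14), (nat_lit 1), (nat_lit 31), (nat_lit 61), (nat_lit 8), (nat_lit 112), (nat_lit 31)⟩,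
  ⟨(nat_lit 0), (nat_lit 5), (nat_lit 26), (nat_lit 8), (nat_lit 1), (nat_lit 31), (nat_lit 70), (nat_lit 10), (nat_lit 80), (nat_lit 40)⟩,
  ⟨(nat_lit 0), (nat_lit 5), (nat_lit 34), (nat_lit 11), (nat_lit 1), (nat_lit 31), (nat_lit 77), (nat_lit 12), (nat_lit 132), (nat_lit 47)⟩,
  ⟨(nat_lit 5), (nat_lit 5), (nat_lit 26), (nat_lit 19), (nat_lit 1), (nat_lit 42), (nat_lit 77), (nat_lit 9), (nat_lit 171), (nat_lit 36)⟩,
  ⟨(nat_lit 0), (nat_lit 3), (nat_lit 45), (nat_lit 10), (nat_lit 1), (nat_lit 31), (nat_lit 84), (nat_lit 14), (nat_lit 140), (nat_lit 54)⟩,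
  ⟨(nat_lit 3), (nat_lit 2), (nat_lit 45), (nat_lit 10), (nat_lit 1), (nat_lit 37), (nat_lit 84), (nat_lit 12), (nat_lit 120), (nat_lit 48)⟩,
  ⟨(nat_lit 0), (nat_lit 5), (nat_lit 55), (nat_lit 9), (nat_lit 1), (nat_lit 31), (nat_lit 90), (nat_lit 15), (nat_lit 135), (nat_lit 60)⟩,
  ⟨(nat_lit 5), (nat_lit 5), (nat_lit 45), (nat_lit 10), (nat_lit 1), (nat_lit 42), (nat_lit 84), (nat_lit 11), (nat_lit 110), (nat_lit 43)⟩,
  ⟨(nat_lit 5), (nat_lit 5), (nat_lit 55), (nat_lit 9), (nat_lit 1), (nat_lit 42), (nat_lit 90), (nat_lit 13), (nat_lit 117), (nat_lit 49)⟩,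
  ⟨(nat_lit 10), (nat_lit 9), (nat_lit 26), (nat_lit 19), (nat_lit 1), (nat_lit 64), (nat_lit 77), (nat_lit 4), (nat_lit 76), (nat_lit 14)⟩,
  ⟨(nat_lit 10), (nat_lit 7), (nat_lit 45), (nat_lit 19), (nat_lit 1), (nat_lit 64), (nat_lit 90), (nat_lit 7), (nat_lit 133), (nat_lit 27)⟩,
  ⟨(nat_lit 17), (nat_lit 7), (nat_lit 45), (nat_lit 19), (nat_lit 1), (nat_lit 77), (nat_lit 90), (nat_lit 4), (nat_lit 76), (nat_lit 14)⟩]

theorem g21_0 : AllB (okG ⟨cf3, d21, e21, m21, g21, h21, (nat_lit 23), (nat_lit 161), (nat_lit 90)⟩ z21) g21_0_l :=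
  ⟨by decide +kernel,
  by decide +kernel,
  by decide +kernel,
  by decide +kernel,
  by decide +kernel,
  by decide +kernel,
  by decide +kernel,
  by decide +kernel,
  by decide +kernel,
  by decide +kernel,
  by decide +kernel,
  by decide +kernel,
  by decide +kernel,
  trivial⟩

noncomputable def g22_0_l : List Gp := [⟨(nat_lit 0), (nat_lit 8), (nat_lit 0), (nat_lit 12), (nat_lit 1), (nat_lit 33), (nat_lit 48), (nat_lit 4), (nat_lit 48), (nat_lit 16)⟩,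
  ⟨(nat_lit 0), (nat_lit 10), (nat_lit 12), (nat_lit 11), (nat_lit 1), (nat_lit 33), (nat_lit 62), (nat_lit 8), (nat_lit 88), (nat_lit 30)⟩,
  ⟨(nat_lit 0), (nat_lit 5), (nat_lit 23), (nat_lit 15), (nat_lit 1), (nat_lit 33), (nat_lit 76), (nat_lit 11), (nat_lit 165), (nat_lit 44)⟩,
  ⟨(nat_lit 5), (nat_lit 5), (nat_lit 23), (nat_lit 15), (nat_lit 1), (nat_lit 43), (nat_lit 76), (nat_lit 9), (nat_lit 135), (nat_lit 34)⟩,
  ⟨(nat_lit 0), (nat_lit 5), (nat_lit 38), (nat_lit 11), (nat_lit 1), (nat_lit 33), (nat_lit 83), (nat_lit 13), (nat_lit 143), (nat_lit 51)⟩,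
  ⟨(nat_lit 0), (nat_lit 3), (nat_lit 49), (nat_lit 15), (nat_lit 1), (nat_lit 33), (nat_lit 90), (nat_lit 15), (nat_lit 225), (nat_lit 58)⟩,
  ⟨(nat_lit 3), (nat_lit 2), (nat_lit 49), (nat_lit 15), (nat_lit 1), (nat_lit 39), (nat_lit 90), (nat_lit 13), (nat_lit 195), (nat_lit 52)⟩,
  ⟨(nat_lit 5), (nat_lit 5), (nat_lit 38), (nat_lit 11), (nat_lit 1), (nat_lit 43), (nat_lit 83), (nat_lit 11), (nat_lit 121), (nat_lit 41)⟩,
  ⟨(nat_lit 5), (nat_lit 5), (nat_lit 49), (nat_lit 15), (nat_lit 1), (nat_lit 43), (nat_lit 90), (nat_lit 12), (nat_lit 180), (nat_lit 48)⟩,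
  ⟨(nat_lit 10), (nat_lit 8), (nat_lit 25), (nat_lit 17), (nat_lit 1), (nat_lit 66), (nat_lit 78), (nat_lit 4), (nat_lit 68), (nat_lit 13)⟩,
  ⟨(nat_lit 10), (nat_lit 7), (nat_lit 42), (nat_lit 22), (nat_lit 1), (nat_lit 66), (nat_lit 90), (nat_lit 7), (nat_lit 154), (nat_lit 25)⟩,
  ⟨(nat_lit 17), (nat_lit 7), (nat_lit 42), (nat_lit 22), (nat_lit 1), (nat_lit 78), (nat_lit 90), (nat_lit 4), (nat_lit 88), (nat_lit 13)⟩]

theorem g22_0 : AllB (okG ⟨cf3, d22, e22, m22, g22, h22, (nat_lit 23), (nat_lit 161), (nat_lit 90)⟩ z22) g22_0_l :=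
  ⟨by decide +kernel,
  by decide +kernel,
  by decide +kernel,
  by decide +kernel,
  by decide +kernel,
  by decide +kernel,
  by decide +kernel,
  by decide +kernel,
  by decide +kernel,
  by decide +kernel,
  by decide +kernel,
  by decide +kernel,
  trivial⟩

noncomputable def g23_0_l : List Gp := [⟨(nat_lit 0), (nat_lit 8), (nat_lit 0), (nat_lit 11), (nat_lit 1), (nat_lit 34), (nat_lit 49), (nat_lit 4), (nat_lit 44), (nat_lit 16)⟩,
  ⟨(nat_lit 0), (nat_lit 10), (nat_lit 11), (nat_lit 14), (nat_lit 1), (nat_lit 34), (nat_lit 63), (nat_lit 8), (nat_lit 112), (nat_lit 30)⟩,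
  ⟨(nat_lit 0), (nat_lit 5), (nat_lit 25), (nat_lit 12), (nat_lit 1), (nat_lit 34), (nat_lit 77), (nat_lit 11), (nat_lit 132), (nat_lit 44)⟩,
  ⟨(nat_lit 5), (nat_lit 5), (nat_lit 25), (nat_lit 12), (nat_lit 1), (nat_lit 45), (nat_lit 77), (nat_lit 9), (nat_lit 108), (nat_lit 33)⟩,
  ⟨(nat_lit 0), (nat_lit 5), (nat_lit 37), (nat_lit 10), (nat_lit 1), (nat_lit 34), (nat_lit 84), (nat_lit 13), (nat_lit 130), (nat_lit 51)⟩,
  ⟨(nat_lit 0), (nat_lit 3), (nat_lit 47), (nat_lit 8), (nat_lit 1), (nat_lit 34), (nat_lit 90), (nat_lit 15), (nat_lit 120), (nat_lit 57)⟩,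
  ⟨(nat_lit 3), (nat_lit 2), (nat_lit 47), (nat_lit 8), (nat_lit 1), (nat_lit 40), (nat_lit 90), (nat_lit 13), (nat_lit 104), (nat_lit 51)⟩,
  ⟨(nat_lit 5), (nat_lit 5), (nat_lit 37), (nat_lit 10), (nat_lit 1), (nat_lit 45), (nat_lit 84), (nat_lit 10), (nat_lit 100), (nat_lit 40)⟩,
  ⟨(nat_lit 5), (nat_lit 5), (nat_lit 47), (nat_lit 8), (nat_lit 1), (nat_lit 45), (nat_lit 90), (nat_lit 12), (nat_lit 96), (nat_lit 46)⟩,
  ⟨(nat_lit 10), (nat_lit 7), (nat_lit 26), (nat_lit 12), (nat_lit 1), (nat_lit 67), (nat_lit 78), (nat_lit 3), (nat_lit 36), (nat_lit 12)⟩,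
  ⟨(nat_lit 10), (nat_lit 13), (nat_lit 38), (nat_lit 17), (nat_lit 1), (nat_lit 67), (nat_lit 90), (nat_lit 6), (nat_lit 102), (nat_lit 24)⟩]

theorem g23_0 : AllB (okG ⟨cf3, d23, e23, m23, g23, h23, (nat_lit 23), (nat_lit 161), (nat_lit 90)⟩ z23) g23_0_l :=
  ⟨by decide +kernel,
  by decide +kernel,
  by decide +kernel,
  by decide +kernel,
  by decide +kernel,
  by decide +kernel,
  by decide +kernel,
  by decide +kernel,
  by decide +kernel,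
  by decide +kernel,
  by decide +kernel,
  trivial⟩

noncomputable def g24_0_l : List Gp := [⟨(nat_lit 0), (nat_lit 10), (nat_lit 0), (nat_lit 22), (nat_lit 1), (nat_lit 36), (nat_lit 63), (nat_lit 7), (nat_lit 154), (nat_lit 28)⟩]

theorem g24_0 : AllB (okG ⟨cf3, d24, e24, m24, g24, h24, (nat_lit 23), (nat_lit 161), (nat_lit 90)⟩ z24) g24_0_l :=
  ⟨by decide +kernel,
  trivial⟩

end Vale.Agent.P236KE.S90
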