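import Vale.Agent.P236KE.S90.Cnt
import Vale.Agent.P236KE.S90.K19
import Vale.Agent.P236KE.S90.K20
import Vale.Agent.P236KE.S90.G3
import Vale.Agent.P236KE.S90.G4
import Vale.Agent.P236KE.S90.K21

/-!
# P236KE / assembly (generated)
-/

set_option maxRecDepth 100000

namespace Vale.Agent.P236KE.S90

theorem mid12 : midOk m12_t (sph.d 13) (sph.n 13) 90 = true := by decide +kernel

theorem lo12 (up : DLL) (dup : ℕ) : sph.Lo ⟨cf3, d12, up, m12, g12, dup, (nat_lit 23), (nat_lit 161), (nat_lit 90)⟩ 90 12 :=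
  ⟨rfl, rfl, rfl, rfl, rfl, rfl, ⟨_, m12_eq, mid12⟩,
    (by decide : 90 < 117), (by decide : 23 ≤ 32), (by decide : 161 ≤ 300)⟩

theorem kq12 : sph.KQ 90 12 :=
  ⟨_, _, lo12 d13 g14, rfl, rfl, (AllB.append k12_0 k12_1), by decide +kernel⟩

theorem cq12 : sph.CQ 90 zs hs ng cs 12 :=
  ⟨⟨_, _, lo12 e12 h12, rfl, (AllB.append g12_0 g12_1), by decide +kernel, by decide +kernel⟩, by decide +kernel⟩

theorem ck12 : Vale.Agent.P236K2.ckD (2 ^ 28) (cs 13) (cs 12) (Sq.pn (sph.n 12) (sph.d 12) fun _ => []) 91 = true := by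
  decide +kernel

theorem mid13 : midOk m13_t (sph.d 14) (sph.n 14) 90 = true := by decide +kernel

theorem lo13 (up : DLL) (dup : ℕ) : sph.Lo ⟨cf3, d13, up, m13, g13, dup, (nat_lit 23), (nat_lit 161), (nat_lit 90)⟩ 90 13 :=
  ⟨rfl, rfl, rfl, rfl, rfl, rfl, ⟨_, m13_eq, mid13⟩,
    (by decide : 90 < 117), (by decide : 23 ≤ 32), (by decide : 161 ≤ 300)⟩

theorem kq13 : sph.KQ 90 13 :=
  ⟨_, _, lo13 d14 g15, rfl, rfl, (AllB.append k13_0 k13_1), by decide +kernel⟩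

theorem cq13 : sph.CQ 90 zs hs ng cs 13 :=
  ⟨⟨_, _, lo13 e13 h13, rfl, g13_0, by decide +kernel, by decide +kernel⟩, by decide +kernel⟩

theorem ck13 : Vale.Agent.P236K2.ckD (2 ^ 28) (cs 14) (cs 13) (Sq.pn (sph.n 13) (sph.d 13) fun _ => []) 91 = true := by
  decide +kernel

end Vale.Agent.P236KE.S90
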