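import Vale.Agent.P236KE.S90.Cnt
import Vale.Agent.P236KE.S90.K21
import Vale.Agent.P236KE.S90.G4
import Vale.Agent.P236KE.S90.K22

/-!
# P236KE / assembly (generated)
-/

set_option maxRecDepth 100000

namespace Vale.Agent.P236KE.S90

theorem mid14 : midOk m14_t (sph.d 15) (sph.n 15) 90 = true := by decide +kernel

theorem lo14 (up : DLL) (dup : ℕ) : sph.Lo ⟨cf3, d14, up, m14, g14, dup, (nat_lit 23), (nat_lit 161), (nat_lit 90)⟩ 90 14 :=
  ⟨rfl, rfl, rfl, rfl, rfl, rfl, ⟨_, m14_eq, mid14⟩,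
    (by decide : 90 < 117), (by decide : 23 ≤ 32), (by decide : 161 ≤ 300)⟩

theorem kq14 : sph.KQ 90 14 :=
  ⟨_, _, lo14 d15 g16, rfl, rfl, k14_0, by decide +kernel⟩

theorem cq14 : sph.CQ 90 zs hs ng cs 14 :=
  ⟨⟨_, _, lo14 e14 h14, rfl, g14_0, by decide +kernel, by decide +kernel⟩, by decide +kernel⟩

theorem ck14 : Vale.Agent.P236K2.ckD (2 ^ 28) (cs 15) (cs 14) (Sq.pn (sph.n 14) (sph.d 14) fun _ => []) 91 = true := by
  decide +kernel

theorem mid15 : midOk m15_t (sph.d 16) (sph.n 16) 90 = true := by decide +kernel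

theorem lo15 (up : DLL) (dup : ℕ) : sph.Lo ⟨cf3, d15, up, m15, g15, dup, (nat_lit 23), (nat_lit 161), (nat_lit 90)⟩ 90 15 :=
  ⟨rfl, rfl, rfl, rfl, rfl, rfl, ⟨_, m15_eq, mid15⟩,
    (by decide : 90 < 117), (by decide : 23 ≤ 32), (by decide : 161 ≤ 300)⟩

theorem kq15 : sph.KQ 90 15 :=
  ⟨_, _, lo15 d16 g17, rfl, rfl, (AllB.append k15_0 k15_1), by decide +kernel⟩

theorem cq15 : sph.CQ 90 zs hs ng cs 15 :=
  ⟨⟨_, _, lo15 e15 h15, rfl, g15_0, by decide +kernel, by decide +kernel⟩, by decide +kernel⟩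

theorem ck15 : Vale.Agent.P236K2.ckD (2 ^ 28) (cs 16) (cs 15) (Sq.pn (sph.n 15) (sph.d 15) fun _ => []) 91 = true := by
  decide +kernel

theorem mid16 : midOk m16_t (sph.d 17) (sph.n 17) 90 = true := by decide +kernel

theorem lo16 (up : DLL) (dup : ℕ) : sph.Lo ⟨cf3, d16, up, m16, g16, dup, (nat_lit 23), (nat_lit 161), (nat_lit 90)⟩ 90 16 :=
  ⟨rfl, rfl, rfl, rfl, rfl, rfl, ⟨_, m16_eq, mid16⟩,
    (by decide : 90 < 117), (by decide : 23 ≤ 32), (by decide : 161 ≤ 300)⟩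

theorem kq16 : sph.KQ 90 16 :=
  ⟨_, _, lo16 d17 g18, rfl, rfl, k16_0, by decide +kernel⟩

theorem cq16 : sph.CQ 90 zs hs ng cs 16 :=
  ⟨⟨_, _, lo16 e16 h16, rfl, g16_0, by decide +kernel, by decide +kernel⟩, by decide +kernel⟩

theorem ck16 : Vale.Agent.P236K2.ckD (2 ^ 28) (cs 17) (cs 16) (Sq.pn (sph.n 16) (sph.d 16) fun _ => []) 91 = true := by
  decide +kernel

end Vale.Agent.P236KE.S90
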