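import Vale.Agent.P236KE.S90.Cnt
import Vale.Agent.P236KE.S90.K22
import Vale.Agent.P236KE.S90.G4
import Vale.Agent.P236KE.S90.K23

/-!
# P236KE / assembly (generated)
-/

set_option maxRecDepth 100000

namespace Vale.Agent.P236KE.S90

theorem mid17 : midOk m17_t (sph.d 18) (sph.n 18) 90 = true := by decide +kernel

theorem lo17 (up : DLL) (dup : ℕ) : sph.Lo ⟨cf3, d17, up, m17, g17, dup, (nat_lit 23), (nat_lit 161), (nat_lit 90)⟩ 90 17 :=
  ⟨rfl, rfl, rfl, rfl, rfl, rfl, ⟨_, m17_eq, mid17⟩,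
    (by decide : 90 < 117), (by decide : 23 ≤ 32), (by decide : 161 ≤ 300)⟩

theorem kq17 : sph.KQ 90 17 :=
  ⟨_, _, lo17 d18 g19, rfl, rfl, k17_0, by decide +kernel⟩

theorem cq17 : sph.CQ 90 zs hs ng cs 17 :=
  ⟨⟨_, _, lo17 e17 h17, rfl, g17_0, by decide +kernel, by decide +kernel⟩, by decide +kernel⟩

theorem ck17 : Vale.Agent.P236K2.ckD (2 ^ 28) (cs 18) (cs 17) (Sq.pn (sph.n 17) (sph.d 17) fun _ => []) 91 = true := by
  decide +kernel

theorem mid18 : midOk m18_t (sph.d 19) (sph.n 19) 90 = true := by decide +kernel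

theorem lo18 (up : DLL) (dup : ℕ) : sph.Lo ⟨cf3, d18, up, m18, g18, dup, (nat_lit 23), (nat_lit 161), (nat_lit 90)⟩ 90 18 :=
  ⟨rfl, rfl, rfl, rfl, rfl, rfl, ⟨_, m18_eq, mid18⟩,
    (by decide : 90 < 117), (by decide : 23 ≤ 32), (by decide : 161 ≤ 300)⟩

theorem kq18 : sph.KQ 90 18 :=
  ⟨_, _, lo18 d19 g20, rfl, rfl, (AllB.append k18_0 k18_1), by decide +kernel⟩

theorem cq18 : sph.CQ 90 zs hs ng cs 18 :=
  ⟨⟨_, _, lo18 e18 h18, rfl, g18_0, by decide +kernel, by decide +kernel⟩, by decide +kernel⟩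

theorem ck18 : Vale.Agent.P236K2.ckD (2 ^ 28) (cs 19) (cs 18) (Sq.pn (sph.n 18) (sph.d 18) fun _ => []) 91 = true := by
  decide +kernel

theorem mid19 : midOk m19_t (sph.d 20) (sph.n 20) 90 = true := by decide +kernel

theorem lo19 (up : DLL) (dup : ℕ) : sph.Lo ⟨cf3, d19, up, m19, g19, dup, (nat_lit 23), (nat_lit 161), (nat_lit 90)⟩ 90 19 :=
  ⟨rfl, rfl, rfl, rfl, rfl, rfl, ⟨_, m19_eq, mid19⟩,
    (by decide : 90 < 117), (by decide : 23 ≤ 32), (by decide : 161 ≤ 300)⟩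

theorem kq19 : sph.KQ 90 19 :=
  ⟨_, _, lo19 d20 g21, rfl, rfl, k19_0, by decide +kernel⟩

theorem cq19 : sph.CQ 90 zs hs ng cs 19 :=
  ⟨⟨_, _, lo19 e19 h19, rfl, g19_0, by decide +kernel, by decide +kernel⟩, by decide +kernel⟩

theorem ck19 : Vale.Agent.P236K2.ckD (2 ^ 28) (cs 20) (cs 19) (Sq.pn (sph.n 19) (sph.d 19) fun _ => []) 91 = true := by
  decide +kernel

end Vale.Agent.P236KE.S90
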