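import Vale.Agent.P236KE.Cfg
import Vale.Agent.P236KE.S90.Deg
import Vale.Agent.P236KE.S90.D24
import Vale.Agent.P236KE.S90.Z10
import Vale.Agent.P236KE.S90.D37

/-!
# P236KE / checks (generated)
-/

set_option maxRecDepth 100000

namespace Vale.Agent.P236KE.S90

noncomputable def g24_1_l : List Gp := [⟨(nat_lit 0), (nat_lit 5), (nat_lit 22), (nat_lit 13), (nat_lit 1), (nat_lit 36), (nat_lit 77), (nat_lit 11), (nat_lit 143), (nat_lit 42)⟩,
  ⟨(nat_lit 5), (nat_lit 5), (nat_lit 22), (nat_lit 13), (nat_lit 1), (nat_lit 46), (nat_lit 77), (nat_lit 8), (nat_lit 104), (nat_lit 32)⟩,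
  ⟨(nat_lit 0), (nat_lit 3), (nat_lit 35), (nat_lit 13), (nat_lit 1), (nat_lit 36), (nat_lit 84), (nat_lit 13), (nat_lit 169), (nat_lit 49)⟩,
  ⟨(nat_lit 3), (nat_lit 2), (nat_lit 35), (nat_lit 13), (nat_lit 1), (nat_lit 42), (nat_lit 84), (nat_lit 11), (nat_lit 143), (nat_lit 43)⟩,
  ⟨(nat_lit 0), (nat_lit 3), (nat_lit 48), (nat_lit 12), (nat_lit 1), (nat_lit 36), (nat_lit 90), (nat_lit 14), (nat_lit 168), (nat_lit 55)⟩,
  ⟨(nat_lit 3), (nat_lit 2), (nat_lit 48), (nat_lit 12), (nat_lit 1), (nat_lit 42), (nat_lit 90), (nat_lit 13), (nat_lit 156), (nat_lit 49)⟩,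
  ⟨(nat_lit 5), (nat_lit 5), (nat_lit 35), (nat_lit 13), (nat_lit 1), (nat_lit 46), (nat_lit 84), (nat_lit 10), (nat_lit 130), (nat_lit 39)⟩,
  ⟨(nat_lit 5), (nat_lit 5), (nat_lit 48), (nat_lit 12), (nat_lit 1), (nat_lit 46), (nat_lit 90), (nat_lit 12), (nat_lit 144), (nat_lit 45)⟩,
  ⟨(nat_lit 10), (nat_lit 6), (nat_lit 25), (nat_lit 35), (nat_lit 1), (nat_lit 69), (nat_lit 90), (nat_lit 6), (nat_lit 210), (nat_lit 22)⟩,
  ⟨(nat_lit 16), (nat_lit 7), (nat_lit 39), (nat_lit 21), (nat_lit 1), (nat_lit 80), (nat_lit 90), (nat_lit 3), (nat_lit 63), (nat_lit 11)⟩]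

theorem g24_1 : AllB (okG ⟨cf3, d24, e24, m24, g24, h24, (nat_lit 23), (nat_lit 161), (nat_lit 90)⟩ z24) g24_1_l :=
  ⟨by decide +kernel,
  by decide +kernel,
  by decide +kernel,
  by decide +kernel,
  by decide +kernel,
  by decide +kernel,
  by decide +kernel,
  by decide +kernel,
  by decide +kernel,
  by decide +kernel,
  trivial⟩

noncomputable def g25_0_l : List Gp := [⟨(nat_lit 0), (nat_lit 10), (nat_lit 0), (nat_lit 24), (nat_lit 1), (nat_lit 37), (nat_lit 64), (nat_lit 7), (nat_lit 168), (nat_lit 28)⟩,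
  ⟨(nat_lit 0), (nat_lit 5), (nat_lit 24), (nat_lit 13), (nat_lit 1), (nat_lit 37), (nat_lit 78), (nat_lit 11), (nat_lit 143), (nat_lit 42)⟩,
  ⟨(nat_lit 5), (nat_lit 5), (nat_lit 24), (nat_lit 13), (nat_lit 1), (nat_lit 48), (nat_lit 78), (nat_lit 8), (nat_lit 104), (nat_lit 31)⟩,
  ⟨(nat_lit 0), (nat_lit 5), (nat_lit 37), (nat_lit 10), (nat_lit 1), (nat_lit 37), (nat_lit 84), (nat_lit 12), (nat_lit 120), (nat_lit 48)⟩,
  ⟨(nat_lit 0), (nat_lit 5), (nat_lit 47), (nat_lit 8), (nat_lit 1), (nat_lit 37), (nat_lit 90), (nat_lit 14), (nat_lit 112), (nat_lit 54)⟩,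
  ⟨(nat_lit 5), (nat_lit 5), (nat_lit 37), (nat_lit 10), (nat_lit 1), (nat_lit 48), (nat_lit 84), (nat_lit 10), (nat_lit 100), (nat_lit 37)⟩,
  ⟨(nat_lit 5), (nat_lit 5), (nat_lit 47), (nat_lit 8), (nat_lit 1), (nat_lit 48), (nat_lit 90), (nat_lit 11), (nat_lit 88), (nat_lit 43)⟩,
  ⟨(nat_lit 10), (nat_lit 12), (nat_lit 26), (nat_lit 29), (nat_lit 1), (nat_lit 70), (nat_lit 90), (nat_lit 6), (nat_lit 174), (nat_lit 21)⟩]

theorem g25_0 : AllB (okG ⟨cf3, d25, e25, m25, g25, h25, (nat_lit 23), (nat_lit 161), (nat_lit 90)⟩ z25) g25_0_l :=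
  ⟨by decide +kernel,
  by decide +kernel,
  by decide +kernel,
  by decide +kernel,
  by decide +kernel,
  by decide +kernel,
  by decide +kernel,
  by decide +kernel,
  trivial⟩

noncomputable def g26_0_l : List Gp := [⟨(nat_lit 0), (nat_lit 10), (nat_lit 0), (nat_lit 21), (nat_lit 1), (nat_lit 39), (nat_lit 65), (nat_lit 7), (nat_lit 147), (nat_lit 27)⟩,
  ⟨(nat_lit 0), (nat_lit 5), (nat_lit 21), (nat_lit 12), (nat_lit 1), (nat_lit 39), (nat_lit 78), (nat_lit 10), (nat_lit 120), (nat_lit 40)⟩,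
  ⟨(nat_lit 5), (nat_lit 5), (nat_lit 21), (nat_lit 12), (nat_lit 1), (nat_lit 49), (nat_lit 78), (nat_lit 8), (nat_lit 96), (nat_lit 30)⟩,
  ⟨(nat_lit 0), (nat_lit 5), (nat_lit 33), (nat_lit 11), (nat_lit 1), (nat_lit 39), (nat_lit 84), (nat_lit 12), (nat_lit 132), (nat_lit 46)⟩,
  ⟨(nat_lit 0), (nat_lit 5), (nat_lit 44), (nat_lit 11), (nat_lit 1), (nat_lit 39), (nat_lit 90), (nat_lit 13), (nat_lit 143), (nat_lit 52)⟩,
  ⟨(nat_lit 5), (nat_lit 5), (nat_lit 33), (nat_lit 11), (nat_lit 1), (nat_lit 49), (nat_lit 84), (nat_lit 9), (nat_lit 99), (nat_lit 36)⟩,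
  ⟨(nat_lit 5), (nat_lit 5), (nat_lit 44), (nat_lit 11), (nat_lit 1), (nat_lit 49), (nat_lit 90), (nat_lit 11), (nat_lit 121), (nat_lit 42)⟩,
  ⟨(nat_lit 10), (nat_lit 11), (nat_lit 25), (nat_lit 30), (nat_lit 1), (nat_lit 72), (nat_lit 90), (nat_lit 5), (nat_lit 150), (nat_lit 19)⟩]

theorem g26_0 : AllB (okG ⟨cf3, d26, e26, m26, g26, h26, (nat_lit 23), (nat_lit 161), (nat_lit 90)⟩ z26) g26_0_l :=
  ⟨by decide +kernel,
  by decide +kernel,
  by decide +kernel,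
  by decide +kernel,
  by decide +kernel,
  by decide +kernel,
  by decide +kernel,
  by decide +kernel,
  trivial⟩

noncomputable def g27_0_l : List Gp := [⟨(nat_lit 0), (nat_lit 10), (nat_lit 0), (nat_lit 23), (nat_lit 1), (nat_lit 40), (nat_lit 66), (nat_lit 7), (nat_lit 161), (nat_lit 27)⟩,
  ⟨(nat_lit 0), (nat_lit 5), (nat_lit 23), (nat_lit 10), (nat_lit 1), (nat_lit 40), (nat_lit 78), (nat_lit 10), (nat_lit 100), (nat_lit 39)⟩,
  ⟨(nat_lit 5), (nat_lit 5), (nat_lit 23), (nat_lit 10), (nat_lit 1), (nat_lit 51), (nat_lit 78), (nat_lit 7), (nat_lit 70), (nat_lit 28)⟩,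
  ⟨(nat_lit 0), (nat_lit 5), (nat_lit 33), (nat_lit 9), (nat_lit 1), (nat_lit 40), (nat_lit 84), (nat_lit 12), (nat_lit 108), (nat_lit 45)⟩,
  ⟨(nat_lit 0), (nat_lit 5), (nat_lit 42), (nat_lit 10), (nat_lit 1), (nat_lit 40), (nat_lit 90), (nat_lit 13), (nat_lit 130), (nat_lit 51)⟩,
  ⟨(nat_lit 5), (nat_lit 5), (nat_lit 33), (nat_lit 19), (nat_lit 1), (nat_lit 51), (nat_lit 90), (nat_lit 10), (nat_lit 190), (nat_lit 40)⟩,
  ⟨(nat_lit 10), (nat_lit 11), (nat_lit 26), (nat_lit 26), (nat_lit 1), (nat_lit 73), (nat_lit 90), (nat_lit 5), (nat_lit 130), (nat_lit 18)⟩]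

theorem g27_0 : AllB (okG ⟨cf3, d27, e27, m27, g27, h27, (nat_lit 23), (nat_lit 161), (nat_lit 90)⟩ z27) g27_0_l :=
  ⟨by decide +kernel,
  by decide +kernel,
  by decide +kernel,
  by decide +kernel,
  by decide +kernel,
  by decide +kernel,
  by decide +kernel,
  trivial⟩

noncomputable def g28_0_l : List Gp := [⟨(nat_lit 0), (nat_lit 10), (nat_lit 0), (nat_lit 20), (nat_lit 1), (nat_lit 42), (nat_lit 66), (nat_lit 7), (nat_lit 140), (nat_lit 25)⟩,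
  ⟨(nat_lit 0), (nat_lit 5), (nat_lit 20), (nat_lit 10), (nat_lit 1), (nat_lit 42), (nat_lit 79), (nat_lit 10), (nat_lit 100), (nat_lit 38)⟩,
  ⟨(nat_lit 5), (nat_lit 5), (nat_lit 20), (nat_lit 10), (nat_lit 1), (nat_lit 52), (nat_lit 79), (nat_lit 7), (nat_lit 70), (nat_lit 28)⟩,
  ⟨(nat_lit 0), (nat_lit 5), (nat_lit 30), (nat_lit 8), (nat_lit 1), (nat_lit 42), (nat_lit 85), (nat_lit 11), (nat_lit 88), (nat_lit 44)⟩,
  ⟨(nat_lit 0), (nat_lit 5), (nat_lit 38), (nat_lit 9), (nat_lit 1), (nat_lit 42), (nat_lit 90), (nat_lit 13), (nat_lit 117), (nat_lit 49)⟩,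
  ⟨(nat_lit 5), (nat_lit 5), (nat_lit 30), (nat_lit 17), (nat_lit 1), (nat_lit 52), (nat_lit 90), (nat_lit 10), (nat_lit 170), (nat_lit 39)⟩,
  ⟨(nat_lit 10), (nat_lit 10), (nat_lit 25), (nat_lit 22), (nat_lit 1), (nat_lit 75), (nat_lit 90), (nat_lit 4), (nat_lit 88), (nat_lit 16)⟩]

theorem g28_0 : AllB (okG ⟨cf3, d28, e28, m28, g28, h28, (nat_lit 23), (nat_lit 161), (nat_lit 90)⟩ z28) g28_0_l :=
  ⟨by decide +kernel,
  by decide +kernel,
  by decide +kernel,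
  by decide +kernel,
  by decide +kernel,
  by decide +kernel,
  by decide +kernel,
  trivial⟩

noncomputable def g29_0_l : List Gp := [⟨(nat_lit 0), (nat_lit 10), (nat_lit 0), (nat_lit 21), (nat_lit 1), (nat_lit 43), (nat_lit 67), (nat_lit 7), (nat_lit 147), (nat_lit 25)⟩,
  ⟨(nat_lit 0), (nat_lit 5), (nat_lit 21), (nat_lit 9), (nat_lit 1), (nat_lit 43), (nat_lit 79), (nat_lit 10), (nat_lit 90), (nat_lit 37)⟩,
  ⟨(nat_lit 5), (nat_lit 5), (nat_lit 21), (nat_lit 9), (nat_lit 1), (nat_lit 54), (nat_lit 79), (nat_lit 7), (nat_lit 63), (nat_lit 26)⟩,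
  ⟨(nat_lit 0), (nat_lit 5), (nat_lit 30), (nat_lit 12), (nat_lit 1), (nat_lit 43), (nat_lit 90), (nat_lit 12), (nat_lit 144), (nat_lit 48)⟩,
  ⟨(nat_lit 5), (nat_lit 5), (nat_lit 30), (nat_lit 12), (nat_lit 1), (nat_lit 54), (nat_lit 90), (nat_lit 10), (nat_lit 120), (nat_lit 37)⟩,
  ⟨(nat_lit 10), (nat_lit 9), (nat_lit 26), (nat_lit 16), (nat_lit 1), (nat_lit 76), (nat_lit 90), (nat_lit 4), (nat_lit 64), (nat_lit 15)⟩]

theorem g29_0 : AllB (okG ⟨cf3, d29, e29, m29, g29, h29, (nat_lit 23), (nat_lit 161), (nat_lit 90)⟩ z29) g29_0_l :=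
  ⟨by decide +kernel,
  by decide +kernel,
  by decide +kernel,
  by decide +kernel,
  by decide +kernel,
  by decide +kernel,
  trivial⟩

noncomputable def g30_0_l : List Gp := [⟨(nat_lit 0), (nat_lit 10), (nat_lit 0), (nat_lit 19), (nat_lit 1), (nat_lit 45), (nat_lit 68), (nat_lit 6), (nat_lit 114), (nat_lit 24)⟩,
  ⟨(nat_lit 0), (nat_lit 10), (nat_lit 19), (nat_lit 8), (nat_lit 1), (nat_lit 45), (nat_lit 79), (nat_lit 9), (nat_lit 91), (nat_lit 35)⟩,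
  ⟨(nat_lit 0), (nat_lit 5), (nat_lit 27), (nat_lit 6), (nat_lit 1), (nat_lit 45), (nat_lit 84), (nat_lit 10), (nat_lit 60), (nat_lit 40)⟩,
  ⟨(nat_lit 0), (nat_lit 5), (nat_lit 33), (nat_lit 10), (nat_lit 1), (nat_lit 45), (nat_lit 90), (nat_lit 12), (nat_lit 120), (nat_lit 46)⟩,
  ⟨(nat_lit 5), (nat_lit 5), (nat_lit 27), (nat_lit 16), (nat_lit 1), (nat_lit 55), (nat_lit 90), (nat_lit 9), (nat_lit 144), (nat_lit 36)⟩,
  ⟨(nat_lit 10), (nat_lit 8), (nat_lit 25), (nat_lit 18), (nat_lit 1), (nat_lit 78), (nat_lit 90), (nat_lit 4), (nat_lit 72), (nat_lit 13)⟩]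

theorem g30_0 : AllB (okG ⟨cf3, d30, e30, m30, g30, h30, (nat_lit 23), (nat_lit 161), (nat_lit 90)⟩ z30) g30_0_l :=
  ⟨by decide +kernel,
  by decide +kernel,
  by decide +kernel,
  by decide +kernel,
  by decide +kernel,
  by decide +kernel,
  trivial⟩

noncomputable def g31_0_l : List Gp := [⟨(nat_lit 0), (nat_lit 10), (nat_lit 0), (nat_lit 19), (nat_lit 1), (nat_lit 46), (nat_lit 68), (nat_lit 6), (nat_lit 114), (nat_lit 23)⟩,
  ⟨(nat_lit 0), (nat_lit 10), (nat_lit 19), (nat_lit 8), (nat_lit 1), (nat_lit 46), (nat_lit 79), (nat_lit 9), (nat_lit 91), (nat_lit 34)⟩,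
  ⟨(nat_lit 0), (nat_lit 5), (nat_lit 27), (nat_lit 7), (nat_lit 1), (nat_lit 46), (nat_lit 85), (nat_lit 10), (nat_lit 70), (nat_lit 40)⟩,
  ⟨(nat_lit 0), (nat_lit 5), (nat_lit 34), (nat_lit 8), (nat_lit 1), (nat_lit 46), (nat_lit 90), (nat_lit 12), (nat_lit 96), (nat_lit 45)⟩,
  ⟨(nat_lit 5), (nat_lit 5), (nat_lit 27), (nat_lit 15), (nat_lit 1), (nat_lit 57), (nat_lit 90), (nat_lit 9), (nat_lit 135), (nat_lit 34)⟩,
  ⟨(nat_lit 10), (nat_lit 7), (nat_lit 26), (nat_lit 16), (nat_lit 1), (nat_lit 79), (nat_lit 90), (nat_lit 3), (nat_lit 48), (nat_lit 12)⟩]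

theorem g31_0 : AllB (okG ⟨cf3, d31, e31, m31, g31, h31, (nat_lit 23), (nat_lit 161), (nat_lit 90)⟩ z31) g31_0_l :=
  ⟨by decide +kernel,
  by decide +kernel,
  by decide +kernel,
  by decide +kernel,
  by decide +kernel,
  by decide +kernel,
  trivial⟩

noncomputable def g32_0_l : List Gp := [⟨(nat_lit 0), (nat_lit 10), (nat_lit 0), (nat_lit 17), (nat_lit 1), (nat_lit 48), (nat_lit 69), (nat_lit 6), (nat_lit 102), (nat_lit 22)⟩,
  ⟨(nat_lit 0), (nat_lit 10), (nat_lit 17), (nat_lit 8), (nat_lit 1), (nat_lit 48), (nat_lit 80), (nat_lit 9), (nat_lit 91), (nat_lit 33)⟩,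
  ⟨(nat_lit 0), (nat_lit 5), (nat_lit 25), (nat_lit 13), (nat_lit 1), (nat_lit 48), (nat_lit 90), (nat_lit 11), (nat_lit 143), (nat_lit 43)⟩,
  ⟨(nat_lit 5), (nat_lit 5), (nat_lit 25), (nat_lit 13), (nat_lit 1), (nat_lit 58), (nat_lit 90), (nat_lit 9), (nat_lit 117), (nat_lit 33)⟩,
  ⟨(nat_lit 10), (nat_lit 5), (nat_lit 25), (nat_lit 13), (nat_lit 1), (nat_lit 81), (nat_lit 90), (nat_lit 3), (nat_lit 39), (nat_lit 10)⟩]

theorem g32_0 : AllB (okG ⟨cf3, d32, e32, m32, g32, h32, (nat_lit 23), (nat_lit 161), (nat_lit 90)⟩ z32) g32_0_l :=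
  ⟨by decide +kernel,
  by decide +kernel,
  by decide +kernel,
  by decide +kernel,
  by decide +kernel,
  trivial⟩

noncomputable def g33_0_l : List Gp := [⟨(nat_lit 0), (nat_lit 10), (nat_lit 0), (nat_lit 17), (nat_lit 1), (nat_lit 49), (nat_lit 70), (nat_lit 6), (nat_lit 102), (nat_lit 22)⟩,
  ⟨(nat_lit 0), (nat_lit 5), (nat_lit 17), (nat_lit 9), (nat_lit 1), (nat_lit 49), (nat_lit 79), (nat_lit 8), (nat_lit 72), (nat_lit 31)⟩,
  ⟨(nat_lit 0), (nat_lit 5), (nat_lit 26), (nat_lit 11), (nat_lit 1), (nat_lit 49), (nat_lit 90), (nat_lit 11), (nat_lit 121), (nat_lit 42)⟩,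
  ⟨(nat_lit 5), (nat_lit 5), (nat_lit 17), (nat_lit 20), (nat_lit 1), (nat_lit 60), (nat_lit 90), (nat_lit 8), (nat_lit 160), (nat_lit 31)⟩,
  ⟨(nat_lit 10), (nat_lit 4), (nat_lit 26), (nat_lit 11), (nat_lit 1), (nat_lit 82), (nat_lit 90), (nat_lit 3), (nat_lit 33), (nat_lit 9)⟩]

theorem g33_0 : AllB (okG ⟨cf3, d33, e33, m33, g33, h33, (nat_lit 23), (nat_lit 161), (nat_lit 90)⟩ z33) g33_0_l :=
  ⟨by decide +kernel,
  by decide +kernel,
  by decide +kernel,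
  by decide +kernel,
  by decide +kernel,
  trivial⟩

noncomputable def g34_0_l : List Gp := [⟨(nat_lit 0), (nat_lit 10), (nat_lit 0), (nat_lit 16), (nat_lit 1), (nat_lit 51), (nat_lit 71), (nat_lit 6), (nat_lit 96), (nat_lit 21)⟩,
  ⟨(nat_lit 0), (nat_lit 5), (nat_lit 16), (nat_lit 8), (nat_lit 1), (nat_lit 51), (nat_lit 81), (nat_lit 8), (nat_lit 64), (nat_lit 31)⟩,
  ⟨(nat_lit 0), (nat_lit 5), (nat_lit 24), (nat_lit 9), (nat_lit 1), (nat_lit 51), (nat_lit 90), (nat_lit 10), (nat_lit 90), (nat_lit 40)⟩,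
  ⟨(nat_lit 5), (nat_lit 5), (nat_lit 16), (nat_lit 17), (nat_lit 1), (nat_lit 61), (nat_lit 90), (nat_lit 8), (nat_lit 136), (nat_lit 30)⟩,
  ⟨(nat_lit 10), (nat_lit 4), (nat_lit 25), (nat_lit 8), (nat_lit 1), (nat_lit 84), (nat_lit 90), (nat_lit 2), (nat_lit 16), (nat_lit 7)⟩]

theorem g34_0 : AllB (okG ⟨cf3, d34, e34, m34, g34, h34, (nat_lit 23), (nat_lit 161), (nat_lit 90)⟩ z34) g34_0_l :=
  ⟨by decide +kernel,
  by decide +kernel,
  by decide +kernel,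
  by decide +kernel,
  by decide +kernel,
  trivial⟩

noncomputable def g35_0_l : List Gp := [⟨(nat_lit 0), (nat_lit 10), (nat_lit 0), (nat_lit 16), (nat_lit 1), (nat_lit 52), (nat_lit 72), (nat_lit 6), (nat_lit 96), (nat_lit 21)⟩,
  ⟨(nat_lit 0), (nat_lit 5), (nat_lit 16), (nat_lit 16), (nat_lit 1), (nat_lit 52), (nat_lit 90), (nat_lit 10), (nat_lit 160), (nat_lit 39)⟩,
  ⟨(nat_lit 5), (nat_lit 5), (nat_lit 16), (nat_lit 16), (nat_lit 1), (nat_lit 63), (nat_lit 90), (nat_lit 7), (nat_lit 112), (nat_lit 28)⟩,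
  ⟨(nat_lit 10), (nat_lit 3), (nat_lit 26), (nat_lit 6), (nat_lit 1), (nat_lit 85), (nat_lit 90), (nat_lit 2), (nat_lit 12), (nat_lit 6)⟩]

theorem g35_0 : AllB (okG ⟨cf3, d35, e35, m35, g35, h35, (nat_lit 23), (nat_lit 161), (nat_lit 90)⟩ z35) g35_0_l :=
  ⟨by decide +kernel,
  by decide +kernel,
  by decide +kernel,
  by decide +kernel,
  trivial⟩

noncomputable def g36_0_l : List Gp := [⟨(nat_lit 0), (nat_lit 9), (nat_lit 0), (nat_lit 14), (nat_lit 1), (nat_lit 54), (nat_lit 72), (nat_lit 5), (nat_lit 70), (nat_lit 19)⟩,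
  ⟨(nat_lit 0), (nat_lit 9), (nat_lit 14), (nat_lit 8), (nat_lit 1), (nat_lit 54), (nat_lit 81), (nat_lit 7), (nat_lit 64), (nat_lit 28)⟩,
  ⟨(nat_lit 0), (nat_lit 9), (nat_lit 22), (nat_lit 7), (nat_lit 1), (nat_lit 54), (nat_lit 90), (nat_lit 10), (nat_lit 91), (nat_lit 37)⟩,
  ⟨(nat_lit 9), (nat_lit 3), (nat_lit 13), (nat_lit 16), (nat_lit 1), (nat_lit 72), (nat_lit 90), (nat_lit 5), (nat_lit 80), (nat_lit 19)⟩]

theorem g36_0 : AllB (okG ⟨cf3, d36, e36, m36, g36, h36, (nat_lit 23), (nat_lit 161), (nat_lit 90)⟩ z36) g36_0_l :=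
  ⟨by decide +kernel,
  by decide +kernel,
  by decide +kernel,
  by decide +kernel,
  trivial⟩

noncomputable def g37_0_l : List Gp := [⟨(nat_lit 0), (nat_lit 9), (nat_lit 0), (nat_lit 13), (nat_lit 1), (nat_lit 55), (nat_lit 73), (nat_lit 5), (nat_lit 65), (nat_lit 19)⟩,
  ⟨(nat_lit 0), (nat_lit 5), (nat_lit 13), (nat_lit 16), (nat_lit 1), (nat_lit 55), (nat_lit 90), (nat_lit 9), (nat_lit 144), (nat_lit 36)⟩,
  ⟨(nat_lit 5), (nat_lit 4), (nat_lit 13), (nat_lit 16), (nat_lit 1), (nat_lit 66), (nat_lit 90), (nat_lit 7), (nat_lit 112), (nat_lit 25)⟩,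
  ⟨(nat_lit 9), (nat_lit 3), (nat_lit 13), (nat_lit 16), (nat_lit 1), (nat_lit 74), (nat_lit 90), (nat_lit 5), (nat_lit 80), (nat_lit 17)⟩]

theorem g37_0 : AllB (okG ⟨cf3, d37, e37, m37, g37, h37, (nat_lit 23), (nat_lit 161), (nat_lit 90)⟩ z37) g37_0_l :=
  ⟨by decide +kernel,
  by decide +kernel,
  by decide +kernel,
  by decide +kernel,
  trivial⟩

noncomputable def g38_0_l : List Gp := [⟨(nat_lit 0), (nat_lit 9), (nat_lit 0), (nat_lit 13), (nat_lit 1), (nat_lit 57), (nat_lit 73), (nat_lit 5), (nat_lit 65), (nat_lit 17)⟩,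
  ⟨(nat_lit 0), (nat_lit 9), (nat_lit 13), (nat_lit 13), (nat_lit 1), (nat_lit 57), (nat_lit 90), (nat_lit 9), (nat_lit 117), (nat_lit 34)⟩,
  ⟨(nat_lit 9), (nat_lit 2), (nat_lit 13), (nat_lit 13), (nat_lit 1), (nat_lit 75), (nat_lit 90), (nat_lit 4), (nat_lit 52), (nat_lit 16)⟩]

theorem g38_0 : AllB (okG ⟨cf3, d38, e38, m38, g38, h38, (nat_lit 23), (nat_lit 161), (nat_lit 90)⟩ z38) g38_0_l :=
  ⟨by decide +kernel,
  by decide +kernel,
  by decide +kernel,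
  trivial⟩

noncomputable def g39_0_l : List Gp := [⟨(nat_lit 0), (nat_lit 8), (nat_lit 0), (nat_lit 12), (nat_lit 1), (nat_lit 58), (nat_lit 74), (nat_lit 5), (nat_lit 60), (nat_lit 17)⟩,
  ⟨(nat_lit 0), (nat_lit 10), (nat_lit 12), (nat_lit 14), (nat_lit 1), (nat_lit 58), (nat_lit 88), (nat_lit 8), (nat_lit 112), (nat_lit 31)⟩]

theorem g39_0 : AllB (okG ⟨cf3, d39, e39, m39, g39, h39, (nat_lit 23), (nat_lit 161), (nat_lit 90)⟩ z39) g39_0_l :=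
  ⟨by decide +kernel,
  by decide +kernel,
  trivial⟩

noncomputable def g40_0_l : List Gp := [⟨(nat_lit 0), (nat_lit 8), (nat_lit 0), (nat_lit 12), (nat_lit 1), (nat_lit 60), (nat_lit 75), (nat_lit 4), (nat_lit 48), (nat_lit 16)⟩,
  ⟨(nat_lit 0), (nat_lit 10), (nat_lit 12), (nat_lit 12), (nat_lit 1), (nat_lit 60), (nat_lit 90), (nat_lit 8), (nat_lit 96), (nat_lit 31)⟩]

theorem g40_0 : AllB (okG ⟨cf3, d40, e40, m40, g40, h40, (nat_lit 23), (nat_lit 161), (nat_lit 90)⟩ z40) g40_0_l :=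
  ⟨by decide +kernel,
  by decide +kernel,
  trivial⟩

noncomputable def g41_0_l : List Gp := [⟨(nat_lit 0), (nat_lit 8), (nat_lit 0), (nat_lit 11), (nat_lit 1), (nat_lit 61), (nat_lit 76), (nat_lit 4), (nat_lit 44), (nat_lit 16)⟩,
  ⟨(nat_lit 0), (nat_lit 10), (nat_lit 11), (nat_lit 14), (nat_lit 1), (nat_lit 61), (nat_lit 90), (nat_lit 8), (nat_lit 112), (nat_lit 30)⟩]

theorem g41_0 : AllB (okG ⟨cf3, d41, e41, m41, g41, h41, (nat_lit 23), (nat_lit 161), (nat_lit 90)⟩ z41) g41_0_l :=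
  ⟨by decide +kernel,
  by decide +kernel,
  trivial⟩

noncomputable def g42_0_l : List Gp := [⟨(nat_lit 0), (nat_lit 10), (nat_lit 0), (nat_lit 22), (nat_lit 1), (nat_lit 63), (nat_lit 90), (nat_lit 7), (nat_lit 154), (nat_lit 28)⟩]

theorem g42_0 : AllB (okG ⟨cf3, d42, e42, m42, g42, h42, (nat_lit 23), (nat_lit 161), (nat_lit 90)⟩ z42) g42_0_l :=
  ⟨by decide +kernel,
  trivial⟩

noncomputable def g43_0_l : List Gp := [⟨(nat_lit 0), (nat_lit 10), (nat_lit 0), (nat_lit 23), (nat_lit 1), (nat_lit 64), (nat_lit 90), (nat_lit 7), (nat_lit 161), (nat_lit 27)⟩]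

theorem g43_0 : AllB (okG ⟨cf3, d43, e43, m43, g43, h43, (nat_lit 23), (nat_lit 161), (nat_lit 90)⟩ z43) g43_0_l :=
  ⟨by decide +kernel,
  trivial⟩

noncomputable def g44_0_l : List Gp := [⟨(nat_lit 0), (nat_lit 10), (nat_lit 0), (nat_lit 20), (nat_lit 1), (nat_lit 66), (nat_lit 90), (nat_lit 7), (nat_lit 140), (nat_lit 25)⟩]

theorem g44_0 : AllB (okG ⟨cf3, d44, e44, m44, g44, h44, (nat_lit 23), (nat_lit 161), (nat_lit 90)⟩ z44) g44_0_l :=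
  ⟨by decide +kernel,
  trivial⟩

noncomputable def g45_0_l : List Gp := [⟨(nat_lit 0), (nat_lit 10), (nat_lit 0), (nat_lit 19), (nat_lit 1), (nat_lit 67), (nat_lit 89), (nat_lit 6), (nat_lit 114), (nat_lit 23)⟩]

theorem g45_0 : AllB (okG ⟨cf3, d45, e45, m45, g45, h45, (nat_lit 23), (nat_lit 161), (nat_lit 90)⟩ z45) g45_0_l :=
  ⟨by decide +kernel,
  trivial⟩

noncomputable def g46_0_l : List Gp := [⟨(nat_lit 0), (nat_lit 10), (nat_lit 0), (nat_lit 17), (nat_lit 1), (nat_lit 69), (nat_lit 90), (nat_lit 6), (nat_lit 102), (nat_lit 22)⟩]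

theorem g46_0 : AllB (okG ⟨cf3, d46, e46, m46, g46, h46, (nat_lit 23), (nat_lit 161), (nat_lit 90)⟩ z46) g46_0_l :=
  ⟨by decide +kernel,
  trivial⟩

noncomputable def g47_0_l : List Gp := [⟨(nat_lit 0), (nat_lit 10), (nat_lit 0), (nat_lit 16), (nat_lit 1), (nat_lit 70), (nat_lit 90), (nat_lit 6), (nat_lit 96), (nat_lit 21)⟩]

theorem g47_0 : AllB (okG ⟨cf3, d47, e47, m47, g47, h47, (nat_lit 23), (nat_lit 161), (nat_lit 90)⟩ z47) g47_0_l :=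
  ⟨by decide +kernel,
  trivial⟩

noncomputable def g48_0_l : List Gp := [⟨(nat_lit 0), (nat_lit 10), (nat_lit 0), (nat_lit 14), (nat_lit 1), (nat_lit 72), (nat_lit 90), (nat_lit 5), (nat_lit 70), (nat_lit 19)⟩]

theorem g48_0 : AllB (okG ⟨cf3, d48, e48, m48, g48, h48, (nat_lit 23), (nat_lit 161), (nat_lit 90)⟩ z48) g48_0_l :=
  ⟨by decide +kernel,
  trivial⟩

noncomputable def g49_0_l : List Gp := [⟨(nat_lit 0), (nat_lit 8), (nat_lit 0), (nat_lit 12), (nat_lit 1), (nat_lit 73), (nat_lit 89), (nat_lit 5), (nat_lit 60), (nat_lit 17)⟩]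

theorem g49_0 : AllB (okG ⟨cf3, d49, e49, m49, g49, h49, (nat_lit 23), (nat_lit 161), (nat_lit 90)⟩ z49) g49_0_l :=
  ⟨by decide +kernel,
  trivial⟩

noncomputable def g50_0_l : List Gp := [⟨(nat_lit 0), (nat_lit 8), (nat_lit 0), (nat_lit 12), (nat_lit 1), (nat_lit 75), (nat_lit 90), (nat_lit 4), (nat_lit 48), (nat_lit 16)⟩]

theorem g50_0 : AllB (okG ⟨cf3, d50, e50, m50, g50, h50, (nat_lit 23), (nat_lit 161), (nat_lit 90)⟩ z50) g50_0_l :=
  ⟨by decide +kernel,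
  trivial⟩

noncomputable def g51_0_l : List Gp := [⟨(nat_lit 0), (nat_lit 7), (nat_lit 0), (nat_lit 10), (nat_lit 1), (nat_lit 76), (nat_lit 90), (nat_lit 4), (nat_lit 40), (nat_lit 15)⟩]

theorem g51_0 : AllB (okG ⟨cf3, d51, e51, m51, g51, h51, (nat_lit 23), (nat_lit 161), (nat_lit 90)⟩ z51) g51_0_l :=
  ⟨by decide +kernel,
  trivial⟩

noncomputable def g52_0_l : List Gp := [⟨(nat_lit 0), (nat_lit 7), (nat_lit 0), (nat_lit 9), (nat_lit 1), (nat_lit 78), (nat_lit 90), (nat_lit 4), (nat_lit 36), (nat_lit 13)⟩]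

theorem g52_0 : AllB (okG ⟨cf3, d52, e52, m52, g52, h52, (nat_lit 23), (nat_lit 161), (nat_lit 90)⟩ z52) g52_0_l :=
  ⟨by decide +kernel,
  trivial⟩

noncomputable def g53_0_l : List Gp := [⟨(nat_lit 0), (nat_lit 6), (nat_lit 0), (nat_lit 6), (nat_lit 1), (nat_lit 79), (nat_lit 90), (nat_lit 3), (nat_lit 19), (nat_lit 12)⟩]

theorem g53_0 : AllB (okG ⟨cf3, d53, e53, m53, g53, h53, (nat_lit 23), (nat_lit 161), (nat_lit 90)⟩ z53) g53_0_l :=
  ⟨by decide +kernel,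
  trivial⟩

noncomputable def g54_0_l : List Gp := [⟨(nat_lit 0), (nat_lit 5), (nat_lit 0), (nat_lit 6), (nat_lit 1), (nat_lit 81), (nat_lit 90), (nat_lit 3), (nat_lit 18), (nat_lit 10)⟩]

theorem g54_0 : AllB (okG ⟨cf3, d54, e54, m54, g54, h54, (nat_lit 23), (nat_lit 161), (nat_lit 90)⟩ z54) g54_0_l :=
  ⟨by decide +kernel,
  trivial⟩

noncomputable def g55_0_l : List Gp := [⟨(nat_lit 0), (nat_lit 5), (nat_lit 0), (nat_lit 4), (nat_lit 1), (nat_lit 82), (nat_lit 90), (nat_lit 3), (nat_lit 16), (nat_lit 9)⟩]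

theorem g55_0 : AllB (okG ⟨cf3, d55, e55, m55, g55, h55, (nat_lit 23), (nat_lit 161), (nat_lit 90)⟩ z55) g55_0_l :=
  ⟨by decide +kernel,
  trivial⟩

noncomputable def g56_0_l : List Gp := [⟨(nat_lit 0), (nat_lit 3), (nat_lit 0), (nat_lit 4), (nat_lit 1), (nat_lit 84), (nat_lit 89), (nat_lit 2), (nat_lit 8), (nat_lit 6)⟩]

theorem g56_0 : AllB (okG ⟨cf3, d56, e56, m56, g56, h56, (nat_lit 23), (nat_lit 161), (nat_lit 90)⟩ z56) g56_0_l :=
  ⟨by decide +kernel,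
  trivial⟩

noncomputable def g57_0_l : List Gp := [⟨(nat_lit 0), (nat_lit 3), (nat_lit 0), (nat_lit 2), (nat_lit 1), (nat_lit 85), (nat_lit 89), (nat_lit 2), (nat_lit 7), (nat_lit 5)⟩]

theorem g57_0 : AllB (okG ⟨cf3, d57, e57, m57, g57, h57, (nat_lit 23), (nat_lit 161), (nat_lit 90)⟩ z57) g57_0_l :=
  ⟨by decide +kernel,
  trivial⟩

noncomputable def g58_0_l : List Gp := [⟨(nat_lit 0), (nat_lit 2), (nat_lit 0), (nat_lit 2), (nat_lit 1), (nat_lit 87), (nat_lit 90), (nat_lit 1), (nat_lit 3), (nat_lit 4)⟩]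

theorem g58_0 : AllB (okG ⟨cf3, d58, e58, m58, g58, h58, (nat_lit 23), (nat_lit 161), (nat_lit 90)⟩ z58) g58_0_l :=
  ⟨by decide +kernel,
  trivial⟩

noncomputable def g59_0_l : List Gp := [⟨(nat_lit 0), (nat_lit 2), (nat_lit 0), (nat_lit 1), (nat_lit 1), (nat_lit 88), (nat_lit 90), (nat_lit 1), (nat_lit 3), (nat_lit 3)⟩]

theorem g59_0 : AllB (okG ⟨cf3, d59, e59, m59, g59, h59, (nat_lit 23), (nat_lit 161), (nat_lit 90)⟩ z59) g59_0_l :=
  ⟨by decide +kernel,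
  trivial⟩

end Vale.Agent.P236KE.S90
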