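import Vale.Agent.P236KE.Cfg
import Vale.Agent.P236KE.S90.Deg
import Vale.Agent.P236KE.S90.D20
import Vale.Agent.P236KE.S90.D24

/-!
# P236KE / checks (generated)
-/

set_option maxRecDepth 100000

namespace Vale.Agent.P236KE.S90

noncomputable def k22_1_l : List Gp := [⟨(nat_lit 5), (nat_lit 5), (nat_lit 10), (nat_lit 6), (nat_lit 231), (nat_lit 43), (nat_lit 79), (nat_lit 12), (nat_lit 72), (nat_lit 45)⟩,
  ⟨(nat_lit 0), (nat_lit 2), (nat_lit 16), (nat_lit 4), (nat_lit 231), (nat_lit 33), (nat_lit 84), (nat_lit 15), (nat_lit 60), (nat_lit 60)⟩,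
  ⟨(nat_lit 2), (nat_lit 1), (nat_lit 16), (nat_lit 4), (nat_lit 231), (nat_lit 37), (nat_lit 84), (nat_lit 14), (nat_lit 56), (nat_lit 56)⟩,
  ⟨(nat_lit 3), (nat_lit 2), (nat_lit 16), (nat_lit 4), (nat_lit 231), (nat_lit 39), (nat_lit 84), (nat_lit 13), (nat_lit 52), (nat_lit 54)⟩,
  ⟨(nat_lit 0), (nat_lit 3), (nat_lit 20), (nat_lit 3), (nat_lit 39), (nat_lit 33), (nat_lit 90), (nat_lit 15), (nat_lit 46), (nat_lit 62)⟩,
  ⟨(nat_lit 3), (nat_lit 2), (nat_lit 20), (nat_lit 3), (nat_lit 39), (nat_lit 39), (nat_lit 90), (nat_lit 13), (nat_lit 39), (nat_lit 56)⟩,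
  ⟨(nat_lit 5), (nat_lit 3), (nat_lit 16), (nat_lit 4), (nat_lit 231), (nat_lit 43), (nat_lit 84), (nat_lit 12), (nat_lit 48), (nat_lit 50)⟩,
  ⟨(nat_lit 8), (nat_lit 2), (nat_lit 16), (nat_lit 4), (nat_lit 231), (nat_lit 49), (nat_lit 84), (nat_lit 11), (nat_lit 44), (nat_lit 44)⟩,
  ⟨(nat_lit 5), (nat_lit 3), (nat_lit 20), (nat_lit 3), (nat_lit 39), (nat_lit 43), (nat_lit 90), (nat_lit 12), (nat_lit 37), (nat_lit 52)⟩,
  ⟨(nat_lit 8), (nat_lit 2), (nat_lit 20), (nat_lit 3), (nat_lit 39), (nat_lit 49), (nat_lit 90), (nat_lit 11), (nat_lit 33), (nat_lit 46)⟩,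
  ⟨(nat_lit 10), (nat_lit 7), (nat_lit 10), (nat_lit 6), (nat_lit 231), (nat_lit 66), (nat_lit 79), (nat_lit 6), (nat_lit 43), (nat_lit 22)⟩,
  ⟨(nat_lit 10), (nat_lit 7), (nat_lit 16), (nat_lit 7), (nat_lit 231), (nat_lit 66), (nat_lit 90), (nat_lit 7), (nat_lit 50), (nat_lit 33)⟩,
  ⟨(nat_lit 17), (nat_lit 7), (nat_lit 11), (nat_lit 12), (nat_lit 231), (nat_lit 78), (nat_lit 90), (nat_lit 4), (nat_lit 48), (nat_lit 21)⟩,
  ⟨(nat_lit 0), (nat_lit 5), (nat_lit 0), (nat_lit 5), (nat_lit 1800), (nat_lit 33), (nat_lit 44), (nat_lit 10), (nat_lit 51), (nat_lit 38)⟩,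
  ⟨(nat_lit 0), (nat_lit 5), (nat_lit 5), (nat_lit 5), (nat_lit 1800), (nat_lit 33), (nat_lit 54), (nat_lit 12), (nat_lit 61), (nat_lit 48)⟩,
  ⟨(nat_lit 5), (nat_lit 5), (nat_lit 0), (nat_lit 5), (nat_lit 1800), (nat_lit 43), (nat_lit 44), (nat_lit 7), (nat_lit 36), (nat_lit 28)⟩,
  ⟨(nat_lit 5), (nat_lit 5), (nat_lit 5), (nat_lit 5), (nat_lit 1800), (nat_lit 43), (nat_lit 54), (nat_lit 10), (nat_lit 51), (nat_lit 38)⟩,
  ⟨(nat_lit 0), (nat_lit 3), (nat_lit 10), (nat_lit 5), (nat_lit 776), (nat_lit 33), (nat_lit 77), (nat_lit 15), (nat_lit 75), (nat_lit 62)⟩,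
  ⟨(nat_lit 3), (nat_lit 2), (nat_lit 10), (nat_lit 5), (nat_lit 776), (nat_lit 39), (nat_lit 77), (nat_lit 13), (nat_lit 65), (nat_lit 56)⟩,
  ⟨(nat_lit 5), (nat_lit 5), (nat_lit 10), (nat_lit 5), (nat_lit 776), (nat_lit 43), (nat_lit 77), (nat_lit 12), (nat_lit 61), (nat_lit 52)⟩,
  ⟨(nat_lit 10), (nat_lit 7), (nat_lit 2), (nat_lit 8), (nat_lit 1800), (nat_lit 66), (nat_lit 54), (nat_lit 4), (nat_lit 32), (nat_lit 15)⟩,
  ⟨(nat_lit 10), (nat_lit 7), (nat_lit 10), (nat_lit 5), (nat_lit 776), (nat_lit 66), (nat_lit 77), (nat_lit 7), (nat_lit 50), (nat_lit 29)⟩,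
  ⟨(nat_lit 17), (nat_lit 7), (nat_lit 8), (nat_lit 7), (nat_lit 1800), (nat_lit 78), (nat_lit 77), (nat_lit 4), (nat_lit 29), (nat_lit 26)⟩,
  ⟨(nat_lit 0), (nat_lit 3), (nat_lit 0), (nat_lit 4), (nat_lit 14352), (nat_lit 33), (nat_lit 42), (nat_lit 15), (nat_lit 60), (nat_lit 63)⟩,
  ⟨(nat_lit 3), (nat_lit 2), (nat_lit 0), (nat_lit 4), (nat_lit 14352), (nat_lit 39), (nat_lit 42), (nat_lit 13), (nat_lit 52), (nat_lit 57)⟩,
  ⟨(nat_lit 0), (nat_lit 3), (nat_lit 4), (nat_lit 4), (nat_lit 6160), (nat_lit 33), (nat_lit 50), (nat_lit 15), (nat_lit 60), (nat_lit 62)⟩,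
  ⟨(nat_lit 3), (nat_lit 2), (nat_lit 4), (nat_lit 4), (nat_lit 6160), (nat_lit 39), (nat_lit 50), (nat_lit 13), (nat_lit 52), (nat_lit 56)⟩,
  ⟨(nat_lit 5), (nat_lit 3), (nat_lit 0), (nat_lit 4), (nat_lit 14352), (nat_lit 43), (nat_lit 42), (nat_lit 12), (nat_lit 48), (nat_lit 53)⟩,
  ⟨(nat_lit 8), (nat_lit 2), (nat_lit 0), (nat_lit 4), (nat_lit 14352), (nat_lit 49), (nat_lit 42), (nat_lit 11), (nat_lit 44), (nat_lit 47)⟩,
  ⟨(nat_lit 5), (nat_lit 3), (nat_lit 4), (nat_lit 4), (nat_lit 6160), (nat_lit 43), (nat_lit 50), (nat_lit 12), (nat_lit 48), (nat_lit 52)⟩,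
  ⟨(nat_lit 8), (nat_lit 2), (nat_lit 4), (nat_lit 4), (nat_lit 6160), (nat_lit 49), (nat_lit 50), (nat_lit 11), (nat_lit 44), (nat_lit 46)⟩,
  ⟨(nat_lit 10), (nat_lit 7), (nat_lit 0), (nat_lit 8), (nat_lit 14352), (nat_lit 66), (nat_lit 50), (nat_lit 7), (nat_lit 56), (nat_lit 38)⟩,
  ⟨(nat_lit 17), (nat_lit 7), (nat_lit 0), (nat_lit 8), (nat_lit 14352), (nat_lit 78), (nat_lit 50), (nat_lit 4), (nat_lit 32), (nat_lit 26)⟩]

theorem k22_1 : AllB (okK ⟨cf3, d22, d23, m22, g22, g24, (nat_lit 23), (nat_lit 161), (nat_lit 90)⟩) k22_1_l :=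
  ⟨by decide +kernel,
  by decide +kernel,
  by decide +kernel,
  by decide +kernel,
  by decide +kernel,
  by decide +kernel,
  by decide +kernel,
  by decide +kernel,
  by decide +kernel,
  by decide +kernel,
  by decide +kernel,
  by decide +kernel,
  by decide +kernel,
  by decide +kernel,
  by decide +kernel,
  by decide +kernel,
  by decide +kernel,
  by decide +kernel,
  by decide +kernel,
  by decide +kernel,
  by decide +kernel,
  by decide +kernel,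
  by decide +kernel,
  by decide +kernel,
  by decide +kernel,
  by decide +kernel,
  by decide +kernel,
  by decide +kernel,
  by decide +kernel,
  by decide +kernel,
  by decide +kernel,
  by decide +kernel,
  by decide +kernel,
  trivial⟩

noncomputable def k23_0_l : List Gp := [⟨(nat_lit 0), (nat_lit 5), (nat_lit 0), (nat_lit 10), (nat_lit 231), (nat_lit 34), (nat_lit 56), (nat_lit 8), (nat_lit 80), (nat_lit 31)⟩,
  ⟨(nat_lit 5), (nat_lit 5), (nat_lit 0), (nat_lit 10), (nat_lit 231), (nat_lit 45), (nat_lit 56), (nat_lit 5), (nat_lit 50), (nat_lit 20)⟩,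
  ⟨(nat_lit 0), (nat_lit 3), (nat_lit 10), (nat_lit 5), (nat_lit 231), (nat_lit 34), (nat_lit 79), (nat_lit 14), (nat_lit 70), (nat_lit 54)⟩,
  ⟨(nat_lit 3), (nat_lit 2), (nat_lit 10), (nat_lit 5), (nat_lit 231), (nat_lit 40), (nat_lit 79), (nat_lit 12), (nat_lit 60), (nat_lit 48)⟩,
  ⟨(nat_lit 0), (nat_lit 2), (nat_lit 15), (nat_lit 5), (nat_lit 231), (nat_lit 34), (nat_lit 85), (nat_lit 15), (nat_lit 75), (nat_lit 60)⟩,
  ⟨(nat_lit 2), (nat_lit 1), (nat_lit 15), (nat_lit 5), (nat_lit 231), (nat_lit 38), (nat_lit 85), (nat_lit 14), (nat_lit 70), (nat_lit 56)⟩,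
  ⟨(nat_lit 0), (nat_lit 3), (nat_lit 20), (nat_lit 2), (nat_lit 35), (nat_lit 34), (nat_lit 89), (nat_lit 15), (nat_lit 46), (nat_lit 58)⟩,
  ⟨(nat_lit 3), (nat_lit 2), (nat_lit 15), (nat_lit 5), (nat_lit 231), (nat_lit 40), (nat_lit 85), (nat_lit 13), (nat_lit 65), (nat_lit 54)⟩,
  ⟨(nat_lit 3), (nat_lit 2), (nat_lit 20), (nat_lit 2), (nat_lit 35), (nat_lit 40), (nat_lit 89), (nat_lit 13), (nat_lit 27), (nat_lit 52)⟩,
  ⟨(nat_lit 5), (nat_lit 5), (nat_lit 10), (nat_lit 5), (nat_lit 231), (nat_lit 45), (nat_lit 79), (nat_lit 11), (nat_lit 56), (nat_lit 43)⟩,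
  ⟨(nat_lit 5), (nat_lit 3), (nat_lit 15), (nat_lit 5), (nat_lit 231), (nat_lit 45), (nat_lit 85), (nat_lit 12), (nat_lit 60), (nat_lit 49)⟩,
  ⟨(nat_lit 5), (nat_lit 3), (nat_lit 20), (nat_lit 2), (nat_lit 35), (nat_lit 45), (nat_lit 89), (nat_lit 12), (nat_lit 37), (nat_lit 47)⟩,
  ⟨(nat_lit 8), (nat_lit 2), (nat_lit 15), (nat_lit 7), (nat_lit 231), (nat_lit 51), (nat_lit 89), (nat_lit 10), (nat_lit 70), (nat_lit 47)⟩,
  ⟨(nat_lit 10), (nat_lit 7), (nat_lit 10), (nat_lit 12), (nat_lit 231), (nat_lit 67), (nat_lit 89), (nat_lit 6), (nat_lit 72), (nat_lit 31)⟩,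
  ⟨(nat_lit 17), (nat_lit 6), (nat_lit 11), (nat_lit 11), (nat_lit 231), (nat_lit 80), (nat_lit 89), (nat_lit 3), (nat_lit 33), (nat_lit 18)⟩,
  ⟨(nat_lit 0), (nat_lit 5), (nat_lit 0), (nat_lit 5), (nat_lit 1800), (nat_lit 34), (nat_lit 45), (nat_lit 10), (nat_lit 51), (nat_lit 38)⟩,
  ⟨(nat_lit 0), (nat_lit 5), (nat_lit 5), (nat_lit 5), (nat_lit 1800), (nat_lit 34), (nat_lit 56), (nat_lit 13), (nat_lit 66), (nat_lit 49)⟩,
  ⟨(nat_lit 5), (nat_lit 5), (nat_lit 0), (nat_lit 5), (nat_lit 1800), (nat_lit 45), (nat_lit 45), (nat_lit 7), (nat_lit 36), (nat_lit 27)⟩,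
  ⟨(nat_lit 5), (nat_lit 5), (nat_lit 5), (nat_lit 5), (nat_lit 1800), (nat_lit 45), (nat_lit 56), (nat_lit 10), (nat_lit 51), (nat_lit 38)⟩,
  ⟨(nat_lit 0), (nat_lit 3), (nat_lit 10), (nat_lit 4), (nat_lit 776), (nat_lit 34), (nat_lit 77), (nat_lit 15), (nat_lit 60), (nat_lit 61)⟩,
  ⟨(nat_lit 3), (nat_lit 2), (nat_lit 10), (nat_lit 4), (nat_lit 776), (nat_lit 40), (nat_lit 77), (nat_lit 13), (nat_lit 52), (nat_lit 55)⟩,
  ⟨(nat_lit 5), (nat_lit 3), (nat_lit 10), (nat_lit 4), (nat_lit 776), (nat_lit 45), (nat_lit 77), (nat_lit 12), (nat_lit 48), (nat_lit 50)⟩,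
  ⟨(nat_lit 8), (nat_lit 2), (nat_lit 10), (nat_lit 4), (nat_lit 776), (nat_lit 51), (nat_lit 77), (nat_lit 10), (nat_lit 40), (nat_lit 44)⟩,
  ⟨(nat_lit 10), (nat_lit 7), (nat_lit 2), (nat_lit 12), (nat_lit 1800), (nat_lit 67), (nat_lit 77), (nat_lit 6), (nat_lit 72), (nat_lit 37)⟩,
  ⟨(nat_lit 17), (nat_lit 6), (nat_lit 8), (nat_lit 6), (nat_lit 1800), (nat_lit 80), (nat_lit 77), (nat_lit 3), (nat_lit 19), (nat_lit 24)⟩,
  ⟨(nat_lit 0), (nat_lit 3), (nat_lit 0), (nat_lit 4), (nat_lit 14352), (nat_lit 34), (nat_lit 43), (nat_lit 15), (nat_lit 60), (nat_lit 63)⟩,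
  ⟨(nat_lit 3), (nat_lit 2), (nat_lit 0), (nat_lit 4), (nat_lit 14352), (nat_lit 40), (nat_lit 43), (nat_lit 13), (nat_lit 52), (nat_lit 57)⟩,
  ⟨(nat_lit 0), (nat_lit 3), (nat_lit 4), (nat_lit 3), (nat_lit 6160), (nat_lit 34), (nat_lit 50), (nat_lit 15), (nat_lit 46), (nat_lit 61)⟩,
  ⟨(nat_lit 3), (nat_lit 2), (nat_lit 4), (nat_lit 3), (nat_lit 6160), (nat_lit 40), (nat_lit 50), (nat_lit 13), (nat_lit 39), (nat_lit 55)⟩,
  ⟨(nat_lit 5), (nat_lit 5), (nat_lit 0), (nat_lit 7), (nat_lit 14352), (nat_lit 45), (nat_lit 50), (nat_lit 12), (nat_lit 84), (nat_lit 59)⟩,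
  ⟨(nat_lit 10), (nat_lit 7), (nat_lit 0), (nat_lit 7), (nat_lit 14352), (nat_lit 67), (nat_lit 50), (nat_lit 6), (nat_lit 43), (nat_lit 37)⟩,
  ⟨(nat_lit 17), (nat_lit 6), (nat_lit 0), (nat_lit 7), (nat_lit 14352), (nat_lit 80), (nat_lit 50), (nat_lit 3), (nat_lit 21), (nat_lit 24)⟩]

theorem k23_0 : AllB (okK ⟨cf3, d23, d24, m23, g23, g25, (nat_lit 23), (nat_lit 161), (nat_lit 90)⟩) k23_0_l :=
  ⟨by decide +kernel,
  by decide +kernel,
  by decide +kernel,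
  by decide +kernel,
  by decide +kernel,
  by decide +kernel,
  by decide +kernel,
  by decide +kernel,
  by decide +kernel,
  by decide +kernel,
  by decide +kernel,
  by decide +kernel,
  by decide +kernel,
  by decide +kernel,
  by decide +kernel,
  by decide +kernel,
  by decide +kernel,
  by decide +kernel,
  by decide +kernel,
  by decide +kernel,
  by decide +kernel,
  by decide +kernel,
  by decide +kernel,
  by decide +kernel,
  by decide +kernel,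
  by decide +kernel,
  by decide +kernel,
  by decide +kernel,
  by decide +kernel,
  by decide +kernel,
  by decide +kernel,
  by decide +kernel,
  trivial⟩

noncomputable def k24_0_l : List Gp := [⟨(nat_lit 0), (nat_lit 5), (nat_lit 0), (nat_lit 10), (nat_lit 231), (nat_lit 36), (nat_lit 57), (nat_lit 8), (nat_lit 80), (nat_lit 30)⟩,
  ⟨(nat_lit 5), (nat_lit 5), (nat_lit 0), (nat_lit 10), (nat_lit 231), (nat_lit 46), (nat_lit 57), (nat_lit 5), (nat_lit 50), (nat_lit 20)⟩,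
  ⟨(nat_lit 0), (nat_lit 3), (nat_lit 10), (nat_lit 5), (nat_lit 231), (nat_lit 36), (nat_lit 80), (nat_lit 14), (nat_lit 70), (nat_lit 53)⟩,
  ⟨(nat_lit 3), (nat_lit 2), (nat_lit 10), (nat_lit 5), (nat_lit 231), (nat_lit 42), (nat_lit 80), (nat_lit 12), (nat_lit 60), (nat_lit 47)⟩,
  ⟨(nat_lit 0), (nat_lit 3), (nat_lit 15), (nat_lit 4), (nat_lit 231), (nat_lit 36), (nat_lit 85), (nat_lit 14), (nat_lit 56), (nat_lit 58)⟩,
  ⟨(nat_lit 0), (nat_lit 3), (nat_lit 19), (nat_lit 2), (nat_lit 35), (nat_lit 36), (nat_lit 89), (nat_lit 14), (nat_lit 43), (nat_lit 56)⟩,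
  ⟨(nat_lit 3), (nat_lit 2), (nat_lit 15), (nat_lit 4), (nat_lit 231), (nat_lit 42), (nat_lit 85), (nat_lit 13), (nat_lit 52), (nat_lit 52)⟩,
  ⟨(nat_lit 3), (nat_lit 2), (nat_lit 19), (nat_lit 2), (nat_lit 35), (nat_lit 42), (nat_lit 89), (nat_lit 13), (nat_lit 27), (nat_lit 50)⟩,
  ⟨(nat_lit 5), (nat_lit 5), (nat_lit 10), (nat_lit 5), (nat_lit 231), (nat_lit 46), (nat_lit 80), (nat_lit 11), (nat_lit 56), (nat_lit 43)⟩,
  ⟨(nat_lit 5), (nat_lit 3), (nat_lit 15), (nat_lit 4), (nat_lit 231), (nat_lit 46), (nat_lit 85), (nat_lit 12), (nat_lit 48), (nat_lit 48)⟩,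
  ⟨(nat_lit 5), (nat_lit 3), (nat_lit 19), (nat_lit 2), (nat_lit 35), (nat_lit 46), (nat_lit 89), (nat_lit 12), (nat_lit 37), (nat_lit 46)⟩,
  ⟨(nat_lit 8), (nat_lit 2), (nat_lit 15), (nat_lit 6), (nat_lit 231), (nat_lit 52), (nat_lit 89), (nat_lit 10), (nat_lit 60), (nat_lit 46)⟩,
  ⟨(nat_lit 10), (nat_lit 6), (nat_lit 10), (nat_lit 11), (nat_lit 231), (nat_lit 69), (nat_lit 89), (nat_lit 6), (nat_lit 66), (nat_lit 29)⟩,
  ⟨(nat_lit 16), (nat_lit 7), (nat_lit 10), (nat_lit 11), (nat_lit 231), (nat_lit 80), (nat_lit 89), (nat_lit 3), (nat_lit 33), (nat_lit 18)⟩,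
  ⟨(nat_lit 0), (nat_lit 5), (nat_lit 0), (nat_lit 5), (nat_lit 1800), (nat_lit 36), (nat_lit 47), (nat_lit 10), (nat_lit 51), (nat_lit 38)⟩,
  ⟨(nat_lit 0), (nat_lit 5), (nat_lit 5), (nat_lit 5), (nat_lit 1800), (nat_lit 36), (nat_lit 57), (nat_lit 12), (nat_lit 61), (nat_lit 48)⟩,
  ⟨(nat_lit 5), (nat_lit 5), (nat_lit 0), (nat_lit 5), (nat_lit 1800), (nat_lit 46), (nat_lit 47), (nat_lit 7), (nat_lit 36), (nat_lit 28)⟩,
  ⟨(nat_lit 5), (nat_lit 5), (nat_lit 5), (nat_lit 5), (nat_lit 1800), (nat_lit 46), (nat_lit 57), (nat_lit 10), (nat_lit 51), (nat_lit 38)⟩,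
  ⟨(nat_lit 0), (nat_lit 3), (nat_lit 10), (nat_lit 3), (nat_lit 776), (nat_lit 36), (nat_lit 76), (nat_lit 14), (nat_lit 43), (nat_lit 58)⟩,
  ⟨(nat_lit 3), (nat_lit 2), (nat_lit 10), (nat_lit 3), (nat_lit 776), (nat_lit 42), (nat_lit 76), (nat_lit 13), (nat_lit 39), (nat_lit 52)⟩,
  ⟨(nat_lit 5), (nat_lit 3), (nat_lit 10), (nat_lit 3), (nat_lit 776), (nat_lit 46), (nat_lit 76), (nat_lit 12), (nat_lit 37), (nat_lit 48)⟩,
  ⟨(nat_lit 8), (nat_lit 2), (nat_lit 10), (nat_lit 3), (nat_lit 776), (nat_lit 52), (nat_lit 76), (nat_lit 10), (nat_lit 30), (nat_lit 42)⟩,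
  ⟨(nat_lit 10), (nat_lit 6), (nat_lit 2), (nat_lit 11), (nat_lit 1800), (nat_lit 69), (nat_lit 76), (nat_lit 6), (nat_lit 66), (nat_lit 34)⟩,
  ⟨(nat_lit 16), (nat_lit 7), (nat_lit 8), (nat_lit 5), (nat_lit 1800), (nat_lit 80), (nat_lit 76), (nat_lit 3), (nat_lit 22), (nat_lit 23)⟩,
  ⟨(nat_lit 0), (nat_lit 3), (nat_lit 0), (nat_lit 3), (nat_lit 6160), (nat_lit 36), (nat_lit 43), (nat_lit 13), (nat_lit 40), (nat_lit 52)⟩,
  ⟨(nat_lit 3), (nat_lit 2), (nat_lit 0), (nat_lit 3), (nat_lit 6160), (nat_lit 42), (nat_lit 43), (nat_lit 12), (nat_lit 36), (nat_lit 46)⟩,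
  ⟨(nat_lit 0), (nat_lit 3), (nat_lit 3), (nat_lit 3), (nat_lit 6160), (nat_lit 36), (nat_lit 49), (nat_lit 14), (nat_lit 43), (nat_lit 58)⟩,
  ⟨(nat_lit 3), (nat_lit 2), (nat_lit 3), (nat_lit 3), (nat_lit 6160), (nat_lit 42), (nat_lit 49), (nat_lit 13), (nat_lit 39), (nat_lit 52)⟩,
  ⟨(nat_lit 5), (nat_lit 5), (nat_lit 0), (nat_lit 6), (nat_lit 6160), (nat_lit 46), (nat_lit 49), (nat_lit 12), (nat_lit 72), (nat_lit 48)⟩,
  ⟨(nat_lit 10), (nat_lit 13), (nat_lit 0), (nat_lit 6), (nat_lit 6160), (nat_lit 69), (nat_lit 49), (nat_lit 6), (nat_lit 79), (nat_lit 25)⟩]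

theorem k24_0 : AllB (okK ⟨cf3, d24, d25, m24, g24, g26, (nat_lit 23), (nat_lit 161), (nat_lit 90)⟩) k24_0_l :=
  ⟨by decide +kernel,
  by decide +kernel,
  by decide +kernel,
  by decide +kernel,
  by decide +kernel,
  by decide +kernel,
  by decide +kernel,
  by decide +kernel,
  by decide +kernel,
  by decide +kernel,
  by decide +kernel,
  by decide +kernel,
  by decide +kernel,
  by decide +kernel,
  by decide +kernel,
  by decide +kernel,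
  by decide +kernel,
  by decide +kernel,
  by decide +kernel,
  by decide +kernel,
  by decide +kernel,
  by decide +kernel,
  by decide +kernel,
  by decide +kernel,
  by decide +kernel,
  by decide +kernel,
  by decide +kernel,
  by decide +kernel,
  by decide +kernel,
  by decide +kernel,
  trivial⟩

noncomputable def k25_0_l : List Gp := [⟨(nat_lit 0), (nat_lit 5), (nat_lit 0), (nat_lit 10), (nat_lit 231), (nat_lit 37), (nat_lit 59), (nat_lit 8), (nat_lit 80), (nat_lit 31)⟩,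
  ⟨(nat_lit 5), (nat_lit 5), (nat_lit 0), (nat_lit 10), (nat_lit 231), (nat_lit 48), (nat_lit 59), (nat_lit 5), (nat_lit 50), (nat_lit 20)⟩,
  ⟨(nat_lit 0), (nat_lit 3), (nat_lit 10), (nat_lit 4), (nat_lit 231), (nat_lit 37), (nat_lit 80), (nat_lit 13), (nat_lit 52), (nat_lit 52)⟩,
  ⟨(nat_lit 3), (nat_lit 2), (nat_lit 10), (nat_lit 4), (nat_lit 231), (nat_lit 43), (nat_lit 80), (nat_lit 12), (nat_lit 48), (nat_lit 46)⟩,
  ⟨(nat_lit 0), (nat_lit 3), (nat_lit 14), (nat_lit 5), (nat_lit 231), (nat_lit 37), (nat_lit 86), (nat_lit 14), (nat_lit 70), (nat_lit 58)⟩,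
  ⟨(nat_lit 0), (nat_lit 3), (nat_lit 19), (nat_lit 2), (nat_lit 35), (nat_lit 37), (nat_lit 90), (nat_lit 14), (nat_lit 43), (nat_lit 56)⟩,
  ⟨(nat_lit 3), (nat_lit 2), (nat_lit 14), (nat_lit 5), (nat_lit 231), (nat_lit 43), (nat_lit 86), (nat_lit 12), (nat_lit 60), (nat_lit 52)⟩,
  ⟨(nat_lit 3), (nat_lit 2), (nat_lit 19), (nat_lit 2), (nat_lit 35), (nat_lit 43), (nat_lit 90), (nat_lit 12), (nat_lit 25), (nat_lit 50)⟩,
  ⟨(nat_lit 5), (nat_lit 5), (nat_lit 10), (nat_lit 4), (nat_lit 231), (nat_lit 48), (nat_lit 80), (nat_lit 11), (nat_lit 56), (nat_lit 41)⟩,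
  ⟨(nat_lit 5), (nat_lit 5), (nat_lit 14), (nat_lit 7), (nat_lit 231), (nat_lit 48), (nat_lit 90), (nat_lit 11), (nat_lit 77), (nat_lit 51)⟩,
  ⟨(nat_lit 10), (nat_lit 5), (nat_lit 10), (nat_lit 11), (nat_lit 231), (nat_lit 70), (nat_lit 90), (nat_lit 6), (nat_lit 66), (nat_lit 29)⟩,
  ⟨(nat_lit 15), (nat_lit 7), (nat_lit 10), (nat_lit 11), (nat_lit 231), (nat_lit 81), (nat_lit 90), (nat_lit 3), (nat_lit 33), (nat_lit 18)⟩,
  ⟨(nat_lit 0), (nat_lit 5), (nat_lit 0), (nat_lit 5), (nat_lit 1800), (nat_lit 37), (nat_lit 48), (nat_lit 10), (nat_lit 51), (nat_lit 38)⟩,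
  ⟨(nat_lit 0), (nat_lit 3), (nat_lit 5), (nat_lit 4), (nat_lit 1800), (nat_lit 37), (nat_lit 57), (nat_lit 12), (nat_lit 48), (nat_lit 47)⟩,
  ⟨(nat_lit 3), (nat_lit 2), (nat_lit 5), (nat_lit 4), (nat_lit 1800), (nat_lit 43), (nat_lit 57), (nat_lit 11), (nat_lit 44), (nat_lit 41)⟩,
  ⟨(nat_lit 5), (nat_lit 5), (nat_lit 0), (nat_lit 9), (nat_lit 1800), (nat_lit 48), (nat_lit 57), (nat_lit 9), (nat_lit 81), (nat_lit 36)⟩,
  ⟨(nat_lit 0), (nat_lit 3), (nat_lit 9), (nat_lit 3), (nat_lit 1800), (nat_lit 37), (nat_lit 75), (nat_lit 14), (nat_lit 43), (nat_lit 65)⟩,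
  ⟨(nat_lit 3), (nat_lit 2), (nat_lit 9), (nat_lit 3), (nat_lit 1800), (nat_lit 43), (nat_lit 75), (nat_lit 12), (nat_lit 36), (nat_lit 59)⟩,
  ⟨(nat_lit 5), (nat_lit 3), (nat_lit 9), (nat_lit 3), (nat_lit 1800), (nat_lit 48), (nat_lit 75), (nat_lit 11), (nat_lit 34), (nat_lit 54)⟩,
  ⟨(nat_lit 8), (nat_lit 2), (nat_lit 9), (nat_lit 3), (nat_lit 1800), (nat_lit 54), (nat_lit 75), (nat_lit 10), (nat_lit 30), (nat_lit 48)⟩,
  ⟨(nat_lit 10), (nat_lit 5), (nat_lit 2), (nat_lit 10), (nat_lit 1800), (nat_lit 70), (nat_lit 75), (nat_lit 6), (nat_lit 60), (nat_lit 32)⟩,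
  ⟨(nat_lit 15), (nat_lit 7), (nat_lit 7), (nat_lit 5), (nat_lit 1800), (nat_lit 81), (nat_lit 75), (nat_lit 3), (nat_lit 22), (nat_lit 21)⟩,
  ⟨(nat_lit 0), (nat_lit 5), (nat_lit 0), (nat_lit 5), (nat_lit 6160), (nat_lit 37), (nat_lit 48), (nat_lit 14), (nat_lit 71), (nat_lit 56)⟩,
  ⟨(nat_lit 5), (nat_lit 5), (nat_lit 0), (nat_lit 5), (nat_lit 6160), (nat_lit 48), (nat_lit 48), (nat_lit 11), (nat_lit 56), (nat_lit 45)⟩,
  ⟨(nat_lit 10), (nat_lit 12), (nat_lit 0), (nat_lit 5), (nat_lit 6160), (nat_lit 70), (nat_lit 48), (nat_lit 6), (nat_lit 73), (nat_lit 23)⟩]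

theorem k25_0 : AllB (okK ⟨cf3, d25, d26, m25, g25, g27, (nat_lit 23), (nat_lit 161), (nat_lit 90)⟩) k25_0_l :=
  ⟨by decide +kernel,
  by decide +kernel,
  by decide +kernel,
  by decide +kernel,
  by decide +kernel,
  by decide +kernel,
  by decide +kernel,
  by decide +kernel,
  by decide +kernel,
  by decide +kernel,
  by decide +kernel,
  by decide +kernel,
  by decide +kernel,
  by decide +kernel,
  by decide +kernel,
  by decide +kernel,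
  by decide +kernel,
  by decide +kernel,
  by decide +kernel,
  by decide +kernel,
  by decide +kernel,
  by decide +kernel,
  by decide +kernel,
  by decide +kernel,
  by decide +kernel,
  trivial⟩

noncomputable def k26_0_l : List Gp := [⟨(nat_lit 0), (nat_lit 5), (nat_lit 0), (nat_lit 10), (nat_lit 231), (nat_lit 39), (nat_lit 60), (nat_lit 8), (nat_lit 80), (nat_lit 30)⟩,
  ⟨(nat_lit 5), (nat_lit 5), (nat_lit 0), (nat_lit 10), (nat_lit 231), (nat_lit 49), (nat_lit 60), (nat_lit 5), (nat_lit 50), (nat_lit 20)⟩,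
  ⟨(nat_lit 0), (nat_lit 3), (nat_lit 10), (nat_lit 4), (nat_lit 231), (nat_lit 39), (nat_lit 81), (nat_lit 13), (nat_lit 52), (nat_lit 51)⟩,
  ⟨(nat_lit 3), (nat_lit 2), (nat_lit 10), (nat_lit 4), (nat_lit 231), (nat_lit 45), (nat_lit 81), (nat_lit 12), (nat_lit 48), (nat_lit 45)⟩,
  ⟨(nat_lit 0), (nat_lit 3), (nat_lit 14), (nat_lit 3), (nat_lit 103), (nat_lit 39), (nat_lit 86), (nat_lit 13), (nat_lit 40), (nat_lit 53)⟩,
  ⟨(nat_lit 0), (nat_lit 3), (nat_lit 17), (nat_lit 3), (nat_lit 35), (nat_lit 39), (nat_lit 90), (nat_lit 13), (nat_lit 40), (nat_lit 54)⟩,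
  ⟨(nat_lit 3), (nat_lit 2), (nat_lit 14), (nat_lit 6), (nat_lit 103), (nat_lit 45), (nat_lit 90), (nat_lit 12), (nat_lit 72), (nat_lit 51)⟩,
  ⟨(nat_lit 5), (nat_lit 5), (nat_lit 10), (nat_lit 4), (nat_lit 231), (nat_lit 49), (nat_lit 81), (nat_lit 11), (nat_lit 56), (nat_lit 41)⟩,
  ⟨(nat_lit 5), (nat_lit 5), (nat_lit 14), (nat_lit 6), (nat_lit 103), (nat_lit 49), (nat_lit 90), (nat_lit 11), (nat_lit 66), (nat_lit 47)⟩,
  ⟨(nat_lit 10), (nat_lit 11), (nat_lit 10), (nat_lit 10), (nat_lit 231), (nat_lit 72), (nat_lit 90), (nat_lit 5), (nat_lit 56), (nat_lit 27)⟩,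
  ⟨(nat_lit 0), (nat_lit 5), (nat_lit 0), (nat_lit 5), (nat_lit 1800), (nat_lit 39), (nat_lit 50), (nat_lit 10), (nat_lit 51), (nat_lit 38)⟩,
  ⟨(nat_lit 0), (nat_lit 3), (nat_lit 5), (nat_lit 4), (nat_lit 1800), (nat_lit 39), (nat_lit 58), (nat_lit 12), (nat_lit 48), (nat_lit 46)⟩,
  ⟨(nat_lit 3), (nat_lit 2), (nat_lit 5), (nat_lit 4), (nat_lit 1800), (nat_lit 45), (nat_lit 58), (nat_lit 10), (nat_lit 40), (nat_lit 40)⟩,
  ⟨(nat_lit 5), (nat_lit 5), (nat_lit 0), (nat_lit 9), (nat_lit 1800), (nat_lit 49), (nat_lit 58), (nat_lit 9), (nat_lit 81), (nat_lit 36)⟩,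
  ⟨(nat_lit 0), (nat_lit 3), (nat_lit 9), (nat_lit 3), (nat_lit 1800), (nat_lit 39), (nat_lit 77), (nat_lit 13), (nat_lit 40), (nat_lit 65)⟩,
  ⟨(nat_lit 3), (nat_lit 2), (nat_lit 9), (nat_lit 3), (nat_lit 1800), (nat_lit 45), (nat_lit 77), (nat_lit 12), (nat_lit 36), (nat_lit 59)⟩,
  ⟨(nat_lit 5), (nat_lit 3), (nat_lit 9), (nat_lit 3), (nat_lit 1800), (nat_lit 49), (nat_lit 77), (nat_lit 11), (nat_lit 34), (nat_lit 55)⟩,
  ⟨(nat_lit 8), (nat_lit 2), (nat_lit 9), (nat_lit 3), (nat_lit 1800), (nat_lit 55), (nat_lit 77), (nat_lit 9), (nat_lit 27), (nat_lit 49)⟩,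
  ⟨(nat_lit 10), (nat_lit 11), (nat_lit 2), (nat_lit 10), (nat_lit 1800), (nat_lit 72), (nat_lit 77), (nat_lit 5), (nat_lit 56), (nat_lit 32)⟩,
  ⟨(nat_lit 0), (nat_lit 5), (nat_lit 0), (nat_lit 5), (nat_lit 6160), (nat_lit 39), (nat_lit 50), (nat_lit 13), (nat_lit 66), (nat_lit 56)⟩,
  ⟨(nat_lit 5), (nat_lit 5), (nat_lit 0), (nat_lit 5), (nat_lit 6160), (nat_lit 49), (nat_lit 50), (nat_lit 11), (nat_lit 56), (nat_lit 46)⟩,
  ⟨(nat_lit 10), (nat_lit 11), (nat_lit 0), (nat_lit 5), (nat_lit 6160), (nat_lit 72), (nat_lit 50), (nat_lit 5), (nat_lit 56), (nat_lit 23)⟩]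

theorem k26_0 : AllB (okK ⟨cf3, d26, d27, m26, g26, g28, (nat_lit 23), (nat_lit 161), (nat_lit 90)⟩) k26_0_l :=
  ⟨by decide +kernel,
  by decide +kernel,
  by decide +kernel,
  by decide +kernel,
  by decide +kernel,
  by decide +kernel,
  by decide +kernel,
  by decide +kernel,
  by decide +kernel,
  by decide +kernel,
  by decide +kernel,
  by decide +kernel,
  by decide +kernel,
  by decide +kernel,
  by decide +kernel,
  by decide +kernel,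
  by decide +kernel,
  by decide +kernel,
  by decide +kernel,
  by decide +kernel,
  by decide +kernel,
  by decide +kernel,
  trivial⟩

noncomputable def k27_0_l : List Gp := [⟨(nat_lit 0), (nat_lit 5), (nat_lit 0), (nat_lit 10), (nat_lit 231), (nat_lit 40), (nat_lit 62), (nat_lit 8), (nat_lit 80), (nat_lit 31)⟩,
  ⟨(nat_lit 5), (nat_lit 5), (nat_lit 0), (nat_lit 10), (nat_lit 231), (nat_lit 51), (nat_lit 62), (nat_lit 5), (nat_lit 50), (nat_lit 20)⟩,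
  ⟨(nat_lit 0), (nat_lit 3), (nat_lit 10), (nat_lit 3), (nat_lit 231), (nat_lit 40), (nat_lit 81), (nat_lit 13), (nat_lit 40), (nat_lit 50)⟩,
  ⟨(nat_lit 3), (nat_lit 2), (nat_lit 10), (nat_lit 3), (nat_lit 231), (nat_lit 46), (nat_lit 81), (nat_lit 11), (nat_lit 33), (nat_lit 44)⟩,
  ⟨(nat_lit 0), (nat_lit 3), (nat_lit 13), (nat_lit 2), (nat_lit 103), (nat_lit 40), (nat_lit 85), (nat_lit 13), (nat_lit 40), (nat_lit 51)⟩,
  ⟨(nat_lit 0), (nat_lit 3), (nat_lit 15), (nat_lit 4), (nat_lit 35), (nat_lit 40), (nat_lit 89), (nat_lit 13), (nat_lit 52), (nat_lit 52)⟩,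
  ⟨(nat_lit 3), (nat_lit 2), (nat_lit 13), (nat_lit 2), (nat_lit 103), (nat_lit 46), (nat_lit 85), (nat_lit 12), (nat_lit 25), (nat_lit 45)⟩,
  ⟨(nat_lit 3), (nat_lit 2), (nat_lit 15), (nat_lit 4), (nat_lit 35), (nat_lit 46), (nat_lit 89), (nat_lit 12), (nat_lit 48), (nat_lit 46)⟩,
  ⟨(nat_lit 5), (nat_lit 5), (nat_lit 10), (nat_lit 9), (nat_lit 231), (nat_lit 51), (nat_lit 89), (nat_lit 10), (nat_lit 90), (nat_lit 47)⟩,
  ⟨(nat_lit 10), (nat_lit 4), (nat_lit 10), (nat_lit 9), (nat_lit 231), (nat_lit 73), (nat_lit 89), (nat_lit 5), (nat_lit 45), (nat_lit 25)⟩,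
  ⟨(nat_lit 14), (nat_lit 7), (nat_lit 10), (nat_lit 9), (nat_lit 231), (nat_lit 82), (nat_lit 89), (nat_lit 3), (nat_lit 27), (nat_lit 16)⟩,
  ⟨(nat_lit 0), (nat_lit 5), (nat_lit 0), (nat_lit 4), (nat_lit 1800), (nat_lit 40), (nat_lit 49), (nat_lit 9), (nat_lit 46), (nat_lit 36)⟩,
  ⟨(nat_lit 0), (nat_lit 3), (nat_lit 4), (nat_lit 4), (nat_lit 1800), (nat_lit 40), (nat_lit 58), (nat_lit 12), (nat_lit 48), (nat_lit 45)⟩,
  ⟨(nat_lit 3), (nat_lit 2), (nat_lit 4), (nat_lit 4), (nat_lit 1800), (nat_lit 46), (nat_lit 58), (nat_lit 10), (nat_lit 40), (nat_lit 39)⟩,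
  ⟨(nat_lit 5), (nat_lit 5), (nat_lit 0), (nat_lit 8), (nat_lit 1800), (nat_lit 51), (nat_lit 58), (nat_lit 9), (nat_lit 72), (nat_lit 34)⟩,
  ⟨(nat_lit 0), (nat_lit 3), (nat_lit 8), (nat_lit 3), (nat_lit 1800), (nat_lit 40), (nat_lit 76), (nat_lit 13), (nat_lit 40), (nat_lit 63)⟩,
  ⟨(nat_lit 3), (nat_lit 2), (nat_lit 8), (nat_lit 3), (nat_lit 1800), (nat_lit 46), (nat_lit 76), (nat_lit 12), (nat_lit 36), (nat_lit 57)⟩,
  ⟨(nat_lit 5), (nat_lit 3), (nat_lit 8), (nat_lit 3), (nat_lit 1800), (nat_lit 51), (nat_lit 76), (nat_lit 10), (nat_lit 31), (nat_lit 52)⟩,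
  ⟨(nat_lit 8), (nat_lit 2), (nat_lit 8), (nat_lit 3), (nat_lit 1800), (nat_lit 57), (nat_lit 76), (nat_lit 9), (nat_lit 27), (nat_lit 46)⟩,
  ⟨(nat_lit 10), (nat_lit 11), (nat_lit 2), (nat_lit 9), (nat_lit 1800), (nat_lit 73), (nat_lit 76), (nat_lit 5), (nat_lit 56), (nat_lit 30)⟩,
  ⟨(nat_lit 0), (nat_lit 3), (nat_lit 0), (nat_lit 4), (nat_lit 6160), (nat_lit 40), (nat_lit 49), (nat_lit 13), (nat_lit 52), (nat_lit 54)⟩,
  ⟨(nat_lit 3), (nat_lit 2), (nat_lit 0), (nat_lit 4), (nat_lit 6160), (nat_lit 46), (nat_lit 49), (nat_lit 12), (nat_lit 48), (nat_lit 48)⟩,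
  ⟨(nat_lit 5), (nat_lit 5), (nat_lit 0), (nat_lit 4), (nat_lit 6160), (nat_lit 51), (nat_lit 49), (nat_lit 10), (nat_lit 51), (nat_lit 43)⟩,
  ⟨(nat_lit 10), (nat_lit 11), (nat_lit 0), (nat_lit 4), (nat_lit 6160), (nat_lit 73), (nat_lit 49), (nat_lit 5), (nat_lit 56), (nat_lit 21)⟩]

theorem k27_0 : AllB (okK ⟨cf3, d27, d28, m27, g27, g29, (nat_lit 23), (nat_lit 161), (nat_lit 90)⟩) k27_0_l :=
  ⟨by decide +kernel,
  by decide +kernel,
  by decide +kernel,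
  by decide +kernel,
  by decide +kernel,
  by decide +kernel,
  by decide +kernel,
  by decide +kernel,
  by decide +kernel,
  by decide +kernel,
  by decide +kernel,
  by decide +kernel,
  by decide +kernel,
  by decide +kernel,
  by decide +kernel,
  by decide +kernel,
  by decide +kernel,
  by decide +kernel,
  by decide +kernel,
  by decide +kernel,
  by decide +kernel,
  by decide +kernel,
  by decide +kernel,
  by decide +kernel,
  trivial⟩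

noncomputable def k28_0_l : List Gp := [⟨(nat_lit 0), (nat_lit 5), (nat_lit 0), (nat_lit 10), (nat_lit 231), (nat_lit 42), (nat_lit 63), (nat_lit 8), (nat_lit 80), (nat_lit 30)⟩,
  ⟨(nat_lit 5), (nat_lit 5), (nat_lit 0), (nat_lit 10), (nat_lit 231), (nat_lit 52), (nat_lit 63), (nat_lit 5), (nat_lit 50), (nat_lit 20)⟩,
  ⟨(nat_lit 0), (nat_lit 3), (nat_lit 10), (nat_lit 4), (nat_lit 231), (nat_lit 42), (nat_lit 84), (nat_lit 13), (nat_lit 52), (nat_lit 51)⟩,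
  ⟨(nat_lit 3), (nat_lit 2), (nat_lit 10), (nat_lit 4), (nat_lit 231), (nat_lit 48), (nat_lit 84), (nat_lit 11), (nat_lit 44), (nat_lit 45)⟩,
  ⟨(nat_lit 0), (nat_lit 3), (nat_lit 14), (nat_lit 4), (nat_lit 39), (nat_lit 42), (nat_lit 90), (nat_lit 13), (nat_lit 52), (nat_lit 53)⟩,
  ⟨(nat_lit 3), (nat_lit 2), (nat_lit 14), (nat_lit 4), (nat_lit 39), (nat_lit 48), (nat_lit 90), (nat_lit 11), (nat_lit 44), (nat_lit 47)⟩,
  ⟨(nat_lit 5), (nat_lit 5), (nat_lit 10), (nat_lit 8), (nat_lit 231), (nat_lit 52), (nat_lit 90), (nat_lit 10), (nat_lit 80), (nat_lit 47)⟩,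
  ⟨(nat_lit 10), (nat_lit 10), (nat_lit 10), (nat_lit 8), (nat_lit 231), (nat_lit 75), (nat_lit 90), (nat_lit 4), (nat_lit 41), (nat_lit 24)⟩,
  ⟨(nat_lit 0), (nat_lit 5), (nat_lit 0), (nat_lit 5), (nat_lit 1800), (nat_lit 42), (nat_lit 53), (nat_lit 10), (nat_lit 51), (nat_lit 38)⟩,
  ⟨(nat_lit 0), (nat_lit 5), (nat_lit 5), (nat_lit 5), (nat_lit 1800), (nat_lit 42), (nat_lit 63), (nat_lit 12), (nat_lit 61), (nat_lit 48)⟩,
  ⟨(nat_lit 5), (nat_lit 5), (nat_lit 0), (nat_lit 5), (nat_lit 1800), (nat_lit 52), (nat_lit 53), (nat_lit 7), (nat_lit 36), (nat_lit 28)⟩,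
  ⟨(nat_lit 5), (nat_lit 5), (nat_lit 5), (nat_lit 5), (nat_lit 1800), (nat_lit 52), (nat_lit 63), (nat_lit 10), (nat_lit 51), (nat_lit 38)⟩,
  ⟨(nat_lit 10), (nat_lit 9), (nat_lit 2), (nat_lit 8), (nat_lit 1800), (nat_lit 75), (nat_lit 63), (nat_lit 4), (nat_lit 37), (nat_lit 15)⟩,
  ⟨(nat_lit 0), (nat_lit 3), (nat_lit 0), (nat_lit 3), (nat_lit 6160), (nat_lit 42), (nat_lit 49), (nat_lit 13), (nat_lit 40), (nat_lit 52)⟩,
  ⟨(nat_lit 3), (nat_lit 2), (nat_lit 0), (nat_lit 3), (nat_lit 6160), (nat_lit 48), (nat_lit 49), (nat_lit 11), (nat_lit 33), (nat_lit 46)⟩,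
  ⟨(nat_lit 5), (nat_lit 5), (nat_lit 0), (nat_lit 3), (nat_lit 6160), (nat_lit 52), (nat_lit 49), (nat_lit 10), (nat_lit 51), (nat_lit 42)⟩,
  ⟨(nat_lit 10), (nat_lit 10), (nat_lit 0), (nat_lit 3), (nat_lit 6160), (nat_lit 75), (nat_lit 49), (nat_lit 4), (nat_lit 41), (nat_lit 19)⟩]

theorem k28_0 : AllB (okK ⟨cf3, d28, d29, m28, g28, g30, (nat_lit 23), (nat_lit 161), (nat_lit 90)⟩) k28_0_l :=
  ⟨by decide +kernel,
  by decide +kernel,
  by decide +kernel,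
  by decide +kernel,
  by decide +kernel,
  by decide +kernel,
  by decide +kernel,
  by decide +kernel,
  by decide +kernel,
  by decide +kernel,
  by decide +kernel,
  by decide +kernel,
  by decide +kernel,
  by decide +kernel,
  by decide +kernel,
  by decide +kernel,
  by decide +kernel,
  trivial⟩

noncomputable def k29_0_l : List Gp := [⟨(nat_lit 0), (nat_lit 5), (nat_lit 0), (nat_lit 10), (nat_lit 231), (nat_lit 43), (nat_lit 65), (nat_lit 8), (nat_lit 80), (nat_lit 31)⟩,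
  ⟨(nat_lit 5), (nat_lit 5), (nat_lit 0), (nat_lit 10), (nat_lit 231), (nat_lit 54), (nat_lit 65), (nat_lit 5), (nat_lit 50), (nat_lit 20)⟩,
  ⟨(nat_lit 0), (nat_lit 3), (nat_lit 10), (nat_lit 3), (nat_lit 231), (nat_lit 43), (nat_lit 84), (nat_lit 12), (nat_lit 37), (nat_lit 50)⟩,
  ⟨(nat_lit 3), (nat_lit 2), (nat_lit 10), (nat_lit 3), (nat_lit 231), (nat_lit 49), (nat_lit 84), (nat_lit 11), (nat_lit 33), (nat_lit 44)⟩,
  ⟨(nat_lit 0), (nat_lit 3), (nat_lit 13), (nat_lit 4), (nat_lit 39), (nat_lit 43), (nat_lit 90), (nat_lit 12), (nat_lit 48), (nat_lit 52)⟩,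
  ⟨(nat_lit 3), (nat_lit 2), (nat_lit 13), (nat_lit 4), (nat_lit 39), (nat_lit 49), (nat_lit 90), (nat_lit 11), (nat_lit 44), (nat_lit 46)⟩,
  ⟨(nat_lit 5), (nat_lit 5), (nat_lit 10), (nat_lit 7), (nat_lit 231), (nat_lit 54), (nat_lit 90), (nat_lit 10), (nat_lit 70), (nat_lit 45)⟩,
  ⟨(nat_lit 10), (nat_lit 9), (nat_lit 10), (nat_lit 7), (nat_lit 231), (nat_lit 76), (nat_lit 90), (nat_lit 4), (nat_lit 37), (nat_lit 23)⟩,
  ⟨(nat_lit 0), (nat_lit 5), (nat_lit 0), (nat_lit 5), (nat_lit 1800), (nat_lit 43), (nat_lit 54), (nat_lit 10), (nat_lit 51), (nat_lit 38)⟩,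
  ⟨(nat_lit 0), (nat_lit 5), (nat_lit 5), (nat_lit 5), (nat_lit 1800), (nat_lit 43), (nat_lit 65), (nat_lit 12), (nat_lit 61), (nat_lit 49)⟩,
  ⟨(nat_lit 5), (nat_lit 5), (nat_lit 0), (nat_lit 5), (nat_lit 1800), (nat_lit 54), (nat_lit 54), (nat_lit 7), (nat_lit 36), (nat_lit 27)⟩,
  ⟨(nat_lit 5), (nat_lit 5), (nat_lit 5), (nat_lit 5), (nat_lit 1800), (nat_lit 54), (nat_lit 65), (nat_lit 9), (nat_lit 46), (nat_lit 38)⟩,
  ⟨(nat_lit 10), (nat_lit 9), (nat_lit 2), (nat_lit 8), (nat_lit 1800), (nat_lit 76), (nat_lit 65), (nat_lit 4), (nat_lit 37), (nat_lit 16)⟩,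
  ⟨(nat_lit 0), (nat_lit 3), (nat_lit 0), (nat_lit 3), (nat_lit 6160), (nat_lit 43), (nat_lit 50), (nat_lit 12), (nat_lit 37), (nat_lit 52)⟩,
  ⟨(nat_lit 3), (nat_lit 2), (nat_lit 0), (nat_lit 3), (nat_lit 6160), (nat_lit 49), (nat_lit 50), (nat_lit 11), (nat_lit 33), (nat_lit 46)⟩,
  ⟨(nat_lit 5), (nat_lit 5), (nat_lit 0), (nat_lit 3), (nat_lit 6160), (nat_lit 54), (nat_lit 50), (nat_lit 10), (nat_lit 51), (nat_lit 41)⟩,
  ⟨(nat_lit 10), (nat_lit 9), (nat_lit 0), (nat_lit 3), (nat_lit 6160), (nat_lit 76), (nat_lit 50), (nat_lit 4), (nat_lit 37), (nat_lit 19)⟩]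

theorem k29_0 : AllB (okK ⟨cf3, d29, d30, m29, g29, g31, (nat_lit 23), (nat_lit 161), (nat_lit 90)⟩) k29_0_l :=
  ⟨by decide +kernel,
  by decide +kernel,
  by decide +kernel,
  by decide +kernel,
  by decide +kernel,
  by decide +kernel,
  by decide +kernel,
  by decide +kernel,
  by decide +kernel,
  by decide +kernel,
  by decide +kernel,
  by decide +kernel,
  by decide +kernel,
  by decide +kernel,
  by decide +kernel,
  by decide +kernel,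
  by decide +kernel,
  trivial⟩

noncomputable def k30_0_l : List Gp := [⟨(nat_lit 0), (nat_lit 5), (nat_lit 0), (nat_lit 10), (nat_lit 231), (nat_lit 45), (nat_lit 66), (nat_lit 8), (nat_lit 80), (nat_lit 30)⟩,
  ⟨(nat_lit 5), (nat_lit 5), (nat_lit 0), (nat_lit 10), (nat_lit 231), (nat_lit 55), (nat_lit 66), (nat_lit 5), (nat_lit 50), (nat_lit 20)⟩,
  ⟨(nat_lit 0), (nat_lit 5), (nat_lit 10), (nat_lit 5), (nat_lit 231), (nat_lit 45), (nat_lit 89), (nat_lit 12), (nat_lit 61), (nat_lit 53)⟩,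
  ⟨(nat_lit 5), (nat_lit 5), (nat_lit 10), (nat_lit 5), (nat_lit 231), (nat_lit 55), (nat_lit 89), (nat_lit 9), (nat_lit 46), (nat_lit 43)⟩,
  ⟨(nat_lit 10), (nat_lit 8), (nat_lit 10), (nat_lit 5), (nat_lit 231), (nat_lit 78), (nat_lit 89), (nat_lit 4), (nat_lit 33), (nat_lit 20)⟩,
  ⟨(nat_lit 0), (nat_lit 5), (nat_lit 0), (nat_lit 5), (nat_lit 1800), (nat_lit 45), (nat_lit 56), (nat_lit 10), (nat_lit 51), (nat_lit 38)⟩,
  ⟨(nat_lit 0), (nat_lit 5), (nat_lit 5), (nat_lit 5), (nat_lit 1800), (nat_lit 45), (nat_lit 66), (nat_lit 12), (nat_lit 61), (nat_lit 48)⟩,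
  ⟨(nat_lit 5), (nat_lit 5), (nat_lit 0), (nat_lit 5), (nat_lit 1800), (nat_lit 55), (nat_lit 56), (nat_lit 7), (nat_lit 36), (nat_lit 28)⟩,
  ⟨(nat_lit 5), (nat_lit 5), (nat_lit 5), (nat_lit 5), (nat_lit 1800), (nat_lit 55), (nat_lit 66), (nat_lit 9), (nat_lit 46), (nat_lit 38)⟩,
  ⟨(nat_lit 10), (nat_lit 8), (nat_lit 2), (nat_lit 8), (nat_lit 1800), (nat_lit 78), (nat_lit 66), (nat_lit 4), (nat_lit 33), (nat_lit 15)⟩,
  ⟨(nat_lit 0), (nat_lit 3), (nat_lit 0), (nat_lit 2), (nat_lit 2064), (nat_lit 45), (nat_lit 50), (nat_lit 12), (nat_lit 37), (nat_lit 47)⟩,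
  ⟨(nat_lit 3), (nat_lit 2), (nat_lit 0), (nat_lit 2), (nat_lit 2064), (nat_lit 51), (nat_lit 50), (nat_lit 10), (nat_lit 21), (nat_lit 41)⟩,
  ⟨(nat_lit 5), (nat_lit 5), (nat_lit 0), (nat_lit 2), (nat_lit 2064), (nat_lit 55), (nat_lit 50), (nat_lit 9), (nat_lit 46), (nat_lit 37)⟩,
  ⟨(nat_lit 10), (nat_lit 8), (nat_lit 0), (nat_lit 2), (nat_lit 2064), (nat_lit 78), (nat_lit 50), (nat_lit 4), (nat_lit 33), (nat_lit 14)⟩]

theorem k30_0 : AllB (okK ⟨cf3, d30, d31, m30, g30, g32, (nat_lit 23), (nat_lit 161), (nat_lit 90)⟩) k30_0_l :=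
  ⟨by decide +kernel,
  by decide +kernel,
  by decide +kernel,
  by decide +kernel,
  by decide +kernel,
  by decide +kernel,
  by decide +kernel,
  by decide +kernel,
  by decide +kernel,
  by decide +kernel,
  by decide +kernel,
  by decide +kernel,
  by decide +kernel,
  by decide +kernel,
  trivial⟩

noncomputable def k31_0_l : List Gp := [⟨(nat_lit 0), (nat_lit 5), (nat_lit 0), (nat_lit 10), (nat_lit 231), (nat_lit 46), (nat_lit 68), (nat_lit 8), (nat_lit 80), (nat_lit 31)⟩,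
  ⟨(nat_lit 5), (nat_lit 5), (nat_lit 0), (nat_lit 10), (nat_lit 231), (nat_lit 57), (nat_lit 68), (nat_lit 5), (nat_lit 50), (nat_lit 20)⟩,
  ⟨(nat_lit 0), (nat_lit 3), (nat_lit 10), (nat_lit 4), (nat_lit 231), (nat_lit 46), (nat_lit 89), (nat_lit 12), (nat_lit 48), (nat_lit 52)⟩,
  ⟨(nat_lit 3), (nat_lit 2), (nat_lit 10), (nat_lit 4), (nat_lit 231), (nat_lit 52), (nat_lit 89), (nat_lit 10), (nat_lit 40), (nat_lit 46)⟩,
  ⟨(nat_lit 5), (nat_lit 5), (nat_lit 10), (nat_lit 4), (nat_lit 231), (nat_lit 57), (nat_lit 89), (nat_lit 9), (nat_lit 46), (nat_lit 41)⟩,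
  ⟨(nat_lit 10), (nat_lit 7), (nat_lit 10), (nat_lit 4), (nat_lit 231), (nat_lit 79), (nat_lit 89), (nat_lit 3), (nat_lit 22), (nat_lit 19)⟩,
  ⟨(nat_lit 0), (nat_lit 5), (nat_lit 0), (nat_lit 5), (nat_lit 1800), (nat_lit 46), (nat_lit 57), (nat_lit 10), (nat_lit 51), (nat_lit 38)⟩,
  ⟨(nat_lit 0), (nat_lit 5), (nat_lit 5), (nat_lit 5), (nat_lit 1800), (nat_lit 46), (nat_lit 68), (nat_lit 12), (nat_lit 61), (nat_lit 49)⟩,
  ⟨(nat_lit 5), (nat_lit 5), (nat_lit 0), (nat_lit 10), (nat_lit 1800), (nat_lit 57), (nat_lit 68), (nat_lit 9), (nat_lit 90), (nat_lit 38)⟩,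
  ⟨(nat_lit 10), (nat_lit 7), (nat_lit 2), (nat_lit 8), (nat_lit 1800), (nat_lit 79), (nat_lit 68), (nat_lit 3), (nat_lit 24), (nat_lit 16)⟩,
  ⟨(nat_lit 0), (nat_lit 5), (nat_lit 0), (nat_lit 1), (nat_lit 2064), (nat_lit 46), (nat_lit 49), (nat_lit 12), (nat_lit 61), (nat_lit 45)⟩,
  ⟨(nat_lit 5), (nat_lit 5), (nat_lit 0), (nat_lit 1), (nat_lit 2064), (nat_lit 57), (nat_lit 49), (nat_lit 9), (nat_lit 46), (nat_lit 34)⟩,
  ⟨(nat_lit 10), (nat_lit 7), (nat_lit 0), (nat_lit 1), (nat_lit 2064), (nat_lit 79), (nat_lit 49), (nat_lit 3), (nat_lit 22), (nat_lit 12)⟩]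

theorem k31_0 : AllB (okK ⟨cf3, d31, d32, m31, g31, g33, (nat_lit 23), (nat_lit 161), (nat_lit 90)⟩) k31_0_l :=
  ⟨by decide +kernel,
  by decide +kernel,
  by decide +kernel,
  by decide +kernel,
  by decide +kernel,
  by decide +kernel,
  by decide +kernel,
  by decide +kernel,
  by decide +kernel,
  by decide +kernel,
  by decide +kernel,
  by decide +kernel,
  by decide +kernel,
  trivial⟩

noncomputable def k32_0_l : List Gp := [⟨(nat_lit 0), (nat_lit 5), (nat_lit 0), (nat_lit 10), (nat_lit 231), (nat_lit 48), (nat_lit 69), (nat_lit 8), (nat_lit 80), (nat_lit 30)⟩,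
  ⟨(nat_lit 5), (nat_lit 5), (nat_lit 0), (nat_lit 10), (nat_lit 231), (nat_lit 58), (nat_lit 69), (nat_lit 5), (nat_lit 50), (nat_lit 20)⟩,
  ⟨(nat_lit 0), (nat_lit 3), (nat_lit 10), (nat_lit 4), (nat_lit 103), (nat_lit 48), (nat_lit 90), (nat_lit 11), (nat_lit 44), (nat_lit 48)⟩]

theorem k32_0 : AllB (okK ⟨cf3, d32, d33, m32, g32, g34, (nat_lit 23), (nat_lit 161), (nat_lit 90)⟩) k32_0_l :=
  ⟨by decide +kernel,
  by decide +kernel,
  by decide +kernel,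
  trivial⟩

end Vale.Agent.P236KE.S90
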