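import Vale.Agent.P236KE.S90.Cnt
import Vale.Agent.P236KE.S90.K23
import Vale.Agent.P236KE.S90.G4
import Vale.Agent.P236KE.S90.K24
import Vale.Agent.P236KE.S90.G5

/-!
# P236KE / assembly (generated)
-/

set_option maxRecDepth 100000

namespace Vale.Agent.P236KE.S90

theorem mid20 : midOk m20_t (sph.d 21) (sph.n 21) 90 = true := by decide +kernel

theorem lo20 (up : DLL) (dup : ℕ) : sph.Lo ⟨cf3, d20, up, m20, g20, dup, (nat_lit 23), (nat_lit 161), (nat_lit 90)⟩ 90 20 :=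
  ⟨rfl, rfl, rfl, rfl, rfl, rfl, ⟨_, m20_eq, mid20⟩,
    (by decide : 90 < 117), (by decide : 23 ≤ 32), (by decide : 161 ≤ 300)⟩

theorem kq20 : sph.KQ 90 20 :=
  ⟨_, _, lo20 d21 g22, rfl, rfl, k20_0, by decide +kernel⟩

theorem cq20 : sph.CQ 90 zs hs ng cs 20 :=
  ⟨⟨_, _, lo20 e20 h20, rfl, g20_0, by decide +kernel, by decide +kernel⟩, by decide +kernel⟩

theorem ck20 : Vale.Agent.P236K2.ckD (2 ^ 28) (cs 21) (cs 20) (Sq.pn (sph.n 20) (sph.d 20) fun _ => []) 91 = true := by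
  decide +kernel

theorem mid21 : midOk m21_t (sph.d 22) (sph.n 22) 90 = true := by decide +kernel

theorem lo21 (up : DLL) (dup : ℕ) : sph.Lo ⟨cf3, d21, up, m21, g21, dup, (nat_lit 23), (nat_lit 161), (nat_lit 90)⟩ 90 21 :=
  ⟨rfl, rfl, rfl, rfl, rfl, rfl, ⟨_, m21_eq, mid21⟩,
    (by decide : 90 < 117), (by decide : 23 ≤ 32), (by decide : 161 ≤ 300)⟩

theorem kq21 : sph.KQ 90 21 :=
  ⟨_, _, lo21 d22 g23, rfl, rfl, k21_0, by decide +kernel⟩

theorem cq21 : sph.CQ 90 zs hs ng cs 21 :=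
  ⟨⟨_, _, lo21 e21 h21, rfl, g21_0, by decide +kernel, by decide +kernel⟩, by decide +kernel⟩

theorem ck21 : Vale.Agent.P236K2.ckD (2 ^ 28) (cs 22) (cs 21) (Sq.pn (sph.n 21) (sph.d 21) fun _ => []) 91 = true := by
  decide +kernel

theorem mid22 : midOk m22_t (sph.d 23) (sph.n 23) 90 = true := by decide +kernel

theorem lo22 (up : DLL) (dup : ℕ) : sph.Lo ⟨cf3, d22, up, m22, g22, dup, (nat_lit 23), (nat_lit 161), (nat_lit 90)⟩ 90 22 :=
  ⟨rfl, rfl, rfl, rfl, rfl, rfl, ⟨_, m22_eq, mid22⟩,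
    (by decide : 90 < 117), (by decide : 23 ≤ 32), (by decide : 161 ≤ 300)⟩

theorem kq22 : sph.KQ 90 22 :=
  ⟨_, _, lo22 d23 g24, rfl, rfl, (AllB.append k22_0 k22_1), by decide +kernel⟩

theorem cq22 : sph.CQ 90 zs hs ng cs 22 :=
  ⟨⟨_, _, lo22 e22 h22, rfl, g22_0, by decide +kernel, by decide +kernel⟩, by decide +kernel⟩

theorem ck22 : Vale.Agent.P236K2.ckD (2 ^ 28) (cs 23) (cs 22) (Sq.pn (sph.n 22) (sph.d 22) fun _ => []) 91 = true := by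
  decide +kernel

theorem mid23 : midOk m23_t (sph.d 24) (sph.n 24) 90 = true := by decide +kernel

theorem lo23 (up : DLL) (dup : ℕ) : sph.Lo ⟨cf3, d23, up, m23, g23, dup, (nat_lit 23), (nat_lit 161), (nat_lit 90)⟩ 90 23 :=
  ⟨rfl, rfl, rfl, rfl, rfl, rfl, ⟨_, m23_eq, mid23⟩,
    (by decide : 90 < 117), (by decide : 23 ≤ 32), (by decide : 161 ≤ 300)⟩

theorem kq23 : sph.KQ 90 23 :=
  ⟨_, _, lo23 d24 g25, rfl, rfl, k23_0, by decide +kernel⟩

theorem cq23 : sph.CQ 90 zs hs ng cs 23 :=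
  ⟨⟨_, _, lo23 e23 h23, rfl, g23_0, by decide +kernel, by decide +kernel⟩, by decide +kernel⟩

theorem ck23 : Vale.Agent.P236K2.ckD (2 ^ 28) (cs 24) (cs 23) (Sq.pn (sph.n 23) (sph.d 23) fun _ => []) 91 = true := by
  decide +kernel

theorem mid24 : midOk m24_t (sph.d 25) (sph.n 25) 90 = true := by decide +kernel

theorem lo24 (up : DLL) (dup : ℕ) : sph.Lo ⟨cf3, d24, up, m24, g24, dup, (nat_lit 23), (nat_lit 161), (nat_lit 90)⟩ 90 24 :=
  ⟨rfl, rfl, rfl, rfl, rfl, rfl, ⟨_, m24_eq, mid24⟩,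
    (by decide : 90 < 117), (by decide : 23 ≤ 32), (by decide : 161 ≤ 300)⟩

theorem kq24 : sph.KQ 90 24 :=
  ⟨_, _, lo24 d25 g26, rfl, rfl, k24_0, by decide +kernel⟩

theorem cq24 : sph.CQ 90 zs hs ng cs 24 :=
  ⟨⟨_, _, lo24 e24 h24, rfl, (AllB.append g24_0 g24_1), by decide +kernel, by decide +kernel⟩, by decide +kernel⟩

theorem ck24 : Vale.Agent.P236K2.ckD (2 ^ 28) (cs 25) (cs 24) (Sq.pn (sph.n 24) (sph.d 24) fun _ => []) 91 = true := by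
  decide +kernel

end Vale.Agent.P236KE.S90
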