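import Vale.Agent.P236KE.S90.Cnt
import Vale.Agent.P236KE.S90.K24
import Vale.Agent.P236KE.S90.G5

/-!
# P236KE / assembly (generated)
-/

set_option maxRecDepth 100000

namespace Vale.Agent.P236KE.S90

theorem mid25 : midOk m25_t (sph.d 26) (sph.n 26) 90 = true := by decide +kernel

theorem lo25 (up : DLL) (dup : ℕ) : sph.Lo ⟨cf3, d25, up, m25, g25, dup, (nat_lit 23), (nat_lit 161), (nat_lit 90)⟩ 90 25 :=
  ⟨rfl, rfl, rfl, rfl, rfl, rfl, ⟨_, m25_eq, mid25⟩,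
    (by decide : 90 < 117), (by decide : 23 ≤ 32), (by decide : 161 ≤ 300)⟩

theorem kq25 : sph.KQ 90 25 :=
  ⟨_, _, lo25 d26 g27, rfl, rfl, k25_0, by decide +kernel⟩

theorem cq25 : sph.CQ 90 zs hs ng cs 25 :=
  ⟨⟨_, _, lo25 e25 h25, rfl, g25_0, by decide +kernel, by decide +kernel⟩, by decide +kernel⟩

theorem ck25 : Vale.Agent.P236K2.ckD (2 ^ 28) (cs 26) (cs 25) (Sq.pn (sph.n 25) (sph.d 25) fun _ => []) 91 = true := by
  decide +kernel

theorem mid26 : midOk m26_t (sph.d 27) (sph.n 27) 90 = true := by decide +kernel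

theorem lo26 (up : DLL) (dup : ℕ) : sph.Lo ⟨cf3, d26, up, m26, g26, dup, (nat_lit 23), (nat_lit 161), (nat_lit 90)⟩ 90 26 :=
  ⟨rfl, rfl, rfl, rfl, rfl, rfl, ⟨_, m26_eq, mid26⟩,
    (by decide : 90 < 117), (by decide : 23 ≤ 32), (by decide : 161 ≤ 300)⟩

theorem kq26 : sph.KQ 90 26 :=
  ⟨_, _, lo26 d27 g28, rfl, rfl, k26_0, by decide +kernel⟩

theorem cq26 : sph.CQ 90 zs hs ng cs 26 :=
  ⟨⟨_, _, lo26 e26 h26, rfl, g26_0, by decide +kernel, by decide +kernel⟩, by decide +kernel⟩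

theorem ck26 : Vale.Agent.P236K2.ckD (2 ^ 28) (cs 27) (cs 26) (Sq.pn (sph.n 26) (sph.d 26) fun _ => []) 91 = true := by
  decide +kernel

theorem mid27 : midOk m27_t (sph.d 28) (sph.n 28) 90 = true := by decide +kernel

theorem lo27 (up : DLL) (dup : ℕ) : sph.Lo ⟨cf3, d27, up, m27, g27, dup, (nat_lit 23), (nat_lit 161), (nat_lit 90)⟩ 90 27 :=
  ⟨rfl, rfl, rfl, rfl, rfl, rfl, ⟨_, m27_eq, mid27⟩,
    (by decide : 90 < 117), (by decide : 23 ≤ 32), (by decide : 161 ≤ 300)⟩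

theorem kq27 : sph.KQ 90 27 :=
  ⟨_, _, lo27 d28 g29, rfl, rfl, k27_0, by decide +kernel⟩

theorem cq27 : sph.CQ 90 zs hs ng cs 27 :=
  ⟨⟨_, _, lo27 e27 h27, rfl, g27_0, by decide +kernel, by decide +kernel⟩, by decide +kernel⟩

theorem ck27 : Vale.Agent.P236K2.ckD (2 ^ 28) (cs 28) (cs 27) (Sq.pn (sph.n 27) (sph.d 27) fun _ => []) 91 = true := by
  decide +kernel

theorem mid28 : midOk m28_t (sph.d 29) (sph.n 29) 90 = true := by decide +kernel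

theorem lo28 (up : DLL) (dup : ℕ) : sph.Lo ⟨cf3, d28, up, m28, g28, dup, (nat_lit 23), (nat_lit 161), (nat_lit 90)⟩ 90 28 :=
  ⟨rfl, rfl, rfl, rfl, rfl, rfl, ⟨_, m28_eq, mid28⟩,
    (by decide : 90 < 117), (by decide : 23 ≤ 32), (by decide : 161 ≤ 300)⟩

theorem kq28 : sph.KQ 90 28 :=
  ⟨_, _, lo28 d29 g30, rfl, rfl, k28_0, by decide +kernel⟩

theorem cq28 : sph.CQ 90 zs hs ng cs 28 :=
  ⟨⟨_, _, lo28 e28 h28, rfl, g28_0, by decide +kernel, by decide +kernel⟩, by decide +kernel⟩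

theorem ck28 : Vale.Agent.P236K2.ckD (2 ^ 28) (cs 29) (cs 28) (Sq.pn (sph.n 28) (sph.d 28) fun _ => []) 91 = true := by
  decide +kernel

theorem mid29 : midOk m29_t (sph.d 30) (sph.n 30) 90 = true := by decide +kernel

theorem lo29 (up : DLL) (dup : ℕ) : sph.Lo ⟨cf3, d29, up, m29, g29, dup, (nat_lit 23), (nat_lit 161), (nat_lit 90)⟩ 90 29 :=
  ⟨rfl, rfl, rfl, rfl, rfl, rfl, ⟨_, m29_eq, mid29⟩,
    (by decide : 90 < 117), (by decide : 23 ≤ 32), (by decide : 161 ≤ 300)⟩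

theorem kq29 : sph.KQ 90 29 :=
  ⟨_, _, lo29 d30 g31, rfl, rfl, k29_0, by decide +kernel⟩

theorem cq29 : sph.CQ 90 zs hs ng cs 29 :=
  ⟨⟨_, _, lo29 e29 h29, rfl, g29_0, by decide +kernel, by decide +kernel⟩, by decide +kernel⟩

theorem ck29 : Vale.Agent.P236K2.ckD (2 ^ 28) (cs 30) (cs 29) (Sq.pn (sph.n 29) (sph.d 29) fun _ => []) 91 = true := by
  decide +kernel

end Vale.Agent.P236KE.S90
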