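import Vale.Agent.P236KE.Cfg
import Vale.Agent.P236KE.S90.Deg
import Vale.Agent.P236KE.S90.D0
import Vale.Agent.P236KE.S90.Z0
import Vale.Agent.P236KE.S90.D4

/-!
# P236KE / checks (generated)
-/

set_option maxRecDepth 100000

namespace Vale.Agent.P236KE.S90

noncomputable def g0_0_l : List Gp := [⟨(nat_lit 0), (nat_lit 1), (nat_lit 0), (nat_lit 10), (nat_lit 1), (nat_lit 0), (nat_lit 40), (nat_lit 11), (nat_lit 110), (nat_lit 41)⟩,
  ⟨(nat_lit 0), (nat_lit 1), (nat_lit 10), (nat_lit 1), (nat_lit 1), (nat_lit 0), (nat_lit 81), (nat_lit 21), (nat_lit 22), (nat_lit 82)⟩]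

theorem g0_0 : AllB (okG ⟨cf3, d0, e0, m0, g0, h0, (nat_lit 23), (nat_lit 161), (nat_lit 90)⟩ z0) g0_0_l :=
  ⟨by decide +kernel,
  by decide +kernel,
  trivial⟩

noncomputable def g1_0_l : List Gp := [⟨(nat_lit 0), (nat_lit 3), (nat_lit 0), (nat_lit 10), (nat_lit 1), (nat_lit 1), (nat_lit 21), (nat_lit 6), (nat_lit 60), (nat_lit 21)⟩,
  ⟨(nat_lit 0), (nat_lit 4), (nat_lit 10), (nat_lit 11), (nat_lit 1), (nat_lit 1), (nat_lit 45), (nat_lit 12), (nat_lit 132), (nat_lit 45)⟩,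
  ⟨(nat_lit 0), (nat_lit 3), (nat_lit 21), (nat_lit 3), (nat_lit 1), (nat_lit 1), (nat_lit 63), (nat_lit 16), (nat_lit 49), (nat_lit 63)⟩,
  ⟨(nat_lit 3), (nat_lit 1), (nat_lit 21), (nat_lit 3), (nat_lit 1), (nat_lit 27), (nat_lit 63), (nat_lit 10), (nat_lit 30), (nat_lit 37)⟩,
  ⟨(nat_lit 0), (nat_lit 2), (nat_lit 24), (nat_lit 5), (nat_lit 1), (nat_lit 1), (nat_lit 82), (nat_lit 21), (nat_lit 105), (nat_lit 82)⟩,
  ⟨(nat_lit 2), (nat_lit 1), (nat_lit 24), (nat_lit 5), (nat_lit 1), (nat_lit 9), (nat_lit 82), (nat_lit 19), (nat_lit 95), (nat_lit 74)⟩,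
  ⟨(nat_lit 0), (nat_lit 2), (nat_lit 29), (nat_lit 2), (nat_lit 1), (nat_lit 1), (nat_lit 90), (nat_lit 23), (nat_lit 47), (nat_lit 90)⟩,
  ⟨(nat_lit 2), (nat_lit 1), (nat_lit 29), (nat_lit 2), (nat_lit 1), (nat_lit 9), (nat_lit 90), (nat_lit 21), (nat_lit 42), (nat_lit 82)⟩,
  ⟨(nat_lit 3), (nat_lit 1), (nat_lit 24), (nat_lit 7), (nat_lit 1), (nat_lit 27), (nat_lit 90), (nat_lit 16), (nat_lit 112), (nat_lit 64)⟩,
  ⟨(nat_lit 4), (nat_lit 1), (nat_lit 27), (nat_lit 4), (nat_lit 1), (nat_lit 81), (nat_lit 90), (nat_lit 3), (nat_lit 12), (nat_lit 10)⟩]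

theorem g1_0 : AllB (okG ⟨cf3, d1, e1, m1, g1, h1, (nat_lit 23), (nat_lit 161), (nat_lit 90)⟩ z1) g1_0_l :=
  ⟨by decide +kernel,
  by decide +kernel,
  by decide +kernel,
  by decide +kernel,
  by decide +kernel,
  by decide +kernel,
  by decide +kernel,
  by decide +kernel,
  by decide +kernel,
  by decide +kernel,
  trivial⟩

noncomputable def g2_0_l : List Gp := [⟨(nat_lit 0), (nat_lit 7), (nat_lit 0), (nat_lit 16), (nat_lit 1), (nat_lit 3), (nat_lit 24), (nat_lit 6), (nat_lit 96), (nat_lit 22)⟩,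
  ⟨(nat_lit 0), (nat_lit 7), (nat_lit 16), (nat_lit 8), (nat_lit 1), (nat_lit 3), (nat_lit 36), (nat_lit 9), (nat_lit 72), (nat_lit 34)⟩,
  ⟨(nat_lit 0), (nat_lit 7), (nat_lit 24), (nat_lit 7), (nat_lit 1), (nat_lit 3), (nat_lit 46), (nat_lit 11), (nat_lit 78), (nat_lit 44)⟩,
  ⟨(nat_lit 7), (nat_lit 4), (nat_lit 17), (nat_lit 14), (nat_lit 1), (nat_lit 27), (nat_lit 46), (nat_lit 5), (nat_lit 70), (nat_lit 20)⟩,
  ⟨(nat_lit 0), (nat_lit 5), (nat_lit 31), (nat_lit 9), (nat_lit 1), (nat_lit 3), (nat_lit 56), (nat_lit 14), (nat_lit 126), (nat_lit 54)⟩,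
  ⟨(nat_lit 5), (nat_lit 2), (nat_lit 31), (nat_lit 9), (nat_lit 1), (nat_lit 15), (nat_lit 56), (nat_lit 11), (nat_lit 99), (nat_lit 42)⟩,
  ⟨(nat_lit 0), (nat_lit 2), (nat_lit 40), (nat_lit 4), (nat_lit 1), (nat_lit 3), (nat_lit 69), (nat_lit 17), (nat_lit 68), (nat_lit 67)⟩,
  ⟨(nat_lit 2), (nat_lit 3), (nat_lit 40), (nat_lit 4), (nat_lit 1), (nat_lit 7), (nat_lit 69), (nat_lit 16), (nat_lit 64), (nat_lit 63)⟩,
  ⟨(nat_lit 5), (nat_lit 2), (nat_lit 40), (nat_lit 4), (nat_lit 1), (nat_lit 15), (nat_lit 69), (nat_lit 14), (nat_lit 56), (nat_lit 55)⟩,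
  ⟨(nat_lit 0), (nat_lit 2), (nat_lit 44), (nat_lit 4), (nat_lit 1), (nat_lit 3), (nat_lit 75), (nat_lit 19), (nat_lit 76), (nat_lit 73)⟩,
  ⟨(nat_lit 2), (nat_lit 3), (nat_lit 44), (nat_lit 4), (nat_lit 1), (nat_lit 7), (nat_lit 75), (nat_lit 18), (nat_lit 72), (nat_lit 69)⟩,
  ⟨(nat_lit 0), (nat_lit 2), (nat_lit 48), (nat_lit 2), (nat_lit 1), (nat_lit 3), (nat_lit 80), (nat_lit 20), (nat_lit 41), (nat_lit 78)⟩,
  ⟨(nat_lit 2), (nat_lit 1), (nat_lit 48), (nat_lit 2), (nat_lit 1), (nat_lit 7), (nat_lit 80), (nat_lit 19), (nat_lit 38), (nat_lit 74)⟩,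
  ⟨(nat_lit 3), (nat_lit 2), (nat_lit 48), (nat_lit 2), (nat_lit 1), (nat_lit 9), (nat_lit 80), (nat_lit 18), (nat_lit 37), (nat_lit 72)⟩,
  ⟨(nat_lit 0), (nat_lit 2), (nat_lit 50), (nat_lit 4), (nat_lit 1), (nat_lit 3), (nat_lit 86), (nat_lit 21), (nat_lit 84), (nat_lit 84)⟩,
  ⟨(nat_lit 2), (nat_lit 3), (nat_lit 50), (nat_lit 4), (nat_lit 1), (nat_lit 7), (nat_lit 86), (nat_lit 20), (nat_lit 80), (nat_lit 80)⟩,
  ⟨(nat_lit 0), (nat_lit 2), (nat_lit 54), (nat_lit 3), (nat_lit 1), (nat_lit 3), (nat_lit 88), (nat_lit 22), (nat_lit 66), (nat_lit 86)⟩,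
  ⟨(nat_lit 0), (nat_lit 2), (nat_lit 57), (nat_lit 2), (nat_lit 1), (nat_lit 3), (nat_lit 90), (nat_lit 22), (nat_lit 45), (nat_lit 88)⟩,
  ⟨(nat_lit 2), (nat_lit 1), (nat_lit 54), (nat_lit 5), (nat_lit 1), (nat_lit 7), (nat_lit 90), (nat_lit 21), (nat_lit 105), (nat_lit 84)⟩,
  ⟨(nat_lit 3), (nat_lit 2), (nat_lit 54), (nat_lit 5), (nat_lit 1), (nat_lit 9), (nat_lit 90), (nat_lit 21), (nat_lit 105), (nat_lit 82)⟩,
  ⟨(nat_lit 5), (nat_lit 2), (nat_lit 44), (nat_lit 6), (nat_lit 1), (nat_lit 15), (nat_lit 80), (nat_lit 17), (nat_lit 102), (nat_lit 66)⟩,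
  ⟨(nat_lit 5), (nat_lit 2), (nat_lit 50), (nat_lit 9), (nat_lit 1), (nat_lit 15), (nat_lit 90), (nat_lit 19), (nat_lit 171), (nat_lit 76)⟩,
  ⟨(nat_lit 7), (nat_lit 4), (nat_lit 31), (nat_lit 9), (nat_lit 1), (nat_lit 27), (nat_lit 56), (nat_lit 8), (nat_lit 72), (nat_lit 30)⟩,
  ⟨(nat_lit 7), (nat_lit 4), (nat_lit 40), (nat_lit 4), (nat_lit 1), (nat_lit 27), (nat_lit 69), (nat_lit 11), (nat_lit 45), (nat_lit 43)⟩,
  ⟨(nat_lit 7), (nat_lit 3), (nat_lit 44), (nat_lit 6), (nat_lit 1), (nat_lit 27), (nat_lit 80), (nat_lit 14), (nat_lit 84), (nat_lit 54)⟩,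
  ⟨(nat_lit 7), (nat_lit 3), (nat_lit 50), (nat_lit 9), (nat_lit 1), (nat_lit 27), (nat_lit 90), (nat_lit 16), (nat_lit 144), (nat_lit 64)⟩,
  ⟨(nat_lit 10), (nat_lit 1), (nat_lit 44), (nat_lit 15), (nat_lit 1), (nat_lit 45), (nat_lit 90), (nat_lit 12), (nat_lit 180), (nat_lit 46)⟩,
  ⟨(nat_lit 11), (nat_lit 5), (nat_lit 41), (nat_lit 18), (nat_lit 1), (nat_lit 63), (nat_lit 90), (nat_lit 7), (nat_lit 126), (nat_lit 28)⟩]

theorem g2_0 : AllB (okG ⟨cf3, d2, e2, m2, g2, h2, (nat_lit 23), (nat_lit 161), (nat_lit 90)⟩ z2) g2_0_l :=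
  ⟨by decide +kernel,
  by decide +kernel,
  by decide +kernel,
  by decide +kernel,
  by decide +kernel,
  by decide +kernel,
  by decide +kernel,
  by decide +kernel,
  by decide +kernel,
  by decide +kernel,
  by decide +kernel,
  by decide +kernel,
  by decide +kernel,
  by decide +kernel,
  by decide +kernel,
  by decide +kernel,
  by decide +kernel,
  by decide +kernel,
  by decide +kernel,
  by decide +kernel,
  by decide +kernel,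
  by decide +kernel,
  by decide +kernel,
  by decide +kernel,
  by decide +kernel,
  by decide +kernel,
  by decide +kernel,
  by decide +kernel,
  trivial⟩

noncomputable def g3_0_l : List Gp := [⟨(nat_lit 0), (nat_lit 10), (nat_lit 0), (nat_lit 19), (nat_lit 1), (nat_lit 4), (nat_lit 27), (nat_lit 6), (nat_lit 114), (nat_lit 24)⟩,
  ⟨(nat_lit 0), (nat_lit 5), (nat_lit 19), (nat_lit 14), (nat_lit 1), (nat_lit 4), (nat_lit 38), (nat_lit 9), (nat_lit 126), (nat_lit 35)⟩,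
  ⟨(nat_lit 0), (nat_lit 5), (nat_lit 33), (nat_lit 11), (nat_lit 1), (nat_lit 4), (nat_lit 48), (nat_lit 12), (nat_lit 132), (nat_lit 45)⟩,
  ⟨(nat_lit 5), (nat_lit 5), (nat_lit 19), (nat_lit 14), (nat_lit 1), (nat_lit 15), (nat_lit 38), (nat_lit 6), (nat_lit 84), (nat_lit 24)⟩,
  ⟨(nat_lit 5), (nat_lit 5), (nat_lit 33), (nat_lit 11), (nat_lit 1), (nat_lit 15), (nat_lit 48), (nat_lit 9), (nat_lit 99), (nat_lit 34)⟩,
  ⟨(nat_lit 10), (nat_lit 8), (nat_lit 19), (nat_lit 25), (nat_lit 1), (nat_lit 28), (nat_lit 48), (nat_lit 6), (nat_lit 150), (nat_lit 21)⟩,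
  ⟨(nat_lit 0), (nat_lit 5), (nat_lit 44), (nat_lit 12), (nat_lit 1), (nat_lit 4), (nat_lit 59), (nat_lit 14), (nat_lit 168), (nat_lit 56)⟩,
  ⟨(nat_lit 0), (nat_lit 3), (nat_lit 56), (nat_lit 10), (nat_lit 1), (nat_lit 4), (nat_lit 64), (nat_lit 16), (nat_lit 160), (nat_lit 61)⟩,
  ⟨(nat_lit 3), (nat_lit 2), (nat_lit 56), (nat_lit 10), (nat_lit 1), (nat_lit 10), (nat_lit 64), (nat_lit 14), (nat_lit 140), (nat_lit 55)⟩,
  ⟨(nat_lit 0), (nat_lit 3), (nat_lit 66), (nat_lit 7), (nat_lit 1), (nat_lit 4), (nat_lit 69), (nat_lit 17), (nat_lit 119), (nat_lit 66)⟩,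
  ⟨(nat_lit 3), (nat_lit 2), (nat_lit 66), (nat_lit 7), (nat_lit 1), (nat_lit 10), (nat_lit 69), (nat_lit 15), (nat_lit 105), (nat_lit 60)⟩,
  ⟨(nat_lit 5), (nat_lit 5), (nat_lit 44), (nat_lit 12), (nat_lit 1), (nat_lit 15), (nat_lit 59), (nat_lit 12), (nat_lit 144), (nat_lit 45)⟩,
  ⟨(nat_lit 5), (nat_lit 2), (nat_lit 56), (nat_lit 17), (nat_lit 1), (nat_lit 15), (nat_lit 69), (nat_lit 14), (nat_lit 238), (nat_lit 55)⟩,
  ⟨(nat_lit 7), (nat_lit 3), (nat_lit 56), (nat_lit 17), (nat_lit 1), (nat_lit 21), (nat_lit 69), (nat_lit 13), (nat_lit 221), (nat_lit 49)⟩,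
  ⟨(nat_lit 0), (nat_lit 3), (nat_lit 73), (nat_lit 6), (nat_lit 1), (nat_lit 4), (nat_lit 72), (nat_lit 18), (nat_lit 108), (nat_lit 69)⟩,
  ⟨(nat_lit 0), (nat_lit 3), (nat_lit 79), (nat_lit 5), (nat_lit 1), (nat_lit 4), (nat_lit 75), (nat_lit 18), (nat_lit 90), (nat_lit 72)⟩,
  ⟨(nat_lit 3), (nat_lit 2), (nat_lit 73), (nat_lit 11), (nat_lit 1), (nat_lit 10), (nat_lit 75), (nat_lit 17), (nat_lit 187), (nat_lit 66)⟩,
  ⟨(nat_lit 0), (nat_lit 2), (nat_lit 84), (nat_lit 6), (nat_lit 1), (nat_lit 4), (nat_lit 80), (nat_lit 20), (nat_lit 120), (nat_lit 77)⟩,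
  ⟨(nat_lit 2), (nat_lit 1), (nat_lit 84), (nat_lit 6), (nat_lit 1), (nat_lit 8), (nat_lit 80), (nat_lit 19), (nat_lit 114), (nat_lit 73)⟩,
  ⟨(nat_lit 3), (nat_lit 2), (nat_lit 84), (nat_lit 6), (nat_lit 1), (nat_lit 10), (nat_lit 80), (nat_lit 18), (nat_lit 108), (nat_lit 71)⟩,
  ⟨(nat_lit 0), (nat_lit 2), (nat_lit 90), (nat_lit 4), (nat_lit 1), (nat_lit 4), (nat_lit 83), (nat_lit 20), (nat_lit 80), (nat_lit 80)⟩,
  ⟨(nat_lit 0), (nat_lit 2), (nat_lit 94), (nat_lit 5), (nat_lit 1), (nat_lit 4), (nat_lit 85), (nat_lit 21), (nat_lit 105), (nat_lit 82)⟩,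
  ⟨(nat_lit 2), (nat_lit 1), (nat_lit 90), (nat_lit 9), (nat_lit 1), (nat_lit 8), (nat_lit 85), (nat_lit 20), (nat_lit 180), (nat_lit 78)⟩,
  ⟨(nat_lit 3), (nat_lit 2), (nat_lit 90), (nat_lit 9), (nat_lit 1), (nat_lit 10), (nat_lit 85), (nat_lit 19), (nat_lit 171), (nat_lit 76)⟩,
  ⟨(nat_lit 0), (nat_lit 1), (nat_lit 99), (nat_lit 10), (nat_lit 1), (nat_lit 4), (nat_lit 88), (nat_lit 22), (nat_lit 220), (nat_lit 85)⟩,
  ⟨(nat_lit 1), (nat_lit 1), (nat_lit 99), (nat_lit 10), (nat_lit 1), (nat_lit 6), (nat_lit 88), (nat_lit 21), (nat_lit 210), (nat_lit 83)⟩,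
  ⟨(nat_lit 0), (nat_lit 1), (nat_lit 109), (nat_lit 8), (nat_lit 1), (nat_lit 4), (nat_lit 90), (nat_lit 22), (nat_lit 176), (nat_lit 87)⟩,
  ⟨(nat_lit 1), (nat_lit 1), (nat_lit 109), (nat_lit 8), (nat_lit 1), (nat_lit 6), (nat_lit 90), (nat_lit 22), (nat_lit 176), (nat_lit 85)⟩,
  ⟨(nat_lit 2), (nat_lit 1), (nat_lit 99), (nat_lit 10), (nat_lit 1), (nat_lit 8), (nat_lit 88), (nat_lit 21), (nat_lit 210), (nat_lit 81)⟩,
  ⟨(nat_lit 2), (nat_lit 1), (nat_lit 109), (nat_lit 8), (nat_lit 1), (nat_lit 8), (nat_lit 90), (nat_lit 21), (nat_lit 168), (nat_lit 83)⟩,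
  ⟨(nat_lit 3), (nat_lit 1), (nat_lit 99), (nat_lit 10), (nat_lit 1), (nat_lit 10), (nat_lit 88), (nat_lit 20), (nat_lit 200), (nat_lit 79)⟩,
  ⟨(nat_lit 4), (nat_lit 1), (nat_lit 99), (nat_lit 10), (nat_lit 1), (nat_lit 12), (nat_lit 88), (nat_lit 20), (nat_lit 200), (nat_lit 77)⟩,
  ⟨(nat_lit 3), (nat_lit 1), (nat_lit 109), (nat_lit 8), (nat_lit 1), (nat_lit 10), (nat_lit 90), (nat_lit 21), (nat_lit 168), (nat_lit 81)⟩,
  ⟨(nat_lit 4), (nat_lit 1), (nat_lit 109), (nat_lit 8), (nat_lit 1), (nat_lit 12), (nat_lit 90), (nat_lit 20), (nat_lit 160), (nat_lit 79)⟩,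
  ⟨(nat_lit 5), (nat_lit 2), (nat_lit 73), (nat_lit 11), (nat_lit 1), (nat_lit 15), (nat_lit 75), (nat_lit 16), (nat_lit 176), (nat_lit 61)⟩,
  ⟨(nat_lit 7), (nat_lit 3), (nat_lit 73), (nat_lit 11), (nat_lit 1), (nat_lit 21), (nat_lit 75), (nat_lit 14), (nat_lit 154), (nat_lit 55)⟩,
  ⟨(nat_lit 5), (nat_lit 2), (nat_lit 84), (nat_lit 6), (nat_lit 1), (nat_lit 15), (nat_lit 80), (nat_lit 17), (nat_lit 102), (nat_lit 66)⟩,
  ⟨(nat_lit 7), (nat_lit 3), (nat_lit 84), (nat_lit 6), (nat_lit 1), (nat_lit 21), (nat_lit 80), (nat_lit 15), (nat_lit 90), (nat_lit 60)⟩,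
  ⟨(nat_lit 5), (nat_lit 2), (nat_lit 90), (nat_lit 9), (nat_lit 1), (nat_lit 15), (nat_lit 85), (nat_lit 18), (nat_lit 162), (nat_lit 71)⟩,
  ⟨(nat_lit 5), (nat_lit 2), (nat_lit 99), (nat_lit 10), (nat_lit 1), (nat_lit 15), (nat_lit 88), (nat_lit 19), (nat_lit 190), (nat_lit 74)⟩,
  ⟨(nat_lit 5), (nat_lit 2), (nat_lit 109), (nat_lit 8), (nat_lit 1), (nat_lit 15), (nat_lit 90), (nat_lit 19), (nat_lit 152), (nat_lit 76)⟩,
  ⟨(nat_lit 7), (nat_lit 3), (nat_lit 90), (nat_lit 9), (nat_lit 1), (nat_lit 21), (nat_lit 85), (nat_lit 17), (nat_lit 153), (nat_lit 65)⟩,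
  ⟨(nat_lit 7), (nat_lit 3), (nat_lit 99), (nat_lit 10), (nat_lit 1), (nat_lit 21), (nat_lit 88), (nat_lit 17), (nat_lit 170), (nat_lit 68)⟩,
  ⟨(nat_lit 7), (nat_lit 3), (nat_lit 109), (nat_lit 8), (nat_lit 1), (nat_lit 21), (nat_lit 90), (nat_lit 18), (nat_lit 144), (nat_lit 70)⟩,
  ⟨(nat_lit 10), (nat_lit 8), (nat_lit 44), (nat_lit 12), (nat_lit 1), (nat_lit 28), (nat_lit 59), (nat_lit 8), (nat_lit 96), (nat_lit 32)⟩,
  ⟨(nat_lit 10), (nat_lit 6), (nat_lit 56), (nat_lit 17), (nat_lit 1), (nat_lit 28), (nat_lit 69), (nat_lit 11), (nat_lit 187), (nat_lit 42)⟩,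
  ⟨(nat_lit 16), (nat_lit 2), (nat_lit 56), (nat_lit 17), (nat_lit 1), (nat_lit 45), (nat_lit 69), (nat_lit 7), (nat_lit 119), (nat_lit 25)⟩,
  ⟨(nat_lit 10), (nat_lit 6), (nat_lit 73), (nat_lit 11), (nat_lit 1), (nat_lit 28), (nat_lit 75), (nat_lit 12), (nat_lit 132), (nat_lit 48)⟩,
  ⟨(nat_lit 10), (nat_lit 6), (nat_lit 84), (nat_lit 6), (nat_lit 1), (nat_lit 28), (nat_lit 80), (nat_lit 14), (nat_lit 85), (nat_lit 53)⟩,
  ⟨(nat_lit 16), (nat_lit 2), (nat_lit 73), (nat_lit 17), (nat_lit 1), (nat_lit 45), (nat_lit 80), (nat_lit 9), (nat_lit 153), (nat_lit 36)⟩,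
  ⟨(nat_lit 10), (nat_lit 4), (nat_lit 90), (nat_lit 9), (nat_lit 1), (nat_lit 28), (nat_lit 85), (nat_lit 15), (nat_lit 135), (nat_lit 58)⟩,
  ⟨(nat_lit 14), (nat_lit 2), (nat_lit 90), (nat_lit 9), (nat_lit 1), (nat_lit 34), (nat_lit 85), (nat_lit 13), (nat_lit 117), (nat_lit 52)⟩,
  ⟨(nat_lit 10), (nat_lit 3), (nat_lit 99), (nat_lit 10), (nat_lit 1), (nat_lit 28), (nat_lit 88), (nat_lit 16), (nat_lit 160), (nat_lit 61)⟩,
  ⟨(nat_lit 10), (nat_lit 3), (nat_lit 109), (nat_lit 8), (nat_lit 1), (nat_lit 28), (nat_lit 90), (nat_lit 16), (nat_lit 128), (nat_lit 63)⟩,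
  ⟨(nat_lit 13), (nat_lit 1), (nat_lit 99), (nat_lit 18), (nat_lit 1), (nat_lit 32), (nat_lit 90), (nat_lit 15), (nat_lit 270), (nat_lit 59)⟩,
  ⟨(nat_lit 14), (nat_lit 2), (nat_lit 99), (nat_lit 18), (nat_lit 1), (nat_lit 34), (nat_lit 90), (nat_lit 15), (nat_lit 270), (nat_lit 57)⟩,
  ⟨(nat_lit 16), (nat_lit 2), (nat_lit 90), (nat_lit 27), (nat_lit 1), (nat_lit 45), (nat_lit 90), (nat_lit 12), (nat_lit 324), (nat_lit 46)⟩,
  ⟨(nat_lit 18), (nat_lit 6), (nat_lit 50), (nat_lit 29), (nat_lit 1), (nat_lit 54), (nat_lit 72), (nat_lit 5), (nat_lit 145), (nat_lit 19)⟩,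
  ⟨(nat_lit 18), (nat_lit 3), (nat_lit 79), (nat_lit 12), (nat_lit 1), (nat_lit 54), (nat_lit 81), (nat_lit 7), (nat_lit 84), (nat_lit 28)⟩,
  ⟨(nat_lit 18), (nat_lit 3), (nat_lit 91), (nat_lit 26), (nat_lit 1), (nat_lit 54), (nat_lit 90), (nat_lit 10), (nat_lit 260), (nat_lit 37)⟩,
  ⟨(nat_lit 21), (nat_lit 3), (nat_lit 79), (nat_lit 38), (nat_lit 1), (nat_lit 64), (nat_lit 90), (nat_lit 7), (nat_lit 266), (nat_lit 27)⟩,
  ⟨(nat_lit 24), (nat_lit 7), (nat_lit 91), (nat_lit 26), (nat_lit 1), (nat_lit 82), (nat_lit 90), (nat_lit 3), (nat_lit 78), (nat_lit 9)⟩]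

theorem g3_0 : AllB (okG ⟨cf3, d3, e3, m3, g3, h3, (nat_lit 23), (nat_lit 161), (nat_lit 90)⟩ z3) g3_0_l :=
  ⟨by decide +kernel,
  by decide +kernel,
  by decide +kernel,
  by decide +kernel,
  by decide +kernel,
  by decide +kernel,
  by decide +kernel,
  by decide +kernel,
  by decide +kernel,
  by decide +kernel,
  by decide +kernel,
  by decide +kernel,
  by decide +kernel,
  by decide +kernel,
  by decide +kernel,
  by decide +kernel,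
  by decide +kernel,
  by decide +kernel,
  by decide +kernel,
  by decide +kernel,
  by decide +kernel,
  by decide +kernel,
  by decide +kernel,
  by decide +kernel,
  by decide +kernel,
  by decide +kernel,
  by decide +kernel,
  by decide +kernel,
  by decide +kernel,
  by decide +kernel,
  by decide +kernel,
  by decide +kernel,
  by decide +kernel,
  by decide +kernel,
  by decide +kernel,
  by decide +kernel,
  by decide +kernel,
  by decide +kernel,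
  by decide +kernel,
  by decide +kernel,
  by decide +kernel,
  by decide +kernel,
  by decide +kernel,
  by decide +kernel,
  by decide +kernel,
  by decide +kernel,
  by decide +kernel,
  by decide +kernel,
  by decide +kernel,
  by decide +kernel,
  by decide +kernel,
  by decide +kernel,
  by decide +kernel,
  by decide +kernel,
  by decide +kernel,
  by decide +kernel,
  by decide +kernel,
  by decide +kernel,
  by decide +kernel,
  by decide +kernel,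
  by decide +kernel,
  by decide +kernel,
  trivial⟩

noncomputable def g4_0_l : List Gp := [⟨(nat_lit 0), (nat_lit 10), (nat_lit 0), (nat_lit 17), (nat_lit 1), (nat_lit 6), (nat_lit 27), (nat_lit 6), (nat_lit 102), (nat_lit 22)⟩,
  ⟨(nat_lit 0), (nat_lit 5), (nat_lit 17), (nat_lit 17), (nat_lit 1), (nat_lit 6), (nat_lit 38), (nat_lit 9), (nat_lit 153), (nat_lit 33)⟩,
  ⟨(nat_lit 5), (nat_lit 5), (nat_lit 17), (nat_lit 17), (nat_lit 1), (nat_lit 16), (nat_lit 38), (nat_lit 6), (nat_lit 102), (nat_lit 23)⟩,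
  ⟨(nat_lit 0), (nat_lit 5), (nat_lit 34), (nat_lit 11), (nat_lit 1), (nat_lit 6), (nat_lit 48), (nat_lit 11), (nat_lit 121), (nat_lit 43)⟩,
  ⟨(nat_lit 5), (nat_lit 5), (nat_lit 34), (nat_lit 11), (nat_lit 1), (nat_lit 16), (nat_lit 48), (nat_lit 9), (nat_lit 99), (nat_lit 33)⟩,
  ⟨(nat_lit 10), (nat_lit 11), (nat_lit 19), (nat_lit 26), (nat_lit 1), (nat_lit 30), (nat_lit 48), (nat_lit 5), (nat_lit 130), (nat_lit 19)⟩,
  ⟨(nat_lit 0), (nat_lit 5), (nat_lit 45), (nat_lit 8), (nat_lit 1), (nat_lit 6), (nat_lit 53), (nat_lit 12), (nat_lit 96), (nat_lit 48)⟩,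
  ⟨(nat_lit 0), (nat_lit 5), (nat_lit 53), (nat_lit 8), (nat_lit 1), (nat_lit 6), (nat_lit 58), (nat_lit 14), (nat_lit 112), (nat_lit 53)⟩,
  ⟨(nat_lit 5), (nat_lit 5), (nat_lit 45), (nat_lit 16), (nat_lit 1), (nat_lit 16), (nat_lit 58), (nat_lit 11), (nat_lit 176), (nat_lit 43)⟩,
  ⟨(nat_lit 0), (nat_lit 3), (nat_lit 61), (nat_lit 9), (nat_lit 1), (nat_lit 6), (nat_lit 63), (nat_lit 15), (nat_lit 135), (nat_lit 58)⟩,
  ⟨(nat_lit 3), (nat_lit 2), (nat_lit 61), (nat_lit 9), (nat_lit 1), (nat_lit 12), (nat_lit 63), (nat_lit 13), (nat_lit 117), (nat_lit 52)⟩,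
  ⟨(nat_lit 0), (nat_lit 3), (nat_lit 70), (nat_lit 12), (nat_lit 1), (nat_lit 6), (nat_lit 68), (nat_lit 16), (nat_lit 192), (nat_lit 63)⟩,
  ⟨(nat_lit 3), (nat_lit 2), (nat_lit 70), (nat_lit 12), (nat_lit 1), (nat_lit 12), (nat_lit 68), (nat_lit 15), (nat_lit 180), (nat_lit 57)⟩,
  ⟨(nat_lit 5), (nat_lit 5), (nat_lit 61), (nat_lit 9), (nat_lit 1), (nat_lit 16), (nat_lit 63), (nat_lit 12), (nat_lit 108), (nat_lit 48)⟩,
  ⟨(nat_lit 5), (nat_lit 2), (nat_lit 70), (nat_lit 12), (nat_lit 1), (nat_lit 16), (nat_lit 68), (nat_lit 14), (nat_lit 168), (nat_lit 53)⟩,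
  ⟨(nat_lit 7), (nat_lit 3), (nat_lit 70), (nat_lit 12), (nat_lit 1), (nat_lit 22), (nat_lit 68), (nat_lit 12), (nat_lit 144), (nat_lit 47)⟩,
  ⟨(nat_lit 0), (nat_lit 3), (nat_lit 82), (nat_lit 5), (nat_lit 1), (nat_lit 6), (nat_lit 72), (nat_lit 17), (nat_lit 85), (nat_lit 67)⟩,
  ⟨(nat_lit 0), (nat_lit 3), (nat_lit 87), (nat_lit 5), (nat_lit 1), (nat_lit 6), (nat_lit 75), (nat_lit 18), (nat_lit 90), (nat_lit 70)⟩,
  ⟨(nat_lit 3), (nat_lit 2), (nat_lit 82), (nat_lit 10), (nat_lit 1), (nat_lit 12), (nat_lit 75), (nat_lit 16), (nat_lit 160), (nat_lit 64)⟩,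
  ⟨(nat_lit 0), (nat_lit 2), (nat_lit 92), (nat_lit 8), (nat_lit 1), (nat_lit 6), (nat_lit 80), (nat_lit 19), (nat_lit 152), (nat_lit 75)⟩,
  ⟨(nat_lit 2), (nat_lit 1), (nat_lit 92), (nat_lit 8), (nat_lit 1), (nat_lit 10), (nat_lit 80), (nat_lit 18), (nat_lit 144), (nat_lit 71)⟩,
  ⟨(nat_lit 3), (nat_lit 2), (nat_lit 92), (nat_lit 8), (nat_lit 1), (nat_lit 12), (nat_lit 80), (nat_lit 18), (nat_lit 144), (nat_lit 69)⟩,
  ⟨(nat_lit 5), (nat_lit 2), (nat_lit 82), (nat_lit 10), (nat_lit 1), (nat_lit 16), (nat_lit 75), (nat_lit 15), (nat_lit 150), (nat_lit 60)⟩,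
  ⟨(nat_lit 7), (nat_lit 3), (nat_lit 82), (nat_lit 10), (nat_lit 1), (nat_lit 22), (nat_lit 75), (nat_lit 14), (nat_lit 140), (nat_lit 54)⟩,
  ⟨(nat_lit 5), (nat_lit 2), (nat_lit 92), (nat_lit 8), (nat_lit 1), (nat_lit 16), (nat_lit 80), (nat_lit 17), (nat_lit 136), (nat_lit 65)⟩,
  ⟨(nat_lit 7), (nat_lit 3), (nat_lit 92), (nat_lit 8), (nat_lit 1), (nat_lit 22), (nat_lit 80), (nat_lit 15), (nat_lit 120), (nat_lit 59)⟩,
  ⟨(nat_lit 0), (nat_lit 2), (nat_lit 100), (nat_lit 6), (nat_lit 1), (nat_lit 6), (nat_lit 83), (nat_lit 20), (nat_lit 120), (nat_lit 78)⟩,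
  ⟨(nat_lit 0), (nat_lit 1), (nat_lit 106), (nat_lit 8), (nat_lit 1), (nat_lit 6), (nat_lit 85), (nat_lit 20), (nat_lit 160), (nat_lit 80)⟩,
  ⟨(nat_lit 1), (nat_lit 1), (nat_lit 106), (nat_lit 8), (nat_lit 1), (nat_lit 8), (nat_lit 85), (nat_lit 20), (nat_lit 160), (nat_lit 78)⟩,
  ⟨(nat_lit 2), (nat_lit 1), (nat_lit 100), (nat_lit 14), (nat_lit 1), (nat_lit 10), (nat_lit 85), (nat_lit 19), (nat_lit 266), (nat_lit 76)⟩,
  ⟨(nat_lit 3), (nat_lit 2), (nat_lit 100), (nat_lit 6), (nat_lit 1), (nat_lit 12), (nat_lit 83), (nat_lit 18), (nat_lit 108), (nat_lit 72)⟩,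
  ⟨(nat_lit 3), (nat_lit 2), (nat_lit 106), (nat_lit 8), (nat_lit 1), (nat_lit 12), (nat_lit 85), (nat_lit 19), (nat_lit 152), (nat_lit 74)⟩,
  ⟨(nat_lit 0), (nat_lit 1), (nat_lit 114), (nat_lit 10), (nat_lit 1), (nat_lit 6), (nat_lit 88), (nat_lit 21), (nat_lit 210), (nat_lit 83)⟩,
  ⟨(nat_lit 1), (nat_lit 1), (nat_lit 114), (nat_lit 10), (nat_lit 1), (nat_lit 8), (nat_lit 88), (nat_lit 21), (nat_lit 210), (nat_lit 81)⟩,
  ⟨(nat_lit 0), (nat_lit 1), (nat_lit 124), (nat_lit 10), (nat_lit 1), (nat_lit 6), (nat_lit 90), (nat_lit 22), (nat_lit 220), (nat_lit 85)⟩,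
  ⟨(nat_lit 1), (nat_lit 1), (nat_lit 124), (nat_lit 10), (nat_lit 1), (nat_lit 8), (nat_lit 90), (nat_lit 21), (nat_lit 210), (nat_lit 83)⟩,
  ⟨(nat_lit 2), (nat_lit 1), (nat_lit 114), (nat_lit 10), (nat_lit 1), (nat_lit 10), (nat_lit 88), (nat_lit 20), (nat_lit 200), (nat_lit 79)⟩,
  ⟨(nat_lit 2), (nat_lit 1), (nat_lit 124), (nat_lit 10), (nat_lit 1), (nat_lit 10), (nat_lit 90), (nat_lit 21), (nat_lit 210), (nat_lit 81)⟩,
  ⟨(nat_lit 3), (nat_lit 1), (nat_lit 114), (nat_lit 10), (nat_lit 1), (nat_lit 12), (nat_lit 88), (nat_lit 20), (nat_lit 200), (nat_lit 77)⟩,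
  ⟨(nat_lit 4), (nat_lit 1), (nat_lit 114), (nat_lit 10), (nat_lit 1), (nat_lit 14), (nat_lit 88), (nat_lit 19), (nat_lit 190), (nat_lit 75)⟩,
  ⟨(nat_lit 3), (nat_lit 1), (nat_lit 124), (nat_lit 10), (nat_lit 1), (nat_lit 12), (nat_lit 90), (nat_lit 20), (nat_lit 200), (nat_lit 79)⟩,
  ⟨(nat_lit 4), (nat_lit 1), (nat_lit 124), (nat_lit 10), (nat_lit 1), (nat_lit 14), (nat_lit 90), (nat_lit 20), (nat_lit 200), (nat_lit 77)⟩,
  ⟨(nat_lit 5), (nat_lit 2), (nat_lit 100), (nat_lit 6), (nat_lit 1), (nat_lit 16), (nat_lit 83), (nat_lit 17), (nat_lit 102), (nat_lit 68)⟩,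
  ⟨(nat_lit 5), (nat_lit 2), (nat_lit 106), (nat_lit 8), (nat_lit 1), (nat_lit 16), (nat_lit 85), (nat_lit 18), (nat_lit 144), (nat_lit 70)⟩]

theorem g4_0 : AllB (okG ⟨cf3, d4, e4, m4, g4, h4, (nat_lit 23), (nat_lit 161), (nat_lit 90)⟩ z4) g4_0_l :=
  ⟨by decide +kernel,
  by decide +kernel,
  by decide +kernel,
  by decide +kernel,
  by decide +kernel,
  by decide +kernel,
  by decide +kernel,
  by decide +kernel,
  by decide +kernel,
  by decide +kernel,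
  by decide +kernel,
  by decide +kernel,
  by decide +kernel,
  by decide +kernel,
  by decide +kernel,
  by decide +kernel,
  by decide +kernel,
  by decide +kernel,
  by decide +kernel,
  by decide +kernel,
  by decide +kernel,
  by decide +kernel,
  by decide +kernel,
  by decide +kernel,
  by decide +kernel,
  by decide +kernel,
  by decide +kernel,
  by decide +kernel,
  by decide +kernel,
  by decide +kernel,
  by decide +kernel,
  by decide +kernel,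
  by decide +kernel,
  by decide +kernel,
  by decide +kernel,
  by decide +kernel,
  by decide +kernel,
  by decide +kernel,
  by decide +kernel,
  by decide +kernel,
  by decide +kernel,
  by decide +kernel,
  by decide +kernel,
  by decide +kernel,
  trivial⟩

end Vale.Agent.P236KE.S90
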