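import Vale.Agent.P236KE.Cfg
import Vale.Agent.P236KE.S90.Deg
import Vale.Agent.P236KE.S90.D0
import Vale.Agent.P236KE.S90.D4

/-!
# P236KE / checks (generated)
-/

set_option maxRecDepth 100000

namespace Vale.Agent.P236KE.S90

noncomputable def k3_2_l : List Gp := [⟨(nat_lit 0), (nat_lit 5), (nat_lit 0), (nat_lit 8), (nat_lit 1800), (nat_lit 4), (nat_lit 22), (nat_lit 12), (nat_lit 96), (nat_lit 45)⟩,
  ⟨(nat_lit 5), (nat_lit 5), (nat_lit 0), (nat_lit 8), (nat_lit 1800), (nat_lit 15), (nat_lit 22), (nat_lit 9), (nat_lit 72), (nat_lit 34)⟩,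
  ⟨(nat_lit 0), (nat_lit 3), (nat_lit 8), (nat_lit 4), (nat_lit 1800), (nat_lit 4), (nat_lit 31), (nat_lit 14), (nat_lit 56), (nat_lit 54)⟩,
  ⟨(nat_lit 3), (nat_lit 2), (nat_lit 8), (nat_lit 4), (nat_lit 1800), (nat_lit 10), (nat_lit 31), (nat_lit 12), (nat_lit 48), (nat_lit 48)⟩,
  ⟨(nat_lit 0), (nat_lit 3), (nat_lit 12), (nat_lit 6), (nat_lit 1800), (nat_lit 4), (nat_lit 39), (nat_lit 16), (nat_lit 96), (nat_lit 62)⟩,
  ⟨(nat_lit 3), (nat_lit 2), (nat_lit 12), (nat_lit 6), (nat_lit 1800), (nat_lit 10), (nat_lit 39), (nat_lit 14), (nat_lit 84), (nat_lit 56)⟩,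
  ⟨(nat_lit 5), (nat_lit 5), (nat_lit 8), (nat_lit 4), (nat_lit 1800), (nat_lit 15), (nat_lit 31), (nat_lit 11), (nat_lit 56), (nat_lit 43)⟩,
  ⟨(nat_lit 5), (nat_lit 5), (nat_lit 12), (nat_lit 6), (nat_lit 1800), (nat_lit 15), (nat_lit 39), (nat_lit 13), (nat_lit 78), (nat_lit 51)⟩,
  ⟨(nat_lit 10), (nat_lit 8), (nat_lit 0), (nat_lit 8), (nat_lit 1800), (nat_lit 28), (nat_lit 22), (nat_lit 6), (nat_lit 49), (nat_lit 21)⟩,
  ⟨(nat_lit 10), (nat_lit 6), (nat_lit 8), (nat_lit 10), (nat_lit 1800), (nat_lit 28), (nat_lit 39), (nat_lit 10), (nat_lit 100), (nat_lit 38)⟩,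
  ⟨(nat_lit 16), (nat_lit 2), (nat_lit 8), (nat_lit 10), (nat_lit 1800), (nat_lit 45), (nat_lit 39), (nat_lit 6), (nat_lit 60), (nat_lit 21)⟩,
  ⟨(nat_lit 0), (nat_lit 2), (nat_lit 18), (nat_lit 3), (nat_lit 1800), (nat_lit 4), (nat_lit 48), (nat_lit 18), (nat_lit 54), (nat_lit 71)⟩,
  ⟨(nat_lit 2), (nat_lit 1), (nat_lit 18), (nat_lit 3), (nat_lit 1800), (nat_lit 8), (nat_lit 48), (nat_lit 17), (nat_lit 51), (nat_lit 67)⟩,
  ⟨(nat_lit 0), (nat_lit 2), (nat_lit 21), (nat_lit 2), (nat_lit 1800), (nat_lit 4), (nat_lit 55), (nat_lit 20), (nat_lit 41), (nat_lit 78)⟩,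
  ⟨(nat_lit 2), (nat_lit 1), (nat_lit 21), (nat_lit 2), (nat_lit 1800), (nat_lit 8), (nat_lit 55), (nat_lit 19), (nat_lit 38), (nat_lit 74)⟩,
  ⟨(nat_lit 3), (nat_lit 2), (nat_lit 18), (nat_lit 3), (nat_lit 1800), (nat_lit 10), (nat_lit 48), (nat_lit 17), (nat_lit 51), (nat_lit 65)⟩,
  ⟨(nat_lit 3), (nat_lit 2), (nat_lit 21), (nat_lit 2), (nat_lit 1800), (nat_lit 10), (nat_lit 55), (nat_lit 18), (nat_lit 37), (nat_lit 72)⟩,
  ⟨(nat_lit 5), (nat_lit 2), (nat_lit 18), (nat_lit 5), (nat_lit 1800), (nat_lit 15), (nat_lit 55), (nat_lit 17), (nat_lit 85), (nat_lit 67)⟩,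
  ⟨(nat_lit 7), (nat_lit 3), (nat_lit 18), (nat_lit 5), (nat_lit 1800), (nat_lit 21), (nat_lit 55), (nat_lit 16), (nat_lit 80), (nat_lit 61)⟩,
  ⟨(nat_lit 0), (nat_lit 1), (nat_lit 23), (nat_lit 1), (nat_lit 1800), (nat_lit 4), (nat_lit 62), (nat_lit 22), (nat_lit 23), (nat_lit 85)⟩,
  ⟨(nat_lit 0), (nat_lit 1), (nat_lit 24), (nat_lit 2), (nat_lit 1800), (nat_lit 4), (nat_lit 64), (nat_lit 22), (nat_lit 44), (nat_lit 87)⟩,
  ⟨(nat_lit 1), (nat_lit 1), (nat_lit 23), (nat_lit 3), (nat_lit 1800), (nat_lit 6), (nat_lit 64), (nat_lit 22), (nat_lit 66), (nat_lit 85)⟩,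
  ⟨(nat_lit 2), (nat_lit 1), (nat_lit 23), (nat_lit 3), (nat_lit 1800), (nat_lit 8), (nat_lit 64), (nat_lit 21), (nat_lit 63), (nat_lit 83)⟩,
  ⟨(nat_lit 0), (nat_lit 1), (nat_lit 26), (nat_lit 3), (nat_lit 776), (nat_lit 4), (nat_lit 68), (nat_lit 21), (nat_lit 63), (nat_lit 82)⟩,
  ⟨(nat_lit 1), (nat_lit 1), (nat_lit 26), (nat_lit 3), (nat_lit 776), (nat_lit 6), (nat_lit 68), (nat_lit 20), (nat_lit 60), (nat_lit 80)⟩,
  ⟨(nat_lit 2), (nat_lit 1), (nat_lit 26), (nat_lit 3), (nat_lit 776), (nat_lit 8), (nat_lit 68), (nat_lit 20), (nat_lit 60), (nat_lit 78)⟩,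
  ⟨(nat_lit 3), (nat_lit 1), (nat_lit 23), (nat_lit 3), (nat_lit 1800), (nat_lit 10), (nat_lit 64), (nat_lit 21), (nat_lit 63), (nat_lit 81)⟩,
  ⟨(nat_lit 4), (nat_lit 1), (nat_lit 23), (nat_lit 3), (nat_lit 1800), (nat_lit 12), (nat_lit 64), (nat_lit 20), (nat_lit 60), (nat_lit 79)⟩,
  ⟨(nat_lit 3), (nat_lit 1), (nat_lit 26), (nat_lit 3), (nat_lit 776), (nat_lit 10), (nat_lit 68), (nat_lit 19), (nat_lit 57), (nat_lit 76)⟩,
  ⟨(nat_lit 4), (nat_lit 1), (nat_lit 26), (nat_lit 3), (nat_lit 776), (nat_lit 12), (nat_lit 68), (nat_lit 19), (nat_lit 57), (nat_lit 74)⟩,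
  ⟨(nat_lit 0), (nat_lit 1), (nat_lit 29), (nat_lit 2), (nat_lit 776), (nat_lit 4), (nat_lit 70), (nat_lit 21), (nat_lit 42), (nat_lit 84)⟩,
  ⟨(nat_lit 0), (nat_lit 1), (nat_lit 31), (nat_lit 1), (nat_lit 776), (nat_lit 4), (nat_lit 71), (nat_lit 22), (nat_lit 23), (nat_lit 85)⟩,
  ⟨(nat_lit 1), (nat_lit 1), (nat_lit 29), (nat_lit 3), (nat_lit 776), (nat_lit 6), (nat_lit 71), (nat_lit 21), (nat_lit 63), (nat_lit 83)⟩,
  ⟨(nat_lit 0), (nat_lit 1), (nat_lit 32), (nat_lit 2), (nat_lit 776), (nat_lit 4), (nat_lit 73), (nat_lit 22), (nat_lit 44), (nat_lit 87)⟩,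
  ⟨(nat_lit 1), (nat_lit 1), (nat_lit 32), (nat_lit 2), (nat_lit 776), (nat_lit 6), (nat_lit 73), (nat_lit 22), (nat_lit 44), (nat_lit 85)⟩,
  ⟨(nat_lit 2), (nat_lit 1), (nat_lit 29), (nat_lit 3), (nat_lit 776), (nat_lit 8), (nat_lit 71), (nat_lit 21), (nat_lit 63), (nat_lit 81)⟩,
  ⟨(nat_lit 2), (nat_lit 1), (nat_lit 32), (nat_lit 2), (nat_lit 776), (nat_lit 8), (nat_lit 73), (nat_lit 21), (nat_lit 42), (nat_lit 83)⟩,
  ⟨(nat_lit 0), (nat_lit 1), (nat_lit 34), (nat_lit 1), (nat_lit 264), (nat_lit 4), (nat_lit 76), (nat_lit 22), (nat_lit 23), (nat_lit 87)⟩,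
  ⟨(nat_lit 1), (nat_lit 1), (nat_lit 34), (nat_lit 1), (nat_lit 264), (nat_lit 6), (nat_lit 76), (nat_lit 22), (nat_lit 23), (nat_lit 85)⟩,
  ⟨(nat_lit 2), (nat_lit 1), (nat_lit 34), (nat_lit 1), (nat_lit 264), (nat_lit 8), (nat_lit 76), (nat_lit 21), (nat_lit 22), (nat_lit 83)⟩,
  ⟨(nat_lit 3), (nat_lit 1), (nat_lit 29), (nat_lit 3), (nat_lit 776), (nat_lit 10), (nat_lit 71), (nat_lit 20), (nat_lit 60), (nat_lit 79)⟩,
  ⟨(nat_lit 4), (nat_lit 1), (nat_lit 29), (nat_lit 3), (nat_lit 776), (nat_lit 12), (nat_lit 71), (nat_lit 20), (nat_lit 60), (nat_lit 77)⟩,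
  ⟨(nat_lit 3), (nat_lit 1), (nat_lit 32), (nat_lit 2), (nat_lit 776), (nat_lit 10), (nat_lit 73), (nat_lit 21), (nat_lit 42), (nat_lit 81)⟩,
  ⟨(nat_lit 4), (nat_lit 1), (nat_lit 32), (nat_lit 2), (nat_lit 776), (nat_lit 12), (nat_lit 73), (nat_lit 20), (nat_lit 40), (nat_lit 79)⟩,
  ⟨(nat_lit 3), (nat_lit 2), (nat_lit 34), (nat_lit 1), (nat_lit 264), (nat_lit 10), (nat_lit 76), (nat_lit 21), (nat_lit 43), (nat_lit 81)⟩,
  ⟨(nat_lit 5), (nat_lit 2), (nat_lit 23), (nat_lit 3), (nat_lit 1800), (nat_lit 15), (nat_lit 64), (nat_lit 19), (nat_lit 57), (nat_lit 76)⟩,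
  ⟨(nat_lit 5), (nat_lit 2), (nat_lit 26), (nat_lit 3), (nat_lit 776), (nat_lit 15), (nat_lit 68), (nat_lit 18), (nat_lit 54), (nat_lit 71)⟩,
  ⟨(nat_lit 7), (nat_lit 1), (nat_lit 23), (nat_lit 3), (nat_lit 1800), (nat_lit 21), (nat_lit 64), (nat_lit 18), (nat_lit 54), (nat_lit 70)⟩,
  ⟨(nat_lit 8), (nat_lit 2), (nat_lit 23), (nat_lit 3), (nat_lit 1800), (nat_lit 23), (nat_lit 64), (nat_lit 17), (nat_lit 51), (nat_lit 68)⟩,
  ⟨(nat_lit 7), (nat_lit 3), (nat_lit 26), (nat_lit 3), (nat_lit 776), (nat_lit 21), (nat_lit 68), (nat_lit 17), (nat_lit 52), (nat_lit 65)⟩,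
  ⟨(nat_lit 5), (nat_lit 1), (nat_lit 29), (nat_lit 5), (nat_lit 776), (nat_lit 15), (nat_lit 73), (nat_lit 19), (nat_lit 95), (nat_lit 76)⟩,
  ⟨(nat_lit 6), (nat_lit 1), (nat_lit 29), (nat_lit 5), (nat_lit 776), (nat_lit 18), (nat_lit 73), (nat_lit 19), (nat_lit 95), (nat_lit 73)⟩,
  ⟨(nat_lit 5), (nat_lit 2), (nat_lit 34), (nat_lit 1), (nat_lit 264), (nat_lit 15), (nat_lit 76), (nat_lit 19), (nat_lit 39), (nat_lit 76)⟩,
  ⟨(nat_lit 7), (nat_lit 1), (nat_lit 29), (nat_lit 5), (nat_lit 776), (nat_lit 21), (nat_lit 73), (nat_lit 18), (nat_lit 90), (nat_lit 70)⟩,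
  ⟨(nat_lit 8), (nat_lit 2), (nat_lit 29), (nat_lit 5), (nat_lit 776), (nat_lit 23), (nat_lit 73), (nat_lit 17), (nat_lit 85), (nat_lit 68)⟩,
  ⟨(nat_lit 7), (nat_lit 3), (nat_lit 34), (nat_lit 1), (nat_lit 264), (nat_lit 21), (nat_lit 76), (nat_lit 18), (nat_lit 55), (nat_lit 70)⟩,
  ⟨(nat_lit 10), (nat_lit 4), (nat_lit 18), (nat_lit 5), (nat_lit 1800), (nat_lit 28), (nat_lit 55), (nat_lit 14), (nat_lit 70), (nat_lit 54)⟩,
  ⟨(nat_lit 14), (nat_lit 2), (nat_lit 18), (nat_lit 5), (nat_lit 1800), (nat_lit 34), (nat_lit 55), (nat_lit 12), (nat_lit 60), (nat_lit 48)⟩,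
  ⟨(nat_lit 16), (nat_lit 2), (nat_lit 18), (nat_lit 5), (nat_lit 1800), (nat_lit 45), (nat_lit 55), (nat_lit 10), (nat_lit 50), (nat_lit 37)⟩,
  ⟨(nat_lit 10), (nat_lit 4), (nat_lit 23), (nat_lit 3), (nat_lit 1800), (nat_lit 28), (nat_lit 64), (nat_lit 16), (nat_lit 65), (nat_lit 63)⟩,
  ⟨(nat_lit 10), (nat_lit 4), (nat_lit 26), (nat_lit 3), (nat_lit 776), (nat_lit 28), (nat_lit 68), (nat_lit 15), (nat_lit 61), (nat_lit 58)⟩,
  ⟨(nat_lit 14), (nat_lit 2), (nat_lit 23), (nat_lit 6), (nat_lit 1800), (nat_lit 34), (nat_lit 68), (nat_lit 15), (nat_lit 90), (nat_lit 61)⟩,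
  ⟨(nat_lit 10), (nat_lit 3), (nat_lit 29), (nat_lit 5), (nat_lit 776), (nat_lit 28), (nat_lit 73), (nat_lit 16), (nat_lit 80), (nat_lit 63)⟩,
  ⟨(nat_lit 13), (nat_lit 1), (nat_lit 29), (nat_lit 5), (nat_lit 776), (nat_lit 32), (nat_lit 73), (nat_lit 15), (nat_lit 75), (nat_lit 59)⟩,
  ⟨(nat_lit 10), (nat_lit 4), (nat_lit 34), (nat_lit 1), (nat_lit 264), (nat_lit 28), (nat_lit 76), (nat_lit 16), (nat_lit 65), (nat_lit 63)⟩,
  ⟨(nat_lit 14), (nat_lit 2), (nat_lit 29), (nat_lit 6), (nat_lit 776), (nat_lit 34), (nat_lit 76), (nat_lit 15), (nat_lit 90), (nat_lit 60)⟩,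
  ⟨(nat_lit 16), (nat_lit 2), (nat_lit 23), (nat_lit 6), (nat_lit 1800), (nat_lit 45), (nat_lit 68), (nat_lit 12), (nat_lit 72), (nat_lit 50)⟩,
  ⟨(nat_lit 16), (nat_lit 2), (nat_lit 29), (nat_lit 6), (nat_lit 776), (nat_lit 45), (nat_lit 76), (nat_lit 12), (nat_lit 72), (nat_lit 49)⟩,
  ⟨(nat_lit 18), (nat_lit 6), (nat_lit 10), (nat_lit 12), (nat_lit 1800), (nat_lit 54), (nat_lit 50), (nat_lit 6), (nat_lit 72), (nat_lit 23)⟩,
  ⟨(nat_lit 18), (nat_lit 3), (nat_lit 22), (nat_lit 4), (nat_lit 1800), (nat_lit 54), (nat_lit 64), (nat_lit 10), (nat_lit 40), (nat_lit 37)⟩,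
  ⟨(nat_lit 21), (nat_lit 3), (nat_lit 22), (nat_lit 4), (nat_lit 1800), (nat_lit 64), (nat_lit 64), (nat_lit 7), (nat_lit 28), (nat_lit 27)⟩,
  ⟨(nat_lit 18), (nat_lit 6), (nat_lit 26), (nat_lit 9), (nat_lit 776), (nat_lit 54), (nat_lit 76), (nat_lit 10), (nat_lit 90), (nat_lit 40)⟩,
  ⟨(nat_lit 24), (nat_lit 7), (nat_lit 23), (nat_lit 12), (nat_lit 1800), (nat_lit 82), (nat_lit 76), (nat_lit 3), (nat_lit 36), (nat_lit 21)⟩,
  ⟨(nat_lit 0), (nat_lit 2), (nat_lit 0), (nat_lit 2), (nat_lit 30736), (nat_lit 4), (nat_lit 9), (nat_lit 22), (nat_lit 45), (nat_lit 86)⟩,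
  ⟨(nat_lit 0), (nat_lit 2), (nat_lit 2), (nat_lit 1), (nat_lit 14352), (nat_lit 4), (nat_lit 11), (nat_lit 16), (nat_lit 33), (nat_lit 61)⟩,
  ⟨(nat_lit 2), (nat_lit 1), (nat_lit 0), (nat_lit 3), (nat_lit 30736), (nat_lit 8), (nat_lit 11), (nat_lit 21), (nat_lit 63), (nat_lit 84)⟩,
  ⟨(nat_lit 0), (nat_lit 2), (nat_lit 3), (nat_lit 2), (nat_lit 14352), (nat_lit 4), (nat_lit 15), (nat_lit 17), (nat_lit 35), (nat_lit 65)⟩,
  ⟨(nat_lit 2), (nat_lit 1), (nat_lit 3), (nat_lit 2), (nat_lit 14352), (nat_lit 8), (nat_lit 15), (nat_lit 16), (nat_lit 32), (nat_lit 61)⟩,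
  ⟨(nat_lit 3), (nat_lit 2), (nat_lit 0), (nat_lit 3), (nat_lit 30736), (nat_lit 10), (nat_lit 11), (nat_lit 20), (nat_lit 60), (nat_lit 82)⟩,
  ⟨(nat_lit 3), (nat_lit 2), (nat_lit 3), (nat_lit 2), (nat_lit 14352), (nat_lit 10), (nat_lit 15), (nat_lit 15), (nat_lit 31), (nat_lit 59)⟩,
  ⟨(nat_lit 0), (nat_lit 2), (nat_lit 5), (nat_lit 3), (nat_lit 14352), (nat_lit 4), (nat_lit 22), (nat_lit 18), (nat_lit 54), (nat_lit 72)⟩,
  ⟨(nat_lit 2), (nat_lit 1), (nat_lit 5), (nat_lit 3), (nat_lit 14352), (nat_lit 8), (nat_lit 22), (nat_lit 17), (nat_lit 51), (nat_lit 68)⟩,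
  ⟨(nat_lit 0), (nat_lit 2), (nat_lit 8), (nat_lit 2), (nat_lit 14352), (nat_lit 4), (nat_lit 26), (nat_lit 19), (nat_lit 39), (nat_lit 76)⟩,
  ⟨(nat_lit 2), (nat_lit 1), (nat_lit 8), (nat_lit 2), (nat_lit 14352), (nat_lit 8), (nat_lit 26), (nat_lit 18), (nat_lit 36), (nat_lit 72)⟩,
  ⟨(nat_lit 3), (nat_lit 2), (nat_lit 5), (nat_lit 3), (nat_lit 14352), (nat_lit 10), (nat_lit 22), (nat_lit 17), (nat_lit 51), (nat_lit 66)⟩,
  ⟨(nat_lit 3), (nat_lit 2), (nat_lit 8), (nat_lit 2), (nat_lit 14352), (nat_lit 10), (nat_lit 26), (nat_lit 18), (nat_lit 37), (nat_lit 70)⟩,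
  ⟨(nat_lit 5), (nat_lit 2), (nat_lit 0), (nat_lit 3), (nat_lit 30736), (nat_lit 15), (nat_lit 11), (nat_lit 19), (nat_lit 57), (nat_lit 77)⟩,
  ⟨(nat_lit 5), (nat_lit 2), (nat_lit 3), (nat_lit 2), (nat_lit 14352), (nat_lit 15), (nat_lit 15), (nat_lit 14), (nat_lit 29), (nat_lit 54)⟩,
  ⟨(nat_lit 7), (nat_lit 3), (nat_lit 0), (nat_lit 3), (nat_lit 30736), (nat_lit 21), (nat_lit 11), (nat_lit 18), (nat_lit 55), (nat_lit 71)⟩,
  ⟨(nat_lit 7), (nat_lit 3), (nat_lit 3), (nat_lit 2), (nat_lit 14352), (nat_lit 21), (nat_lit 15), (nat_lit 12), (nat_lit 37), (nat_lit 48)⟩,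
  ⟨(nat_lit 5), (nat_lit 2), (nat_lit 5), (nat_lit 5), (nat_lit 14352), (nat_lit 15), (nat_lit 26), (nat_lit 17), (nat_lit 85), (nat_lit 65)⟩,
  ⟨(nat_lit 7), (nat_lit 3), (nat_lit 5), (nat_lit 5), (nat_lit 14352), (nat_lit 21), (nat_lit 26), (nat_lit 15), (nat_lit 75), (nat_lit 59)⟩,
  ⟨(nat_lit 10), (nat_lit 4), (nat_lit 0), (nat_lit 3), (nat_lit 30736), (nat_lit 28), (nat_lit 11), (nat_lit 16), (nat_lit 65), (nat_lit 64)⟩,
  ⟨(nat_lit 10), (nat_lit 4), (nat_lit 3), (nat_lit 2), (nat_lit 14352), (nat_lit 28), (nat_lit 15), (nat_lit 11), (nat_lit 45), (nat_lit 41)⟩,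
  ⟨(nat_lit 14), (nat_lit 2), (nat_lit 0), (nat_lit 3), (nat_lit 30736), (nat_lit 34), (nat_lit 11), (nat_lit 14), (nat_lit 42), (nat_lit 58)⟩,
  ⟨(nat_lit 14), (nat_lit 2), (nat_lit 3), (nat_lit 2), (nat_lit 14352), (nat_lit 34), (nat_lit 15), (nat_lit 9), (nat_lit 19), (nat_lit 35)⟩,
  ⟨(nat_lit 16), (nat_lit 2), (nat_lit 0), (nat_lit 5), (nat_lit 30736), (nat_lit 45), (nat_lit 15), (nat_lit 12), (nat_lit 60), (nat_lit 51)⟩,
  ⟨(nat_lit 10), (nat_lit 4), (nat_lit 5), (nat_lit 5), (nat_lit 14352), (nat_lit 28), (nat_lit 26), (nat_lit 13), (nat_lit 65), (nat_lit 52)⟩,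
  ⟨(nat_lit 14), (nat_lit 2), (nat_lit 5), (nat_lit 5), (nat_lit 14352), (nat_lit 34), (nat_lit 26), (nat_lit 12), (nat_lit 60), (nat_lit 46)⟩,
  ⟨(nat_lit 16), (nat_lit 2), (nat_lit 5), (nat_lit 5), (nat_lit 14352), (nat_lit 45), (nat_lit 26), (nat_lit 9), (nat_lit 45), (nat_lit 35)⟩,
  ⟨(nat_lit 0), (nat_lit 2), (nat_lit 10), (nat_lit 2), (nat_lit 14352), (nat_lit 4), (nat_lit 31), (nat_lit 21), (nat_lit 43), (nat_lit 81)⟩,
  ⟨(nat_lit 0), (nat_lit 1), (nat_lit 12), (nat_lit 2), (nat_lit 14352), (nat_lit 4), (nat_lit 33), (nat_lit 21), (nat_lit 42), (nat_lit 83)⟩,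
  ⟨(nat_lit 1), (nat_lit 1), (nat_lit 12), (nat_lit 2), (nat_lit 14352), (nat_lit 6), (nat_lit 33), (nat_lit 21), (nat_lit 42), (nat_lit 81)⟩,
  ⟨(nat_lit 2), (nat_lit 1), (nat_lit 10), (nat_lit 4), (nat_lit 14352), (nat_lit 8), (nat_lit 33), (nat_lit 20), (nat_lit 80), (nat_lit 79)⟩]

theorem k3_2 : AllB (okK ⟨cf3, d3, d4, m3, g3, g5, (nat_lit 23), (nat_lit 161), (nat_lit 90)⟩) k3_2_l :=
  ⟨by decide +kernel,
  by decide +kernel,
  by decide +kernel,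
  by decide +kernel,
  by decide +kernel,
  by decide +kernel,
  by decide +kernel,
  by decide +kernel,
  by decide +kernel,
  by decide +kernel,
  by decide +kernel,
  by decide +kernel,
  by decide +kernel,
  by decide +kernel,
  by decide +kernel,
  by decide +kernel,
  by decide +kernel,
  by decide +kernel,
  by decide +kernel,
  by decide +kernel,
  by decide +kernel,
  by decide +kernel,
  by decide +kernel,
  by decide +kernel,
  by decide +kernel,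
  by decide +kernel,
  by decide +kernel,
  by decide +kernel,
  by decide +kernel,
  by decide +kernel,
  by decide +kernel,
  by decide +kernel,
  by decide +kernel,
  by decide +kernel,
  by decide +kernel,
  by decide +kernel,
  by decide +kernel,
  by decide +kernel,
  by decide +kernel,
  by decide +kernel,
  by decide +kernel,
  by decide +kernel,
  by decide +kernel,
  by decide +kernel,
  by decide +kernel,
  by decide +kernel,
  by decide +kernel,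
  by decide +kernel,
  by decide +kernel,
  by decide +kernel,
  by decide +kernel,
  by decide +kernel,
  by decide +kernel,
  by decide +kernel,
  by decide +kernel,
  by decide +kernel,
  by decide +kernel,
  by decide +kernel,
  by decide +kernel,
  by decide +kernel,
  by decide +kernel,
  by decide +kernel,
  by decide +kernel,
  by decide +kernel,
  by decide +kernel,
  by decide +kernel,
  by decide +kernel,
  by decide +kernel,
  by decide +kernel,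
  by decide +kernel,
  by decide +kernel,
  by decide +kernel,
  by decide +kernel,
  by decide +kernel,
  by decide +kernel,
  by decide +kernel,
  by decide +kernel,
  by decide +kernel,
  by decide +kernel,
  by decide +kernel,
  by decide +kernel,
  by decide +kernel,
  by decide +kernel,
  by decide +kernel,
  by decide +kernel,
  by decide +kernel,
  by decide +kernel,
  by decide +kernel,
  by decide +kernel,
  by decide +kernel,
  by decide +kernel,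
  by decide +kernel,
  by decide +kernel,
  by decide +kernel,
  by decide +kernel,
  by decide +kernel,
  by decide +kernel,
  by decide +kernel,
  by decide +kernel,
  by decide +kernel,
  by decide +kernel,
  by decide +kernel,
  by decide +kernel,
  by decide +kernel,
  trivial⟩

end Vale.Agent.P236KE.S90
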