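import Vale.Agent.P236KE.S90.Cnt
import Vale.Agent.P236KE.S90.K2
import Vale.Agent.P236KE.S90.K3
import Vale.Agent.P236KE.S90.K4
import Vale.Agent.P236KE.S90.K5
import Vale.Agent.P236KE.S90.G0

/-!
# P236KE / assembly (generated)
-/

set_option maxRecDepth 100000

namespace Vale.Agent.P236KE.S90

theorem mid3 : midOk m3_t (sph.d 4) (sph.n 4) 90 = true := by decide +kernel

theorem lo3 (up : DLL) (dup : ℕ) : sph.Lo ⟨cf3, d3, up, m3, g3, dup, (nat_lit 23), (nat_lit 161), (nat_lit 90)⟩ 90 3 :=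
  ⟨rfl, rfl, rfl, rfl, rfl, rfl, ⟨_, m3_eq, mid3⟩,
    (by decide : 90 < 117), (by decide : 23 ≤ 32), (by decide : 161 ≤ 300)⟩

theorem kq3 : sph.KQ 90 3 :=
  ⟨_, _, lo3 d4 g5, rfl, rfl, (AllB.append k3_0 (AllB.append k3_1 (AllB.append k3_2 k3_3))), by decide +kernel⟩

theorem cq3 : sph.CQ 90 zs hs ng cs 3 :=
  ⟨⟨_, _, lo3 e3 h3, rfl, g3_0, by decide +kernel, by decide +kernel⟩, by decide +kernel⟩

theorem ck3 : Vale.Agent.P236K2.ckD (2 ^ 28) (cs 4) (cs 3) (Sq.pn (sph.n 3) (sph.d 3) fun _ => []) 91 = true := by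
  decide +kernel

end Vale.Agent.P236KE.S90
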