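import Vale.Agent.P236KE.Cfg
import Vale.Agent.P236KE.S90.Deg
import Vale.Agent.P236KE.S90.D4
import Vale.Agent.P236KE.S90.Z0
import Vale.Agent.P236KE.S90.D5
import Vale.Agent.P236KE.S90.D6

/-!
# P236KE / checks (generated)
-/

set_option maxRecDepth 100000

namespace Vale.Agent.P236KE.S90

noncomputable def g4_1_l : List Gp := [⟨(nat_lit 7), (nat_lit 3), (nat_lit 100), (nat_lit 14), (nat_lit 1), (nat_lit 22), (nat_lit 85), (nat_lit 16), (nat_lit 224), (nat_lit 64)⟩,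
  ⟨(nat_lit 5), (nat_lit 2), (nat_lit 114), (nat_lit 10), (nat_lit 1), (nat_lit 16), (nat_lit 88), (nat_lit 19), (nat_lit 190), (nat_lit 73)⟩,
  ⟨(nat_lit 5), (nat_lit 1), (nat_lit 124), (nat_lit 10), (nat_lit 1), (nat_lit 16), (nat_lit 90), (nat_lit 19), (nat_lit 190), (nat_lit 75)⟩,
  ⟨(nat_lit 6), (nat_lit 1), (nat_lit 124), (nat_lit 10), (nat_lit 1), (nat_lit 18), (nat_lit 90), (nat_lit 19), (nat_lit 190), (nat_lit 73)⟩,
  ⟨(nat_lit 7), (nat_lit 3), (nat_lit 114), (nat_lit 10), (nat_lit 1), (nat_lit 22), (nat_lit 88), (nat_lit 17), (nat_lit 170), (nat_lit 67)⟩,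
  ⟨(nat_lit 7), (nat_lit 1), (nat_lit 124), (nat_lit 10), (nat_lit 1), (nat_lit 22), (nat_lit 90), (nat_lit 18), (nat_lit 180), (nat_lit 69)⟩,
  ⟨(nat_lit 8), (nat_lit 2), (nat_lit 124), (nat_lit 10), (nat_lit 1), (nat_lit 24), (nat_lit 90), (nat_lit 17), (nat_lit 170), (nat_lit 67)⟩,
  ⟨(nat_lit 10), (nat_lit 8), (nat_lit 45), (nat_lit 16), (nat_lit 1), (nat_lit 30), (nat_lit 58), (nat_lit 8), (nat_lit 128), (nat_lit 29)⟩,
  ⟨(nat_lit 18), (nat_lit 3), (nat_lit 45), (nat_lit 16), (nat_lit 1), (nat_lit 42), (nat_lit 58), (nat_lit 5), (nat_lit 80), (nat_lit 17)⟩,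
  ⟨(nat_lit 10), (nat_lit 8), (nat_lit 61), (nat_lit 21), (nat_lit 1), (nat_lit 30), (nat_lit 68), (nat_lit 10), (nat_lit 210), (nat_lit 39)⟩,
  ⟨(nat_lit 18), (nat_lit 3), (nat_lit 61), (nat_lit 21), (nat_lit 1), (nat_lit 42), (nat_lit 68), (nat_lit 7), (nat_lit 147), (nat_lit 27)⟩,
  ⟨(nat_lit 10), (nat_lit 8), (nat_lit 82), (nat_lit 10), (nat_lit 1), (nat_lit 30), (nat_lit 75), (nat_lit 12), (nat_lit 120), (nat_lit 46)⟩,
  ⟨(nat_lit 10), (nat_lit 8), (nat_lit 92), (nat_lit 8), (nat_lit 1), (nat_lit 30), (nat_lit 80), (nat_lit 13), (nat_lit 105), (nat_lit 51)⟩,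
  ⟨(nat_lit 18), (nat_lit 3), (nat_lit 82), (nat_lit 18), (nat_lit 1), (nat_lit 42), (nat_lit 80), (nat_lit 10), (nat_lit 180), (nat_lit 39)⟩,
  ⟨(nat_lit 10), (nat_lit 5), (nat_lit 100), (nat_lit 14), (nat_lit 1), (nat_lit 30), (nat_lit 85), (nat_lit 14), (nat_lit 196), (nat_lit 56)⟩,
  ⟨(nat_lit 15), (nat_lit 3), (nat_lit 100), (nat_lit 14), (nat_lit 1), (nat_lit 35), (nat_lit 85), (nat_lit 13), (nat_lit 182), (nat_lit 51)⟩,
  ⟨(nat_lit 10), (nat_lit 5), (nat_lit 114), (nat_lit 10), (nat_lit 1), (nat_lit 30), (nat_lit 88), (nat_lit 15), (nat_lit 150), (nat_lit 59)⟩,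
  ⟨(nat_lit 10), (nat_lit 3), (nat_lit 124), (nat_lit 10), (nat_lit 1), (nat_lit 30), (nat_lit 90), (nat_lit 16), (nat_lit 160), (nat_lit 61)⟩,
  ⟨(nat_lit 13), (nat_lit 2), (nat_lit 124), (nat_lit 10), (nat_lit 1), (nat_lit 32), (nat_lit 90), (nat_lit 15), (nat_lit 150), (nat_lit 59)⟩,
  ⟨(nat_lit 15), (nat_lit 3), (nat_lit 114), (nat_lit 20), (nat_lit 1), (nat_lit 35), (nat_lit 90), (nat_lit 14), (nat_lit 280), (nat_lit 56)⟩,
  ⟨(nat_lit 18), (nat_lit 3), (nat_lit 100), (nat_lit 14), (nat_lit 1), (nat_lit 42), (nat_lit 85), (nat_lit 11), (nat_lit 154), (nat_lit 44)⟩,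
  ⟨(nat_lit 18), (nat_lit 3), (nat_lit 114), (nat_lit 20), (nat_lit 1), (nat_lit 42), (nat_lit 90), (nat_lit 13), (nat_lit 260), (nat_lit 49)⟩,
  ⟨(nat_lit 21), (nat_lit 10), (nat_lit 53), (nat_lit 34), (nat_lit 1), (nat_lit 54), (nat_lit 72), (nat_lit 5), (nat_lit 170), (nat_lit 19)⟩,
  ⟨(nat_lit 21), (nat_lit 3), (nat_lit 87), (nat_lit 15), (nat_lit 1), (nat_lit 54), (nat_lit 81), (nat_lit 7), (nat_lit 105), (nat_lit 28)⟩,
  ⟨(nat_lit 21), (nat_lit 3), (nat_lit 102), (nat_lit 32), (nat_lit 1), (nat_lit 54), (nat_lit 90), (nat_lit 10), (nat_lit 320), (nat_lit 37)⟩,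
  ⟨(nat_lit 24), (nat_lit 7), (nat_lit 87), (nat_lit 15), (nat_lit 1), (nat_lit 64), (nat_lit 81), (nat_lit 5), (nat_lit 75), (nat_lit 18)⟩,
  ⟨(nat_lit 24), (nat_lit 7), (nat_lit 102), (nat_lit 32), (nat_lit 1), (nat_lit 64), (nat_lit 90), (nat_lit 7), (nat_lit 224), (nat_lit 27)⟩,
  ⟨(nat_lit 31), (nat_lit 1), (nat_lit 87), (nat_lit 47), (nat_lit 1), (nat_lit 73), (nat_lit 90), (nat_lit 5), (nat_lit 235), (nat_lit 18)⟩,
  ⟨(nat_lit 32), (nat_lit 9), (nat_lit 102), (nat_lit 32), (nat_lit 1), (nat_lit 82), (nat_lit 90), (nat_lit 3), (nat_lit 96), (nat_lit 9)⟩]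

theorem g4_1 : AllB (okG ⟨cf3, d4, e4, m4, g4, h4, (nat_lit 23), (nat_lit 161), (nat_lit 90)⟩ z4) g4_1_l :=
  ⟨by decide +kernel,
  by decide +kernel,
  by decide +kernel,
  by decide +kernel,
  by decide +kernel,
  by decide +kernel,
  by decide +kernel,
  by decide +kernel,
  by decide +kernel,
  by decide +kernel,
  by decide +kernel,
  by decide +kernel,
  by decide +kernel,
  by decide +kernel,
  by decide +kernel,
  by decide +kernel,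
  by decide +kernel,
  by decide +kernel,
  by decide +kernel,
  by decide +kernel,
  by decide +kernel,
  by decide +kernel,
  by decide +kernel,
  by decide +kernel,
  by decide +kernel,
  by decide +kernel,
  by decide +kernel,
  by decide +kernel,
  by decide +kernel,
  trivial⟩

noncomputable def g5_0_l : List Gp := [⟨(nat_lit 0), (nat_lit 10), (nat_lit 0), (nat_lit 19), (nat_lit 1), (nat_lit 7), (nat_lit 29), (nat_lit 6), (nat_lit 114), (nat_lit 23)⟩,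
  ⟨(nat_lit 0), (nat_lit 5), (nat_lit 19), (nat_lit 16), (nat_lit 1), (nat_lit 7), (nat_lit 40), (nat_lit 9), (nat_lit 144), (nat_lit 34)⟩,
  ⟨(nat_lit 0), (nat_lit 5), (nat_lit 35), (nat_lit 18), (nat_lit 1), (nat_lit 7), (nat_lit 49), (nat_lit 11), (nat_lit 198), (nat_lit 43)⟩,
  ⟨(nat_lit 5), (nat_lit 5), (nat_lit 19), (nat_lit 16), (nat_lit 1), (nat_lit 18), (nat_lit 40), (nat_lit 6), (nat_lit 96), (nat_lit 23)⟩,
  ⟨(nat_lit 5), (nat_lit 5), (nat_lit 35), (nat_lit 18), (nat_lit 1), (nat_lit 18), (nat_lit 49), (nat_lit 8), (nat_lit 144), (nat_lit 32)⟩,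
  ⟨(nat_lit 10), (nat_lit 11), (nat_lit 19), (nat_lit 34), (nat_lit 1), (nat_lit 30), (nat_lit 49), (nat_lit 5), (nat_lit 170), (nat_lit 20)⟩,
  ⟨(nat_lit 0), (nat_lit 5), (nat_lit 53), (nat_lit 11), (nat_lit 1), (nat_lit 7), (nat_lit 55), (nat_lit 13), (nat_lit 143), (nat_lit 49)⟩,
  ⟨(nat_lit 0), (nat_lit 5), (nat_lit 64), (nat_lit 6), (nat_lit 1), (nat_lit 7), (nat_lit 60), (nat_lit 14), (nat_lit 84), (nat_lit 54)⟩,
  ⟨(nat_lit 5), (nat_lit 5), (nat_lit 53), (nat_lit 17), (nat_lit 1), (nat_lit 18), (nat_lit 60), (nat_lit 11), (nat_lit 187), (nat_lit 43)⟩,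
  ⟨(nat_lit 0), (nat_lit 5), (nat_lit 70), (nat_lit 10), (nat_lit 1), (nat_lit 7), (nat_lit 65), (nat_lit 15), (nat_lit 150), (nat_lit 59)⟩,
  ⟨(nat_lit 0), (nat_lit 3), (nat_lit 80), (nat_lit 13), (nat_lit 1), (nat_lit 7), (nat_lit 70), (nat_lit 16), (nat_lit 208), (nat_lit 64)⟩,
  ⟨(nat_lit 3), (nat_lit 2), (nat_lit 80), (nat_lit 13), (nat_lit 1), (nat_lit 13), (nat_lit 70), (nat_lit 15), (nat_lit 195), (nat_lit 58)⟩,
  ⟨(nat_lit 5), (nat_lit 5), (nat_lit 70), (nat_lit 10), (nat_lit 1), (nat_lit 18), (nat_lit 65), (nat_lit 12), (nat_lit 120), (nat_lit 48)⟩,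
  ⟨(nat_lit 5), (nat_lit 3), (nat_lit 80), (nat_lit 13), (nat_lit 1), (nat_lit 18), (nat_lit 70), (nat_lit 14), (nat_lit 182), (nat_lit 53)⟩,
  ⟨(nat_lit 8), (nat_lit 2), (nat_lit 80), (nat_lit 13), (nat_lit 1), (nat_lit 24), (nat_lit 70), (nat_lit 12), (nat_lit 156), (nat_lit 47)⟩,
  ⟨(nat_lit 0), (nat_lit 2), (nat_lit 93), (nat_lit 10), (nat_lit 1), (nat_lit 7), (nat_lit 73), (nat_lit 17), (nat_lit 170), (nat_lit 67)⟩,
  ⟨(nat_lit 0), (nat_lit 2), (nat_lit 103), (nat_lit 6), (nat_lit 1), (nat_lit 7), (nat_lit 75), (nat_lit 18), (nat_lit 108), (nat_lit 69)⟩,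
  ⟨(nat_lit 2), (nat_lit 1), (nat_lit 93), (nat_lit 16), (nat_lit 1), (nat_lit 11), (nat_lit 75), (nat_lit 17), (nat_lit 272), (nat_lit 65)⟩,
  ⟨(nat_lit 3), (nat_lit 2), (nat_lit 93), (nat_lit 16), (nat_lit 1), (nat_lit 13), (nat_lit 75), (nat_lit 16), (nat_lit 256), (nat_lit 63)⟩,
  ⟨(nat_lit 0), (nat_lit 2), (nat_lit 109), (nat_lit 9), (nat_lit 1), (nat_lit 7), (nat_lit 78), (nat_lit 18), (nat_lit 162), (nat_lit 72)⟩,
  ⟨(nat_lit 0), (nat_lit 2), (nat_lit 118), (nat_lit 6), (nat_lit 1), (nat_lit 7), (nat_lit 80), (nat_lit 19), (nat_lit 114), (nat_lit 74)⟩,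
  ⟨(nat_lit 2), (nat_lit 1), (nat_lit 109), (nat_lit 15), (nat_lit 1), (nat_lit 11), (nat_lit 80), (nat_lit 18), (nat_lit 270), (nat_lit 70)⟩,
  ⟨(nat_lit 3), (nat_lit 2), (nat_lit 109), (nat_lit 15), (nat_lit 1), (nat_lit 13), (nat_lit 80), (nat_lit 17), (nat_lit 255), (nat_lit 68)⟩,
  ⟨(nat_lit 0), (nat_lit 2), (nat_lit 124), (nat_lit 8), (nat_lit 1), (nat_lit 7), (nat_lit 83), (nat_lit 20), (nat_lit 160), (nat_lit 77)⟩,
  ⟨(nat_lit 0), (nat_lit 2), (nat_lit 132), (nat_lit 5), (nat_lit 1), (nat_lit 7), (nat_lit 85), (nat_lit 20), (nat_lit 100), (nat_lit 79)⟩,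
  ⟨(nat_lit 2), (nat_lit 1), (nat_lit 124), (nat_lit 13), (nat_lit 1), (nat_lit 11), (nat_lit 85), (nat_lit 19), (nat_lit 247), (nat_lit 75)⟩,
  ⟨(nat_lit 3), (nat_lit 2), (nat_lit 124), (nat_lit 8), (nat_lit 1), (nat_lit 13), (nat_lit 83), (nat_lit 18), (nat_lit 144), (nat_lit 71)⟩,
  ⟨(nat_lit 3), (nat_lit 2), (nat_lit 132), (nat_lit 5), (nat_lit 1), (nat_lit 13), (nat_lit 85), (nat_lit 19), (nat_lit 95), (nat_lit 73)⟩,
  ⟨(nat_lit 0), (nat_lit 1), (nat_lit 137), (nat_lit 10), (nat_lit 1), (nat_lit 7), (nat_lit 88), (nat_lit 21), (nat_lit 210), (nat_lit 82)⟩,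
  ⟨(nat_lit 1), (nat_lit 1), (nat_lit 137), (nat_lit 10), (nat_lit 1), (nat_lit 9), (nat_lit 88), (nat_lit 20), (nat_lit 200), (nat_lit 80)⟩,
  ⟨(nat_lit 0), (nat_lit 1), (nat_lit 147), (nat_lit 9), (nat_lit 1), (nat_lit 7), (nat_lit 90), (nat_lit 21), (nat_lit 189), (nat_lit 84)⟩,
  ⟨(nat_lit 1), (nat_lit 1), (nat_lit 147), (nat_lit 9), (nat_lit 1), (nat_lit 9), (nat_lit 90), (nat_lit 21), (nat_lit 189), (nat_lit 82)⟩,
  ⟨(nat_lit 2), (nat_lit 1), (nat_lit 137), (nat_lit 10), (nat_lit 1), (nat_lit 11), (nat_lit 88), (nat_lit 20), (nat_lit 200), (nat_lit 78)⟩,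
  ⟨(nat_lit 2), (nat_lit 1), (nat_lit 147), (nat_lit 9), (nat_lit 1), (nat_lit 11), (nat_lit 90), (nat_lit 20), (nat_lit 180), (nat_lit 80)⟩,
  ⟨(nat_lit 3), (nat_lit 1), (nat_lit 137), (nat_lit 10), (nat_lit 1), (nat_lit 13), (nat_lit 88), (nat_lit 19), (nat_lit 190), (nat_lit 76)⟩,
  ⟨(nat_lit 4), (nat_lit 1), (nat_lit 137), (nat_lit 10), (nat_lit 1), (nat_lit 15), (nat_lit 88), (nat_lit 19), (nat_lit 190), (nat_lit 74)⟩,
  ⟨(nat_lit 3), (nat_lit 1), (nat_lit 147), (nat_lit 9), (nat_lit 1), (nat_lit 13), (nat_lit 90), (nat_lit 20), (nat_lit 180), (nat_lit 78)⟩,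
  ⟨(nat_lit 4), (nat_lit 1), (nat_lit 147), (nat_lit 9), (nat_lit 1), (nat_lit 15), (nat_lit 90), (nat_lit 19), (nat_lit 171), (nat_lit 76)⟩,
  ⟨(nat_lit 5), (nat_lit 3), (nat_lit 93), (nat_lit 16), (nat_lit 1), (nat_lit 18), (nat_lit 75), (nat_lit 15), (nat_lit 240), (nat_lit 58)⟩,
  ⟨(nat_lit 8), (nat_lit 2), (nat_lit 93), (nat_lit 16), (nat_lit 1), (nat_lit 24), (nat_lit 75), (nat_lit 13), (nat_lit 208), (nat_lit 52)⟩,
  ⟨(nat_lit 5), (nat_lit 3), (nat_lit 109), (nat_lit 15), (nat_lit 1), (nat_lit 18), (nat_lit 80), (nat_lit 16), (nat_lit 240), (nat_lit 63)⟩,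
  ⟨(nat_lit 8), (nat_lit 2), (nat_lit 109), (nat_lit 15), (nat_lit 1), (nat_lit 24), (nat_lit 80), (nat_lit 15), (nat_lit 225), (nat_lit 57)⟩,
  ⟨(nat_lit 5), (nat_lit 2), (nat_lit 124), (nat_lit 13), (nat_lit 1), (nat_lit 18), (nat_lit 85), (nat_lit 17), (nat_lit 221), (nat_lit 68)⟩,
  ⟨(nat_lit 7), (nat_lit 1), (nat_lit 124), (nat_lit 13), (nat_lit 1), (nat_lit 22), (nat_lit 85), (nat_lit 16), (nat_lit 208), (nat_lit 64)⟩,
  ⟨(nat_lit 8), (nat_lit 2), (nat_lit 124), (nat_lit 13), (nat_lit 1), (nat_lit 24), (nat_lit 85), (nat_lit 16), (nat_lit 208), (nat_lit 62)⟩,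
  ⟨(nat_lit 5), (nat_lit 2), (nat_lit 137), (nat_lit 10), (nat_lit 1), (nat_lit 18), (nat_lit 88), (nat_lit 18), (nat_lit 180), (nat_lit 71)⟩,
  ⟨(nat_lit 5), (nat_lit 2), (nat_lit 147), (nat_lit 9), (nat_lit 1), (nat_lit 18), (nat_lit 90), (nat_lit 19), (nat_lit 171), (nat_lit 73)⟩,
  ⟨(nat_lit 7), (nat_lit 1), (nat_lit 137), (nat_lit 19), (nat_lit 1), (nat_lit 22), (nat_lit 90), (nat_lit 18), (nat_lit 342), (nat_lit 69)⟩,
  ⟨(nat_lit 8), (nat_lit 2), (nat_lit 137), (nat_lit 10), (nat_lit 1), (nat_lit 24), (nat_lit 88), (nat_lit 17), (nat_lit 170), (nat_lit 65)⟩,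
  ⟨(nat_lit 8), (nat_lit 2), (nat_lit 147), (nat_lit 9), (nat_lit 1), (nat_lit 24), (nat_lit 90), (nat_lit 17), (nat_lit 153), (nat_lit 67)⟩,
  ⟨(nat_lit 10), (nat_lit 8), (nat_lit 53), (nat_lit 17), (nat_lit 1), (nat_lit 30), (nat_lit 60), (nat_lit 8), (nat_lit 136), (nat_lit 31)⟩,
  ⟨(nat_lit 18), (nat_lit 3), (nat_lit 53), (nat_lit 17), (nat_lit 1), (nat_lit 42), (nat_lit 60), (nat_lit 5), (nat_lit 85), (nat_lit 19)⟩,
  ⟨(nat_lit 10), (nat_lit 4), (nat_lit 70), (nat_lit 23), (nat_lit 1), (nat_lit 30), (nat_lit 70), (nat_lit 11), (nat_lit 253), (nat_lit 41)⟩,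
  ⟨(nat_lit 14), (nat_lit 4), (nat_lit 70), (nat_lit 23), (nat_lit 1), (nat_lit 35), (nat_lit 70), (nat_lit 9), (nat_lit 207), (nat_lit 36)⟩,
  ⟨(nat_lit 18), (nat_lit 3), (nat_lit 70), (nat_lit 23), (nat_lit 1), (nat_lit 42), (nat_lit 70), (nat_lit 8), (nat_lit 184), (nat_lit 29)⟩,
  ⟨(nat_lit 10), (nat_lit 4), (nat_lit 93), (nat_lit 16), (nat_lit 1), (nat_lit 30), (nat_lit 75), (nat_lit 12), (nat_lit 192), (nat_lit 46)⟩,
  ⟨(nat_lit 10), (nat_lit 4), (nat_lit 109), (nat_lit 15), (nat_lit 1), (nat_lit 30), (nat_lit 80), (nat_lit 13), (nat_lit 195), (nat_lit 51)⟩,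
  ⟨(nat_lit 14), (nat_lit 4), (nat_lit 93), (nat_lit 16), (nat_lit 1), (nat_lit 35), (nat_lit 75), (nat_lit 11), (nat_lit 176), (nat_lit 41)⟩,
  ⟨(nat_lit 14), (nat_lit 4), (nat_lit 109), (nat_lit 15), (nat_lit 1), (nat_lit 35), (nat_lit 80), (nat_lit 12), (nat_lit 180), (nat_lit 46)⟩,
  ⟨(nat_lit 18), (nat_lit 3), (nat_lit 93), (nat_lit 31), (nat_lit 1), (nat_lit 42), (nat_lit 80), (nat_lit 10), (nat_lit 310), (nat_lit 39)⟩,
  ⟨(nat_lit 10), (nat_lit 4), (nat_lit 124), (nat_lit 13), (nat_lit 1), (nat_lit 30), (nat_lit 85), (nat_lit 14), (nat_lit 182), (nat_lit 56)⟩,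
  ⟨(nat_lit 10), (nat_lit 4), (nat_lit 137), (nat_lit 10), (nat_lit 1), (nat_lit 30), (nat_lit 88), (nat_lit 15), (nat_lit 150), (nat_lit 59)⟩,
  ⟨(nat_lit 10), (nat_lit 4), (nat_lit 147), (nat_lit 9), (nat_lit 1), (nat_lit 30), (nat_lit 90), (nat_lit 16), (nat_lit 144), (nat_lit 61)⟩,
  ⟨(nat_lit 14), (nat_lit 4), (nat_lit 124), (nat_lit 13), (nat_lit 1), (nat_lit 35), (nat_lit 85), (nat_lit 13), (nat_lit 169), (nat_lit 51)⟩,
  ⟨(nat_lit 14), (nat_lit 4), (nat_lit 137), (nat_lit 19), (nat_lit 1), (nat_lit 35), (nat_lit 90), (nat_lit 14), (nat_lit 266), (nat_lit 56)⟩,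
  ⟨(nat_lit 18), (nat_lit 3), (nat_lit 124), (nat_lit 13), (nat_lit 1), (nat_lit 42), (nat_lit 85), (nat_lit 11), (nat_lit 143), (nat_lit 44)⟩,
  ⟨(nat_lit 18), (nat_lit 3), (nat_lit 137), (nat_lit 19), (nat_lit 1), (nat_lit 42), (nat_lit 90), (nat_lit 13), (nat_lit 247), (nat_lit 49)⟩,
  ⟨(nat_lit 21), (nat_lit 2), (nat_lit 53), (nat_lit 40), (nat_lit 1), (nat_lit 50), (nat_lit 70), (nat_lit 6), (nat_lit 240), (nat_lit 21)⟩,
  ⟨(nat_lit 23), (nat_lit 8), (nat_lit 71), (nat_lit 22), (nat_lit 1), (nat_lit 62), (nat_lit 70), (nat_lit 3), (nat_lit 66), (nat_lit 9)⟩,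
  ⟨(nat_lit 21), (nat_lit 2), (nat_lit 93), (nat_lit 31), (nat_lit 1), (nat_lit 50), (nat_lit 80), (nat_lit 8), (nat_lit 248), (nat_lit 31)⟩,
  ⟨(nat_lit 21), (nat_lit 2), (nat_lit 124), (nat_lit 32), (nat_lit 1), (nat_lit 50), (nat_lit 90), (nat_lit 11), (nat_lit 352), (nat_lit 41)⟩,
  ⟨(nat_lit 23), (nat_lit 8), (nat_lit 93), (nat_lit 31), (nat_lit 1), (nat_lit 62), (nat_lit 80), (nat_lit 5), (nat_lit 155), (nat_lit 19)⟩,
  ⟨(nat_lit 23), (nat_lit 8), (nat_lit 124), (nat_lit 32), (nat_lit 1), (nat_lit 62), (nat_lit 90), (nat_lit 8), (nat_lit 256), (nat_lit 29)⟩,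
  ⟨(nat_lit 31), (nat_lit 5), (nat_lit 93), (nat_lit 31), (nat_lit 1), (nat_lit 71), (nat_lit 80), (nat_lit 3), (nat_lit 93), (nat_lit 10)⟩,
  ⟨(nat_lit 31), (nat_lit 5), (nat_lit 124), (nat_lit 32), (nat_lit 1), (nat_lit 71), (nat_lit 90), (nat_lit 5), (nat_lit 160), (nat_lit 20)⟩,
  ⟨(nat_lit 36), (nat_lit 9), (nat_lit 127), (nat_lit 29), (nat_lit 1), (nat_lit 82), (nat_lit 90), (nat_lit 3), (nat_lit 87), (nat_lit 9)⟩]

theorem g5_0 : AllB (okG ⟨cf3, d5, e5, m5, g5, h5, (nat_lit 23), (nat_lit 161), (nat_lit 90)⟩ z5) g5_0_l :=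
  ⟨by decide +kernel,
  by decide +kernel,
  by decide +kernel,
  by decide +kernel,
  by decide +kernel,
  by decide +kernel,
  by decide +kernel,
  by decide +kernel,
  by decide +kernel,
  by decide +kernel,
  by decide +kernel,
  by decide +kernel,
  by decide +kernel,
  by decide +kernel,
  by decide +kernel,
  by decide +kernel,
  by decide +kernel,
  by decide +kernel,
  by decide +kernel,
  by decide +kernel,
  by decide +kernel,
  by decide +kernel,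
  by decide +kernel,
  by decide +kernel,
  by decide +kernel,
  by decide +kernel,
  by decide +kernel,
  by decide +kernel,
  by decide +kernel,
  by decide +kernel,
  by decide +kernel,
  by decide +kernel,
  by decide +kernel,
  by decide +kernel,
  by decide +kernel,
  by decide +kernel,
  by decide +kernel,
  by decide +kernel,
  by decide +kernel,
  by decide +kernel,
  by decide +kernel,
  by decide +kernel,
  by decide +kernel,
  by decide +kernel,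
  by decide +kernel,
  by decide +kernel,
  by decide +kernel,
  by decide +kernel,
  by decide +kernel,
  by decide +kernel,
  by decide +kernel,
  by decide +kernel,
  by decide +kernel,
  by decide +kernel,
  by decide +kernel,
  by decide +kernel,
  by decide +kernel,
  by decide +kernel,
  by decide +kernel,
  by decide +kernel,
  by decide +kernel,
  by decide +kernel,
  by decide +kernel,
  by decide +kernel,
  by decide +kernel,
  by decide +kernel,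
  by decide +kernel,
  by decide +kernel,
  by decide +kernel,
  by decide +kernel,
  by decide +kernel,
  by decide +kernel,
  by decide +kernel,
  by decide +kernel,
  by decide +kernel,
  by decide +kernel,
  trivial⟩

noncomputable def g6_0_l : List Gp := [⟨(nat_lit 0), (nat_lit 10), (nat_lit 0), (nat_lit 17), (nat_lit 1), (nat_lit 9), (nat_lit 30), (nat_lit 6), (nat_lit 102), (nat_lit 22)⟩,
  ⟨(nat_lit 0), (nat_lit 10), (nat_lit 17), (nat_lit 10), (nat_lit 1), (nat_lit 9), (nat_lit 40), (nat_lit 8), (nat_lit 81), (nat_lit 32)⟩,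
  ⟨(nat_lit 0), (nat_lit 5), (nat_lit 27), (nat_lit 11), (nat_lit 1), (nat_lit 9), (nat_lit 50), (nat_lit 11), (nat_lit 121), (nat_lit 42)⟩,
  ⟨(nat_lit 5), (nat_lit 5), (nat_lit 27), (nat_lit 11), (nat_lit 1), (nat_lit 19), (nat_lit 50), (nat_lit 8), (nat_lit 88), (nat_lit 32)⟩,
  ⟨(nat_lit 10), (nat_lit 8), (nat_lit 19), (nat_lit 19), (nat_lit 1), (nat_lit 33), (nat_lit 50), (nat_lit 5), (nat_lit 95), (nat_lit 18)⟩,
  ⟨(nat_lit 0), (nat_lit 5), (nat_lit 38), (nat_lit 13), (nat_lit 1), (nat_lit 9), (nat_lit 60), (nat_lit 13), (nat_lit 169), (nat_lit 52)⟩,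
  ⟨(nat_lit 5), (nat_lit 5), (nat_lit 38), (nat_lit 13), (nat_lit 1), (nat_lit 19), (nat_lit 60), (nat_lit 11), (nat_lit 143), (nat_lit 42)⟩,
  ⟨(nat_lit 0), (nat_lit 3), (nat_lit 51), (nat_lit 7), (nat_lit 1), (nat_lit 9), (nat_lit 65), (nat_lit 15), (nat_lit 105), (nat_lit 57)⟩,
  ⟨(nat_lit 3), (nat_lit 2), (nat_lit 51), (nat_lit 7), (nat_lit 1), (nat_lit 15), (nat_lit 65), (nat_lit 13), (nat_lit 91), (nat_lit 51)⟩,
  ⟨(nat_lit 0), (nat_lit 3), (nat_lit 58), (nat_lit 11), (nat_lit 1), (nat_lit 9), (nat_lit 70), (nat_lit 16), (nat_lit 176), (nat_lit 62)⟩,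
  ⟨(nat_lit 3), (nat_lit 2), (nat_lit 58), (nat_lit 11), (nat_lit 1), (nat_lit 15), (nat_lit 70), (nat_lit 14), (nat_lit 154), (nat_lit 56)⟩,
  ⟨(nat_lit 5), (nat_lit 5), (nat_lit 51), (nat_lit 18), (nat_lit 1), (nat_lit 19), (nat_lit 70), (nat_lit 13), (nat_lit 234), (nat_lit 52)⟩,
  ⟨(nat_lit 0), (nat_lit 2), (nat_lit 69), (nat_lit 15), (nat_lit 1), (nat_lit 9), (nat_lit 75), (nat_lit 17), (nat_lit 255), (nat_lit 67)⟩,
  ⟨(nat_lit 2), (nat_lit 1), (nat_lit 69), (nat_lit 15), (nat_lit 1), (nat_lit 13), (nat_lit 75), (nat_lit 16), (nat_lit 240), (nat_lit 63)⟩,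
  ⟨(nat_lit 3), (nat_lit 2), (nat_lit 69), (nat_lit 15), (nat_lit 1), (nat_lit 15), (nat_lit 75), (nat_lit 16), (nat_lit 240), (nat_lit 61)⟩,
  ⟨(nat_lit 0), (nat_lit 2), (nat_lit 84), (nat_lit 9), (nat_lit 1), (nat_lit 9), (nat_lit 78), (nat_lit 18), (nat_lit 162), (nat_lit 70)⟩,
  ⟨(nat_lit 0), (nat_lit 2), (nat_lit 93), (nat_lit 9), (nat_lit 1), (nat_lit 9), (nat_lit 80), (nat_lit 18), (nat_lit 162), (nat_lit 72)⟩,
  ⟨(nat_lit 2), (nat_lit 1), (nat_lit 84), (nat_lit 18), (nat_lit 1), (nat_lit 13), (nat_lit 80), (nat_lit 17), (nat_lit 306), (nat_lit 68)⟩,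
  ⟨(nat_lit 3), (nat_lit 2), (nat_lit 84), (nat_lit 18), (nat_lit 1), (nat_lit 15), (nat_lit 80), (nat_lit 17), (nat_lit 306), (nat_lit 66)⟩,
  ⟨(nat_lit 5), (nat_lit 3), (nat_lit 69), (nat_lit 15), (nat_lit 1), (nat_lit 19), (nat_lit 75), (nat_lit 15), (nat_lit 225), (nat_lit 57)⟩,
  ⟨(nat_lit 8), (nat_lit 2), (nat_lit 69), (nat_lit 15), (nat_lit 1), (nat_lit 25), (nat_lit 75), (nat_lit 13), (nat_lit 195), (nat_lit 51)⟩,
  ⟨(nat_lit 5), (nat_lit 2), (nat_lit 84), (nat_lit 18), (nat_lit 1), (nat_lit 19), (nat_lit 80), (nat_lit 16), (nat_lit 288), (nat_lit 62)⟩,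
  ⟨(nat_lit 7), (nat_lit 1), (nat_lit 84), (nat_lit 18), (nat_lit 1), (nat_lit 23), (nat_lit 80), (nat_lit 15), (nat_lit 270), (nat_lit 58)⟩,
  ⟨(nat_lit 8), (nat_lit 2), (nat_lit 84), (nat_lit 18), (nat_lit 1), (nat_lit 25), (nat_lit 80), (nat_lit 14), (nat_lit 252), (nat_lit 56)⟩,
  ⟨(nat_lit 0), (nat_lit 2), (nat_lit 102), (nat_lit 7), (nat_lit 1), (nat_lit 9), (nat_lit 83), (nat_lit 19), (nat_lit 133), (nat_lit 75)⟩,
  ⟨(nat_lit 0), (nat_lit 2), (nat_lit 109), (nat_lit 5), (nat_lit 1), (nat_lit 9), (nat_lit 85), (nat_lit 20), (nat_lit 100), (nat_lit 77)⟩,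
  ⟨(nat_lit 2), (nat_lit 1), (nat_lit 102), (nat_lit 12), (nat_lit 1), (nat_lit 13), (nat_lit 85), (nat_lit 19), (nat_lit 228), (nat_lit 73)⟩,
  ⟨(nat_lit 3), (nat_lit 2), (nat_lit 102), (nat_lit 12), (nat_lit 1), (nat_lit 15), (nat_lit 85), (nat_lit 18), (nat_lit 216), (nat_lit 71)⟩,
  ⟨(nat_lit 0), (nat_lit 2), (nat_lit 114), (nat_lit 7), (nat_lit 1), (nat_lit 9), (nat_lit 88), (nat_lit 20), (nat_lit 140), (nat_lit 80)⟩]

theorem g6_0 : AllB (okG ⟨cf3, d6, e6, m6, g6, h6, (nat_lit 23), (nat_lit 161), (nat_lit 90)⟩ z6) g6_0_l :=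
  ⟨by decide +kernel,
  by decide +kernel,
  by decide +kernel,
  by decide +kernel,
  by decide +kernel,
  by decide +kernel,
  by decide +kernel,
  by decide +kernel,
  by decide +kernel,
  by decide +kernel,
  by decide +kernel,
  by decide +kernel,
  by decide +kernel,
  by decide +kernel,
  by decide +kernel,
  by decide +kernel,
  by decide +kernel,
  by decide +kernel,
  by decide +kernel,
  by decide +kernel,
  by decide +kernel,
  by decide +kernel,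
  by decide +kernel,
  by decide +kernel,
  by decide +kernel,
  by decide +kernel,
  by decide +kernel,
  by decide +kernel,
  by decide +kernel,
  trivial⟩

end Vale.Agent.P236KE.S90
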