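import Vale.Agent.P236KE.Cfg
import Vale.Agent.P236KE.S90.Deg
import Vale.Agent.P236KE.S90.D4
import Vale.Agent.P236KE.S90.D5

/-!
# P236KE / checks (generated)
-/

set_option maxRecDepth 100000

namespace Vale.Agent.P236KE.S90

noncomputable def k4_2_l : List Gp := [⟨(nat_lit 7), (nat_lit 3), (nat_lit 15), (nat_lit 5), (nat_lit 1800), (nat_lit 22), (nat_lit 55), (nat_lit 15), (nat_lit 75), (nat_lit 60)⟩,
  ⟨(nat_lit 0), (nat_lit 1), (nat_lit 20), (nat_lit 2), (nat_lit 1800), (nat_lit 6), (nat_lit 63), (nat_lit 21), (nat_lit 42), (nat_lit 84)⟩,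
  ⟨(nat_lit 1), (nat_lit 1), (nat_lit 20), (nat_lit 2), (nat_lit 1800), (nat_lit 8), (nat_lit 63), (nat_lit 21), (nat_lit 42), (nat_lit 82)⟩,
  ⟨(nat_lit 2), (nat_lit 1), (nat_lit 20), (nat_lit 2), (nat_lit 1800), (nat_lit 10), (nat_lit 63), (nat_lit 20), (nat_lit 40), (nat_lit 80)⟩,
  ⟨(nat_lit 0), (nat_lit 2), (nat_lit 22), (nat_lit 2), (nat_lit 776), (nat_lit 6), (nat_lit 66), (nat_lit 20), (nat_lit 41), (nat_lit 78)⟩,
  ⟨(nat_lit 0), (nat_lit 2), (nat_lit 24), (nat_lit 2), (nat_lit 776), (nat_lit 6), (nat_lit 68), (nat_lit 20), (nat_lit 41), (nat_lit 80)⟩,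
  ⟨(nat_lit 2), (nat_lit 1), (nat_lit 22), (nat_lit 4), (nat_lit 776), (nat_lit 10), (nat_lit 68), (nat_lit 19), (nat_lit 76), (nat_lit 76)⟩,
  ⟨(nat_lit 3), (nat_lit 2), (nat_lit 20), (nat_lit 2), (nat_lit 1800), (nat_lit 12), (nat_lit 63), (nat_lit 20), (nat_lit 41), (nat_lit 78)⟩,
  ⟨(nat_lit 3), (nat_lit 2), (nat_lit 22), (nat_lit 2), (nat_lit 776), (nat_lit 12), (nat_lit 66), (nat_lit 18), (nat_lit 37), (nat_lit 72)⟩,
  ⟨(nat_lit 3), (nat_lit 2), (nat_lit 24), (nat_lit 2), (nat_lit 776), (nat_lit 12), (nat_lit 68), (nat_lit 19), (nat_lit 39), (nat_lit 74)⟩,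
  ⟨(nat_lit 0), (nat_lit 1), (nat_lit 26), (nat_lit 2), (nat_lit 776), (nat_lit 6), (nat_lit 70), (nat_lit 21), (nat_lit 42), (nat_lit 82)⟩,
  ⟨(nat_lit 1), (nat_lit 1), (nat_lit 26), (nat_lit 2), (nat_lit 776), (nat_lit 8), (nat_lit 70), (nat_lit 20), (nat_lit 40), (nat_lit 80)⟩,
  ⟨(nat_lit 0), (nat_lit 1), (nat_lit 28), (nat_lit 2), (nat_lit 776), (nat_lit 6), (nat_lit 72), (nat_lit 21), (nat_lit 42), (nat_lit 84)⟩,
  ⟨(nat_lit 1), (nat_lit 1), (nat_lit 28), (nat_lit 2), (nat_lit 776), (nat_lit 8), (nat_lit 72), (nat_lit 21), (nat_lit 42), (nat_lit 82)⟩,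
  ⟨(nat_lit 2), (nat_lit 1), (nat_lit 26), (nat_lit 4), (nat_lit 776), (nat_lit 10), (nat_lit 72), (nat_lit 20), (nat_lit 80), (nat_lit 80)⟩,
  ⟨(nat_lit 0), (nat_lit 1), (nat_lit 30), (nat_lit 2), (nat_lit 776), (nat_lit 6), (nat_lit 74), (nat_lit 22), (nat_lit 44), (nat_lit 86)⟩,
  ⟨(nat_lit 1), (nat_lit 1), (nat_lit 30), (nat_lit 2), (nat_lit 776), (nat_lit 8), (nat_lit 74), (nat_lit 21), (nat_lit 42), (nat_lit 84)⟩,
  ⟨(nat_lit 0), (nat_lit 1), (nat_lit 32), (nat_lit 2), (nat_lit 264), (nat_lit 6), (nat_lit 76), (nat_lit 22), (nat_lit 44), (nat_lit 85)⟩,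
  ⟨(nat_lit 1), (nat_lit 1), (nat_lit 32), (nat_lit 2), (nat_lit 264), (nat_lit 8), (nat_lit 76), (nat_lit 21), (nat_lit 42), (nat_lit 83)⟩,
  ⟨(nat_lit 2), (nat_lit 1), (nat_lit 30), (nat_lit 2), (nat_lit 776), (nat_lit 10), (nat_lit 74), (nat_lit 21), (nat_lit 42), (nat_lit 82)⟩,
  ⟨(nat_lit 2), (nat_lit 1), (nat_lit 32), (nat_lit 2), (nat_lit 264), (nat_lit 10), (nat_lit 76), (nat_lit 21), (nat_lit 42), (nat_lit 81)⟩,
  ⟨(nat_lit 3), (nat_lit 2), (nat_lit 26), (nat_lit 2), (nat_lit 776), (nat_lit 12), (nat_lit 70), (nat_lit 19), (nat_lit 39), (nat_lit 76)⟩,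
  ⟨(nat_lit 3), (nat_lit 2), (nat_lit 28), (nat_lit 2), (nat_lit 776), (nat_lit 12), (nat_lit 72), (nat_lit 20), (nat_lit 41), (nat_lit 78)⟩,
  ⟨(nat_lit 3), (nat_lit 2), (nat_lit 30), (nat_lit 2), (nat_lit 776), (nat_lit 12), (nat_lit 74), (nat_lit 20), (nat_lit 41), (nat_lit 80)⟩,
  ⟨(nat_lit 3), (nat_lit 2), (nat_lit 32), (nat_lit 2), (nat_lit 264), (nat_lit 12), (nat_lit 76), (nat_lit 20), (nat_lit 41), (nat_lit 79)⟩,
  ⟨(nat_lit 5), (nat_lit 2), (nat_lit 20), (nat_lit 2), (nat_lit 1800), (nat_lit 16), (nat_lit 63), (nat_lit 19), (nat_lit 39), (nat_lit 74)⟩,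
  ⟨(nat_lit 5), (nat_lit 2), (nat_lit 22), (nat_lit 4), (nat_lit 776), (nat_lit 16), (nat_lit 68), (nat_lit 18), (nat_lit 72), (nat_lit 70)⟩,
  ⟨(nat_lit 7), (nat_lit 3), (nat_lit 20), (nat_lit 2), (nat_lit 1800), (nat_lit 22), (nat_lit 63), (nat_lit 17), (nat_lit 52), (nat_lit 68)⟩,
  ⟨(nat_lit 7), (nat_lit 3), (nat_lit 22), (nat_lit 4), (nat_lit 776), (nat_lit 22), (nat_lit 68), (nat_lit 16), (nat_lit 64), (nat_lit 64)⟩,
  ⟨(nat_lit 5), (nat_lit 2), (nat_lit 26), (nat_lit 2), (nat_lit 776), (nat_lit 16), (nat_lit 70), (nat_lit 18), (nat_lit 37), (nat_lit 72)⟩,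
  ⟨(nat_lit 5), (nat_lit 2), (nat_lit 28), (nat_lit 2), (nat_lit 776), (nat_lit 16), (nat_lit 72), (nat_lit 19), (nat_lit 39), (nat_lit 74)⟩,
  ⟨(nat_lit 5), (nat_lit 2), (nat_lit 30), (nat_lit 2), (nat_lit 776), (nat_lit 16), (nat_lit 74), (nat_lit 19), (nat_lit 39), (nat_lit 76)⟩,
  ⟨(nat_lit 5), (nat_lit 2), (nat_lit 32), (nat_lit 2), (nat_lit 264), (nat_lit 16), (nat_lit 76), (nat_lit 19), (nat_lit 39), (nat_lit 75)⟩,
  ⟨(nat_lit 7), (nat_lit 3), (nat_lit 26), (nat_lit 2), (nat_lit 776), (nat_lit 22), (nat_lit 70), (nat_lit 17), (nat_lit 52), (nat_lit 66)⟩,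
  ⟨(nat_lit 7), (nat_lit 3), (nat_lit 28), (nat_lit 2), (nat_lit 776), (nat_lit 22), (nat_lit 72), (nat_lit 17), (nat_lit 52), (nat_lit 68)⟩,
  ⟨(nat_lit 7), (nat_lit 1), (nat_lit 30), (nat_lit 2), (nat_lit 776), (nat_lit 22), (nat_lit 74), (nat_lit 18), (nat_lit 36), (nat_lit 70)⟩,
  ⟨(nat_lit 8), (nat_lit 2), (nat_lit 30), (nat_lit 2), (nat_lit 776), (nat_lit 24), (nat_lit 74), (nat_lit 17), (nat_lit 35), (nat_lit 68)⟩,
  ⟨(nat_lit 7), (nat_lit 3), (nat_lit 32), (nat_lit 2), (nat_lit 264), (nat_lit 22), (nat_lit 76), (nat_lit 18), (nat_lit 55), (nat_lit 69)⟩,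
  ⟨(nat_lit 10), (nat_lit 5), (nat_lit 15), (nat_lit 5), (nat_lit 1800), (nat_lit 30), (nat_lit 55), (nat_lit 13), (nat_lit 66), (nat_lit 52)⟩,
  ⟨(nat_lit 15), (nat_lit 3), (nat_lit 15), (nat_lit 5), (nat_lit 1800), (nat_lit 35), (nat_lit 55), (nat_lit 12), (nat_lit 60), (nat_lit 47)⟩,
  ⟨(nat_lit 18), (nat_lit 3), (nat_lit 15), (nat_lit 5), (nat_lit 1800), (nat_lit 42), (nat_lit 55), (nat_lit 10), (nat_lit 50), (nat_lit 40)⟩,
  ⟨(nat_lit 10), (nat_lit 3), (nat_lit 20), (nat_lit 2), (nat_lit 1800), (nat_lit 30), (nat_lit 63), (nat_lit 15), (nat_lit 46), (nat_lit 60)⟩,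
  ⟨(nat_lit 13), (nat_lit 2), (nat_lit 20), (nat_lit 2), (nat_lit 1800), (nat_lit 32), (nat_lit 63), (nat_lit 15), (nat_lit 31), (nat_lit 58)⟩,
  ⟨(nat_lit 10), (nat_lit 5), (nat_lit 22), (nat_lit 4), (nat_lit 776), (nat_lit 30), (nat_lit 68), (nat_lit 14), (nat_lit 71), (nat_lit 56)⟩,
  ⟨(nat_lit 15), (nat_lit 3), (nat_lit 20), (nat_lit 6), (nat_lit 1800), (nat_lit 35), (nat_lit 68), (nat_lit 14), (nat_lit 84), (nat_lit 60)⟩,
  ⟨(nat_lit 10), (nat_lit 3), (nat_lit 26), (nat_lit 4), (nat_lit 776), (nat_lit 30), (nat_lit 72), (nat_lit 15), (nat_lit 60), (nat_lit 60)⟩,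
  ⟨(nat_lit 13), (nat_lit 2), (nat_lit 26), (nat_lit 4), (nat_lit 776), (nat_lit 32), (nat_lit 72), (nat_lit 15), (nat_lit 60), (nat_lit 58)⟩,
  ⟨(nat_lit 10), (nat_lit 3), (nat_lit 30), (nat_lit 4), (nat_lit 776), (nat_lit 30), (nat_lit 76), (nat_lit 16), (nat_lit 64), (nat_lit 64)⟩,
  ⟨(nat_lit 13), (nat_lit 2), (nat_lit 30), (nat_lit 4), (nat_lit 776), (nat_lit 32), (nat_lit 76), (nat_lit 15), (nat_lit 60), (nat_lit 62)⟩,
  ⟨(nat_lit 15), (nat_lit 3), (nat_lit 26), (nat_lit 4), (nat_lit 776), (nat_lit 35), (nat_lit 72), (nat_lit 14), (nat_lit 56), (nat_lit 55)⟩,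
  ⟨(nat_lit 15), (nat_lit 3), (nat_lit 30), (nat_lit 4), (nat_lit 776), (nat_lit 35), (nat_lit 76), (nat_lit 14), (nat_lit 56), (nat_lit 59)⟩,
  ⟨(nat_lit 18), (nat_lit 3), (nat_lit 20), (nat_lit 6), (nat_lit 1800), (nat_lit 42), (nat_lit 68), (nat_lit 12), (nat_lit 72), (nat_lit 53)⟩,
  ⟨(nat_lit 18), (nat_lit 3), (nat_lit 26), (nat_lit 8), (nat_lit 776), (nat_lit 42), (nat_lit 76), (nat_lit 13), (nat_lit 104), (nat_lit 52)⟩,
  ⟨(nat_lit 21), (nat_lit 11), (nat_lit 10), (nat_lit 9), (nat_lit 1800), (nat_lit 54), (nat_lit 51), (nat_lit 6), (nat_lit 67), (nat_lit 24)⟩,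
  ⟨(nat_lit 21), (nat_lit 3), (nat_lit 19), (nat_lit 4), (nat_lit 1800), (nat_lit 54), (nat_lit 65), (nat_lit 9), (nat_lit 36), (nat_lit 38)⟩,
  ⟨(nat_lit 24), (nat_lit 7), (nat_lit 19), (nat_lit 4), (nat_lit 1800), (nat_lit 64), (nat_lit 65), (nat_lit 7), (nat_lit 50), (nat_lit 28)⟩,
  ⟨(nat_lit 21), (nat_lit 3), (nat_lit 23), (nat_lit 11), (nat_lit 776), (nat_lit 54), (nat_lit 76), (nat_lit 10), (nat_lit 110), (nat_lit 40)⟩,
  ⟨(nat_lit 24), (nat_lit 7), (nat_lit 23), (nat_lit 11), (nat_lit 776), (nat_lit 64), (nat_lit 76), (nat_lit 7), (nat_lit 77), (nat_lit 30)⟩,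
  ⟨(nat_lit 31), (nat_lit 8), (nat_lit 19), (nat_lit 4), (nat_lit 1800), (nat_lit 73), (nat_lit 65), (nat_lit 5), (nat_lit 41), (nat_lit 19)⟩,
  ⟨(nat_lit 31), (nat_lit 10), (nat_lit 23), (nat_lit 11), (nat_lit 776), (nat_lit 73), (nat_lit 76), (nat_lit 5), (nat_lit 55), (nat_lit 21)⟩,
  ⟨(nat_lit 0), (nat_lit 2), (nat_lit 0), (nat_lit 2), (nat_lit 30736), (nat_lit 6), (nat_lit 11), (nat_lit 21), (nat_lit 43), (nat_lit 86)⟩,
  ⟨(nat_lit 0), (nat_lit 2), (nat_lit 2), (nat_lit 1), (nat_lit 14352), (nat_lit 6), (nat_lit 13), (nat_lit 16), (nat_lit 33), (nat_lit 61)⟩,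
  ⟨(nat_lit 2), (nat_lit 1), (nat_lit 0), (nat_lit 3), (nat_lit 30736), (nat_lit 10), (nat_lit 13), (nat_lit 20), (nat_lit 60), (nat_lit 84)⟩,
  ⟨(nat_lit 0), (nat_lit 3), (nat_lit 3), (nat_lit 2), (nat_lit 14352), (nat_lit 6), (nat_lit 17), (nat_lit 17), (nat_lit 52), (nat_lit 65)⟩,
  ⟨(nat_lit 3), (nat_lit 2), (nat_lit 0), (nat_lit 3), (nat_lit 30736), (nat_lit 12), (nat_lit 13), (nat_lit 20), (nat_lit 60), (nat_lit 82)⟩,
  ⟨(nat_lit 3), (nat_lit 2), (nat_lit 3), (nat_lit 2), (nat_lit 14352), (nat_lit 12), (nat_lit 17), (nat_lit 15), (nat_lit 31), (nat_lit 59)⟩,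
  ⟨(nat_lit 0), (nat_lit 3), (nat_lit 5), (nat_lit 3), (nat_lit 14352), (nat_lit 6), (nat_lit 23), (nat_lit 18), (nat_lit 55), (nat_lit 71)⟩,
  ⟨(nat_lit 0), (nat_lit 2), (nat_lit 8), (nat_lit 2), (nat_lit 14352), (nat_lit 6), (nat_lit 27), (nat_lit 19), (nat_lit 39), (nat_lit 75)⟩,
  ⟨(nat_lit 2), (nat_lit 1), (nat_lit 8), (nat_lit 2), (nat_lit 14352), (nat_lit 10), (nat_lit 27), (nat_lit 18), (nat_lit 36), (nat_lit 71)⟩,
  ⟨(nat_lit 3), (nat_lit 2), (nat_lit 5), (nat_lit 5), (nat_lit 14352), (nat_lit 12), (nat_lit 27), (nat_lit 18), (nat_lit 90), (nat_lit 69)⟩,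
  ⟨(nat_lit 5), (nat_lit 2), (nat_lit 0), (nat_lit 3), (nat_lit 30736), (nat_lit 16), (nat_lit 13), (nat_lit 19), (nat_lit 57), (nat_lit 78)⟩,
  ⟨(nat_lit 5), (nat_lit 2), (nat_lit 3), (nat_lit 2), (nat_lit 14352), (nat_lit 16), (nat_lit 17), (nat_lit 14), (nat_lit 29), (nat_lit 55)⟩,
  ⟨(nat_lit 7), (nat_lit 3), (nat_lit 0), (nat_lit 3), (nat_lit 30736), (nat_lit 22), (nat_lit 13), (nat_lit 17), (nat_lit 52), (nat_lit 72)⟩,
  ⟨(nat_lit 7), (nat_lit 3), (nat_lit 3), (nat_lit 2), (nat_lit 14352), (nat_lit 22), (nat_lit 17), (nat_lit 13), (nat_lit 40), (nat_lit 49)⟩,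
  ⟨(nat_lit 5), (nat_lit 2), (nat_lit 5), (nat_lit 5), (nat_lit 14352), (nat_lit 16), (nat_lit 27), (nat_lit 17), (nat_lit 85), (nat_lit 65)⟩,
  ⟨(nat_lit 7), (nat_lit 3), (nat_lit 5), (nat_lit 5), (nat_lit 14352), (nat_lit 22), (nat_lit 27), (nat_lit 15), (nat_lit 75), (nat_lit 59)⟩,
  ⟨(nat_lit 0), (nat_lit 2), (nat_lit 10), (nat_lit 2), (nat_lit 14352), (nat_lit 6), (nat_lit 34), (nat_lit 21), (nat_lit 43), (nat_lit 82)⟩,
  ⟨(nat_lit 0), (nat_lit 1), (nat_lit 12), (nat_lit 1), (nat_lit 14352), (nat_lit 6), (nat_lit 36), (nat_lit 21), (nat_lit 22), (nat_lit 84)⟩,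
  ⟨(nat_lit 1), (nat_lit 1), (nat_lit 12), (nat_lit 1), (nat_lit 14352), (nat_lit 8), (nat_lit 36), (nat_lit 21), (nat_lit 22), (nat_lit 82)⟩,
  ⟨(nat_lit 2), (nat_lit 1), (nat_lit 10), (nat_lit 3), (nat_lit 14352), (nat_lit 10), (nat_lit 36), (nat_lit 20), (nat_lit 60), (nat_lit 80)⟩,
  ⟨(nat_lit 0), (nat_lit 2), (nat_lit 13), (nat_lit 2), (nat_lit 6160), (nat_lit 6), (nat_lit 39), (nat_lit 20), (nat_lit 41), (nat_lit 78)⟩,
  ⟨(nat_lit 2), (nat_lit 1), (nat_lit 13), (nat_lit 2), (nat_lit 6160), (nat_lit 10), (nat_lit 39), (nat_lit 19), (nat_lit 38), (nat_lit 74)⟩,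
  ⟨(nat_lit 3), (nat_lit 2), (nat_lit 10), (nat_lit 2), (nat_lit 14352), (nat_lit 12), (nat_lit 34), (nat_lit 19), (nat_lit 39), (nat_lit 76)⟩,
  ⟨(nat_lit 3), (nat_lit 2), (nat_lit 12), (nat_lit 1), (nat_lit 14352), (nat_lit 12), (nat_lit 36), (nat_lit 20), (nat_lit 41), (nat_lit 78)⟩,
  ⟨(nat_lit 3), (nat_lit 2), (nat_lit 13), (nat_lit 2), (nat_lit 6160), (nat_lit 12), (nat_lit 39), (nat_lit 18), (nat_lit 37), (nat_lit 72)⟩,
  ⟨(nat_lit 0), (nat_lit 1), (nat_lit 15), (nat_lit 2), (nat_lit 6160), (nat_lit 6), (nat_lit 45), (nat_lit 21), (nat_lit 42), (nat_lit 84)⟩,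
  ⟨(nat_lit 1), (nat_lit 1), (nat_lit 15), (nat_lit 2), (nat_lit 6160), (nat_lit 8), (nat_lit 45), (nat_lit 21), (nat_lit 42), (nat_lit 82)⟩,
  ⟨(nat_lit 0), (nat_lit 2), (nat_lit 17), (nat_lit 1), (nat_lit 2064), (nat_lit 6), (nat_lit 49), (nat_lit 22), (nat_lit 45), (nat_lit 85)⟩,
  ⟨(nat_lit 2), (nat_lit 1), (nat_lit 15), (nat_lit 3), (nat_lit 6160), (nat_lit 10), (nat_lit 49), (nat_lit 21), (nat_lit 63), (nat_lit 84)⟩,
  ⟨(nat_lit 3), (nat_lit 2), (nat_lit 15), (nat_lit 2), (nat_lit 6160), (nat_lit 12), (nat_lit 45), (nat_lit 20), (nat_lit 41), (nat_lit 78)⟩,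
  ⟨(nat_lit 3), (nat_lit 2), (nat_lit 17), (nat_lit 1), (nat_lit 2064), (nat_lit 12), (nat_lit 49), (nat_lit 20), (nat_lit 41), (nat_lit 79)⟩]

theorem k4_2 : AllB (okK ⟨cf3, d4, d5, m4, g4, g6, (nat_lit 23), (nat_lit 161), (nat_lit 90)⟩) k4_2_l :=
  ⟨by decide +kernel,
  by decide +kernel,
  by decide +kernel,
  by decide +kernel,
  by decide +kernel,
  by decide +kernel,
  by decide +kernel,
  by decide +kernel,
  by decide +kernel,
  by decide +kernel,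
  by decide +kernel,
  by decide +kernel,
  by decide +kernel,
  by decide +kernel,
  by decide +kernel,
  by decide +kernel,
  by decide +kernel,
  by decide +kernel,
  by decide +kernel,
  by decide +kernel,
  by decide +kernel,
  by decide +kernel,
  by decide +kernel,
  by decide +kernel,
  by decide +kernel,
  by decide +kernel,
  by decide +kernel,
  by decide +kernel,
  by decide +kernel,
  by decide +kernel,
  by decide +kernel,
  by decide +kernel,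
  by decide +kernel,
  by decide +kernel,
  by decide +kernel,
  by decide +kernel,
  by decide +kernel,
  by decide +kernel,
  by decide +kernel,
  by decide +kernel,
  by decide +kernel,
  by decide +kernel,
  by decide +kernel,
  by decide +kernel,
  by decide +kernel,
  by decide +kernel,
  by decide +kernel,
  by decide +kernel,
  by decide +kernel,
  by decide +kernel,
  by decide +kernel,
  by decide +kernel,
  by decide +kernel,
  by decide +kernel,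
  by decide +kernel,
  by decide +kernel,
  by decide +kernel,
  by decide +kernel,
  by decide +kernel,
  by decide +kernel,
  by decide +kernel,
  by decide +kernel,
  by decide +kernel,
  by decide +kernel,
  by decide +kernel,
  by decide +kernel,
  by decide +kernel,
  by decide +kernel,
  by decide +kernel,
  by decide +kernel,
  by decide +kernel,
  by decide +kernel,
  by decide +kernel,
  by decide +kernel,
  by decide +kernel,
  by decide +kernel,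
  by decide +kernel,
  by decide +kernel,
  by decide +kernel,
  by decide +kernel,
  by decide +kernel,
  by decide +kernel,
  by decide +kernel,
  by decide +kernel,
  by decide +kernel,
  by decide +kernel,
  by decide +kernel,
  by decide +kernel,
  by decide +kernel,
  by decide +kernel,
  by decide +kernel,
  trivial⟩

end Vale.Agent.P236KE.S90
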