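import Vale.Agent.P236KE.Cfg
import Vale.Agent.P236KE.S90.Deg
import Vale.Agent.P236KE.S90.D24
import Vale.Agent.P236KE.S90.D37

/-!
# P236KE / checks (generated)
-/

set_option maxRecDepth 100000

namespace Vale.Agent.P236KE.S90

noncomputable def k32_1_l : List Gp := [⟨(nat_lit 3), (nat_lit 2), (nat_lit 10), (nat_lit 4), (nat_lit 103), (nat_lit 54), (nat_lit 90), (nat_lit 10), (nat_lit 40), (nat_lit 42)⟩,
  ⟨(nat_lit 5), (nat_lit 5), (nat_lit 10), (nat_lit 4), (nat_lit 103), (nat_lit 58), (nat_lit 90), (nat_lit 9), (nat_lit 46), (nat_lit 38)⟩,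
  ⟨(nat_lit 10), (nat_lit 5), (nat_lit 10), (nat_lit 4), (nat_lit 103), (nat_lit 81), (nat_lit 90), (nat_lit 3), (nat_lit 16), (nat_lit 15)⟩,
  ⟨(nat_lit 0), (nat_lit 5), (nat_lit 0), (nat_lit 5), (nat_lit 1800), (nat_lit 48), (nat_lit 59), (nat_lit 10), (nat_lit 51), (nat_lit 38)⟩,
  ⟨(nat_lit 0), (nat_lit 5), (nat_lit 5), (nat_lit 5), (nat_lit 1800), (nat_lit 48), (nat_lit 69), (nat_lit 11), (nat_lit 56), (nat_lit 48)⟩,
  ⟨(nat_lit 5), (nat_lit 5), (nat_lit 0), (nat_lit 10), (nat_lit 1800), (nat_lit 58), (nat_lit 69), (nat_lit 8), (nat_lit 80), (nat_lit 38)⟩,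
  ⟨(nat_lit 10), (nat_lit 5), (nat_lit 2), (nat_lit 8), (nat_lit 1800), (nat_lit 81), (nat_lit 69), (nat_lit 3), (nat_lit 24), (nat_lit 15)⟩]

theorem k32_1 : AllB (okK ⟨cf3, d32, d33, m32, g32, g34, (nat_lit 23), (nat_lit 161), (nat_lit 90)⟩) k32_1_l :=
  ⟨by decide +kernel,
  by decide +kernel,
  by decide +kernel,
  by decide +kernel,
  by decide +kernel,
  by decide +kernel,
  by decide +kernel,
  trivial⟩

noncomputable def k33_0_l : List Gp := [⟨(nat_lit 0), (nat_lit 5), (nat_lit 0), (nat_lit 10), (nat_lit 231), (nat_lit 49), (nat_lit 71), (nat_lit 8), (nat_lit 80), (nat_lit 31)⟩,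
  ⟨(nat_lit 5), (nat_lit 5), (nat_lit 0), (nat_lit 10), (nat_lit 231), (nat_lit 60), (nat_lit 71), (nat_lit 5), (nat_lit 50), (nat_lit 20)⟩,
  ⟨(nat_lit 0), (nat_lit 3), (nat_lit 10), (nat_lit 3), (nat_lit 103), (nat_lit 49), (nat_lit 90), (nat_lit 11), (nat_lit 34), (nat_lit 47)⟩,
  ⟨(nat_lit 3), (nat_lit 2), (nat_lit 10), (nat_lit 3), (nat_lit 103), (nat_lit 55), (nat_lit 90), (nat_lit 9), (nat_lit 27), (nat_lit 41)⟩,
  ⟨(nat_lit 5), (nat_lit 5), (nat_lit 10), (nat_lit 3), (nat_lit 103), (nat_lit 60), (nat_lit 90), (nat_lit 8), (nat_lit 41), (nat_lit 36)⟩,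
  ⟨(nat_lit 10), (nat_lit 4), (nat_lit 10), (nat_lit 3), (nat_lit 103), (nat_lit 82), (nat_lit 90), (nat_lit 3), (nat_lit 13), (nat_lit 14)⟩,
  ⟨(nat_lit 0), (nat_lit 5), (nat_lit 0), (nat_lit 5), (nat_lit 1800), (nat_lit 49), (nat_lit 60), (nat_lit 10), (nat_lit 51), (nat_lit 38)⟩,
  ⟨(nat_lit 0), (nat_lit 5), (nat_lit 5), (nat_lit 5), (nat_lit 1800), (nat_lit 49), (nat_lit 71), (nat_lit 11), (nat_lit 56), (nat_lit 49)⟩,
  ⟨(nat_lit 5), (nat_lit 5), (nat_lit 0), (nat_lit 10), (nat_lit 1800), (nat_lit 60), (nat_lit 71), (nat_lit 8), (nat_lit 80), (nat_lit 38)⟩,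
  ⟨(nat_lit 10), (nat_lit 4), (nat_lit 2), (nat_lit 8), (nat_lit 1800), (nat_lit 82), (nat_lit 71), (nat_lit 2), (nat_lit 16), (nat_lit 16)⟩]

theorem k33_0 : AllB (okK ⟨cf3, d33, d34, m33, g33, g35, (nat_lit 23), (nat_lit 161), (nat_lit 90)⟩) k33_0_l :=
  ⟨by decide +kernel,
  by decide +kernel,
  by decide +kernel,
  by decide +kernel,
  by decide +kernel,
  by decide +kernel,
  by decide +kernel,
  by decide +kernel,
  by decide +kernel,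
  by decide +kernel,
  trivial⟩

noncomputable def k34_0_l : List Gp := [⟨(nat_lit 0), (nat_lit 5), (nat_lit 0), (nat_lit 9), (nat_lit 231), (nat_lit 51), (nat_lit 70), (nat_lit 7), (nat_lit 63), (nat_lit 28)⟩,
  ⟨(nat_lit 5), (nat_lit 5), (nat_lit 0), (nat_lit 9), (nat_lit 231), (nat_lit 61), (nat_lit 70), (nat_lit 5), (nat_lit 45), (nat_lit 18)⟩,
  ⟨(nat_lit 0), (nat_lit 3), (nat_lit 9), (nat_lit 3), (nat_lit 231), (nat_lit 51), (nat_lit 89), (nat_lit 10), (nat_lit 31), (nat_lit 47)⟩,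
  ⟨(nat_lit 3), (nat_lit 2), (nat_lit 9), (nat_lit 3), (nat_lit 231), (nat_lit 57), (nat_lit 89), (nat_lit 9), (nat_lit 27), (nat_lit 41)⟩,
  ⟨(nat_lit 5), (nat_lit 5), (nat_lit 9), (nat_lit 3), (nat_lit 231), (nat_lit 61), (nat_lit 89), (nat_lit 8), (nat_lit 41), (nat_lit 37)⟩,
  ⟨(nat_lit 10), (nat_lit 4), (nat_lit 10), (nat_lit 2), (nat_lit 35), (nat_lit 84), (nat_lit 89), (nat_lit 2), (nat_lit 9), (nat_lit 8)⟩,
  ⟨(nat_lit 0), (nat_lit 5), (nat_lit 0), (nat_lit 5), (nat_lit 1800), (nat_lit 51), (nat_lit 62), (nat_lit 10), (nat_lit 51), (nat_lit 38)⟩,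
  ⟨(nat_lit 0), (nat_lit 5), (nat_lit 5), (nat_lit 5), (nat_lit 1800), (nat_lit 51), (nat_lit 72), (nat_lit 10), (nat_lit 51), (nat_lit 48)⟩,
  ⟨(nat_lit 5), (nat_lit 5), (nat_lit 0), (nat_lit 10), (nat_lit 1800), (nat_lit 61), (nat_lit 72), (nat_lit 8), (nat_lit 80), (nat_lit 38)⟩,
  ⟨(nat_lit 10), (nat_lit 4), (nat_lit 2), (nat_lit 8), (nat_lit 1800), (nat_lit 84), (nat_lit 72), (nat_lit 2), (nat_lit 16), (nat_lit 15)⟩]

theorem k34_0 : AllB (okK ⟨cf3, d34, d35, m34, g34, g36, (nat_lit 23), (nat_lit 161), (nat_lit 90)⟩) k34_0_l :=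
  ⟨by decide +kernel,
  by decide +kernel,
  by decide +kernel,
  by decide +kernel,
  by decide +kernel,
  by decide +kernel,
  by decide +kernel,
  by decide +kernel,
  by decide +kernel,
  by decide +kernel,
  trivial⟩

noncomputable def k35_0_l : List Gp := [⟨(nat_lit 0), (nat_lit 5), (nat_lit 0), (nat_lit 9), (nat_lit 231), (nat_lit 52), (nat_lit 72), (nat_lit 8), (nat_lit 72), (nat_lit 29)⟩,
  ⟨(nat_lit 5), (nat_lit 5), (nat_lit 0), (nat_lit 9), (nat_lit 231), (nat_lit 63), (nat_lit 72), (nat_lit 5), (nat_lit 45), (nat_lit 18)⟩,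
  ⟨(nat_lit 0), (nat_lit 3), (nat_lit 9), (nat_lit 3), (nat_lit 231), (nat_lit 52), (nat_lit 90), (nat_lit 10), (nat_lit 31), (nat_lit 47)⟩,
  ⟨(nat_lit 3), (nat_lit 2), (nat_lit 9), (nat_lit 3), (nat_lit 231), (nat_lit 58), (nat_lit 90), (nat_lit 9), (nat_lit 27), (nat_lit 41)⟩,
  ⟨(nat_lit 5), (nat_lit 5), (nat_lit 9), (nat_lit 3), (nat_lit 231), (nat_lit 63), (nat_lit 90), (nat_lit 7), (nat_lit 36), (nat_lit 36)⟩,
  ⟨(nat_lit 10), (nat_lit 3), (nat_lit 10), (nat_lit 2), (nat_lit 35), (nat_lit 85), (nat_lit 90), (nat_lit 2), (nat_lit 7), (nat_lit 8)⟩,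
  ⟨(nat_lit 0), (nat_lit 5), (nat_lit 0), (nat_lit 5), (nat_lit 1800), (nat_lit 52), (nat_lit 63), (nat_lit 10), (nat_lit 51), (nat_lit 38)⟩,
  ⟨(nat_lit 5), (nat_lit 4), (nat_lit 0), (nat_lit 5), (nat_lit 1800), (nat_lit 63), (nat_lit 63), (nat_lit 7), (nat_lit 35), (nat_lit 27)⟩,
  ⟨(nat_lit 0), (nat_lit 5), (nat_lit 5), (nat_lit 5), (nat_lit 776), (nat_lit 52), (nat_lit 74), (nat_lit 10), (nat_lit 51), (nat_lit 40)⟩,
  ⟨(nat_lit 5), (nat_lit 4), (nat_lit 5), (nat_lit 5), (nat_lit 776), (nat_lit 63), (nat_lit 74), (nat_lit 7), (nat_lit 35), (nat_lit 29)⟩,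
  ⟨(nat_lit 9), (nat_lit 3), (nat_lit 0), (nat_lit 10), (nat_lit 1800), (nat_lit 71), (nat_lit 74), (nat_lit 5), (nat_lit 50), (nat_lit 30)⟩]

theorem k35_0 : AllB (okK ⟨cf3, d35, d36, m35, g35, g37, (nat_lit 23), (nat_lit 161), (nat_lit 90)⟩) k35_0_l :=
  ⟨by decide +kernel,
  by decide +kernel,
  by decide +kernel,
  by decide +kernel,
  by decide +kernel,
  by decide +kernel,
  by decide +kernel,
  by decide +kernel,
  by decide +kernel,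
  by decide +kernel,
  by decide +kernel,
  trivial⟩

noncomputable def k36_0_l : List Gp := [⟨(nat_lit 0), (nat_lit 5), (nat_lit 0), (nat_lit 9), (nat_lit 231), (nat_lit 54), (nat_lit 73), (nat_lit 7), (nat_lit 63), (nat_lit 28)⟩,
  ⟨(nat_lit 5), (nat_lit 4), (nat_lit 0), (nat_lit 9), (nat_lit 231), (nat_lit 64), (nat_lit 73), (nat_lit 5), (nat_lit 45), (nat_lit 18)⟩,
  ⟨(nat_lit 0), (nat_lit 3), (nat_lit 9), (nat_lit 2), (nat_lit 231), (nat_lit 54), (nat_lit 90), (nat_lit 10), (nat_lit 31), (nat_lit 45)⟩,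
  ⟨(nat_lit 3), (nat_lit 2), (nat_lit 9), (nat_lit 2), (nat_lit 231), (nat_lit 60), (nat_lit 90), (nat_lit 8), (nat_lit 17), (nat_lit 39)⟩,
  ⟨(nat_lit 5), (nat_lit 4), (nat_lit 9), (nat_lit 2), (nat_lit 231), (nat_lit 64), (nat_lit 90), (nat_lit 7), (nat_lit 29), (nat_lit 35)⟩,
  ⟨(nat_lit 9), (nat_lit 3), (nat_lit 4), (nat_lit 7), (nat_lit 231), (nat_lit 72), (nat_lit 90), (nat_lit 5), (nat_lit 35), (nat_lit 27)⟩,
  ⟨(nat_lit 0), (nat_lit 5), (nat_lit 0), (nat_lit 5), (nat_lit 1800), (nat_lit 54), (nat_lit 65), (nat_lit 9), (nat_lit 46), (nat_lit 38)⟩,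
  ⟨(nat_lit 5), (nat_lit 4), (nat_lit 0), (nat_lit 5), (nat_lit 1800), (nat_lit 64), (nat_lit 65), (nat_lit 7), (nat_lit 35), (nat_lit 28)⟩,
  ⟨(nat_lit 0), (nat_lit 5), (nat_lit 5), (nat_lit 5), (nat_lit 776), (nat_lit 54), (nat_lit 75), (nat_lit 10), (nat_lit 51), (nat_lit 39)⟩,
  ⟨(nat_lit 5), (nat_lit 4), (nat_lit 5), (nat_lit 5), (nat_lit 776), (nat_lit 64), (nat_lit 75), (nat_lit 7), (nat_lit 35), (nat_lit 29)⟩,
  ⟨(nat_lit 9), (nat_lit 3), (nat_lit 0), (nat_lit 10), (nat_lit 1800), (nat_lit 72), (nat_lit 75), (nat_lit 5), (nat_lit 50), (nat_lit 30)⟩]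

theorem k36_0 : AllB (okK ⟨cf3, d36, d37, m36, g36, g38, (nat_lit 23), (nat_lit 161), (nat_lit 90)⟩) k36_0_l :=
  ⟨by decide +kernel,
  by decide +kernel,
  by decide +kernel,
  by decide +kernel,
  by decide +kernel,
  by decide +kernel,
  by decide +kernel,
  by decide +kernel,
  by decide +kernel,
  by decide +kernel,
  by decide +kernel,
  trivial⟩

noncomputable def k37_0_l : List Gp := [⟨(nat_lit 0), (nat_lit 5), (nat_lit 0), (nat_lit 10), (nat_lit 231), (nat_lit 55), (nat_lit 77), (nat_lit 8), (nat_lit 80), (nat_lit 31)⟩,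
  ⟨(nat_lit 5), (nat_lit 5), (nat_lit 0), (nat_lit 10), (nat_lit 231), (nat_lit 66), (nat_lit 77), (nat_lit 5), (nat_lit 50), (nat_lit 20)⟩,
  ⟨(nat_lit 0), (nat_lit 5), (nat_lit 0), (nat_lit 5), (nat_lit 1800), (nat_lit 55), (nat_lit 66), (nat_lit 9), (nat_lit 46), (nat_lit 38)⟩,
  ⟨(nat_lit 5), (nat_lit 4), (nat_lit 0), (nat_lit 5), (nat_lit 1800), (nat_lit 66), (nat_lit 66), (nat_lit 7), (nat_lit 35), (nat_lit 27)⟩,
  ⟨(nat_lit 0), (nat_lit 5), (nat_lit 5), (nat_lit 5), (nat_lit 776), (nat_lit 55), (nat_lit 77), (nat_lit 9), (nat_lit 46), (nat_lit 40)⟩,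
  ⟨(nat_lit 5), (nat_lit 4), (nat_lit 5), (nat_lit 5), (nat_lit 776), (nat_lit 66), (nat_lit 77), (nat_lit 7), (nat_lit 35), (nat_lit 29)⟩,
  ⟨(nat_lit 9), (nat_lit 3), (nat_lit 0), (nat_lit 10), (nat_lit 1800), (nat_lit 74), (nat_lit 77), (nat_lit 5), (nat_lit 50), (nat_lit 30)⟩]

theorem k37_0 : AllB (okK ⟨cf3, d37, d38, m37, g37, g39, (nat_lit 23), (nat_lit 161), (nat_lit 90)⟩) k37_0_l :=
  ⟨by decide +kernel,
  by decide +kernel,
  by decide +kernel,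
  by decide +kernel,
  by decide +kernel,
  by decide +kernel,
  by decide +kernel,
  trivial⟩

noncomputable def k38_0_l : List Gp := [⟨(nat_lit 0), (nat_lit 5), (nat_lit 0), (nat_lit 10), (nat_lit 231), (nat_lit 57), (nat_lit 78), (nat_lit 8), (nat_lit 80), (nat_lit 30)⟩,
  ⟨(nat_lit 5), (nat_lit 5), (nat_lit 0), (nat_lit 10), (nat_lit 231), (nat_lit 67), (nat_lit 78), (nat_lit 5), (nat_lit 50), (nat_lit 20)⟩,
  ⟨(nat_lit 0), (nat_lit 5), (nat_lit 0), (nat_lit 5), (nat_lit 1800), (nat_lit 57), (nat_lit 68), (nat_lit 9), (nat_lit 46), (nat_lit 38)⟩,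
  ⟨(nat_lit 0), (nat_lit 5), (nat_lit 5), (nat_lit 4), (nat_lit 776), (nat_lit 57), (nat_lit 76), (nat_lit 9), (nat_lit 46), (nat_lit 37)⟩,
  ⟨(nat_lit 5), (nat_lit 4), (nat_lit 0), (nat_lit 9), (nat_lit 1800), (nat_lit 67), (nat_lit 76), (nat_lit 6), (nat_lit 54), (nat_lit 36)⟩,
  ⟨(nat_lit 9), (nat_lit 2), (nat_lit 0), (nat_lit 9), (nat_lit 1800), (nat_lit 75), (nat_lit 76), (nat_lit 4), (nat_lit 36), (nat_lit 28)⟩]

theorem k38_0 : AllB (okK ⟨cf3, d38, d39, m38, g38, g40, (nat_lit 23), (nat_lit 161), (nat_lit 90)⟩) k38_0_l :=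
  ⟨by decide +kernel,
  by decide +kernel,
  by decide +kernel,
  by decide +kernel,
  by decide +kernel,
  by decide +kernel,
  trivial⟩

noncomputable def k39_0_l : List Gp := [⟨(nat_lit 0), (nat_lit 5), (nat_lit 0), (nat_lit 10), (nat_lit 231), (nat_lit 58), (nat_lit 80), (nat_lit 8), (nat_lit 80), (nat_lit 31)⟩,
  ⟨(nat_lit 5), (nat_lit 5), (nat_lit 0), (nat_lit 10), (nat_lit 231), (nat_lit 69), (nat_lit 80), (nat_lit 5), (nat_lit 50), (nat_lit 20)⟩,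
  ⟨(nat_lit 0), (nat_lit 5), (nat_lit 0), (nat_lit 4), (nat_lit 1800), (nat_lit 58), (nat_lit 67), (nat_lit 8), (nat_lit 41), (nat_lit 36)⟩,
  ⟨(nat_lit 0), (nat_lit 5), (nat_lit 4), (nat_lit 4), (nat_lit 776), (nat_lit 58), (nat_lit 76), (nat_lit 9), (nat_lit 46), (nat_lit 36)⟩,
  ⟨(nat_lit 5), (nat_lit 5), (nat_lit 0), (nat_lit 8), (nat_lit 1800), (nat_lit 69), (nat_lit 76), (nat_lit 6), (nat_lit 48), (nat_lit 34)⟩]

theorem k39_0 : AllB (okK ⟨cf3, d39, d40, m39, g39, g41, (nat_lit 23), (nat_lit 161), (nat_lit 90)⟩) k39_0_l :=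
  ⟨by decide +kernel,
  by decide +kernel,
  by decide +kernel,
  by decide +kernel,
  by decide +kernel,
  trivial⟩

noncomputable def k40_0_l : List Gp := [⟨(nat_lit 0), (nat_lit 5), (nat_lit 0), (nat_lit 10), (nat_lit 231), (nat_lit 60), (nat_lit 81), (nat_lit 8), (nat_lit 80), (nat_lit 30)⟩,
  ⟨(nat_lit 5), (nat_lit 5), (nat_lit 0), (nat_lit 10), (nat_lit 231), (nat_lit 70), (nat_lit 81), (nat_lit 5), (nat_lit 50), (nat_lit 20)⟩,
  ⟨(nat_lit 0), (nat_lit 5), (nat_lit 0), (nat_lit 8), (nat_lit 1800), (nat_lit 60), (nat_lit 77), (nat_lit 8), (nat_lit 64), (nat_lit 44)⟩,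
  ⟨(nat_lit 5), (nat_lit 5), (nat_lit 0), (nat_lit 8), (nat_lit 1800), (nat_lit 70), (nat_lit 77), (nat_lit 6), (nat_lit 48), (nat_lit 34)⟩]

theorem k40_0 : AllB (okK ⟨cf3, d40, d41, m40, g40, g42, (nat_lit 23), (nat_lit 161), (nat_lit 90)⟩) k40_0_l :=
  ⟨by decide +kernel,
  by decide +kernel,
  by decide +kernel,
  by decide +kernel,
  trivial⟩

noncomputable def k41_0_l : List Gp := [⟨(nat_lit 0), (nat_lit 5), (nat_lit 0), (nat_lit 10), (nat_lit 231), (nat_lit 61), (nat_lit 83), (nat_lit 8), (nat_lit 80), (nat_lit 31)⟩,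
  ⟨(nat_lit 5), (nat_lit 5), (nat_lit 0), (nat_lit 10), (nat_lit 231), (nat_lit 72), (nat_lit 83), (nat_lit 5), (nat_lit 50), (nat_lit 20)⟩,
  ⟨(nat_lit 0), (nat_lit 5), (nat_lit 0), (nat_lit 7), (nat_lit 1800), (nat_lit 61), (nat_lit 77), (nat_lit 8), (nat_lit 56), (nat_lit 43)⟩,
  ⟨(nat_lit 5), (nat_lit 5), (nat_lit 0), (nat_lit 7), (nat_lit 1800), (nat_lit 72), (nat_lit 77), (nat_lit 5), (nat_lit 35), (nat_lit 32)⟩]

theorem k41_0 : AllB (okK ⟨cf3, d41, d42, m41, g41, g43, (nat_lit 23), (nat_lit 161), (nat_lit 90)⟩) k41_0_l :=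
  ⟨by decide +kernel,
  by decide +kernel,
  by decide +kernel,
  by decide +kernel,
  trivial⟩

noncomputable def k42_0_l : List Gp := [⟨(nat_lit 0), (nat_lit 5), (nat_lit 0), (nat_lit 10), (nat_lit 231), (nat_lit 63), (nat_lit 84), (nat_lit 7), (nat_lit 70), (nat_lit 30)⟩,
  ⟨(nat_lit 5), (nat_lit 5), (nat_lit 0), (nat_lit 10), (nat_lit 231), (nat_lit 73), (nat_lit 84), (nat_lit 5), (nat_lit 50), (nat_lit 20)⟩,
  ⟨(nat_lit 0), (nat_lit 10), (nat_lit 0), (nat_lit 6), (nat_lit 776), (nat_lit 63), (nat_lit 76), (nat_lit 7), (nat_lit 71), (nat_lit 31)⟩]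

theorem k42_0 : AllB (okK ⟨cf3, d42, d43, m42, g42, g44, (nat_lit 23), (nat_lit 161), (nat_lit 90)⟩) k42_0_l :=
  ⟨by decide +kernel,
  by decide +kernel,
  by decide +kernel,
  trivial⟩

noncomputable def k43_0_l : List Gp := [⟨(nat_lit 0), (nat_lit 5), (nat_lit 0), (nat_lit 10), (nat_lit 231), (nat_lit 64), (nat_lit 86), (nat_lit 7), (nat_lit 70), (nat_lit 31)⟩,
  ⟨(nat_lit 5), (nat_lit 5), (nat_lit 0), (nat_lit 10), (nat_lit 231), (nat_lit 75), (nat_lit 86), (nat_lit 4), (nat_lit 40), (nat_lit 20)⟩,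
  ⟨(nat_lit 0), (nat_lit 10), (nat_lit 0), (nat_lit 5), (nat_lit 776), (nat_lit 64), (nat_lit 75), (nat_lit 7), (nat_lit 71), (nat_lit 29)⟩]

theorem k43_0 : AllB (okK ⟨cf3, d43, d44, m43, g43, g45, (nat_lit 23), (nat_lit 161), (nat_lit 90)⟩) k43_0_l :=
  ⟨by decide +kernel,
  by decide +kernel,
  by decide +kernel,
  trivial⟩

noncomputable def k44_0_l : List Gp := [⟨(nat_lit 0), (nat_lit 5), (nat_lit 0), (nat_lit 10), (nat_lit 231), (nat_lit 66), (nat_lit 87), (nat_lit 7), (nat_lit 70), (nat_lit 30)⟩,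
  ⟨(nat_lit 5), (nat_lit 5), (nat_lit 0), (nat_lit 10), (nat_lit 231), (nat_lit 76), (nat_lit 87), (nat_lit 4), (nat_lit 40), (nat_lit 20)⟩,
  ⟨(nat_lit 0), (nat_lit 10), (nat_lit 0), (nat_lit 5), (nat_lit 776), (nat_lit 66), (nat_lit 77), (nat_lit 7), (nat_lit 71), (nat_lit 29)⟩]

theorem k44_0 : AllB (okK ⟨cf3, d44, d45, m44, g44, g46, (nat_lit 23), (nat_lit 161), (nat_lit 90)⟩) k44_0_l :=
  ⟨by decide +kernel,
  by decide +kernel,
  by decide +kernel,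
  trivial⟩

noncomputable def k45_0_l : List Gp := [⟨(nat_lit 0), (nat_lit 5), (nat_lit 0), (nat_lit 10), (nat_lit 231), (nat_lit 67), (nat_lit 89), (nat_lit 6), (nat_lit 60), (nat_lit 31)⟩,
  ⟨(nat_lit 5), (nat_lit 5), (nat_lit 0), (nat_lit 10), (nat_lit 231), (nat_lit 78), (nat_lit 89), (nat_lit 4), (nat_lit 40), (nat_lit 20)⟩,
  ⟨(nat_lit 0), (nat_lit 10), (nat_lit 0), (nat_lit 4), (nat_lit 776), (nat_lit 67), (nat_lit 76), (nat_lit 6), (nat_lit 61), (nat_lit 27)⟩]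

theorem k45_0 : AllB (okK ⟨cf3, d45, d46, m45, g45, g47, (nat_lit 23), (nat_lit 161), (nat_lit 90)⟩) k45_0_l :=
  ⟨by decide +kernel,
  by decide +kernel,
  by decide +kernel,
  trivial⟩

noncomputable def k46_0_l : List Gp := [⟨(nat_lit 0), (nat_lit 5), (nat_lit 0), (nat_lit 10), (nat_lit 231), (nat_lit 69), (nat_lit 90), (nat_lit 6), (nat_lit 60), (nat_lit 30)⟩,
  ⟨(nat_lit 5), (nat_lit 5), (nat_lit 0), (nat_lit 10), (nat_lit 231), (nat_lit 79), (nat_lit 90), (nat_lit 3), (nat_lit 30), (nat_lit 20)⟩,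
  ⟨(nat_lit 0), (nat_lit 10), (nat_lit 0), (nat_lit 3), (nat_lit 776), (nat_lit 69), (nat_lit 76), (nat_lit 6), (nat_lit 61), (nat_lit 25)⟩]

theorem k46_0 : AllB (okK ⟨cf3, d46, d47, m46, g46, g48, (nat_lit 23), (nat_lit 161), (nat_lit 90)⟩) k46_0_l :=
  ⟨by decide +kernel,
  by decide +kernel,
  by decide +kernel,
  trivial⟩

noncomputable def k47_0_l : List Gp := [⟨(nat_lit 0), (nat_lit 5), (nat_lit 0), (nat_lit 9), (nat_lit 231), (nat_lit 70), (nat_lit 90), (nat_lit 6), (nat_lit 54), (nat_lit 29)⟩,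
  ⟨(nat_lit 5), (nat_lit 5), (nat_lit 0), (nat_lit 9), (nat_lit 231), (nat_lit 81), (nat_lit 90), (nat_lit 3), (nat_lit 27), (nat_lit 18)⟩,
  ⟨(nat_lit 0), (nat_lit 10), (nat_lit 0), (nat_lit 3), (nat_lit 776), (nat_lit 70), (nat_lit 77), (nat_lit 6), (nat_lit 61), (nat_lit 25)⟩]

theorem k47_0 : AllB (okK ⟨cf3, d47, d48, m47, g47, g49, (nat_lit 23), (nat_lit 161), (nat_lit 90)⟩) k47_0_l :=
  ⟨by decide +kernel,
  by decide +kernel,
  by decide +kernel,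
  trivial⟩

noncomputable def k48_0_l : List Gp := [⟨(nat_lit 0), (nat_lit 10), (nat_lit 0), (nat_lit 8), (nat_lit 231), (nat_lit 72), (nat_lit 89), (nat_lit 5), (nat_lit 51), (nat_lit 26)⟩,
  ⟨(nat_lit 0), (nat_lit 10), (nat_lit 0), (nat_lit 2), (nat_lit 264), (nat_lit 72), (nat_lit 77), (nat_lit 5), (nat_lit 51), (nat_lit 20)⟩]

theorem k48_0 : AllB (okK ⟨cf3, d48, d49, m48, g48, g50, (nat_lit 23), (nat_lit 161), (nat_lit 90)⟩) k48_0_l :=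
  ⟨by decide +kernel,
  by decide +kernel,
  trivial⟩

noncomputable def k49_0_l : List Gp := [⟨(nat_lit 0), (nat_lit 9), (nat_lit 0), (nat_lit 7), (nat_lit 231), (nat_lit 73), (nat_lit 89), (nat_lit 5), (nat_lit 46), (nat_lit 25)⟩,
  ⟨(nat_lit 0), (nat_lit 9), (nat_lit 0), (nat_lit 1), (nat_lit 264), (nat_lit 73), (nat_lit 76), (nat_lit 5), (nat_lit 46), (nat_lit 18)⟩]

theorem k49_0 : AllB (okK ⟨cf3, d49, d50, m49, g49, g51, (nat_lit 23), (nat_lit 161), (nat_lit 90)⟩) k49_0_l :=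
  ⟨by decide +kernel,
  by decide +kernel,
  trivial⟩

noncomputable def k50_0_l : List Gp := [⟨(nat_lit 0), (nat_lit 8), (nat_lit 0), (nat_lit 7), (nat_lit 231), (nat_lit 75), (nat_lit 90), (nat_lit 4), (nat_lit 33), (nat_lit 24)⟩]

theorem k50_0 : AllB (okK ⟨cf3, d50, d51, m50, g50, g52, (nat_lit 23), (nat_lit 161), (nat_lit 90)⟩) k50_0_l :=
  ⟨by decide +kernel,
  trivial⟩

noncomputable def k51_0_l : List Gp := [⟨(nat_lit 0), (nat_lit 7), (nat_lit 0), (nat_lit 6), (nat_lit 231), (nat_lit 76), (nat_lit 90), (nat_lit 4), (nat_lit 29), (nat_lit 23)⟩]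

theorem k51_0 : AllB (okK ⟨cf3, d51, d52, m51, g51, g53, (nat_lit 23), (nat_lit 161), (nat_lit 90)⟩) k51_0_l :=
  ⟨by decide +kernel,
  trivial⟩

noncomputable def k52_0_l : List Gp := [⟨(nat_lit 0), (nat_lit 7), (nat_lit 0), (nat_lit 5), (nat_lit 231), (nat_lit 78), (nat_lit 89), (nat_lit 4), (nat_lit 29), (nat_lit 20)⟩]

theorem k52_0 : AllB (okK ⟨cf3, d52, d53, m52, g52, g54, (nat_lit 23), (nat_lit 161), (nat_lit 90)⟩) k52_0_l :=
  ⟨by decide +kernel,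
  trivial⟩

noncomputable def k53_0_l : List Gp := [⟨(nat_lit 0), (nat_lit 6), (nat_lit 0), (nat_lit 5), (nat_lit 231), (nat_lit 79), (nat_lit 90), (nat_lit 3), (nat_lit 19), (nat_lit 20)⟩]

theorem k53_0 : AllB (okK ⟨cf3, d53, d54, m53, g53, g55, (nat_lit 23), (nat_lit 161), (nat_lit 90)⟩) k53_0_l :=
  ⟨by decide +kernel,
  trivial⟩

noncomputable def k54_0_l : List Gp := [⟨(nat_lit 0), (nat_lit 5), (nat_lit 0), (nat_lit 4), (nat_lit 103), (nat_lit 81), (nat_lit 90), (nat_lit 3), (nat_lit 16), (nat_lit 15)⟩]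

theorem k54_0 : AllB (okK ⟨cf3, d54, d55, m54, g54, g56, (nat_lit 23), (nat_lit 161), (nat_lit 90)⟩) k54_0_l :=
  ⟨by decide +kernel,
  trivial⟩

noncomputable def k55_0_l : List Gp := [⟨(nat_lit 0), (nat_lit 5), (nat_lit 0), (nat_lit 3), (nat_lit 103), (nat_lit 82), (nat_lit 89), (nat_lit 3), (nat_lit 16), (nat_lit 13)⟩]

theorem k55_0 : AllB (okK ⟨cf3, d55, d56, m55, g55, g57, (nat_lit 23), (nat_lit 161), (nat_lit 90)⟩) k55_0_l :=
  ⟨by decide +kernel,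
  trivial⟩

noncomputable def k56_0_l : List Gp := [⟨(nat_lit 0), (nat_lit 4), (nat_lit 0), (nat_lit 2), (nat_lit 35), (nat_lit 84), (nat_lit 89), (nat_lit 2), (nat_lit 9), (nat_lit 8)⟩]

theorem k56_0 : AllB (okK ⟨cf3, d56, d57, m56, g56, g58, (nat_lit 23), (nat_lit 161), (nat_lit 90)⟩) k56_0_l :=
  ⟨by decide +kernel,
  trivial⟩

noncomputable def k57_0_l : List Gp := [⟨(nat_lit 0), (nat_lit 3), (nat_lit 0), (nat_lit 2), (nat_lit 35), (nat_lit 85), (nat_lit 90), (nat_lit 2), (nat_lit 7), (nat_lit 8)⟩]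

theorem k57_0 : AllB (okK ⟨cf3, d57, d58, m57, g57, g59, (nat_lit 23), (nat_lit 161), (nat_lit 90)⟩) k57_0_l :=
  ⟨by decide +kernel,
  trivial⟩

noncomputable def k58_0_l : List Gp := [⟨(nat_lit 0), (nat_lit 2), (nat_lit 0), (nat_lit 1), (nat_lit 1), (nat_lit 87), (nat_lit 90), (nat_lit 1), (nat_lit 3), (nat_lit 4)⟩]

theorem k58_0 : AllB (okK ⟨cf3, d58, d59, m58, g58, g60, (nat_lit 23), (nat_lit 161), (nat_lit 90)⟩) k58_0_l :=
  ⟨by decide +kernel,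
  trivial⟩

end Vale.Agent.P236KE.S90
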