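import Vale.Agent.P236KE.S90.Cnt
import Vale.Agent.P236KE.S90.K25
import Vale.Agent.P236KE.S90.G5

/-!
# P236KE / assembly (generated)
-/

set_option maxRecDepth 100000

namespace Vale.Agent.P236KE.S90

theorem mid40 : midOk m40_t (sph.d 41) (sph.n 41) 90 = true := by decide +kernel

theorem lo40 (up : DLL) (dup : ℕ) : sph.Lo ⟨cf3, d40, up, m40, g40, dup, (nat_lit 23), (nat_lit 161), (nat_lit 90)⟩ 90 40 :=
  ⟨rfl, rfl, rfl, rfl, rfl, rfl, ⟨_, m40_eq, mid40⟩,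
    (by decide : 90 < 117), (by decide : 23 ≤ 32), (by decide : 161 ≤ 300)⟩

theorem kq40 : sph.KQ 90 40 :=
  ⟨_, _, lo40 d41 g42, rfl, rfl, k40_0, by decide +kernel⟩

theorem cq40 : sph.CQ 90 zs hs ng cs 40 :=
  ⟨⟨_, _, lo40 e40 h40, rfl, g40_0, by decide +kernel, by decide +kernel⟩, by decide +kernel⟩

theorem ck40 : Vale.Agent.P236K2.ckD (2 ^ 28) (cs 41) (cs 40) (Sq.pn (sph.n 40) (sph.d 40) fun _ => []) 91 = true := by
  decide +kernel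

theorem mid41 : midOk m41_t (sph.d 42) (sph.n 42) 90 = true := by decide +kernel

theorem lo41 (up : DLL) (dup : ℕ) : sph.Lo ⟨cf3, d41, up, m41, g41, dup, (nat_lit 23), (nat_lit 161), (nat_lit 90)⟩ 90 41 :=
  ⟨rfl, rfl, rfl, rfl, rfl, rfl, ⟨_, m41_eq, mid41⟩,
    (by decide : 90 < 117), (by decide : 23 ≤ 32), (by decide : 161 ≤ 300)⟩

theorem kq41 : sph.KQ 90 41 :=
  ⟨_, _, lo41 d42 g43, rfl, rfl, k41_0, by decide +kernel⟩

theorem cq41 : sph.CQ 90 zs hs ng cs 41 :=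
  ⟨⟨_, _, lo41 e41 h41, rfl, g41_0, by decide +kernel, by decide +kernel⟩, by decide +kernel⟩

theorem ck41 : Vale.Agent.P236K2.ckD (2 ^ 28) (cs 42) (cs 41) (Sq.pn (sph.n 41) (sph.d 41) fun _ => []) 91 = true := by
  decide +kernel

theorem mid42 : midOk m42_t (sph.d 43) (sph.n 43) 90 = true := by decide +kernel

theorem lo42 (up : DLL) (dup : ℕ) : sph.Lo ⟨cf3, d42, up, m42, g42, dup, (nat_lit 23), (nat_lit 161), (nat_lit 90)⟩ 90 42 :=
  ⟨rfl, rfl, rfl, rfl, rfl, rfl, ⟨_, m42_eq, mid42⟩,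
    (by decide : 90 < 117), (by decide : 23 ≤ 32), (by decide : 161 ≤ 300)⟩

theorem kq42 : sph.KQ 90 42 :=
  ⟨_, _, lo42 d43 g44, rfl, rfl, k42_0, by decide +kernel⟩

theorem cq42 : sph.CQ 90 zs hs ng cs 42 :=
  ⟨⟨_, _, lo42 e42 h42, rfl, g42_0, by decide +kernel, by decide +kernel⟩, by decide +kernel⟩

theorem ck42 : Vale.Agent.P236K2.ckD (2 ^ 28) (cs 43) (cs 42) (Sq.pn (sph.n 42) (sph.d 42) fun _ => []) 91 = true := by
  decide +kernel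

theorem mid43 : midOk m43_t (sph.d 44) (sph.n 44) 90 = true := by decide +kernel

theorem lo43 (up : DLL) (dup : ℕ) : sph.Lo ⟨cf3, d43, up, m43, g43, dup, (nat_lit 23), (nat_lit 161), (nat_lit 90)⟩ 90 43 :=
  ⟨rfl, rfl, rfl, rfl, rfl, rfl, ⟨_, m43_eq, mid43⟩,
    (by decide : 90 < 117), (by decide : 23 ≤ 32), (by decide : 161 ≤ 300)⟩

theorem kq43 : sph.KQ 90 43 :=
  ⟨_, _, lo43 d44 g45, rfl, rfl, k43_0, by decide +kernel⟩

theorem cq43 : sph.CQ 90 zs hs ng cs 43 :=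
  ⟨⟨_, _, lo43 e43 h43, rfl, g43_0, by decide +kernel, by decide +kernel⟩, by decide +kernel⟩

theorem ck43 : Vale.Agent.P236K2.ckD (2 ^ 28) (cs 44) (cs 43) (Sq.pn (sph.n 43) (sph.d 43) fun _ => []) 91 = true := by
  decide +kernel

theorem mid44 : midOk m44_t (sph.d 45) (sph.n 45) 90 = true := by decide +kernel

theorem lo44 (up : DLL) (dup : ℕ) : sph.Lo ⟨cf3, d44, up, m44, g44, dup, (nat_lit 23), (nat_lit 161), (nat_lit 90)⟩ 90 44 :=
  ⟨rfl, rfl, rfl, rfl, rfl, rfl, ⟨_, m44_eq, mid44⟩,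
    (by decide : 90 < 117), (by decide : 23 ≤ 32), (by decide : 161 ≤ 300)⟩

theorem kq44 : sph.KQ 90 44 :=
  ⟨_, _, lo44 d45 g46, rfl, rfl, k44_0, by decide +kernel⟩

theorem cq44 : sph.CQ 90 zs hs ng cs 44 :=
  ⟨⟨_, _, lo44 e44 h44, rfl, g44_0, by decide +kernel, by decide +kernel⟩, by decide +kernel⟩

theorem ck44 : Vale.Agent.P236K2.ckD (2 ^ 28) (cs 45) (cs 44) (Sq.pn (sph.n 44) (sph.d 44) fun _ => []) 91 = true := by
  decide +kernel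

theorem mid45 : midOk m45_t (sph.d 46) (sph.n 46) 90 = true := by decide +kernel

theorem lo45 (up : DLL) (dup : ℕ) : sph.Lo ⟨cf3, d45, up, m45, g45, dup, (nat_lit 23), (nat_lit 161), (nat_lit 90)⟩ 90 45 :=
  ⟨rfl, rfl, rfl, rfl, rfl, rfl, ⟨_, m45_eq, mid45⟩,
    (by decide : 90 < 117), (by decide : 23 ≤ 32), (by decide : 161 ≤ 300)⟩

theorem kq45 : sph.KQ 90 45 :=
  ⟨_, _, lo45 d46 g47, rfl, rfl, k45_0, by decide +kernel⟩

theorem cq45 : sph.CQ 90 zs hs ng cs 45 :=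
  ⟨⟨_, _, lo45 e45 h45, rfl, g45_0, by decide +kernel, by decide +kernel⟩, by decide +kernel⟩

theorem ck45 : Vale.Agent.P236K2.ckD (2 ^ 28) (cs 46) (cs 45) (Sq.pn (sph.n 45) (sph.d 45) fun _ => []) 91 = true := by
  decide +kernel

theorem mid46 : midOk m46_t (sph.d 47) (sph.n 47) 90 = true := by decide +kernel

theorem lo46 (up : DLL) (dup : ℕ) : sph.Lo ⟨cf3, d46, up, m46, g46, dup, (nat_lit 23), (nat_lit 161), (nat_lit 90)⟩ 90 46 :=
  ⟨rfl, rfl, rfl, rfl, rfl, rfl, ⟨_, m46_eq, mid46⟩,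
    (by decide : 90 < 117), (by decide : 23 ≤ 32), (by decide : 161 ≤ 300)⟩

theorem kq46 : sph.KQ 90 46 :=
  ⟨_, _, lo46 d47 g48, rfl, rfl, k46_0, by decide +kernel⟩

theorem cq46 : sph.CQ 90 zs hs ng cs 46 :=
  ⟨⟨_, _, lo46 e46 h46, rfl, g46_0, by decide +kernel, by decide +kernel⟩, by decide +kernel⟩

theorem ck46 : Vale.Agent.P236K2.ckD (2 ^ 28) (cs 47) (cs 46) (Sq.pn (sph.n 46) (sph.d 46) fun _ => []) 91 = true := by
  decide +kernel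

theorem mid47 : midOk m47_t (sph.d 48) (sph.n 48) 90 = true := by decide +kernel

theorem lo47 (up : DLL) (dup : ℕ) : sph.Lo ⟨cf3, d47, up, m47, g47, dup, (nat_lit 23), (nat_lit 161), (nat_lit 90)⟩ 90 47 :=
  ⟨rfl, rfl, rfl, rfl, rfl, rfl, ⟨_, m47_eq, mid47⟩,
    (by decide : 90 < 117), (by decide : 23 ≤ 32), (by decide : 161 ≤ 300)⟩

theorem kq47 : sph.KQ 90 47 :=
  ⟨_, _, lo47 d48 g49, rfl, rfl, k47_0, by decide +kernel⟩

theorem cq47 : sph.CQ 90 zs hs ng cs 47 :=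
  ⟨⟨_, _, lo47 e47 h47, rfl, g47_0, by decide +kernel, by decide +kernel⟩, by decide +kernel⟩

theorem ck47 : Vale.Agent.P236K2.ckD (2 ^ 28) (cs 48) (cs 47) (Sq.pn (sph.n 47) (sph.d 47) fun _ => []) 91 = true := by
  decide +kernel

theorem mid48 : midOk m48_t (sph.d 49) (sph.n 49) 90 = true := by decide +kernel

theorem lo48 (up : DLL) (dup : ℕ) : sph.Lo ⟨cf3, d48, up, m48, g48, dup, (nat_lit 23), (nat_lit 161), (nat_lit 90)⟩ 90 48 :=
  ⟨rfl, rfl, rfl, rfl, rfl, rfl, ⟨_, m48_eq, mid48⟩,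
    (by decide : 90 < 117), (by decide : 23 ≤ 32), (by decide : 161 ≤ 300)⟩

theorem kq48 : sph.KQ 90 48 :=
  ⟨_, _, lo48 d49 g50, rfl, rfl, k48_0, by decide +kernel⟩

theorem cq48 : sph.CQ 90 zs hs ng cs 48 :=
  ⟨⟨_, _, lo48 e48 h48, rfl, g48_0, by decide +kernel, by decide +kernel⟩, by decide +kernel⟩

theorem ck48 : Vale.Agent.P236K2.ckD (2 ^ 28) (cs 49) (cs 48) (Sq.pn (sph.n 48) (sph.d 48) fun _ => []) 91 = true := by
  decide +kernel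

theorem mid49 : midOk m49_t (sph.d 50) (sph.n 50) 90 = true := by decide +kernel

theorem lo49 (up : DLL) (dup : ℕ) : sph.Lo ⟨cf3, d49, up, m49, g49, dup, (nat_lit 23), (nat_lit 161), (nat_lit 90)⟩ 90 49 :=
  ⟨rfl, rfl, rfl, rfl, rfl, rfl, ⟨_, m49_eq, mid49⟩,
    (by decide : 90 < 117), (by decide : 23 ≤ 32), (by decide : 161 ≤ 300)⟩

theorem kq49 : sph.KQ 90 49 :=
  ⟨_, _, lo49 d50 g51, rfl, rfl, k49_0, by decide +kernel⟩

theorem cq49 : sph.CQ 90 zs hs ng cs 49 :=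
  ⟨⟨_, _, lo49 e49 h49, rfl, g49_0, by decide +kernel, by decide +kernel⟩, by decide +kernel⟩

theorem ck49 : Vale.Agent.P236K2.ckD (2 ^ 28) (cs 50) (cs 49) (Sq.pn (sph.n 49) (sph.d 49) fun _ => []) 91 = true := by
  decide +kernel

theorem mid50 : midOk m50_t (sph.d 51) (sph.n 51) 90 = true := by decide +kernel

theorem lo50 (up : DLL) (dup : ℕ) : sph.Lo ⟨cf3, d50, up, m50, g50, dup, (nat_lit 23), (nat_lit 161), (nat_lit 90)⟩ 90 50 :=
  ⟨rfl, rfl, rfl, rfl, rfl, rfl, ⟨_, m50_eq, mid50⟩,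
    (by decide : 90 < 117), (by decide : 23 ≤ 32), (by decide : 161 ≤ 300)⟩

theorem kq50 : sph.KQ 90 50 :=
  ⟨_, _, lo50 d51 g52, rfl, rfl, k50_0, by decide +kernel⟩

theorem cq50 : sph.CQ 90 zs hs ng cs 50 :=
  ⟨⟨_, _, lo50 e50 h50, rfl, g50_0, by decide +kernel, by decide +kernel⟩, by decide +kernel⟩

theorem ck50 : Vale.Agent.P236K2.ckD (2 ^ 28) (cs 51) (cs 50) (Sq.pn (sph.n 50) (sph.d 50) fun _ => []) 91 = true := by
  decide +kernel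

theorem mid51 : midOk m51_t (sph.d 52) (sph.n 52) 90 = true := by decide +kernel

theorem lo51 (up : DLL) (dup : ℕ) : sph.Lo ⟨cf3, d51, up, m51, g51, dup, (nat_lit 23), (nat_lit 161), (nat_lit 90)⟩ 90 51 :=
  ⟨rfl, rfl, rfl, rfl, rfl, rfl, ⟨_, m51_eq, mid51⟩,
    (by decide : 90 < 117), (by decide : 23 ≤ 32), (by decide : 161 ≤ 300)⟩

theorem kq51 : sph.KQ 90 51 :=
  ⟨_, _, lo51 d52 g53, rfl, rfl, k51_0, by decide +kernel⟩

theorem cq51 : sph.CQ 90 zs hs ng cs 51 :=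
  ⟨⟨_, _, lo51 e51 h51, rfl, g51_0, by decide +kernel, by decide +kernel⟩, by decide +kernel⟩

theorem ck51 : Vale.Agent.P236K2.ckD (2 ^ 28) (cs 52) (cs 51) (Sq.pn (sph.n 51) (sph.d 51) fun _ => []) 91 = true := by
  decide +kernel

theorem mid52 : midOk m52_t (sph.d 53) (sph.n 53) 90 = true := by decide +kernel

theorem lo52 (up : DLL) (dup : ℕ) : sph.Lo ⟨cf3, d52, up, m52, g52, dup, (nat_lit 23), (nat_lit 161), (nat_lit 90)⟩ 90 52 :=
  ⟨rfl, rfl, rfl, rfl, rfl, rfl, ⟨_, m52_eq, mid52⟩,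
    (by decide : 90 < 117), (by decide : 23 ≤ 32), (by decide : 161 ≤ 300)⟩

theorem kq52 : sph.KQ 90 52 :=
  ⟨_, _, lo52 d53 g54, rfl, rfl, k52_0, by decide +kernel⟩

theorem cq52 : sph.CQ 90 zs hs ng cs 52 :=
  ⟨⟨_, _, lo52 e52 h52, rfl, g52_0, by decide +kernel, by decide +kernel⟩, by decide +kernel⟩

theorem ck52 : Vale.Agent.P236K2.ckD (2 ^ 28) (cs 53) (cs 52) (Sq.pn (sph.n 52) (sph.d 52) fun _ => []) 91 = true := by
  decide +kernel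

theorem mid53 : midOk m53_t (sph.d 54) (sph.n 54) 90 = true := by decide +kernel

theorem lo53 (up : DLL) (dup : ℕ) : sph.Lo ⟨cf3, d53, up, m53, g53, dup, (nat_lit 23), (nat_lit 161), (nat_lit 90)⟩ 90 53 :=
  ⟨rfl, rfl, rfl, rfl, rfl, rfl, ⟨_, m53_eq, mid53⟩,
    (by decide : 90 < 117), (by decide : 23 ≤ 32), (by decide : 161 ≤ 300)⟩

theorem kq53 : sph.KQ 90 53 :=
  ⟨_, _, lo53 d54 g55, rfl, rfl, k53_0, by decide +kernel⟩

theorem cq53 : sph.CQ 90 zs hs ng cs 53 :=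
  ⟨⟨_, _, lo53 e53 h53, rfl, g53_0, by decide +kernel, by decide +kernel⟩, by decide +kernel⟩

theorem ck53 : Vale.Agent.P236K2.ckD (2 ^ 28) (cs 54) (cs 53) (Sq.pn (sph.n 53) (sph.d 53) fun _ => []) 91 = true := by
  decide +kernel

theorem mid54 : midOk m54_t (sph.d 55) (sph.n 55) 90 = true := by decide +kernel

theorem lo54 (up : DLL) (dup : ℕ) : sph.Lo ⟨cf3, d54, up, m54, g54, dup, (nat_lit 23), (nat_lit 161), (nat_lit 90)⟩ 90 54 :=
  ⟨rfl, rfl, rfl, rfl, rfl, rfl, ⟨_, m54_eq, mid54⟩,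
    (by decide : 90 < 117), (by decide : 23 ≤ 32), (by decide : 161 ≤ 300)⟩

theorem kq54 : sph.KQ 90 54 :=
  ⟨_, _, lo54 d55 g56, rfl, rfl, k54_0, by decide +kernel⟩

theorem cq54 : sph.CQ 90 zs hs ng cs 54 :=
  ⟨⟨_, _, lo54 e54 h54, rfl, g54_0, by decide +kernel, by decide +kernel⟩, by decide +kernel⟩

theorem ck54 : Vale.Agent.P236K2.ckD (2 ^ 28) (cs 55) (cs 54) (Sq.pn (sph.n 54) (sph.d 54) fun _ => []) 91 = true := by
  decide +kernel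

theorem mid55 : midOk m55_t (sph.d 56) (sph.n 56) 90 = true := by decide +kernel

theorem lo55 (up : DLL) (dup : ℕ) : sph.Lo ⟨cf3, d55, up, m55, g55, dup, (nat_lit 23), (nat_lit 161), (nat_lit 90)⟩ 90 55 :=
  ⟨rfl, rfl, rfl, rfl, rfl, rfl, ⟨_, m55_eq, mid55⟩,
    (by decide : 90 < 117), (by decide : 23 ≤ 32), (by decide : 161 ≤ 300)⟩

theorem kq55 : sph.KQ 90 55 :=
  ⟨_, _, lo55 d56 g57, rfl, rfl, k55_0, by decide +kernel⟩

theorem cq55 : sph.CQ 90 zs hs ng cs 55 :=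
  ⟨⟨_, _, lo55 e55 h55, rfl, g55_0, by decide +kernel, by decide +kernel⟩, by decide +kernel⟩

theorem ck55 : Vale.Agent.P236K2.ckD (2 ^ 28) (cs 56) (cs 55) (Sq.pn (sph.n 55) (sph.d 55) fun _ => []) 91 = true := by
  decide +kernel

theorem mid56 : midOk m56_t (sph.d 57) (sph.n 57) 90 = true := by decide +kernel

theorem lo56 (up : DLL) (dup : ℕ) : sph.Lo ⟨cf3, d56, up, m56, g56, dup, (nat_lit 23), (nat_lit 161), (nat_lit 90)⟩ 90 56 :=
  ⟨rfl, rfl, rfl, rfl, rfl, rfl, ⟨_, m56_eq, mid56⟩,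
    (by decide : 90 < 117), (by decide : 23 ≤ 32), (by decide : 161 ≤ 300)⟩

theorem kq56 : sph.KQ 90 56 :=
  ⟨_, _, lo56 d57 g58, rfl, rfl, k56_0, by decide +kernel⟩

theorem cq56 : sph.CQ 90 zs hs ng cs 56 :=
  ⟨⟨_, _, lo56 e56 h56, rfl, g56_0, by decide +kernel, by decide +kernel⟩, by decide +kernel⟩

theorem ck56 : Vale.Agent.P236K2.ckD (2 ^ 28) (cs 57) (cs 56) (Sq.pn (sph.n 56) (sph.d 56) fun _ => []) 91 = true := by
  decide +kernel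

theorem mid57 : midOk m57_t (sph.d 58) (sph.n 58) 90 = true := by decide +kernel

theorem lo57 (up : DLL) (dup : ℕ) : sph.Lo ⟨cf3, d57, up, m57, g57, dup, (nat_lit 23), (nat_lit 161), (nat_lit 90)⟩ 90 57 :=
  ⟨rfl, rfl, rfl, rfl, rfl, rfl, ⟨_, m57_eq, mid57⟩,
    (by decide : 90 < 117), (by decide : 23 ≤ 32), (by decide : 161 ≤ 300)⟩

theorem kq57 : sph.KQ 90 57 :=
  ⟨_, _, lo57 d58 g59, rfl, rfl, k57_0, by decide +kernel⟩

theorem cq57 : sph.CQ 90 zs hs ng cs 57 :=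
  ⟨⟨_, _, lo57 e57 h57, rfl, g57_0, by decide +kernel, by decide +kernel⟩, by decide +kernel⟩

theorem ck57 : Vale.Agent.P236K2.ckD (2 ^ 28) (cs 58) (cs 57) (Sq.pn (sph.n 57) (sph.d 57) fun _ => []) 91 = true := by
  decide +kernel

theorem mid58 : midOk m58_t (sph.d 59) (sph.n 59) 90 = true := by decide +kernel

theorem lo58 (up : DLL) (dup : ℕ) : sph.Lo ⟨cf3, d58, up, m58, g58, dup, (nat_lit 23), (nat_lit 161), (nat_lit 90)⟩ 90 58 :=
  ⟨rfl, rfl, rfl, rfl, rfl, rfl, ⟨_, m58_eq, mid58⟩,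
    (by decide : 90 < 117), (by decide : 23 ≤ 32), (by decide : 161 ≤ 300)⟩

theorem kq58 : sph.KQ 90 58 :=
  ⟨_, _, lo58 d59 g60, rfl, rfl, k58_0, by decide +kernel⟩

theorem cq58 : sph.CQ 90 zs hs ng cs 58 :=
  ⟨⟨_, _, lo58 e58 h58, rfl, g58_0, by decide +kernel, by decide +kernel⟩, by decide +kernel⟩

theorem ck58 : Vale.Agent.P236K2.ckD (2 ^ 28) (cs 59) (cs 58) (Sq.pn (sph.n 58) (sph.d 58) fun _ => []) 91 = true := by
  decide +kernel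

theorem mid59 : midOk m59_t (sph.d 60) (sph.n 60) 90 = true := by decide +kernel

theorem lo59 (up : DLL) (dup : ℕ) : sph.Lo ⟨cf3, d59, up, m59, g59, dup, (nat_lit 23), (nat_lit 161), (nat_lit 90)⟩ 90 59 :=
  ⟨rfl, rfl, rfl, rfl, rfl, rfl, ⟨_, m59_eq, mid59⟩,
    (by decide : 90 < 117), (by decide : 23 ≤ 32), (by decide : 161 ≤ 300)⟩

theorem kq59 : sph.KQ 90 59 :=
  ⟨_, [], lo59 d60 g61, rfl, rfl, trivial, by decide +kernel⟩

theorem cq59 : sph.CQ 90 zs hs ng cs 59 :=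
  ⟨⟨_, _, lo59 e59 h59, rfl, g59_0, by decide +kernel, by decide +kernel⟩, by decide +kernel⟩

theorem ck59 : Vale.Agent.P236K2.ckD (2 ^ 28) (cs 60) (cs 59) (Sq.pn (sph.n 59) (sph.d 59) fun _ => []) 91 = true := by
  decide +kernel

theorem mid60 : midOk m60_t (sph.d 61) (sph.n 61) 90 = true := by decide +kernel

theorem lo60 (up : DLL) (dup : ℕ) : sph.Lo ⟨cf3, d60, up, m60, g60, dup, (nat_lit 23), (nat_lit 161), (nat_lit 90)⟩ 90 60 :=
  ⟨rfl, rfl, rfl, rfl, rfl, rfl, ⟨_, m60_eq, mid60⟩,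
    (by decide : 90 < 117), (by decide : 23 ≤ 32), (by decide : 161 ≤ 300)⟩

theorem kq60 : sph.KQ 90 60 :=
  ⟨_, [], lo60 DLL.nil g62, rfl, rfl, trivial, by decide +kernel⟩

theorem cq60 : sph.CQ 90 zs hs ng cs 60 :=
  ⟨⟨_, [], lo60 e60 h60, rfl, trivial, by decide +kernel, by decide +kernel⟩, by decide +kernel⟩

theorem ck60 : Vale.Agent.P236K2.ckD (2 ^ 28) (cs 61) (cs 60) (Sq.pn (sph.n 60) (sph.d 60) fun _ => []) 91 = true := by
  decide +kernel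

end Vale.Agent.P236KE.S90
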