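import Vale.Agent.P236KE.S90.Cnt
import Vale.Agent.P236KE.S90.K10
import Vale.Agent.P236KE.S90.K11
import Vale.Agent.P236KE.S90.K12
import Vale.Agent.P236KE.S90.G1
import Vale.Agent.P236KE.S90.G2

/-!
# P236KE / assembly (generated)
-/

set_option maxRecDepth 100000

namespace Vale.Agent.P236KE.S90

theorem mid6 : midOk m6_t (sph.d 7) (sph.n 7) 90 = true := by decide +kernel

theorem lo6 (up : DLL) (dup : ℕ) : sph.Lo ⟨cf3, d6, up, m6, g6, dup, (nat_lit 23), (nat_lit 161), (nat_lit 90)⟩ 90 6 :=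
  ⟨rfl, rfl, rfl, rfl, rfl, rfl, ⟨_, m6_eq, mid6⟩,
    (by decide : 90 < 117), (by decide : 23 ≤ 32), (by decide : 161 ≤ 300)⟩

theorem kq6 : sph.KQ 90 6 :=
  ⟨_, _, lo6 d7 g8, rfl, rfl, (AllB.append k6_0 (AllB.append k6_1 k6_2)), by decide +kernel⟩

theorem cq6 : sph.CQ 90 zs hs ng cs 6 :=
  ⟨⟨_, _, lo6 e6 h6, rfl, (AllB.append g6_0 g6_1), by decide +kernel, by decide +kernel⟩, by decide +kernel⟩

theorem ck6 : Vale.Agent.P236K2.ckD (2 ^ 28) (cs 7) (cs 6) (Sq.pn (sph.n 6) (sph.d 6) fun _ => []) 91 = true := by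
  decide +kernel

end Vale.Agent.P236KE.S90
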