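import Vale.Agent.P236KE.S90.Cnt
import Vale.Agent.P236KE.S90.K12
import Vale.Agent.P236KE.S90.K13
import Vale.Agent.P236KE.S90.K14
import Vale.Agent.P236KE.S90.G2

/-!
# P236KE / assembly (generated)
-/

set_option maxRecDepth 100000

namespace Vale.Agent.P236KE.S90

theorem mid7 : midOk m7_t (sph.d 8) (sph.n 8) 90 = true := by decide +kernel

theorem lo7 (up : DLL) (dup : ℕ) : sph.Lo ⟨cf3, d7, up, m7, g7, dup, (nat_lit 23), (nat_lit 161), (nat_lit 90)⟩ 90 7 :=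
  ⟨rfl, rfl, rfl, rfl, rfl, rfl, ⟨_, m7_eq, mid7⟩,
    (by decide : 90 < 117), (by decide : 23 ≤ 32), (by decide : 161 ≤ 300)⟩

theorem kq7 : sph.KQ 90 7 :=
  ⟨_, _, lo7 d8 g9, rfl, rfl, (AllB.append k7_0 (AllB.append k7_1 k7_2)), by decide +kernel⟩

theorem cq7 : sph.CQ 90 zs hs ng cs 7 :=
  ⟨⟨_, _, lo7 e7 h7, rfl, g7_0, by decide +kernel, by decide +kernel⟩, by decide +kernel⟩

theorem ck7 : Vale.Agent.P236K2.ckD (2 ^ 28) (cs 8) (cs 7) (Sq.pn (sph.n 7) (sph.d 7) fun _ => []) 91 = true := by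
  decide +kernel

end Vale.Agent.P236KE.S90
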