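import Vale.Agent.P236KE.S90.Cnt
import Vale.Agent.P236KE.S90.K14
import Vale.Agent.P236KE.S90.K15
import Vale.Agent.P236KE.S90.G2

/-!
# P236KE / assembly (generated)
-/

set_option maxRecDepth 100000

namespace Vale.Agent.P236KE.S90

theorem mid8 : midOk m8_t (sph.d 9) (sph.n 9) 90 = true := by decide +kernel

theorem lo8 (up : DLL) (dup : ℕ) : sph.Lo ⟨cf3, d8, up, m8, g8, dup, (nat_lit 23), (nat_lit 161), (nat_lit 90)⟩ 90 8 :=
  ⟨rfl, rfl, rfl, rfl, rfl, rfl, ⟨_, m8_eq, mid8⟩,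
    (by decide : 90 < 117), (by decide : 23 ≤ 32), (by decide : 161 ≤ 300)⟩

theorem kq8 : sph.KQ 90 8 :=
  ⟨_, _, lo8 d9 g10, rfl, rfl, (AllB.append k8_0 k8_1), by decide +kernel⟩

theorem cq8 : sph.CQ 90 zs hs ng cs 8 :=
  ⟨⟨_, _, lo8 e8 h8, rfl, g8_0, by decide +kernel, by decide +kernel⟩, by decide +kernel⟩

theorem ck8 : Vale.Agent.P236K2.ckD (2 ^ 28) (cs 9) (cs 8) (Sq.pn (sph.n 8) (sph.d 8) fun _ => []) 91 = true := by
  decide +kernel

end Vale.Agent.P236KE.S90
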