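import Vale.Agent.P236KE.S90.Cnt
import Vale.Agent.P236KE.S90.K15
import Vale.Agent.P236KE.S90.K16
import Vale.Agent.P236KE.S90.K17
import Vale.Agent.P236KE.S90.G2
import Vale.Agent.P236KE.S90.G3

/-!
# P236KE / assembly (generated)
-/

set_option maxRecDepth 100000

namespace Vale.Agent.P236KE.S90

theorem mid9 : midOk m9_t (sph.d 10) (sph.n 10) 90 = true := by decide +kernel

theorem lo9 (up : DLL) (dup : ℕ) : sph.Lo ⟨cf3, d9, up, m9, g9, dup, (nat_lit 23), (nat_lit 161), (nat_lit 90)⟩ 90 9 :=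
  ⟨rfl, rfl, rfl, rfl, rfl, rfl, ⟨_, m9_eq, mid9⟩,
    (by decide : 90 < 117), (by decide : 23 ≤ 32), (by decide : 161 ≤ 300)⟩

theorem kq9 : sph.KQ 90 9 :=
  ⟨_, _, lo9 d10 g11, rfl, rfl, (AllB.append k9_0 (AllB.append k9_1 k9_2)), by decide +kernel⟩

theorem cq9 : sph.CQ 90 zs hs ng cs 9 :=
  ⟨⟨_, _, lo9 e9 h9, rfl, (AllB.append g9_0 g9_1), by decide +kernel, by decide +kernel⟩, by decide +kernel⟩

theorem ck9 : Vale.Agent.P236K2.ckD (2 ^ 28) (cs 10) (cs 9) (Sq.pn (sph.n 9) (sph.d 9) fun _ => []) 91 = true := by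
  decide +kernel

end Vale.Agent.P236KE.S90
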