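import Vale.Agent.P236KE.S90.A0
import Vale.Agent.P236KE.S90.A3
import Vale.Agent.P236KE.S90.A4
import Vale.Agent.P236KE.S90.A5
import Vale.Agent.P236KE.S90.A6
import Vale.Agent.P236KE.S90.A7
import Vale.Agent.P236KE.S90.A8
import Vale.Agent.P236KE.S90.A9
import Vale.Agent.P236KE.S90.A10
import Vale.Agent.P236KE.S90.A12
import Vale.Agent.P236KE.S90.A14
import Vale.Agent.P236KE.S90.A17
import Vale.Agent.P236KE.S90.A20
import Vale.Agent.P236KE.S90.A25
import Vale.Agent.P236KE.S90.A30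
import Vale.Agent.P236KE.S90.A40

/-!
# P236KE / the resolution of the unit is correct (generated)
-/

set_option maxRecDepth 100000

namespace Vale.Agent.P236KE.S90

open Vale.Agent.P236EL

theorem kq : ∀ q, q + 1 < 61 → sph.KQ 90 q
  | 0, _ => kq0
  | 1, _ => kq1
  | 2, _ => kq2
  | 3, _ => kq3
  | 4, _ => kq4
  | 5, _ => kq5
  | 6, _ => kq6
  | 7, _ => kq7
  | 8, _ => kq8
  | 9, _ => kq9
  | 10, _ => kq10
  | 11, _ => kq11
  | 12, _ => kq12
  | 13, _ => kq13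
  | 14, _ => kq14
  | 15, _ => kq15
  | 16, _ => kq16
  | 17, _ => kq17
  | 18, _ => kq18
  | 19, _ => kq19
  | 20, _ => kq20
  | 21, _ => kq21
  | 22, _ => kq22
  | 23, _ => kq23
  | 24, _ => kq24
  | 25, _ => kq25
  | 26, _ => kq26
  | 27, _ => kq27
  | 28, _ => kq28
  | 29, _ => kq29
  | 30, _ => kq30
  | 31, _ => kq31
  | 32, _ => kq32
  | 33, _ => kq33
  | 34, _ => kq34
  | 35, _ => kq35
  | 36, _ => kq36
  | 37, _ => kq37
  | 38, _ => kq38
  | 39, _ => kq39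
  | 40, _ => kq40
  | 41, _ => kq41
  | 42, _ => kq42
  | 43, _ => kq43
  | 44, _ => kq44
  | 45, _ => kq45
  | 46, _ => kq46
  | 47, _ => kq47
  | 48, _ => kq48
  | 49, _ => kq49
  | 50, _ => kq50
  | 51, _ => kq51
  | 52, _ => kq52
  | 53, _ => kq53
  | 54, _ => kq54
  | 55, _ => kq55
  | 56, _ => kq56
  | 57, _ => kq57
  | 58, _ => kq58
  | 59, _ => kq59
  | q + 60, h => absurd h (by omega)

theorem cq : ∀ q, q < 61 → sph.CQ 90 zs hs ng cs q
  | 0, _ => cq0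
  | 1, _ => cq1
  | 2, _ => cq2
  | 3, _ => cq3
  | 4, _ => cq4
  | 5, _ => cq5
  | 6, _ => cq6
  | 7, _ => cq7
  | 8, _ => cq8
  | 9, _ => cq9
  | 10, _ => cq10
  | 11, _ => cq11
  | 12, _ => cq12
  | 13, _ => cq13
  | 14, _ => cq14
  | 15, _ => cq15
  | 16, _ => cq16
  | 17, _ => cq17
  | 18, _ => cq18
  | 19, _ => cq19
  | 20, _ => cq20
  | 21, _ => cq21
  | 22, _ => cq22
  | 23, _ => cq23
  | 24, _ => cq24
  | 25, _ => cq25
  | 26, _ => cq26
  | 27, _ => cq27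
  | 28, _ => cq28
  | 29, _ => cq29
  | 30, _ => cq30
  | 31, _ => cq31
  | 32, _ => cq32
  | 33, _ => cq33
  | 34, _ => cq34
  | 35, _ => cq35
  | 36, _ => cq36
  | 37, _ => cq37
  | 38, _ => cq38
  | 39, _ => cq39
  | 40, _ => cq40
  | 41, _ => cq41
  | 42, _ => cq42
  | 43, _ => cq43
  | 44, _ => cq44
  | 45, _ => cq45
  | 46, _ => cq46
  | 47, _ => cq47
  | 48, _ => cq48
  | 49, _ => cq49
  | 50, _ => cq50
  | 51, _ => cq51
  | 52, _ => cq52
  | 53, _ => cq53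
  | 54, _ => cq54
  | 55, _ => cq55
  | 56, _ => cq56
  | 57, _ => cq57
  | 58, _ => cq58
  | 59, _ => cq59
  | 60, _ => cq60
  | q + 61, h => absurd h (by omega)

theorem ck : ∀ q, q + 1 < 61 → Vale.Agent.P236K2.ckD (2 ^ 28) (cs (q + 1)) (cs q)
    (Sq.pn (sph.n q) (sph.d q) fun _ => []) 91 = true
  | 0, _ => ck0
  | 1, _ => ck1
  | 2, _ => ck2
  | 3, _ => ck3
  | 4, _ => ck4
  | 5, _ => ck5
  | 6, _ => ck6
  | 7, _ => ck7
  | 8, _ => ck8
  | 9, _ => ck9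
  | 10, _ => ck10
  | 11, _ => ck11
  | 12, _ => ck12
  | 13, _ => ck13
  | 14, _ => ck14
  | 15, _ => ck15
  | 16, _ => ck16
  | 17, _ => ck17
  | 18, _ => ck18
  | 19, _ => ck19
  | 20, _ => ck20
  | 21, _ => ck21
  | 22, _ => ck22
  | 23, _ => ck23
  | 24, _ => ck24
  | 25, _ => ck25
  | 26, _ => ck26
  | 27, _ => ck27
  | 28, _ => ck28
  | 29, _ => ck29
  | 30, _ => ck30
  | 31, _ => ck31
  | 32, _ => ck32
  | 33, _ => ck33
  | 34, _ => ck34
  | 35, _ => ck35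
  | 36, _ => ck36
  | 37, _ => ck37
  | 38, _ => ck38
  | 39, _ => ck39
  | 40, _ => ck40
  | 41, _ => ck41
  | 42, _ => ck42
  | 43, _ => ck43
  | 44, _ => ck44
  | 45, _ => ck45
  | 46, _ => ck46
  | 47, _ => ck47
  | 48, _ => ck48
  | 49, _ => ck49
  | 50, _ => ck50
  | 51, _ => ck51
  | 52, _ => ck52
  | 53, _ => ck53
  | 54, _ => ck54
  | 55, _ => ck55
  | 56, _ => ck56
  | 57, _ => ck57
  | 58, _ => ck58
  | 59, _ => ck59
  | q + 60, h => absurd h (by omega)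

theorem ker9 : ∀ x : ZMod 9, ZMod.castHom (show 3 ∣ 9 by decide) (ZMod 3) x = 0 →
    ∃ y, y * ((3 : ℕ) : ZMod 9) = x := by decide

variable [Fact (Nat.Prime 3)]

/-- **The resolution of the unit in weights at most 90.** -/
theorem ok {L : Type} [CommRing L] (h9 : (9 : L) = 0) {F : Type} [Field F] [CharP F 3]
    {π : L →+* F} (hs : Function.Surjective π)
    (hk : RingHom.ker π ≤ Ideal.span {((3 : ℕ) : L)}) : (sph.rs L).Ok π 3 61 90 :=
  Sq.ok h9 hs hk (T := 90) (by decide) (by decide) (by decide +kernel) (by decide +kernel) kq cq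
    (by decide +kernel) ck

theorem ok3 : (sph.rs (ZMod 3)).Ok (RingHom.id (ZMod 3)) 3 61 90 :=
  ok (by decide) Function.surjective_id fun x hx => by
    rw [show x = 0 from hx]
    exact zero_mem _

theorem ok9 : (sph.rs (ZMod 9)).Ok (ZMod.castHom (show 3 ∣ 9 by decide) (ZMod 3)) 3 61 90 :=
  ok (by decide) (ZMod.castHom_surjective _) fun x hx => Ideal.mem_span_singleton'.2 (ker9 x hx)

end Vale.Agent.P236KE.S90
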