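import Vale.Agent.P236KE.Cfg
import Vale.Agent.P236KE.S90.Deg
import Vale.Agent.P236KE.S90.D0

/-!
# P236KE / checks (generated)
-/

set_option maxRecDepth 100000

namespace Vale.Agent.P236KE.S90

noncomputable def k2_1_l : List Gp := [⟨(nat_lit 5), (nat_lit 2), (nat_lit 24), (nat_lit 3), (nat_lit 231), (nat_lit 15), (nat_lit 66), (nat_lit 15), (nat_lit 45), (nat_lit 60)⟩,
  ⟨(nat_lit 5), (nat_lit 1), (nat_lit 27), (nat_lit 4), (nat_lit 231), (nat_lit 15), (nat_lit 72), (nat_lit 17), (nat_lit 68), (nat_lit 66)⟩,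
  ⟨(nat_lit 6), (nat_lit 1), (nat_lit 27), (nat_lit 4), (nat_lit 231), (nat_lit 21), (nat_lit 72), (nat_lit 15), (nat_lit 60), (nat_lit 60)⟩,
  ⟨(nat_lit 0), (nat_lit 1), (nat_lit 31), (nat_lit 1), (nat_lit 231), (nat_lit 3), (nat_lit 73), (nat_lit 20), (nat_lit 21), (nat_lit 79)⟩,
  ⟨(nat_lit 1), (nat_lit 1), (nat_lit 31), (nat_lit 1), (nat_lit 231), (nat_lit 5), (nat_lit 73), (nat_lit 20), (nat_lit 21), (nat_lit 77)⟩,
  ⟨(nat_lit 2), (nat_lit 1), (nat_lit 31), (nat_lit 1), (nat_lit 231), (nat_lit 7), (nat_lit 73), (nat_lit 19), (nat_lit 20), (nat_lit 75)⟩,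
  ⟨(nat_lit 3), (nat_lit 1), (nat_lit 31), (nat_lit 1), (nat_lit 231), (nat_lit 9), (nat_lit 73), (nat_lit 19), (nat_lit 20), (nat_lit 73)⟩,
  ⟨(nat_lit 4), (nat_lit 1), (nat_lit 31), (nat_lit 1), (nat_lit 231), (nat_lit 10), (nat_lit 73), (nat_lit 18), (nat_lit 19), (nat_lit 72)⟩,
  ⟨(nat_lit 0), (nat_lit 1), (nat_lit 32), (nat_lit 1), (nat_lit 231), (nat_lit 3), (nat_lit 82), (nat_lit 22), (nat_lit 23), (nat_lit 88)⟩,
  ⟨(nat_lit 0), (nat_lit 1), (nat_lit 33), (nat_lit 1), (nat_lit 103), (nat_lit 3), (nat_lit 84), (nat_lit 22), (nat_lit 23), (nat_lit 87)⟩,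
  ⟨(nat_lit 1), (nat_lit 1), (nat_lit 32), (nat_lit 1), (nat_lit 231), (nat_lit 5), (nat_lit 82), (nat_lit 22), (nat_lit 23), (nat_lit 86)⟩,
  ⟨(nat_lit 1), (nat_lit 1), (nat_lit 33), (nat_lit 1), (nat_lit 103), (nat_lit 5), (nat_lit 84), (nat_lit 22), (nat_lit 23), (nat_lit 85)⟩,
  ⟨(nat_lit 0), (nat_lit 1), (nat_lit 34), (nat_lit 1), (nat_lit 103), (nat_lit 3), (nat_lit 85), (nat_lit 22), (nat_lit 23), (nat_lit 88)⟩,
  ⟨(nat_lit 0), (nat_lit 1), (nat_lit 35), (nat_lit 1), (nat_lit 39), (nat_lit 3), (nat_lit 86), (nat_lit 22), (nat_lit 23), (nat_lit 88)⟩,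
  ⟨(nat_lit 1), (nat_lit 1), (nat_lit 34), (nat_lit 1), (nat_lit 103), (nat_lit 5), (nat_lit 85), (nat_lit 22), (nat_lit 23), (nat_lit 86)⟩,
  ⟨(nat_lit 1), (nat_lit 1), (nat_lit 35), (nat_lit 1), (nat_lit 39), (nat_lit 5), (nat_lit 86), (nat_lit 22), (nat_lit 23), (nat_lit 86)⟩,
  ⟨(nat_lit 2), (nat_lit 1), (nat_lit 32), (nat_lit 1), (nat_lit 231), (nat_lit 7), (nat_lit 82), (nat_lit 21), (nat_lit 22), (nat_lit 84)⟩,
  ⟨(nat_lit 2), (nat_lit 1), (nat_lit 33), (nat_lit 1), (nat_lit 103), (nat_lit 7), (nat_lit 84), (nat_lit 21), (nat_lit 22), (nat_lit 83)⟩,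
  ⟨(nat_lit 3), (nat_lit 1), (nat_lit 32), (nat_lit 1), (nat_lit 231), (nat_lit 9), (nat_lit 82), (nat_lit 21), (nat_lit 22), (nat_lit 82)⟩,
  ⟨(nat_lit 3), (nat_lit 1), (nat_lit 33), (nat_lit 1), (nat_lit 103), (nat_lit 9), (nat_lit 84), (nat_lit 21), (nat_lit 22), (nat_lit 81)⟩,
  ⟨(nat_lit 4), (nat_lit 1), (nat_lit 32), (nat_lit 1), (nat_lit 231), (nat_lit 10), (nat_lit 82), (nat_lit 21), (nat_lit 22), (nat_lit 81)⟩,
  ⟨(nat_lit 4), (nat_lit 1), (nat_lit 33), (nat_lit 1), (nat_lit 103), (nat_lit 10), (nat_lit 84), (nat_lit 20), (nat_lit 21), (nat_lit 80)⟩,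
  ⟨(nat_lit 2), (nat_lit 1), (nat_lit 34), (nat_lit 1), (nat_lit 103), (nat_lit 7), (nat_lit 85), (nat_lit 21), (nat_lit 22), (nat_lit 84)⟩,
  ⟨(nat_lit 2), (nat_lit 1), (nat_lit 35), (nat_lit 1), (nat_lit 39), (nat_lit 7), (nat_lit 86), (nat_lit 21), (nat_lit 22), (nat_lit 84)⟩,
  ⟨(nat_lit 3), (nat_lit 1), (nat_lit 34), (nat_lit 1), (nat_lit 103), (nat_lit 9), (nat_lit 85), (nat_lit 21), (nat_lit 22), (nat_lit 82)⟩,
  ⟨(nat_lit 3), (nat_lit 1), (nat_lit 35), (nat_lit 1), (nat_lit 39), (nat_lit 9), (nat_lit 86), (nat_lit 21), (nat_lit 22), (nat_lit 82)⟩,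
  ⟨(nat_lit 4), (nat_lit 1), (nat_lit 34), (nat_lit 2), (nat_lit 103), (nat_lit 10), (nat_lit 86), (nat_lit 21), (nat_lit 42), (nat_lit 82)⟩,
  ⟨(nat_lit 0), (nat_lit 1), (nat_lit 36), (nat_lit 2), (nat_lit 35), (nat_lit 3), (nat_lit 88), (nat_lit 22), (nat_lit 44), (nat_lit 88)⟩,
  ⟨(nat_lit 1), (nat_lit 1), (nat_lit 36), (nat_lit 2), (nat_lit 35), (nat_lit 5), (nat_lit 88), (nat_lit 22), (nat_lit 44), (nat_lit 86)⟩,
  ⟨(nat_lit 0), (nat_lit 1), (nat_lit 38), (nat_lit 1), (nat_lit 3), (nat_lit 3), (nat_lit 89), (nat_lit 22), (nat_lit 23), (nat_lit 88)⟩,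
  ⟨(nat_lit 0), (nat_lit 1), (nat_lit 39), (nat_lit 2), (nat_lit 1), (nat_lit 3), (nat_lit 90), (nat_lit 22), (nat_lit 44), (nat_lit 88)⟩,
  ⟨(nat_lit 1), (nat_lit 1), (nat_lit 38), (nat_lit 1), (nat_lit 3), (nat_lit 5), (nat_lit 89), (nat_lit 22), (nat_lit 23), (nat_lit 86)⟩,
  ⟨(nat_lit 1), (nat_lit 1), (nat_lit 39), (nat_lit 2), (nat_lit 1), (nat_lit 5), (nat_lit 90), (nat_lit 22), (nat_lit 44), (nat_lit 86)⟩,
  ⟨(nat_lit 2), (nat_lit 1), (nat_lit 36), (nat_lit 2), (nat_lit 35), (nat_lit 7), (nat_lit 88), (nat_lit 21), (nat_lit 42), (nat_lit 84)⟩,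
  ⟨(nat_lit 2), (nat_lit 1), (nat_lit 38), (nat_lit 3), (nat_lit 3), (nat_lit 7), (nat_lit 90), (nat_lit 21), (nat_lit 63), (nat_lit 85)⟩,
  ⟨(nat_lit 3), (nat_lit 1), (nat_lit 36), (nat_lit 2), (nat_lit 35), (nat_lit 9), (nat_lit 88), (nat_lit 21), (nat_lit 42), (nat_lit 82)⟩,
  ⟨(nat_lit 4), (nat_lit 1), (nat_lit 36), (nat_lit 2), (nat_lit 35), (nat_lit 10), (nat_lit 88), (nat_lit 21), (nat_lit 42), (nat_lit 81)⟩,
  ⟨(nat_lit 3), (nat_lit 1), (nat_lit 38), (nat_lit 3), (nat_lit 3), (nat_lit 9), (nat_lit 90), (nat_lit 21), (nat_lit 63), (nat_lit 83)⟩,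
  ⟨(nat_lit 4), (nat_lit 1), (nat_lit 38), (nat_lit 3), (nat_lit 3), (nat_lit 10), (nat_lit 90), (nat_lit 21), (nat_lit 63), (nat_lit 82)⟩,
  ⟨(nat_lit 5), (nat_lit 2), (nat_lit 31), (nat_lit 1), (nat_lit 231), (nat_lit 15), (nat_lit 73), (nat_lit 17), (nat_lit 35), (nat_lit 67)⟩,
  ⟨(nat_lit 5), (nat_lit 1), (nat_lit 32), (nat_lit 2), (nat_lit 231), (nat_lit 15), (nat_lit 84), (nat_lit 19), (nat_lit 38), (nat_lit 78)⟩,
  ⟨(nat_lit 5), (nat_lit 1), (nat_lit 34), (nat_lit 2), (nat_lit 103), (nat_lit 15), (nat_lit 86), (nat_lit 19), (nat_lit 38), (nat_lit 77)⟩,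
  ⟨(nat_lit 6), (nat_lit 1), (nat_lit 32), (nat_lit 2), (nat_lit 231), (nat_lit 21), (nat_lit 84), (nat_lit 18), (nat_lit 36), (nat_lit 72)⟩,
  ⟨(nat_lit 6), (nat_lit 1), (nat_lit 34), (nat_lit 2), (nat_lit 103), (nat_lit 21), (nat_lit 86), (nat_lit 18), (nat_lit 36), (nat_lit 71)⟩,
  ⟨(nat_lit 5), (nat_lit 1), (nat_lit 36), (nat_lit 2), (nat_lit 35), (nat_lit 15), (nat_lit 88), (nat_lit 19), (nat_lit 38), (nat_lit 76)⟩,
  ⟨(nat_lit 5), (nat_lit 1), (nat_lit 38), (nat_lit 3), (nat_lit 3), (nat_lit 15), (nat_lit 90), (nat_lit 19), (nat_lit 57), (nat_lit 77)⟩,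
  ⟨(nat_lit 6), (nat_lit 1), (nat_lit 36), (nat_lit 5), (nat_lit 35), (nat_lit 21), (nat_lit 90), (nat_lit 18), (nat_lit 90), (nat_lit 72)⟩,
  ⟨(nat_lit 7), (nat_lit 3), (nat_lit 21), (nat_lit 3), (nat_lit 231), (nat_lit 27), (nat_lit 62), (nat_lit 11), (nat_lit 34), (nat_lit 44)⟩,
  ⟨(nat_lit 7), (nat_lit 3), (nat_lit 24), (nat_lit 3), (nat_lit 231), (nat_lit 27), (nat_lit 66), (nat_lit 12), (nat_lit 37), (nat_lit 48)⟩,
  ⟨(nat_lit 7), (nat_lit 3), (nat_lit 27), (nat_lit 4), (nat_lit 231), (nat_lit 27), (nat_lit 72), (nat_lit 14), (nat_lit 56), (nat_lit 54)⟩,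
  ⟨(nat_lit 10), (nat_lit 1), (nat_lit 21), (nat_lit 10), (nat_lit 231), (nat_lit 45), (nat_lit 72), (nat_lit 9), (nat_lit 90), (nat_lit 36)⟩,
  ⟨(nat_lit 7), (nat_lit 3), (nat_lit 31), (nat_lit 1), (nat_lit 231), (nat_lit 27), (nat_lit 73), (nat_lit 14), (nat_lit 43), (nat_lit 55)⟩,
  ⟨(nat_lit 7), (nat_lit 2), (nat_lit 32), (nat_lit 2), (nat_lit 231), (nat_lit 27), (nat_lit 84), (nat_lit 16), (nat_lit 33), (nat_lit 66)⟩,
  ⟨(nat_lit 9), (nat_lit 1), (nat_lit 32), (nat_lit 2), (nat_lit 231), (nat_lit 30), (nat_lit 84), (nat_lit 16), (nat_lit 32), (nat_lit 63)⟩,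
  ⟨(nat_lit 7), (nat_lit 2), (nat_lit 34), (nat_lit 2), (nat_lit 103), (nat_lit 27), (nat_lit 86), (nat_lit 16), (nat_lit 33), (nat_lit 65)⟩,
  ⟨(nat_lit 9), (nat_lit 1), (nat_lit 34), (nat_lit 2), (nat_lit 103), (nat_lit 30), (nat_lit 86), (nat_lit 16), (nat_lit 32), (nat_lit 62)⟩,
  ⟨(nat_lit 7), (nat_lit 2), (nat_lit 36), (nat_lit 5), (nat_lit 35), (nat_lit 27), (nat_lit 90), (nat_lit 16), (nat_lit 80), (nat_lit 66)⟩,
  ⟨(nat_lit 9), (nat_lit 1), (nat_lit 36), (nat_lit 5), (nat_lit 35), (nat_lit 30), (nat_lit 90), (nat_lit 16), (nat_lit 80), (nat_lit 63)⟩,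
  ⟨(nat_lit 10), (nat_lit 1), (nat_lit 31), (nat_lit 10), (nat_lit 231), (nat_lit 45), (nat_lit 90), (nat_lit 12), (nat_lit 120), (nat_lit 54)⟩,
  ⟨(nat_lit 11), (nat_lit 2), (nat_lit 22), (nat_lit 10), (nat_lit 231), (nat_lit 63), (nat_lit 73), (nat_lit 5), (nat_lit 50), (nat_lit 19)⟩,
  ⟨(nat_lit 11), (nat_lit 1), (nat_lit 32), (nat_lit 9), (nat_lit 231), (nat_lit 63), (nat_lit 90), (nat_lit 7), (nat_lit 63), (nat_lit 36)⟩,
  ⟨(nat_lit 12), (nat_lit 4), (nat_lit 32), (nat_lit 9), (nat_lit 231), (nat_lit 81), (nat_lit 90), (nat_lit 3), (nat_lit 27), (nat_lit 18)⟩,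
  ⟨(nat_lit 0), (nat_lit 5), (nat_lit 0), (nat_lit 7), (nat_lit 1800), (nat_lit 3), (nat_lit 18), (nat_lit 11), (nat_lit 77), (nat_lit 42)⟩,
  ⟨(nat_lit 5), (nat_lit 2), (nat_lit 0), (nat_lit 7), (nat_lit 1800), (nat_lit 15), (nat_lit 18), (nat_lit 8), (nat_lit 56), (nat_lit 30)⟩,
  ⟨(nat_lit 0), (nat_lit 2), (nat_lit 7), (nat_lit 3), (nat_lit 1800), (nat_lit 3), (nat_lit 24), (nat_lit 12), (nat_lit 36), (nat_lit 48)⟩,
  ⟨(nat_lit 2), (nat_lit 3), (nat_lit 7), (nat_lit 3), (nat_lit 1800), (nat_lit 7), (nat_lit 24), (nat_lit 11), (nat_lit 34), (nat_lit 44)⟩,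
  ⟨(nat_lit 0), (nat_lit 2), (nat_lit 10), (nat_lit 8), (nat_lit 1800), (nat_lit 3), (nat_lit 37), (nat_lit 16), (nat_lit 128), (nat_lit 61)⟩,
  ⟨(nat_lit 2), (nat_lit 3), (nat_lit 10), (nat_lit 8), (nat_lit 1800), (nat_lit 7), (nat_lit 37), (nat_lit 15), (nat_lit 120), (nat_lit 57)⟩,
  ⟨(nat_lit 5), (nat_lit 2), (nat_lit 7), (nat_lit 11), (nat_lit 1800), (nat_lit 15), (nat_lit 37), (nat_lit 13), (nat_lit 143), (nat_lit 49)⟩,
  ⟨(nat_lit 7), (nat_lit 3), (nat_lit 0), (nat_lit 7), (nat_lit 1800), (nat_lit 27), (nat_lit 18), (nat_lit 5), (nat_lit 35), (nat_lit 18)⟩,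
  ⟨(nat_lit 7), (nat_lit 4), (nat_lit 7), (nat_lit 11), (nat_lit 1800), (nat_lit 27), (nat_lit 37), (nat_lit 10), (nat_lit 110), (nat_lit 37)⟩,
  ⟨(nat_lit 0), (nat_lit 2), (nat_lit 18), (nat_lit 3), (nat_lit 1800), (nat_lit 3), (nat_lit 48), (nat_lit 18), (nat_lit 54), (nat_lit 72)⟩,
  ⟨(nat_lit 0), (nat_lit 2), (nat_lit 21), (nat_lit 1), (nat_lit 1800), (nat_lit 3), (nat_lit 54), (nat_lit 20), (nat_lit 41), (nat_lit 78)⟩,
  ⟨(nat_lit 2), (nat_lit 3), (nat_lit 18), (nat_lit 3), (nat_lit 1800), (nat_lit 7), (nat_lit 48), (nat_lit 17), (nat_lit 52), (nat_lit 68)⟩,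
  ⟨(nat_lit 2), (nat_lit 1), (nat_lit 21), (nat_lit 1), (nat_lit 1800), (nat_lit 7), (nat_lit 54), (nat_lit 19), (nat_lit 20), (nat_lit 74)⟩,
  ⟨(nat_lit 3), (nat_lit 2), (nat_lit 21), (nat_lit 1), (nat_lit 1800), (nat_lit 9), (nat_lit 54), (nat_lit 18), (nat_lit 37), (nat_lit 72)⟩,
  ⟨(nat_lit 5), (nat_lit 2), (nat_lit 18), (nat_lit 4), (nat_lit 1800), (nat_lit 15), (nat_lit 54), (nat_lit 17), (nat_lit 68), (nat_lit 66)⟩,
  ⟨(nat_lit 0), (nat_lit 1), (nat_lit 22), (nat_lit 1), (nat_lit 1800), (nat_lit 3), (nat_lit 58), (nat_lit 21), (nat_lit 22), (nat_lit 82)⟩,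
  ⟨(nat_lit 1), (nat_lit 1), (nat_lit 22), (nat_lit 1), (nat_lit 1800), (nat_lit 5), (nat_lit 58), (nat_lit 20), (nat_lit 21), (nat_lit 80)⟩,
  ⟨(nat_lit 0), (nat_lit 1), (nat_lit 23), (nat_lit 1), (nat_lit 1800), (nat_lit 3), (nat_lit 62), (nat_lit 22), (nat_lit 23), (nat_lit 86)⟩,
  ⟨(nat_lit 0), (nat_lit 1), (nat_lit 24), (nat_lit 2), (nat_lit 1800), (nat_lit 3), (nat_lit 64), (nat_lit 22), (nat_lit 44), (nat_lit 88)⟩,
  ⟨(nat_lit 1), (nat_lit 1), (nat_lit 23), (nat_lit 3), (nat_lit 1800), (nat_lit 5), (nat_lit 64), (nat_lit 22), (nat_lit 66), (nat_lit 86)⟩,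
  ⟨(nat_lit 2), (nat_lit 1), (nat_lit 22), (nat_lit 1), (nat_lit 1800), (nat_lit 7), (nat_lit 58), (nat_lit 20), (nat_lit 21), (nat_lit 78)⟩,
  ⟨(nat_lit 3), (nat_lit 2), (nat_lit 22), (nat_lit 1), (nat_lit 1800), (nat_lit 9), (nat_lit 58), (nat_lit 19), (nat_lit 39), (nat_lit 76)⟩,
  ⟨(nat_lit 2), (nat_lit 1), (nat_lit 23), (nat_lit 3), (nat_lit 1800), (nat_lit 7), (nat_lit 64), (nat_lit 21), (nat_lit 63), (nat_lit 84)⟩,
  ⟨(nat_lit 3), (nat_lit 2), (nat_lit 23), (nat_lit 1), (nat_lit 1800), (nat_lit 9), (nat_lit 62), (nat_lit 20), (nat_lit 41), (nat_lit 80)⟩,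
  ⟨(nat_lit 3), (nat_lit 1), (nat_lit 24), (nat_lit 2), (nat_lit 1800), (nat_lit 9), (nat_lit 64), (nat_lit 21), (nat_lit 42), (nat_lit 82)⟩,
  ⟨(nat_lit 4), (nat_lit 1), (nat_lit 24), (nat_lit 2), (nat_lit 1800), (nat_lit 10), (nat_lit 64), (nat_lit 21), (nat_lit 42), (nat_lit 81)⟩,
  ⟨(nat_lit 0), (nat_lit 1), (nat_lit 26), (nat_lit 2), (nat_lit 776), (nat_lit 3), (nat_lit 69), (nat_lit 21), (nat_lit 42), (nat_lit 84)⟩,
  ⟨(nat_lit 1), (nat_lit 1), (nat_lit 26), (nat_lit 2), (nat_lit 776), (nat_lit 5), (nat_lit 69), (nat_lit 21), (nat_lit 42), (nat_lit 82)⟩,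
  ⟨(nat_lit 0), (nat_lit 1), (nat_lit 28), (nat_lit 1), (nat_lit 776), (nat_lit 3), (nat_lit 70), (nat_lit 22), (nat_lit 23), (nat_lit 85)⟩,
  ⟨(nat_lit 1), (nat_lit 1), (nat_lit 28), (nat_lit 1), (nat_lit 776), (nat_lit 5), (nat_lit 70), (nat_lit 21), (nat_lit 22), (nat_lit 83)⟩,
  ⟨(nat_lit 0), (nat_lit 1), (nat_lit 29), (nat_lit 2), (nat_lit 776), (nat_lit 3), (nat_lit 72), (nat_lit 22), (nat_lit 44), (nat_lit 87)⟩,
  ⟨(nat_lit 0), (nat_lit 1), (nat_lit 31), (nat_lit 1), (nat_lit 776), (nat_lit 3), (nat_lit 73), (nat_lit 22), (nat_lit 23), (nat_lit 88)⟩]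

theorem k2_1 : AllB (okK ⟨cf3, d2, d3, m2, g2, g4, (nat_lit 23), (nat_lit 161), (nat_lit 90)⟩) k2_1_l :=
  ⟨by decide +kernel,
  by decide +kernel,
  by decide +kernel,
  by decide +kernel,
  by decide +kernel,
  by decide +kernel,
  by decide +kernel,
  by decide +kernel,
  by decide +kernel,
  by decide +kernel,
  by decide +kernel,
  by decide +kernel,
  by decide +kernel,
  by decide +kernel,
  by decide +kernel,
  by decide +kernel,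
  by decide +kernel,
  by decide +kernel,
  by decide +kernel,
  by decide +kernel,
  by decide +kernel,
  by decide +kernel,
  by decide +kernel,
  by decide +kernel,
  by decide +kernel,
  by decide +kernel,
  by decide +kernel,
  by decide +kernel,
  by decide +kernel,
  by decide +kernel,
  by decide +kernel,
  by decide +kernel,
  by decide +kernel,
  by decide +kernel,
  by decide +kernel,
  by decide +kernel,
  by decide +kernel,
  by decide +kernel,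
  by decide +kernel,
  by decide +kernel,
  by decide +kernel,
  by decide +kernel,
  by decide +kernel,
  by decide +kernel,
  by decide +kernel,
  by decide +kernel,
  by decide +kernel,
  by decide +kernel,
  by decide +kernel,
  by decide +kernel,
  by decide +kernel,
  by decide +kernel,
  by decide +kernel,
  by decide +kernel,
  by decide +kernel,
  by decide +kernel,
  by decide +kernel,
  by decide +kernel,
  by decide +kernel,
  by decide +kernel,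
  by decide +kernel,
  by decide +kernel,
  by decide +kernel,
  by decide +kernel,
  by decide +kernel,
  by decide +kernel,
  by decide +kernel,
  by decide +kernel,
  by decide +kernel,
  by decide +kernel,
  by decide +kernel,
  by decide +kernel,
  by decide +kernel,
  by decide +kernel,
  by decide +kernel,
  by decide +kernel,
  by decide +kernel,
  by decide +kernel,
  by decide +kernel,
  by decide +kernel,
  by decide +kernel,
  by decide +kernel,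
  by decide +kernel,
  by decide +kernel,
  by decide +kernel,
  by decide +kernel,
  by decide +kernel,
  by decide +kernel,
  by decide +kernel,
  by decide +kernel,
  by decide +kernel,
  by decide +kernel,
  by decide +kernel,
  by decide +kernel,
  trivial⟩

end Vale.Agent.P236KE.S90
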