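import Vale.Agent.P236KE.S90.Cnt
import Vale.Agent.P236KE.S90.K0
import Vale.Agent.P236KE.S90.G0
import Vale.Agent.P236KE.S90.K1
import Vale.Agent.P236KE.S90.K2

/-!
# P236KE / assembly (generated)
-/

set_option maxRecDepth 100000

namespace Vale.Agent.P236KE.S90

theorem mid0 : midOk m0_t (sph.d 1) (sph.n 1) 90 = true := by decide +kernel

theorem lo0 (up : DLL) (dup : ℕ) : sph.Lo ⟨cf3, d0, up, m0, g0, dup, (nat_lit 23), (nat_lit 161), (nat_lit 90)⟩ 90 0 :=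
  ⟨rfl, rfl, rfl, rfl, rfl, rfl, ⟨_, m0_eq, mid0⟩,
    (by decide : 90 < 117), (by decide : 23 ≤ 32), (by decide : 161 ≤ 300)⟩

theorem kq0 : sph.KQ 90 0 :=
  ⟨_, _, lo0 d1 g2, rfl, rfl, k0_0, by decide +kernel⟩

theorem cq0 : sph.CQ 90 zs hs ng cs 0 :=
  ⟨⟨_, _, lo0 e0 h0, rfl, g0_0, by decide +kernel, by decide +kernel⟩, by decide +kernel⟩

theorem ck0 : Vale.Agent.P236K2.ckD (2 ^ 28) (cs 1) (cs 0) (Sq.pn (sph.n 0) (sph.d 0) fun _ => []) 91 = true := by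
  decide +kernel

theorem mid1 : midOk m1_t (sph.d 2) (sph.n 2) 90 = true := by decide +kernel

theorem lo1 (up : DLL) (dup : ℕ) : sph.Lo ⟨cf3, d1, up, m1, g1, dup, (nat_lit 23), (nat_lit 161), (nat_lit 90)⟩ 90 1 :=
  ⟨rfl, rfl, rfl, rfl, rfl, rfl, ⟨_, m1_eq, mid1⟩,
    (by decide : 90 < 117), (by decide : 23 ≤ 32), (by decide : 161 ≤ 300)⟩

theorem kq1 : sph.KQ 90 1 :=
  ⟨_, _, lo1 d2 g3, rfl, rfl, k1_0, by decide +kernel⟩

theorem cq1 : sph.CQ 90 zs hs ng cs 1 :=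
  ⟨⟨_, _, lo1 e1 h1, rfl, g1_0, by decide +kernel, by decide +kernel⟩, by decide +kernel⟩

theorem ck1 : Vale.Agent.P236K2.ckD (2 ^ 28) (cs 2) (cs 1) (Sq.pn (sph.n 1) (sph.d 1) fun _ => []) 91 = true := by
  decide +kernel

theorem mid2 : midOk m2_t (sph.d 3) (sph.n 3) 90 = true := by decide +kernel

theorem lo2 (up : DLL) (dup : ℕ) : sph.Lo ⟨cf3, d2, up, m2, g2, dup, (nat_lit 23), (nat_lit 161), (nat_lit 90)⟩ 90 2 :=
  ⟨rfl, rfl, rfl, rfl, rfl, rfl, ⟨_, m2_eq, mid2⟩,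
    (by decide : 90 < 117), (by decide : 23 ≤ 32), (by decide : 161 ≤ 300)⟩

theorem kq2 : sph.KQ 90 2 :=
  ⟨_, _, lo2 d3 g4, rfl, rfl, (AllB.append k2_0 (AllB.append k2_1 k2_2)), by decide +kernel⟩

theorem cq2 : sph.CQ 90 zs hs ng cs 2 :=
  ⟨⟨_, _, lo2 e2 h2, rfl, g2_0, by decide +kernel, by decide +kernel⟩, by decide +kernel⟩

theorem ck2 : Vale.Agent.P236K2.ckD (2 ^ 28) (cs 3) (cs 2) (Sq.pn (sph.n 2) (sph.d 2) fun _ => []) 91 = true := by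
  decide +kernel

end Vale.Agent.P236KE.S90
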