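import Vale.Agent.P236KE.S90.Cnt
import Vale.Agent.P236KE.S90.K24
import Vale.Agent.P236KE.S90.G5
import Vale.Agent.P236KE.S90.K25

/-!
# P236KE / assembly (generated)
-/

set_option maxRecDepth 100000

namespace Vale.Agent.P236KE.S90

theorem mid30 : midOk m30_t (sph.d 31) (sph.n 31) 90 = true := by decide +kernel

theorem lo30 (up : DLL) (dup : ℕ) : sph.Lo ⟨cf3, d30, up, m30, g30, dup, (nat_lit 23), (nat_lit 161), (nat_lit 90)⟩ 90 30 :=
  ⟨rfl, rfl, rfl, rfl, rfl, rfl, ⟨_, m30_eq, mid30⟩,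
    (by decide : 90 < 117), (by decide : 23 ≤ 32), (by decide : 161 ≤ 300)⟩

theorem kq30 : sph.KQ 90 30 :=
  ⟨_, _, lo30 d31 g32, rfl, rfl, k30_0, by decide +kernel⟩

theorem cq30 : sph.CQ 90 zs hs ng cs 30 :=
  ⟨⟨_, _, lo30 e30 h30, rfl, g30_0, by decide +kernel, by decide +kernel⟩, by decide +kernel⟩

theorem ck30 : Vale.Agent.P236K2.ckD (2 ^ 28) (cs 31) (cs 30) (Sq.pn (sph.n 30) (sph.d 30) fun _ => []) 91 = true := by
  decide +kernel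

theorem mid31 : midOk m31_t (sph.d 32) (sph.n 32) 90 = true := by decide +kernel

theorem lo31 (up : DLL) (dup : ℕ) : sph.Lo ⟨cf3, d31, up, m31, g31, dup, (nat_lit 23), (nat_lit 161), (nat_lit 90)⟩ 90 31 :=
  ⟨rfl, rfl, rfl, rfl, rfl, rfl, ⟨_, m31_eq, mid31⟩,
    (by decide : 90 < 117), (by decide : 23 ≤ 32), (by decide : 161 ≤ 300)⟩

theorem kq31 : sph.KQ 90 31 :=
  ⟨_, _, lo31 d32 g33, rfl, rfl, k31_0, by decide +kernel⟩

theorem cq31 : sph.CQ 90 zs hs ng cs 31 :=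
  ⟨⟨_, _, lo31 e31 h31, rfl, g31_0, by decide +kernel, by decide +kernel⟩, by decide +kernel⟩

theorem ck31 : Vale.Agent.P236K2.ckD (2 ^ 28) (cs 32) (cs 31) (Sq.pn (sph.n 31) (sph.d 31) fun _ => []) 91 = true := by
  decide +kernel

theorem mid32 : midOk m32_t (sph.d 33) (sph.n 33) 90 = true := by decide +kernel

theorem lo32 (up : DLL) (dup : ℕ) : sph.Lo ⟨cf3, d32, up, m32, g32, dup, (nat_lit 23), (nat_lit 161), (nat_lit 90)⟩ 90 32 :=
  ⟨rfl, rfl, rfl, rfl, rfl, rfl, ⟨_, m32_eq, mid32⟩,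
    (by decide : 90 < 117), (by decide : 23 ≤ 32), (by decide : 161 ≤ 300)⟩

theorem kq32 : sph.KQ 90 32 :=
  ⟨_, _, lo32 d33 g34, rfl, rfl, (AllB.append k32_0 k32_1), by decide +kernel⟩

theorem cq32 : sph.CQ 90 zs hs ng cs 32 :=
  ⟨⟨_, _, lo32 e32 h32, rfl, g32_0, by decide +kernel, by decide +kernel⟩, by decide +kernel⟩

theorem ck32 : Vale.Agent.P236K2.ckD (2 ^ 28) (cs 33) (cs 32) (Sq.pn (sph.n 32) (sph.d 32) fun _ => []) 91 = true := by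
  decide +kernel

theorem mid33 : midOk m33_t (sph.d 34) (sph.n 34) 90 = true := by decide +kernel

theorem lo33 (up : DLL) (dup : ℕ) : sph.Lo ⟨cf3, d33, up, m33, g33, dup, (nat_lit 23), (nat_lit 161), (nat_lit 90)⟩ 90 33 :=
  ⟨rfl, rfl, rfl, rfl, rfl, rfl, ⟨_, m33_eq, mid33⟩,
    (by decide : 90 < 117), (by decide : 23 ≤ 32), (by decide : 161 ≤ 300)⟩

theorem kq33 : sph.KQ 90 33 :=
  ⟨_, _, lo33 d34 g35, rfl, rfl, k33_0, by decide +kernel⟩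

theorem cq33 : sph.CQ 90 zs hs ng cs 33 :=
  ⟨⟨_, _, lo33 e33 h33, rfl, g33_0, by decide +kernel, by decide +kernel⟩, by decide +kernel⟩

theorem ck33 : Vale.Agent.P236K2.ckD (2 ^ 28) (cs 34) (cs 33) (Sq.pn (sph.n 33) (sph.d 33) fun _ => []) 91 = true := by
  decide +kernel

theorem mid34 : midOk m34_t (sph.d 35) (sph.n 35) 90 = true := by decide +kernel

theorem lo34 (up : DLL) (dup : ℕ) : sph.Lo ⟨cf3, d34, up, m34, g34, dup, (nat_lit 23), (nat_lit 161), (nat_lit 90)⟩ 90 34 :=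
  ⟨rfl, rfl, rfl, rfl, rfl, rfl, ⟨_, m34_eq, mid34⟩,
    (by decide : 90 < 117), (by decide : 23 ≤ 32), (by decide : 161 ≤ 300)⟩

theorem kq34 : sph.KQ 90 34 :=
  ⟨_, _, lo34 d35 g36, rfl, rfl, k34_0, by decide +kernel⟩

theorem cq34 : sph.CQ 90 zs hs ng cs 34 :=
  ⟨⟨_, _, lo34 e34 h34, rfl, g34_0, by decide +kernel, by decide +kernel⟩, by decide +kernel⟩

theorem ck34 : Vale.Agent.P236K2.ckD (2 ^ 28) (cs 35) (cs 34) (Sq.pn (sph.n 34) (sph.d 34) fun _ => []) 91 = true := by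
  decide +kernel

theorem mid35 : midOk m35_t (sph.d 36) (sph.n 36) 90 = true := by decide +kernel

theorem lo35 (up : DLL) (dup : ℕ) : sph.Lo ⟨cf3, d35, up, m35, g35, dup, (nat_lit 23), (nat_lit 161), (nat_lit 90)⟩ 90 35 :=
  ⟨rfl, rfl, rfl, rfl, rfl, rfl, ⟨_, m35_eq, mid35⟩,
    (by decide : 90 < 117), (by decide : 23 ≤ 32), (by decide : 161 ≤ 300)⟩

theorem kq35 : sph.KQ 90 35 :=
  ⟨_, _, lo35 d36 g37, rfl, rfl, k35_0, by decide +kernel⟩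

theorem cq35 : sph.CQ 90 zs hs ng cs 35 :=
  ⟨⟨_, _, lo35 e35 h35, rfl, g35_0, by decide +kernel, by decide +kernel⟩, by decide +kernel⟩

theorem ck35 : Vale.Agent.P236K2.ckD (2 ^ 28) (cs 36) (cs 35) (Sq.pn (sph.n 35) (sph.d 35) fun _ => []) 91 = true := by
  decide +kernel

theorem mid36 : midOk m36_t (sph.d 37) (sph.n 37) 90 = true := by decide +kernel

theorem lo36 (up : DLL) (dup : ℕ) : sph.Lo ⟨cf3, d36, up, m36, g36, dup, (nat_lit 23), (nat_lit 161), (nat_lit 90)⟩ 90 36 :=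
  ⟨rfl, rfl, rfl, rfl, rfl, rfl, ⟨_, m36_eq, mid36⟩,
    (by decide : 90 < 117), (by decide : 23 ≤ 32), (by decide : 161 ≤ 300)⟩

theorem kq36 : sph.KQ 90 36 :=
  ⟨_, _, lo36 d37 g38, rfl, rfl, k36_0, by decide +kernel⟩

theorem cq36 : sph.CQ 90 zs hs ng cs 36 :=
  ⟨⟨_, _, lo36 e36 h36, rfl, g36_0, by decide +kernel, by decide +kernel⟩, by decide +kernel⟩

theorem ck36 : Vale.Agent.P236K2.ckD (2 ^ 28) (cs 37) (cs 36) (Sq.pn (sph.n 36) (sph.d 36) fun _ => []) 91 = true := by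
  decide +kernel

theorem mid37 : midOk m37_t (sph.d 38) (sph.n 38) 90 = true := by decide +kernel

theorem lo37 (up : DLL) (dup : ℕ) : sph.Lo ⟨cf3, d37, up, m37, g37, dup, (nat_lit 23), (nat_lit 161), (nat_lit 90)⟩ 90 37 :=
  ⟨rfl, rfl, rfl, rfl, rfl, rfl, ⟨_, m37_eq, mid37⟩,
    (by decide : 90 < 117), (by decide : 23 ≤ 32), (by decide : 161 ≤ 300)⟩

theorem kq37 : sph.KQ 90 37 :=
  ⟨_, _, lo37 d38 g39, rfl, rfl, k37_0, by decide +kernel⟩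

theorem cq37 : sph.CQ 90 zs hs ng cs 37 :=
  ⟨⟨_, _, lo37 e37 h37, rfl, g37_0, by decide +kernel, by decide +kernel⟩, by decide +kernel⟩

theorem ck37 : Vale.Agent.P236K2.ckD (2 ^ 28) (cs 38) (cs 37) (Sq.pn (sph.n 37) (sph.d 37) fun _ => []) 91 = true := by
  decide +kernel

theorem mid38 : midOk m38_t (sph.d 39) (sph.n 39) 90 = true := by decide +kernel

theorem lo38 (up : DLL) (dup : ℕ) : sph.Lo ⟨cf3, d38, up, m38, g38, dup, (nat_lit 23), (nat_lit 161), (nat_lit 90)⟩ 90 38 :=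
  ⟨rfl, rfl, rfl, rfl, rfl, rfl, ⟨_, m38_eq, mid38⟩,
    (by decide : 90 < 117), (by decide : 23 ≤ 32), (by decide : 161 ≤ 300)⟩

theorem kq38 : sph.KQ 90 38 :=
  ⟨_, _, lo38 d39 g40, rfl, rfl, k38_0, by decide +kernel⟩

theorem cq38 : sph.CQ 90 zs hs ng cs 38 :=
  ⟨⟨_, _, lo38 e38 h38, rfl, g38_0, by decide +kernel, by decide +kernel⟩, by decide +kernel⟩

theorem ck38 : Vale.Agent.P236K2.ckD (2 ^ 28) (cs 39) (cs 38) (Sq.pn (sph.n 38) (sph.d 38) fun _ => []) 91 = true := by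
  decide +kernel

theorem mid39 : midOk m39_t (sph.d 40) (sph.n 40) 90 = true := by decide +kernel

theorem lo39 (up : DLL) (dup : ℕ) : sph.Lo ⟨cf3, d39, up, m39, g39, dup, (nat_lit 23), (nat_lit 161), (nat_lit 90)⟩ 90 39 :=
  ⟨rfl, rfl, rfl, rfl, rfl, rfl, ⟨_, m39_eq, mid39⟩,
    (by decide : 90 < 117), (by decide : 23 ≤ 32), (by decide : 161 ≤ 300)⟩

theorem kq39 : sph.KQ 90 39 :=
  ⟨_, _, lo39 d40 g41, rfl, rfl, k39_0, by decide +kernel⟩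

theorem cq39 : sph.CQ 90 zs hs ng cs 39 :=
  ⟨⟨_, _, lo39 e39 h39, rfl, g39_0, by decide +kernel, by decide +kernel⟩, by decide +kernel⟩

theorem ck39 : Vale.Agent.P236K2.ckD (2 ^ 28) (cs 40) (cs 39) (Sq.pn (sph.n 39) (sph.d 39) fun _ => []) 91 = true := by
  decide +kernel

end Vale.Agent.P236KE.S90
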